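import Vale.Agent.P338.Num

/-! Fixed point arithmetic on arrays. -/

namespace Vale.Agent.P338

open Filter Cd Finset Function Complex

set_option linter.unusedSectionVars false
set_option linter.unusedVariables false

def JJ {A : Type} [CommRing A] (p : ℕ) (F : ℕ → A) (z : ℕ) : A := (-1) ^ bt p z * F (z ^^^ 2 ^ p)

noncomputable def cv (p : ℕ) (W : ℕ → ℤ) (z : ℕ) : ℂ := W z + I * JJ p W z

def Apx (p ψ : ℕ) (W : ℕ → ℤ) (v : ℕ → ℂ) (E : ℝ) : Prop :=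
  ∀ z, ‖cv p W z - v z‖ ≤ E ∧ ‖v z‖ ≤ E * 2 ^ ψ

section
variable {A : Type} [CommRing A] {p : ℕ}

lemma JJ_cast (W : ℕ → ℤ) (z : ℕ) : ((JJ p W z : ℤ) : A) = JJ p (fun z => (W z : A)) z := by simp [JJ]

lemma JJ_JJ (F : ℕ → A) (z : ℕ) : JJ p (JJ p F) z = -F z := by
  have := bt_lt p z
  simp only [JJ, bt_xor, if_true, Nat.xor_xor_cancel_right]
  interval_cases bt p z <;> simp

lemma ub_Y (F : ℕ → A) (z : ℕ) :
    ub (p + 1) (fun j => Yg A (p + 1) ^ 2 ^ p * fb (p + 1) F j) z = -JJ p F z := by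
  simp only [← fb_tw, ub_fb]
  have h0 := Nat.two_pow_pos p
  have h1 := Nat.mod_lt z h0
  have h2 : fld z (2 ^ p) 2 < 2 := bt_lt p z
  have e1 : z % 2 ^ (p + 1) = 2 ^ p * fld z (2 ^ p) 2 + z % 2 ^ p := by
    rw [pow_succ, Nat.mod_mul, add_comm]; rfl
  rw [JJ, xor_eq_setF, bt, twI, e1, setF, Nat.mod_eq_of_lt (a := 2 ^ p) (by omega), pow_succ']
  generalize z / (2 * 2 ^ p) = J
  generalize z % 2 ^ p = t at *
  generalize fld z (2 ^ p) 2 = b at *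
  generalize 2 ^ p = h at *
  interval_cases b
  · rw [Nat.mod_eq_of_lt (by omega), show h * 0 + t + (2 * h - h) + h = t + 2 * h by omega,
      Nat.add_div_right _ (by omega), Nat.div_eq_of_lt (by omega)]
    simp; congr 1; ring_nf; omega
  · rw [show h * 1 + t + (2 * h - h) = t + 2 * h by omega, Nat.add_mod_right, Nat.mod_eq_of_lt (by omega),
      Nat.div_eq_of_lt (by omega)]
    simp; congr 1; ring

lemma ub_stk (r n : ℕ) (F : ℕ → A) (z : ℕ) : ub r (stk n (fb r F)) z =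
    ∑ s ∈ range (2 ^ r), ∑ t ∈ range (2 ^ r), (if (s + t) % 2 ^ r = z % 2 ^ r then (-1) ^ ((s + t) / 2 ^ r)
      else 0) * (F ((z / 2 ^ r % n + 0 * n) * 2 ^ r + s) * F ((z / 2 ^ r % n + 1 * n) * 2 ^ r + t)) := by
  simp only [ub, stk, fb, sum_mul_sum, map_sum]
  refine sum_congr rfl fun s _ => sum_congr rfl fun t _ => ?_
  rw [smul_mul_smul_comm, ← pow_add, map_smul, pow_neg_mod Yg_pow,
    show (-1 : Rg A r) ^ ((s + t) / 2 ^ r) = algebraMap A _ ((-1) ^ ((s + t) / 2 ^ r)) by simp,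
    ← Algebra.smul_def, map_smul, cf_mono (Nat.mod_lt _ (by positivity))]
  simp [mul_comm]

lemma xor_up (j z : ℕ) : (j * 2 ^ (p + 1) + z % 2 ^ (p + 1)) ^^^ 2 ^ p =
    j * 2 ^ (p + 1) + (z ^^^ 2 ^ p) % 2 ^ (p + 1) := by
  have h : 2 ^ p < 2 ^ (p + 1) := Nat.pow_lt_pow_right one_lt_two (by omega)
  simpa [Nat.xor_mod_two_pow, Nat.mod_eq_of_lt h] using
    xor_lex (y := j) (y' := 0) (Nat.mod_lt z (Nat.two_pow_pos (p + 1))) h

lemma xor_up' (z : ℕ) : (z ^^^ 2 ^ p) / 2 ^ (p + 1) = z / 2 ^ (p + 1) := by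
  rw [Nat.xor_div_two_pow, Nat.div_eq_of_lt (a := 2 ^ p) (Nat.pow_lt_pow_right one_lt_two (by omega)),
    Nat.xor_zero]

lemma bt_up (j z : ℕ) : bt p (j * 2 ^ (p + 1) + z % 2 ^ (p + 1)) = bt p z := by
  have := fun z => fld_fld (s := 1) (Q := 2 ^ (p + 1)) (s' := 2 ^ p) (Q' := 2) z (by rw [pow_succ'])
  simp only [one_mul] at this
  rw [bt, bt, ← this, ← this z]; simp [fld]

noncomputable def gz (A : Type) [CommRing A] (p : ℕ) (u v : ℤ) : Rg A (p + 1) :=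
  u + v * Yg A (p + 1) ^ 2 ^ p

lemma cf_gz (u v : ℤ) (F : ℕ → A) (j : ℕ) {t : ℕ} (ht : t < 2 ^ (p + 1)) :
    cf t (gz A p u v * fb (p + 1) F j) =
      u * F (j * 2 ^ (p + 1) + t) - v * JJ p F (j * 2 ^ (p + 1) + t) := by
  have := ub_Y (p := p) F (j * 2 ^ (p + 1) + t)
  rw [ub, lex_div ht, lex_mod ht] at this
  rw [gz, add_mul, mul_assoc, ← zsmul_eq_mul, ← zsmul_eq_mul, map_add, map_zsmul, map_zsmul, this, fb,
    cf_sum _ ht]
  simp [sub_eq_add_neg]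
end

lemma cv_re (p : ℕ) (W : ℕ → ℤ) (z : ℕ) : |(W z : ℝ)| ≤ ‖cv p W z‖ := by
  simpa [cv] using abs_re_le_norm (cv p W z)

lemma cv_sub {p : ℕ} {W W' : ℕ → ℤ} {a : ℝ} (h : ∀ z, |(W' z : ℝ) - W z / a| ≤ 1) (z : ℕ) :
    ‖cv p W' z - cv p W z / a‖ ≤ 2 := by
  have : cv p W' z - cv p W z / a = ((W' z - W z / a : ℝ) : ℂ) +
      I * (-1) ^ bt p z * ((W' (z ^^^ 2 ^ p) - W (z ^^^ 2 ^ p) / a : ℝ) : ℂ) := by
    simp only [cv, JJ]; push_cast; ring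
  rw [this]
  refine (norm_add_le _ _).trans ?_
  simp only [norm_mul, norm_I, norm_pow, norm_neg, norm_one, one_pow, one_mul, norm_real, Real.norm_eq_abs]
  linarith [h z, h (z ^^^ 2 ^ p)]

lemma Apx.mono {p ψ W v E E'} (h : Apx p ψ W v E) (e : E ≤ E') : Apx p ψ W v E' := fun z =>
  ⟨(h z).1.trans e, (h z).2.trans (by gcongr)⟩

lemma Apx.cv_le {p ψ W v E} (h : Apx p ψ W v E) (z) : ‖cv p W z‖ ≤ 2 * E * 2 ^ ψ := by
  have := norm_add_le (cv p W z - v z) (v z)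
  have h1 : (1 : ℝ) ≤ 2 ^ ψ := one_le_pow₀ one_le_two
  have := h z
  rw [sub_add_cancel] at *
  nlinarith [norm_nonneg (cv p W z - v z)]

lemma Apx.prod {p ψ W v E} (h : Apx p ψ W v E) (n : ℕ) :
    Apx p ψ (ub (p + 1) (stk n (fb (p + 1) W))) (fun z => ub (p + 1) (stk n (fb (p + 1) v)) z / 2)
      (E * E * 2 ^ ψ * (3 * 4 ^ (p + 1))) := fun z => by
  have e0 : ∀ W, cv p W = ub (p + 1) fun j => (1 - I • Yg ℂ (p + 1) ^ 2 ^ p) *
      fb (p + 1) (fun z => (W z : ℂ)) j := fun W => funext fun z => by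
    have := ub_Y (p := p) (fun z => (W z : ℂ)) z
    conv_lhs => rw [cv, JJ_cast, ← neg_neg (JJ _ _ _), ← this, ← congrFun (ub_fb (r := p + 1) fun z => (W z : ℂ)) z]
    simp [ub, add_mul, sub_eq_add_neg]
  have e1 : ub (p + 1) (stk n (fb (p + 1) (cv p W))) z = 2 * cv p (ub (p + 1) (stk n (fb (p + 1) W))) z := by
    have : (fun z => ((ub (p + 1) (stk n (fb (p + 1) W)) z : ℤ) : ℂ)) =
        ub (p + 1) (stk n (fb (p + 1) fun z => (W z : ℂ))) := funext fun z => by simp [ub_stk]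
    have hY : (Yg ℂ (p + 1) ^ 2 ^ p) ^ 2 = -1 := by rw [← pow_mul, ← pow_succ, Yg_pow]
    have hI : (I • Yg ℂ (p + 1) ^ 2 ^ p) ^ 2 = 1 := by rw [smul_pow, hY, I_sq]; simp
    rw [e0, e0, this, fb_ub, fb_ub, ub, ub, ← smul_eq_mul, ← map_smul, stk, stk, two_smul]
    congr 1
    linear_combination (fb (p + 1) (fun z => (W z : ℂ)) (z / 2 ^ (p + 1) % n + 0 * n) *
      fb (p + 1) (fun z => (W z : ℂ)) (z / 2 ^ (p + 1) % n + 1 * n)) * hI
  have h0 : 0 ≤ E := (norm_nonneg _).trans (h 0).1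
  have key : ∀ (f : ℕ → ℕ → ℂ) (b : ℝ), (∀ s t, ‖f s t‖ ≤ b) → ‖∑ s ∈ range (2 ^ (p + 1)),
      ∑ t ∈ range (2 ^ (p + 1)), (if (s + t) % 2 ^ (p + 1) = z % 2 ^ (p + 1) then
        (-1) ^ ((s + t) / 2 ^ (p + 1)) else 0) * f s t‖ ≤ b * 4 ^ (p + 1) := fun f b hb =>
    (norm_sum_le _ _).trans ((sum_le_card_nsmul _ _ (2 ^ (p + 1) * b) fun s _ => (norm_sum_le _ _).trans
      ((sum_le_card_nsmul _ _ b fun t _ => by
        split_ifs <;> simp [hb, (norm_nonneg _).trans (hb s t)]).trans (by simp))).trans (le_of_eq (by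
          simp [show (4 : ℝ) = 2 * 2 by norm_num, mul_pow]; ring)))
  have p1 : 0 ≤ E * E * 2 ^ ψ * 4 ^ (p + 1) := by positivity
  constructor
  · rw [show ∀ a b : ℂ, a - b / 2 = (2 * a - b) / 2 from fun a b => by ring, ← e1, ub_stk, ub_stk]
    simp only [← sum_sub_distrib, ← mul_sub, norm_div, Complex.norm_ofNat]
    refine (div_le_div_of_nonneg_right (key _ (3 * (E * E * 2 ^ ψ)) fun s t => ?_) two_pos.le).trans (by linarith)
    rw [show ∀ a b c d : ℂ, a * b - c * d = (a - c) * b + c * (b - d) from fun a b c d => by ring]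
    refine (norm_add_le _ _).trans ?_
    rw [norm_mul, norm_mul]
    refine (add_le_add (mul_le_mul (h _).1 (h.cv_le _) (by positivity) h0)
      (mul_le_mul (h _).2 (h _).1 (by positivity) (by positivity))).trans (le_of_eq (by ring))
  · dsimp only
    rw [ub_stk, norm_div, Complex.norm_ofNat]
    refine (div_le_div_of_nonneg_right (key _ (E * 2 ^ ψ * (E * 2 ^ ψ)) fun s t => ?_) two_pos.le).trans ?_
    · rw [norm_mul]; exact mul_le_mul (h _).2 (h _).2 (by positivity) (by positivity)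
    · nlinarith [mul_nonneg p1 (pow_pos (two_pos (α := ℝ)) ψ).le]

variable {γ : Type} [Cd γ] {w : Wd γ} {μ k r p p' p'' ψ g g' : γ → ℕ} {T T' : γ → (ℕ → ℂ) → ℕ → ℂ}

def NOp (w : Wd γ) (k μ ψ p p' g : γ → ℕ) (T : γ → (ℕ → ℂ) → ℕ → ℂ) : Prop :=
  (∀ c, 0 < g c) ∧ ∃ f, Op (w.zp k) μ f ∧ ∀ c (W : ℕ → ℤ) v (E : ℝ), 1 ≤ E →
    E * g c * (2 ^ ψ c * 2 ^ ψ c) ≤ 2 ^ k c → Apx (p c) (ψ c) W v E → ∃ W' : ℕ → ℤ,
      f c (fun z => W z) = (fun z => (W' z : Zp (k c))) ∧ Apx (p' c) (ψ c) W' (T c v) (E * g c)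

lemma NOp.congr (h : NOp w k μ ψ p p' g T) (e : ∀ c v, T c v = T' c v) : NOp w k μ ψ p p' g T' :=
  funext₂ e ▸ h

lemma NOp.mono {μ'} (h : NOp w k μ' ψ p p' g T) (hμ : ∃ C, ∀ c, μ' c ≤ C * (μ c + 1))
    (hg : ∀ c, g c ≤ g' c) : NOp w k μ ψ p p' g' T :=
  let ⟨a, f, b, d⟩ := h
  ⟨fun c => (a c).trans_le (hg c), f, b.mono hμ, fun c W v E h1 h2 h3 =>
    have e : E * g c ≤ E * g' c := by gcongr; exact hg c
    let ⟨W', x, y⟩ := d c W v E h1 (le_trans (by gcongr) h2) h3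
    ⟨W', x, y.mono e⟩⟩

lemma NOp.comp (h : NOp w k μ ψ p p' g T) (h' : NOp w k μ ψ p' p'' g' T') :
    NOp w k μ ψ p p'' (fun c => g c * g' c) fun c v => T' c (T c v) := by
  obtain ⟨a, f, b, d⟩ := h
  obtain ⟨a', f', b', d'⟩ := h'
  refine ⟨fun c => Nat.mul_pos (a c) (a' c), _, b.comp b', fun c W v E h1 h2 h3 => ?_⟩
  have e : (1 : ℝ) ≤ g c := by exact_mod_cast a c
  have e' : (1 : ℝ) ≤ g' c := by exact_mod_cast a' c
  rw [Nat.cast_mul, ← mul_assoc E] at h2 ⊢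
  obtain ⟨W', x, y⟩ := d c W v E h1 (le_trans (mul_le_mul_of_nonneg_right
    (le_mul_of_one_le_right (by positivity) e') (by positivity)) h2) h3
  obtain ⟨W'', x', y'⟩ := d' c W' _ _ (one_le_mul_of_one_le_of_one_le h1 e) h2 y
  exact ⟨W'', by rw [x, x'], y'⟩

lemma NOp.pm {σ : γ → ℕ → ℕ} (h : Pm (w.zp k) μ σ)
    (e : ∀ c z, bt (p c) (σ c z) = bt (p' c) z ∧ σ c (z ^^^ 2 ^ p' c) = σ c z ^^^ 2 ^ p c) :
    NOp w k μ ψ p p' (fun _ => 1) fun c v z => v (σ c z) :=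
  ⟨fun _ => one_pos, _, h, fun c W v E _ _ h3 => ⟨fun z => W (σ c z), rfl, fun z => by
    simpa [cv, JJ, e] using h3 (σ c z)⟩⟩

lemma NOp.perm {σ : γ → ℕ → ℕ} (h : OpR w k (fun c => p c + 1) μ fun c G j => G (σ c j)) :
    NOp w k μ ψ p p (fun _ => 1) fun c v z => v (σ c (z / 2 ^ (p c + 1)) * 2 ^ (p c + 1) + z % 2 ^ (p c + 1)) :=
  .pm (Op.congr h fun c F z _ => cf_sum _ (Nat.mod_lt _ (by positivity))) fun c z => by
    simp only [xor_up, xor_up', bt_up, and_self]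

lemma NOp.loop {μ' n : γ → ℕ} (hn : In polyB n) (hμ : ∃ C, ∀ c, n c * (μ' c + 1) ≤ C * (μ c + 1))
    {S S' : γ → ℕ → (ℕ → ℂ) → ℕ → ℂ} (h : NOp (w.ext n) (fun x => k x.1.1) (fun x => μ' x.1.1)
      (fun x => ψ x.1.1) (fun x => p x.1.1) (fun x => p x.1.1) (fun x => g x.1.1) fun x => S x.1.1 x.1.2)
    (h0 : ∀ c v, S' c 0 v = v) (h1 : ∀ c, ∀ j < n c, ∀ v, S' c (j + 1) v = S c j (S' c j v)) :
    NOp w k μ ψ p p (fun c => g c ^ n c) fun c => S' c (n c) := by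
  obtain ⟨a, f, b, d⟩ := h
  have a' : ∀ c, ∀ j ≤ n c, 0 < g c ^ j := fun c j hj => by
    rcases j with _ | j
    · simp
    · exact pow_pos (a ⟨(c, j), hj⟩) _
  refine ⟨fun c => a' c _ le_rfl, _, Op.loop (w := w.zp k) hn hμ
    (g := fun c j F => if h : j < n c then f ⟨(c, j), h⟩ F else F) (b.congr fun x F z _ => by
      rw [dif_pos x.2]), fun c W v E h2 h3 h4 => ?_⟩
  refine foldl_range_ind _ (fun j G => ∃ W' : ℕ → ℤ, G = (fun z => (W' z : Zp (k c))) ∧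
    Apx (p c) (ψ c) W' (S' c j v) (E * (g c ^ j : ℕ))) _ _ ⟨W, rfl, by simpa [h0]⟩
    fun j hj G ⟨W', x, y⟩ => ?_
  have e : (1 : ℝ) ≤ g c := by exact_mod_cast a ⟨(c, j), hj⟩
  rw [dif_pos hj, x, h1 c j hj, pow_succ, Nat.cast_mul, ← mul_assoc]
  refine d ⟨(c, j), hj⟩ W' _ _ (one_le_mul_of_one_le_of_one_le h2 (by exact_mod_cast a' c j hj.le))
    (le_trans ?_ h3) y
  push_cast
  rw [mul_assoc E, ← pow_succ]
  gcongr; omega

lemma Op.trunc {f} (hf : Op (w.zp k) μ f) (hψ : In polyB ψ) :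
    Op (w.zp k) μ fun c F z => tr (k c) (ψ c) (f c F z) := fun α _ B c E F hF => by
  refine (In.mapC (B' := linB) (g := fun q : ℕ × List Bool => strunc q.1 q.2) (by fun_prop) (E.small hψ)
    (hf α B c E F hF) fun _ => ((E.domP ((Dom.sz hψ).add (Dom.const 2))).cmul 4).mono' fun x => ?_).congr
    fun x => by simp only [Wd.arr, tab_map, strunc_enc]
  refine (sum_le_mul _ _ (M := 4 * (k (c x) + 2 + (sz (ψ (c x)) + 2))) fun a ha => ?_).trans ?_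
  · obtain ⟨z, -, rfl⟩ := mem_tab.1 ha
    have := sz_bits (enc _ (f _ (F x) z))
    simp only [linB, enc_length] at *; omega
  · rw [Wd.arr, tab_length, mul_left_comm]
    exact Nat.mul_le_mul_left _ (Nat.le_mul_of_pos_left _ (Nat.succ_pos _))

lemma lin_apx {ι : Type} [Fintype ι] {U V : ℕ → ι → ℤ} {s : ι → ℕ → ℕ} {κ : ℕ → ι → ℂ} {K p ψ : ℕ}
    (hκ : ∀ z y, ‖U z y + V z y * I - 2 ^ ψ * κ z y‖ ≤ 4 ∧ ‖κ z y‖ ≤ K)
    (hs : ∀ z y, U (z ^^^ 2 ^ p) y = U z y ∧ V (z ^^^ 2 ^ p) y = V z y ∧ s y (z ^^^ 2 ^ p) = s y z ^^^ 2 ^ p ∧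
      bt p (s y z) = bt p z) {W v E} (h1 : 1 ≤ E) (h3 : Apx p ψ W v E) :
    (∀ z, |((∑ y, (U z y * W (s y z) - V z y * JJ p W (s y z)) : ℤ) : ℝ)| ≤
      E * (Fintype.card ι * (2 * K + 8) + 2 : ℕ) * (2 ^ ψ * 2 ^ ψ)) ∧
    Apx p ψ (fun z => (∑ y, (U z y * W (s y z) - V z y * JJ p W (s y z))).tdiv (2 ^ ψ))
      (fun z => ∑ y, κ z y * v (s y z)) (E * (Fintype.card ι * (2 * K + 8) + 2 : ℕ)) := by
  obtain ⟨W1, hW⟩ : ∃ W1 : ℕ → ℤ, ∀ z, W1 z = ∑ y, (U z y * W (s y z) - V z y * JJ p W (s y z)) :=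
    ⟨_, fun _ => rfl⟩
  simp only [← hW]
  have e1 : ∀ z, cv p W1 z = ∑ y, (U z y + V z y * I) * cv p W (s y z) := fun z => by
    have : JJ p W1 z = ∑ y, (U z y * JJ p W (s y z) - V z y * JJ p (JJ p W) (s y z)) := by
      rw [JJ, hW, mul_sum]
      exact sum_congr rfl fun y _ => by rw [JJ.eq_1 _ _ (s y z), JJ.eq_1 _ (JJ _ _)]; simp only [hs]; ring
    simp only [cv, this, hW, JJ_JJ, Int.cast_sum, mul_sum, ← sum_add_distrib]
    exact sum_congr rfl fun y _ => by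
      push_cast; linear_combination (-(V z y * (JJ p W (s y z) : ℤ) : ℂ)) * I_sq
  have q : (1 : ℝ) ≤ 2 ^ ψ := one_le_pow₀ one_le_two
  have b1 : ∀ j y, ‖U j y + V j y * I‖ ≤ (K + 4) * 2 ^ ψ := fun j y => by
    have := norm_add_le (U j y + V j y * I - 2 ^ ψ * κ j y) (2 ^ ψ * κ j y)
    have := hκ j y
    rw [sub_add_cancel, norm_mul, norm_pow, Complex.norm_ofNat] at *
    nlinarith
  have sm : ∀ (f : ι → ℂ) (b : ℝ), (∀ y, ‖f y‖ ≤ b) → ‖∑ y, f y‖ ≤ Fintype.card ι * b := fun f b hb =>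
    (norm_sum_le _ _).trans ((sum_le_card_nsmul _ _ b fun y _ => hb y).trans (by simp))
  have n0 : (0 : ℝ) ≤ Fintype.card ι * E := by positivity
  have n1 := mul_nonneg n0 (Nat.cast_nonneg K)
  push_cast
  refine ⟨fun z => ?_, fun z => ⟨?_, ?_⟩⟩
  · have := (cv_re p W1 z).trans (e1 z ▸ sm _ _ fun y => (norm_mul_le _ _).trans
      (mul_le_mul (b1 _ y) (h3.cv_le _) (by positivity) (by positivity)))
    nlinarith [mul_nonneg (zero_le_one.trans h1) (mul_pos (pow_pos two_pos ψ) (pow_pos two_pos ψ)).le]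
  · have a1 := cv_sub (p := p) (W := W1) (W' := fun z => (W1 z).tdiv (2 ^ ψ)) (a := 2 ^ ψ)
      (fun z => by simpa using tdiv_err (W1 z) (2 ^ ψ)) z
    have a2 := sm (fun y => (U z y + V z y * I) * cv p W (s y z) / (2 ^ ψ : ℝ) - κ z y * v (s y z))
      ((K + 8) * E) fun y => by
      rw [show ∀ a b x y d : ℂ, d ≠ 0 → a * x / d - b * y = (a * (x - y) + (a - d * b) * y) / d from
        fun a b x y d h => by field_simp; ring, norm_div, norm_real, Real.norm_of_nonneg (by positivity),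
        div_le_iff₀ (by positivity)]
      swap; · simp
      refine (norm_add_le _ _).trans ?_
      rw [norm_mul, norm_mul]
      push_cast
      refine (add_le_add (mul_le_mul (b1 _ _) (h3 _).1 (by positivity) (by positivity))
        (mul_le_mul (hκ _ _).1 (h3 _).2 (by positivity) (by positivity))).trans (le_of_eq (by ring))
    rw [sum_sub_distrib, ← sum_div, ← e1] at a2
    refine (norm_sub_le_norm_sub_add_norm_sub _ _ _).trans ((add_le_add a1 a2).trans ?_)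
    nlinarith
  · refine (sm _ _ fun y => (norm_mul_le _ _).trans
      (mul_le_mul (hκ _ _).2 (h3 _).2 (by positivity) (by positivity))).trans ?_
    nlinarith [mul_nonneg n1 (zero_le_one.trans q), mul_nonneg n0 (zero_le_one.trans q)]

lemma NOp.lin {ι : γ → Type} [∀ c, Fintype (ι c)] {U V : ∀ c, ℕ → ι c → ℤ} {σ : ∀ c, ℕ → ι c → ℕ}
    {κ : ∀ c, ℕ → ι c → ℂ} {K : γ → ℕ} (h : OpR w k (fun c => p c + 1) μ fun c G j =>
      ∑ y, gz _ (p c) (U c j y) (V c j y) * G (σ c j y)) (hψ : In polyB ψ)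
    (hκ : ∀ c j y, ‖U c j y + V c j y * I - 2 ^ ψ c * κ c j y‖ ≤ 4 ∧ ‖κ c j y‖ ≤ K c) :
    NOp w k μ ψ p p (fun c => Fintype.card (ι c) * (2 * K c + 8) + 2) fun c v z =>
      ∑ y, κ c (z / 2 ^ (p c + 1)) y * v (σ c (z / 2 ^ (p c + 1)) y * 2 ^ (p c + 1) + z % 2 ^ (p c + 1)) := by
  refine ⟨fun _ => Nat.succ_pos _, _, Op.trunc h hψ, fun c W v E h1 h2 h3 => ?_⟩
  obtain ⟨a, b⟩ := lin_apx (U := fun z => U c (z / 2 ^ (p c + 1))) (V := fun z => V c (z / 2 ^ (p c + 1)))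
    (s := fun y z => σ c (z / 2 ^ (p c + 1)) y * 2 ^ (p c + 1) + z % 2 ^ (p c + 1))
    (fun z y => hκ c _ y) (fun z y => by simp only [xor_up, xor_up', bt_up, and_self]) h1 h3
  refine ⟨_, funext fun z => ?_, b⟩
  have := (a z).trans h2
  rw [← tr_int _ _ _ (by
    have : |((_ : ℤ) : ℝ)| < 2 * 2 ^ k c := this.trans_lt (by linarith [pow_pos (two_pos (α := ℝ)) (k c)])
    exact_mod_cast this)]
  simp only [ub, map_sum, Int.cast_sum, cf_gz _ _ _ _ (Nat.mod_lt z (Nat.two_pow_pos _))]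
  simp [JJ_cast]

end Vale.Agent.P338
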