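import Vale.Agent.P338.Lib3

/-! Array passes: piecewise monotone rearrangements. -/

namespace Vale.Agent.P338

open Filter Cd

set_option linter.unusedSectionVars false

variable {α β γ δ ε : Type} [Cd α] [Cd β] [Cd γ] [Cd δ] [Cd ε] {B : Bd α}

def Big (B : Bd α) (n : α → ℕ) (c : α → γ) : Prop :=
  ∀ e, Dom B fun x => (n x + 1) * (sz (c x) + 1) ^ e

lemma Big.dom {n : α → ℕ} {c : α → γ} (hB : Big B n c) {t : γ → ℕ} (ht : Dom polyB t) :
    Dom B fun x => (n x + 1) * t (c x) := by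
  obtain ⟨e, C, h⟩ := dom_poly.1 ht
  exact ((hB e).cmul C).mono' fun x => by
    rw [mul_left_comm]; exact Nat.mul_le_mul_left _ (h _)

lemma Big.dom' {n : α → ℕ} {c : α → γ} (hB : Big B n c) {t : γ → ℕ} (ht : Dom polyB t) :
    Dom B fun x => t (c x) := (hB.dom ht).mono' fun x => by nlinarith

lemma Big.self {n : α → ℕ} {c : α → γ} (hB : Big B n c) : Dom B n :=
  (hB 0).mono' fun x => by simp

lemma Big.sub {n n' : α → ℕ} {c : α → γ} (hB : Big B n c) {g : γ → δ} (hg : In polyB g) (k : ℕ)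
    (hn : ∀ x, n' x ≤ k * (n x + 1)) : Big B n' fun x => g (c x) := fun e =>
  ((hB.dom (((Dom.sz hg).add (Dom.const 1)).pow e)).cmul (k + 1)).mono' fun x => by
    rw [← mul_assoc]; exact Nat.mul_le_mul_right _ (by have := hn x; nlinarith)

lemma Big.small {n : α → ℕ} {c : α → γ} (hB : Big B n c) (hc : In B c) {g : γ → δ}
    (hg : In polyB g) : In B fun x => g (c x) :=
  let ⟨e, he⟩ := hg.tm
  he.comp_in hc (hB.dom' ((Dom.szid.add (Dom.const 1)).pow e))

lemma Big.tab {n : α → ℕ} {c : α → γ} (hB : Big B n c) (hc : In B c) {N : γ → ℕ}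
    (hN : In polyB N) (hle : ∀ x, N (c x) ≤ n x) {h : γ × ℕ → β} (hh : In polyB h) :
    In B fun x => tab (N (c x)) fun i => h (c x, i) := by
  have h1 : Dom polyB fun c : γ => sz c + 4 * sz (N c) + 3 :=
    (Dom.szid.add ((Dom.sz hN).cmul 4)).add (Dom.const _)
  refine In.mapC hh hc (In.range (hB.small hc hN) ((hB.dom (Dom.sz hN)).mono' fun x =>
    Nat.mul_le_mul_right _ (by have := hle x; omega))) fun e =>
      (hB.dom ((h1.pow e).add h1)).mono' fun x => ?_
  refine (sum_le_mul _ _ fun a ha => ?_).trans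
    (Nat.mul_le_mul_right _ (by have := hle x; simp; omega))
  have := sz_le_of_le (List.mem_range.1 ha).le
  have h2 : (sz (c x, a) + 1) ^ e ≤ (sz (c x) + 4 * sz (N (c x)) + 3) ^ e :=
    Nat.pow_le_pow_left (by rw [sz_pair]; omega) _
  change (sz (c x, a) + 1) ^ e + _ + _ + _ ≤ _
  omega

def fil {ε : Type} (m : List Bool) (l : List ε) : List ε := ((m.zip l).filter Prod.fst).map Prod.snd

def spread {ε : Type} (m : List Bool) (l acc : List ε) : List ε :=
  (pick (m.zip acc) l).map fun p => p.2.getD p.1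

@[fun_prop] lemma In.fil {m : α → List Bool} {l : α → List β} (hm : In B m) (hl : In B l) :
    In B fun x => fil (m x) (l x) := by unfold P338.fil; fun_prop

@[fun_prop] lemma In.spread {m : α → List Bool} {l a : α → List β} (hm : In B m) (hl : In B l)
    (ha : In B a) : In B fun x => spread (m x) (l x) (a x) := by unfold P338.spread; fun_prop

lemma fil_map {ι ε : Type} (l : List ι) (p : ι → Bool) (F : ι → ε) :
    fil (l.map p) (l.map F) = (l.filter p).map F := by
  induction l with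
  | nil => rfl
  | cons a l ih => unfold fil at *; cases h : p a <;> simp_all

lemma spread_map {ι ε : Type} (l : List ι) (p : ι → Bool) (G H : ι → ε) :
    spread (l.map p) ((l.filter p).map G) (l.map H) = l.map fun z => if p z then G z else H z := by
  induction l with
  | nil => rfl
  | cons a l ih => unfold spread at *; cases h : p a <;> simp_all [pick]

def gath {ε : Type} (kin kout : ℕ → ℕ) (N : ℕ) (z0 : ε) (l : List ε) : ℕ → List ε
  | 0 => List.replicate N z0
  | c + 1 => spread (tab N fun z => decide (kout z = c))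
      (fil (tab l.length fun z => decide (kin z = c)) l) (gath kin kout N z0 l c)

lemma gath_spec {ε : Type} (kin kout src : ℕ → ℕ) (N M : ℕ) (z0 : ε) (F : ℕ → ε) (c : ℕ)
    (h1 : ∀ z < N, ∀ z' < N, kout z < c → kout z = kout z' → z < z' → src z < src z')
    (h2 : ∀ z < N, kout z < c → src z < M ∧ kin (src z) = kout z)
    (h3 : ∀ y < M, kin y < c → ∃ z < N, kout z < c ∧ src z = y) :
    gath kin kout N z0 (tab M F) c = tab N fun z => if kout z < c then F (src z) else z0 := by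
  have key : ∀ k ≤ c, gath kin kout N z0 (tab M F) k =
      tab N fun z => if kout z < k then F (src z) else z0 := by
    intro k hk
    induction k with
    | zero => simp [gath, tab]
    | succ k ih =>
      have e : (List.range M).filter (fun z => decide (kin z = k)) =
          ((List.range N).filter fun z => decide (kout z = k)).map src := by
        refine List.Pairwise.eq_of_mem_iff (r := (· < ·)) (List.pairwise_lt_range.filter _) ?_ ?_
        · rw [List.pairwise_map]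
          refine (List.pairwise_lt_range.filter _).imp_of_mem fun ha hb hab => ?_
          simp only [List.mem_filter, List.mem_range, decide_eq_true_eq] at ha hb
          exact h1 _ ha.1 _ hb.1 (by omega) (by omega) hab
        · intro y
          simp only [List.mem_filter, List.mem_range, decide_eq_true_eq, List.mem_map]
          constructor
          · rintro ⟨hy, hk'⟩
            obtain ⟨z, hz, hz', rfl⟩ := h3 y hy (by omega)
            exact ⟨z, ⟨hz, by rw [← (h2 z hz hz').2, hk']⟩, rfl⟩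
          · rintro ⟨z, ⟨hz, hz'⟩, rfl⟩
            have := h2 z hz (by omega)
            exact ⟨this.1, by omega⟩
      rw [gath, ih (by omega), tab_length]
      unfold tab
      rw [fil_map, e, List.map_map, spread_map]
      refine List.map_congr_left fun z _ => ?_
      by_cases h : kout z = k
      · simp [h]
      · simp only [h, decide_false, Bool.false_eq_true, if_false]
        exact if_congr (by omega) rfl rfl
  exact key c le_rfl

lemma Big.gath {n : α → ℕ} {c : α → γ} (hB : Big B n c) (hc : In B c) {M N : γ → ℕ}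
    {kin kout : γ → ℕ → ℕ} {z0 : α → ε} {l : α → List ε} (hM : In polyB M) (hN : In polyB N)
    (hM' : ∀ x, M (c x) ≤ n x) (hN' : ∀ x, N (c x) ≤ n x) (hl : In B l)
    (hlen : ∀ x, (l x).length = M (c x)) (hz : In B z0) (hz' : Dom B fun x => n x * sz (z0 x))
    (hi : In polyB fun p : γ × ℕ => kin p.1 p.2) (ho : In polyB fun p : γ × ℕ => kout p.1 p.2)
    (k : ℕ) : In B fun x => gath (kin (c x)) (kout (c x)) (N (c x)) (z0 x) (l x) k := by
  induction k with
  | zero => exact In.replicateC (hB.small hc hN) hz (hz'.mono' fun x =>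
      Nat.mul_le_mul_right _ (hN' x))
  | succ k ih =>
    have h1 := hB.tab hc hN hN' (h := fun p => decide (kout p.1 p.2 = k)) (by fun_prop)
    have h2 := hB.tab hc hM hM' (h := fun p => decide (kin p.1 p.2 = k)) (by fun_prop)
    exact (h1.spread (h2.fil hl) ih).congr fun x => by rw [P338.gath, hlen]

/-! fields -/

def fld (z s Q : ℕ) : ℕ := z / s % Q

def setF (z s Q x : ℕ) : ℕ := (z / (Q * s) * Q + x) * s + z % s

@[fun_prop] lemma In.fld {z s Q : α → ℕ} (hz : In polyB z) (hs : In polyB s) (hQ : In polyB Q) :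
    In polyB fun a => fld (z a) (s a) (Q a) := by unfold P338.fld; fun_prop

@[fun_prop] lemma In.setF {z s Q x : α → ℕ} (hz : In polyB z) (hs : In polyB s) (hQ : In polyB Q)
    (hx : In polyB x) : In polyB fun a => setF (z a) (s a) (Q a) (x a) := by
  unfold P338.setF; fun_prop

lemma lex_lt {a a' x x' M : ℕ} (hx : x < M) (hx' : x' < M) :
    a * M + x < a' * M + x' ↔ a < a' ∨ (a = a' ∧ x < x') := by
  constructor
  · intro h
    rcases lt_trichotomy a a' with h1 | h1 | h1
    · exact Or.inl h1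
    · subst h1; exact Or.inr ⟨rfl, by omega⟩
    · nlinarith
  · rintro (h | ⟨rfl, h⟩)
    · nlinarith
    · omega

lemma lex_div {a x M : ℕ} (hx : x < M) : (a * M + x) / M = a := by
  rw [add_comm, Nat.add_mul_div_right _ _ (by omega), Nat.div_eq_of_lt hx, zero_add]

lemma lex_mod {a x M : ℕ} (hx : x < M) : (a * M + x) % M = x := by
  rw [add_comm, Nat.add_mul_mod_self_right, Nat.mod_eq_of_lt hx]

lemma lex_bound {a x M A : ℕ} (ha : a < A) (hx : x < M) : a * M + x < A * M := by nlinarith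

lemma div_mul' (z Q s : ℕ) : z / (Q * s) = z / s / Q := by rw [Nat.div_div_eq_div_mul, mul_comm]

lemma fld_lt (z s : ℕ) {Q : ℕ} (hQ : 0 < Q) : fld z s Q < Q := Nat.mod_lt _ hQ

lemma setF_self (z s Q : ℕ) : setF z s Q (fld z s Q) = z := by
  unfold setF fld; rw [div_mul', Nat.div_add_mod', Nat.div_add_mod']

section
variable {z s Q x : ℕ} (hs : 0 < s) (hx : x < Q)
include hs

lemma setF_mod : setF z s Q x % s = z % s := lex_mod (Nat.mod_lt _ hs)
lemma setF_div' : setF z s Q x / s = z / (Q * s) * Q + x := lex_div (Nat.mod_lt _ hs)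
lemma setF_mod_inner {t : ℕ} (h : t ∣ s) : setF z s Q x % t = z % t := by
  rw [← Nat.mod_mod_of_dvd _ h, setF_mod hs, Nat.mod_mod_of_dvd _ h]
lemma fld_setF_inner {s' Q' : ℕ} (h : Q' * s' ∣ s) : fld (setF z s Q x) s' Q' = fld z s' Q' := by
  unfold fld
  rw [← Nat.mod_mul_right_div_self, ← Nat.mod_mul_right_div_self, mul_comm s', setF_mod_inner hs h]
include hx
lemma fld_setF : fld (setF z s Q x) s Q = x := by unfold fld; rw [setF_div' hs, lex_mod hx]
lemma setF_div : setF z s Q x / (Q * s) = z / (Q * s) := by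
  rw [div_mul' (setF z s Q x), setF_div' hs, lex_div hx]
lemma setF_div_outer {t : ℕ} (h : Q * s ∣ t) : setF z s Q x / t = z / t := by
  obtain ⟨u, rfl⟩ := h
  rw [← Nat.div_div_eq_div_mul, setF_div hs hx, Nat.div_div_eq_div_mul]
lemma fld_setF_outer {s' Q' : ℕ} (h : Q * s ∣ s') : fld (setF z s Q x) s' Q' = fld z s' Q' := by
  unfold fld; rw [setF_div_outer hs hx h]
lemma setF_setF (y : ℕ) : setF (setF z s Q x) s Q y = setF z s Q y := by
  rw [setF, setF_div hs hx, setF_mod hs]; rfl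
lemma setF_lt {N : ℕ} (h : Q * s ∣ N) (hz : z < N) : setF z s Q x < N := by
  have hN : 0 < N := by omega
  rw [← Nat.div_eq_zero_iff_lt hN, setF_div_outer hs hx h]
  exact Nat.div_eq_of_lt hz
end

lemma fld_ext {z z' s Q : ℕ} (h1 : z / (Q * s) = z' / (Q * s)) (h2 : fld z s Q = fld z' s Q)
    (h3 : z % s = z' % s) : z = z' := by
  rw [← setF_self z s Q, ← setF_self z' s Q]; unfold setF; rw [h1, h2, h3]

def axis {ε : Type} (c : ℕ) (ki ko : ℕ → ℕ → ℕ) (Q Q' s N : ℕ) (z0 : ε) (l : List ε) : List ε :=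
  gath (fun y => ki (y / (Q * s)) (fld y s Q)) (fun z => ko (z / (Q' * s)) (fld z s Q')) N z0 l c

lemma axis_spec {ε : Type} (c : ℕ) (ki ko σ : ℕ → ℕ → ℕ) {Q Q' s : ℕ} (A : ℕ) (z0 : ε) (F : ℕ → ε)
    (hs : 0 < s) (hQ : 0 < Q) (hQ' : 0 < Q')
    (h1 : ∀ a, ∀ x < Q', ∀ x' < Q', ko a x < c → ko a x = ko a x' → x < x' → σ a x < σ a x')
    (h2 : ∀ a, ∀ x < Q', ko a x < c → σ a x < Q ∧ ki a (σ a x) = ko a x)
    (h3 : ∀ a, ∀ y < Q, ki a y < c → ∃ x < Q', ko a x < c ∧ σ a x = y) :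
    axis c ki ko Q Q' s (A * Q' * s) z0 (tab (A * Q * s) F) = tab (A * Q' * s) fun z =>
      if ko (z / (Q' * s)) (fld z s Q') < c then
        F ((z / (Q' * s) * Q + σ (z / (Q' * s)) (fld z s Q')) * s + z % s) else z0 := by
  refine gath_spec _ _ (fun z => (z / (Q' * s) * Q + σ (z / (Q' * s)) (fld z s Q')) * s + z % s)
    _ _ _ _ _ (fun z hz z' hz' hc he hlt => ?_) (fun z hz hc => ?_) fun y hy hc => ?_
  · have a1 := h2 _ _ (fld_lt z s hQ') hc
    have a2 := h2 _ _ (fld_lt z' s hQ') (he ▸ hc)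
    rw [← setF_self z s Q', ← setF_self z' s Q'] at hlt
    unfold setF at hlt
    rw [lex_lt (Nat.mod_lt _ hs) (Nat.mod_lt _ hs)] at hlt ⊢
    rw [lex_lt (fld_lt z s hQ') (fld_lt z' s hQ')] at hlt
    rw [lex_lt a1.1 a2.1]
    rcases hlt with (h | ⟨h, h'⟩) | ⟨h, h'⟩
    · exact Or.inl (Or.inl h)
    · refine Or.inl (Or.inr ⟨h, ?_⟩)
      rw [← h] at he ⊢
      exact h1 _ _ (fld_lt z s hQ') _ (fld_lt z' s hQ') hc he h'
    · have e1 := congrArg (· / Q') h
      have e2 := congrArg (· % Q') h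
      simp only [lex_div (fld_lt _ s hQ'), lex_mod (fld_lt _ s hQ')] at e1 e2
      exact Or.inr ⟨by rw [e1, e2], h'⟩
  · have a1 := h2 _ _ (fld_lt z s hQ') hc
    have a2 : z / (Q' * s) < A := by
      rw [Nat.div_lt_iff_lt_mul (by positivity), ← mul_assoc]; exact hz
    refine ⟨lex_bound (lex_bound a2 a1.1) (Nat.mod_lt _ hs), ?_⟩
    rw [div_mul' _ Q, fld.eq_1 (_ + _), lex_div (Nat.mod_lt _ hs), lex_div a1.1, lex_mod a1.1, a1.2]
  · obtain ⟨x, hx, hc', e⟩ := h3 _ _ (fld_lt y s hQ) hc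
    have a2 : y / (Q * s) < A := by
      rw [Nat.div_lt_iff_lt_mul (by positivity), ← mul_assoc]; exact hy
    have e1 : ((y / (Q * s) * Q' + x) * s + y % s) / (Q' * s) = y / (Q * s) := by
      rw [div_mul', lex_div (Nat.mod_lt _ hs), lex_div hx]
    have e2 : fld ((y / (Q * s) * Q' + x) * s + y % s) s Q' = x := by
      rw [fld, lex_div (Nat.mod_lt _ hs), lex_mod hx]
    refine ⟨(y / (Q * s) * Q' + x) * s + y % s, lex_bound (lex_bound a2 hx) (Nat.mod_lt _ hs),
      by rw [e1, e2]; exact hc', ?_⟩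
    rw [e1, e2, e, lex_mod (Nat.mod_lt _ hs)]
    exact setF_self y s Q

/-- bijective version on one axis -/
lemma axis_bij {ε : Type} (c : ℕ) (ki ko σ : ℕ → ℕ → ℕ) {Q s N : ℕ} (z0 : ε) (F : ℕ → ε)
    (hs : 0 < s) (hQ : 0 < Q) (hN : Q * s ∣ N)
    (h1 : ∀ a, ∀ x < Q, ∀ x' < Q, ko a x = ko a x' → x < x' → σ a x < σ a x')
    (h2 : ∀ a, ∀ x < Q, ko a x < c ∧ σ a x < Q ∧ ki a (σ a x) = ko a x)
    (h3 : ∀ a, ∀ y < Q, ∃ x < Q, σ a x = y) :
    axis c ki ko Q Q s N z0 (tab N F) = tab N fun z =>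
      F (setF z s Q (σ (z / (Q * s)) (fld z s Q))) := by
  obtain ⟨A, rfl⟩ := hN
  rw [mul_comm (Q * s), ← mul_assoc, axis_spec c ki ko σ A z0 F hs hQ hQ
    (fun a x hx x' hx' _ => h1 a x hx x' hx') (fun a x hx _ => (h2 a x hx).2) fun a y hy _ =>
      let ⟨x, hx, e⟩ := h3 a y hy; ⟨x, hx, (h2 a x hx).1, e⟩]
  exact tab_congr fun z _ => if_pos (h2 _ _ (fld_lt z s hQ)).1

def rot {ε : Type} (f : ℕ → ℕ) (Q s : ℕ) (z0 : ε) (l : List ε) : List ε :=
  axis 2 (fun a y => if f a % Q ≤ y then 0 else 1) (fun a x => if x + f a % Q < Q then 0 else 1)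
    Q Q s l.length z0 l

lemma rot_spec {ε : Type} (f : ℕ → ℕ) {Q s N : ℕ} (z0 : ε) (F : ℕ → ε) (hs : 0 < s) (hQ : 0 < Q)
    (hN : Q * s ∣ N) : rot f Q s z0 (tab N F) =
      tab N fun z => F (setF z s Q ((fld z s Q + f (z / (Q * s))) % Q)) := by
  have key : ∀ a x, x < Q → (x + f a) % Q =
      if x + f a % Q < Q then x + f a % Q else x + f a % Q - Q := fun a x hx => by
    have := Nat.mod_lt (f a) hQ
    rw [← Nat.add_mod_mod]
    split_ifs with h
    · exact Nat.mod_eq_of_lt h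
    · rw [Nat.mod_eq_sub_mod (by omega), Nat.mod_eq_of_lt (by omega)]
  rw [rot, tab_length]
  refine axis_bij 2 _ _ (fun a x => (x + f a) % Q) z0 F hs hQ hN (fun a x hx x' hx' h hlt => ?_)
    (fun a x hx => ?_) fun a y hy => ?_
  · rw [key a x hx, key a x' hx']; split_ifs at h ⊢ <;> omega
  · have := Nat.mod_lt (f a) hQ
    rw [key a x hx]; split_ifs <;> omega
  · have := Nat.mod_lt (f a) hQ
    by_cases h : f a % Q ≤ y
    · exact ⟨y - f a % Q, by omega, by rw [key _ _ (by omega)]; split_ifs <;> omega⟩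
    · exact ⟨y + Q - f a % Q, by omega, by rw [key _ _ (by omega)]; split_ifs <;> omega⟩

def resize {ε : Type} (Q Q' s : ℕ) (z0 : ε) (l : List ε) : List ε :=
  axis 1 (fun _ y => if y < Q' then 0 else 1) (fun _ x => if x < Q then 0 else 1)
    Q Q' s (l.length / (Q * s) * Q' * s) z0 l

lemma resize_spec {ε : Type} {Q Q' s : ℕ} (A : ℕ) (z0 : ε) (F : ℕ → ε) (hs : 0 < s) (hQ : 0 < Q)
    (hQ' : 0 < Q') : resize Q Q' s z0 (tab (A * Q * s) F) = tab (A * Q' * s) fun z =>
      if fld z s Q' < Q then F ((z / (Q' * s) * Q + fld z s Q') * s + z % s) else z0 := by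
  rw [resize, tab_length, mul_assoc A Q, Nat.mul_div_cancel _ (by positivity), ← mul_assoc,
    axis_spec 1 _ _ (fun _ x => x) A z0 F hs hQ hQ' (fun _ _ _ _ _ _ _ h => h)
    (fun a x hx h => by split_ifs at h ⊢ <;> omega) fun a y hy h => ⟨y, by split_ifs at h <;> omega,
      by simp [hy], rfl⟩]
  exact tab_congr fun z _ => if_congr (by split_ifs <;> omega) rfl rfl

def revC {ε : Type} (k : ℕ) (l : List ε) : List ε := ((chunks k l).map List.reverse).flatten

lemma revC_spec {ε : Type} {k N : ℕ} (hk : 0 < k) (hN : k ∣ N) (F : ℕ → ε) :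
    revC k (tab N F) = tab N fun z => F (z / k * k + (k - 1 - z % k)) := by
  obtain ⟨n, rfl⟩ := hN
  rw [mul_comm, revC, chunks_tab hk, tab_map, ← tab_flatten]
  congr 1
  refine tab_congr fun i _ => ?_
  rw [tab_reverse]
  exact tab_congr fun j hj => by rw [lex_div hj, lex_mod hj]

def rev {ε : Type} (Q s : ℕ) (l : List ε) : List ε := revC s (revC (Q * s) l)

lemma rev_spec {ε : Type} {Q s N : ℕ} (F : ℕ → ε) (hs : 0 < s) (hQ : 0 < Q) (hN : Q * s ∣ N) :
    rev Q s (tab N F) = tab N fun z => F (setF z s Q (Q - 1 - fld z s Q)) := by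
  rw [rev, revC_spec (by positivity) hN, revC_spec hs (dvd_of_mul_left_dvd hN)]
  refine tab_congr fun z _ => congrArg F ?_
  have h1 := Nat.mod_lt z hs
  have h2 := fld_lt z s hQ
  have h3 : fld z s Q * s + (s - 1 - z % s) < Q * s := lex_bound h2 (by omega)
  have e : z / s * s + (s - 1 - z % s) =
      z / (Q * s) * (Q * s) + (fld z s Q * s + (s - 1 - z % s)) := by
    rw [div_mul', fld, ← mul_assoc, ← add_assoc, ← add_mul, Nat.div_add_mod']
  rw [e, lex_div h3, lex_mod h3, setF]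
  obtain ⟨t, ht⟩ : ∃ t, Q = fld z s Q + 1 + t := ⟨Q - 1 - fld z s Q, by omega⟩
  generalize fld z s Q = x at *
  generalize z / (Q * s) = a at *
  generalize z % s = r at *
  subst ht
  have : x + 1 + t - 1 - x = t := by omega
  rw [this]
  have : (x + 1 + t) * s = x * s + s + t * s := by ring
  zify [h1.le, show r ≤ s - 1 by omega, show 1 ≤ s by omega, show 1 ≤ (x + 1 + t) * s by omega,
    show x * s + (s - 1 - r) ≤ (x + 1 + t) * s - 1 by omega]
  ring

lemma In.revC {k : α → ℕ} {l : α → List β} (hk : In B k) (hd : Dom B k) (hl : In B l) :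
    In B fun x => revC (k x) (l x) := by
  have := In.chunks hk hd hl
  unfold P338.revC; fun_prop

/-- exchange of two short axes -/
def swg {ε : Type} (c1 c2 M s : ℕ) (z0 : ε) (l : List ε) : List ε :=
  gath (fun y => fld y (M * (c2 * s)) c1 * c2 + fld y s c2)
    (fun z => fld z s c1 * c2 + fld z (M * (c1 * s)) c2) l.length z0 l (c1 * c2)

def e5 (a i b j r c1 M c2 s : ℕ) : ℕ := (((a * c1 + i) * M + b) * c2 + j) * s + r

lemma e5_self (z c1 M c2 s : ℕ) : e5 (z / (c1 * (M * (c2 * s)))) (fld z (M * (c2 * s)) c1)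
    (fld z (c2 * s) M) (fld z s c2) (z % s) c1 M c2 s = z := by
  unfold e5 fld
  rw [div_mul' z c1, Nat.div_add_mod', div_mul' z M, Nat.div_add_mod', div_mul' z c2,
    Nat.div_add_mod', Nat.div_add_mod']

lemma e5_dec {a i b j r c1 M c2 s : ℕ} (hi : i < c1) (hb : b < M) (hj : j < c2) (hr : r < s) :
    e5 a i b j r c1 M c2 s / (c1 * (M * (c2 * s))) = a ∧
    fld (e5 a i b j r c1 M c2 s) (M * (c2 * s)) c1 = i ∧
    fld (e5 a i b j r c1 M c2 s) (c2 * s) M = b ∧ fld (e5 a i b j r c1 M c2 s) s c2 = j ∧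
    e5 a i b j r c1 M c2 s % s = r := by
  unfold e5 fld
  simp only [div_mul', lex_div hr, lex_div hj, lex_div hb, lex_div hi, lex_mod hr, lex_mod hj,
    lex_mod hb, lex_mod hi, and_self]

def sw5 (c1 c2 M s z : ℕ) : ℕ := e5 (z / (c2 * (M * (c1 * s)))) (fld z s c1) (fld z (c1 * s) M)
  (fld z (M * (c1 * s)) c2) (z % s) c1 M c2 s

lemma swg_spec {ε : Type} {c1 c2 M s N : ℕ} (z0 : ε) (F : ℕ → ε) (h1 : 0 < c1) (h2 : 0 < c2)
    (hM : 0 < M) (hs : 0 < s) (hN : c1 * (M * (c2 * s)) ∣ N) :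
    swg c1 c2 M s z0 (tab N F) = tab N fun z => F (sw5 c1 c2 M s z) := by
  obtain ⟨A, rfl⟩ := hN
  have bd : ∀ {c1 c2 z : ℕ}, 0 < c1 → 0 < c2 → z < c1 * (M * (c2 * s)) * A →
      sw5 c1 c2 M s z < c1 * (M * (c2 * s)) * A := fun {c1 c2 z} h1 h2 hz => by
    have : z / (c2 * (M * (c1 * s))) < A := by
      rw [Nat.div_lt_iff_lt_mul (by positivity)]; linarith
    have := lex_bound (lex_bound (lex_bound (lex_bound this (fld_lt z s h1))
      (fld_lt z (c1 * s) hM)) (fld_lt z (M * (c1 * s)) h2)) (Nat.mod_lt z hs)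
    unfold sw5 e5; linarith
  have cl : ∀ z, fld z s c1 * c2 + fld z (M * (c1 * s)) c2 < c1 * c2 := fun z =>
    lex_bound (fld_lt _ _ h1) (fld_lt _ _ h2)
  rw [swg, tab_length, gath_spec _ _ (sw5 c1 c2 M s) _ _ _ _ _ (fun z hz z' hz' _ he hlt => ?_)
    (fun z hz _ => ⟨bd h1 h2 hz, ?_⟩) fun y hy _ => ⟨sw5 c2 c1 M s y, ?_, cl _, ?_⟩]
  · exact tab_congr fun z _ => if_pos (cl z)
  · have e1 := congrArg (· / c2) he
    have e2 := congrArg (· % c2) he
    simp only [lex_div (fld_lt _ _ h2), lex_mod (fld_lt _ _ h2)] at e1 e2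
    rw [← e5_self z c2 M c1 s, ← e5_self z' c2 M c1 s] at hlt
    unfold sw5
    rw [e1, e2] at hlt ⊢
    unfold e5 at hlt ⊢
    have a1 := fld_lt z' s h1
    have a2 := fld_lt z' (M * (c1 * s)) h2
    have a3 := fld_lt z (c1 * s) hM
    have a4 := fld_lt z' (c1 * s) hM
    simp only [lex_lt (Nat.mod_lt _ hs) (Nat.mod_lt _ hs), lex_lt a1 a1, lex_lt a2 a2,
      lex_lt a3 a4, lt_irrefl, and_false, or_false, add_left_inj, mul_left_inj' h1.ne',
      mul_left_inj' h2.ne'] at hlt ⊢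
    rcases hlt with h | ⟨h, h'⟩
    · exact Or.inl h
    · have e3 := congrArg (· / M) h
      have e4 := congrArg (· % M) h
      simp only [lex_div a3, lex_div a4, lex_mod a3, lex_mod a4, add_left_inj,
        mul_left_inj' h2.ne'] at e3 e4
      exact Or.inr ⟨by rw [e3, e4], h'⟩
  · obtain ⟨_, b2, _, b4, _⟩ := e5_dec (a := z / (c2 * (M * (c1 * s)))) (fld_lt z s h1)
      (fld_lt z (c1 * s) hM) (fld_lt z (M * (c1 * s)) h2) (Nat.mod_lt z hs)
    unfold sw5; rw [b2, b4]
  · have := bd (c1 := c2) (c2 := c1) (z := y) h2 h1 (by linarith)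
    linarith
  · obtain ⟨b1, b2, b3, b4, b5⟩ := e5_dec (a := y / (c1 * (M * (c2 * s)))) (fld_lt y s h2)
      (fld_lt y (c2 * s) hM) (fld_lt y (M * (c2 * s)) h1) (Nat.mod_lt y hs)
    rw [sw5]
    unfold sw5
    rw [b1, b2, b3, b4, b5, e5_self]

end Vale.Agent.P338
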