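import Vale.Agent.P338.Cof

/-! Two by two block matrices acting along all axes. -/

namespace Vale.Agent.P338

open Filter Cd Finset Function Complex Matrix

set_option linter.unusedSectionVars false
set_option linter.unusedVariables false

def Lens.up {ι : Type} (L : Lens ι) (r : ℕ) : Lens ι where
  get z := L.get (z / 2 ^ r)
  set z y := L.set (z / 2 ^ r) y * 2 ^ r + z % 2 ^ r
  gs z y := by rw [lex_div (Nat.mod_lt _ (by positivity)), L.gs]
  ss z y y' := by rw [lex_div (Nat.mod_lt _ (by positivity)), lex_mod (Nat.mod_lt _ (by positivity)), L.ss]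
  sg z := by rw [L.sg, Nat.div_add_mod']

def bL (D : ℕ) : Lens (Fin D → Fin 2) := dgL D 1 0

lemma bL_set (D : ℕ) (y) : ∃ u < 2 ^ D, ∀ j, (bL D).set j y = j / 2 ^ D * 2 ^ D + u :=
  ⟨und (Q := 2 ^ 1) y, (und_spec (Q := 2 ^ 1) (by positivity) y).1.trans_eq (by simp), fun j => by
    change setF _ _ _ _ = _; simp [setF, Nat.mod_one]⟩

lemma xb12 (D s j : ℕ) (y) : (dgL D s D).get ((bL D).set j y) = (dgL D s D).get j := funext fun i => by
  obtain ⟨u, hu, e⟩ := bL_set D y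
  simp only [dgL, dg, e, mul_comm (2 ^ D), fld_wire, lex_div hu]

lemma xb21 (D s j : ℕ) (y) : (bL D).get ((dgL D s D).set j y) = (bL D).get j := funext fun i =>
  congrArg (Nat.cast (R := ZMod (2 ^ 1))) (fld_setF_inner (by positivity) (by
    simp only [pow_one, pow_zero, one_mul, ← pow_succ']; exact pow_dvd_pow _ i.2))

lemma bL_upd {D : ℕ} (j : ℕ) (a : Fin D) (u : Fin 2) :
    (bL D).set j (update ((bL D).get j) a u) = setF j (2 ^ (a : ℕ)) 2 u.val :=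
  (dgL_upd (D := D) (s := 1) (r := 0) j a u).trans (by rw [zero_add, mul_one]; rfl)

def xb (D s : ℕ) : Lens (Fin D → Fin 2 × ZMod (2 ^ s)) where
  get j a := ((bL D).get j a, (dgL D s D).get j a)
  set j y := (bL D).set ((dgL D s D).set j fun a => (y a).2) fun a => (y a).1
  gs j y := by simp only [xb12, Lens.gs]
  ss j y y' := by
    have a := fun y => (und_spec (m := D) (Nat.two_pow_pos s) y).1
    obtain ⟨u, hu, e⟩ := bL_set D fun a => (y a).1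
    obtain ⟨u', -, e'⟩ := bL_set D fun a => (y' a).1
    dsimp only [dgL]
    rw [e', e', e, setF_div' (by positivity), setF_div' (by positivity), setF_div' (by positivity), div_mul',
      lex_div hu, lex_div (a _)]
  sg j := by
    change (bL D).set ((dgL D s D).set j ((dgL D s D).get j)) ((bL D).get j) = j
    rw [Lens.sg, Lens.sg]

lemma xb_upd {D s : ℕ} (j : ℕ) (a : Fin D) (u : Fin 2 × ZMod (2 ^ s)) :
    (xb D s).set j (update ((xb D s).get j) a u) =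
      setF (setF j (2 ^ (D + a * s)) (2 ^ s) u.2.val) (2 ^ (a : ℕ)) 2 u.1.val := by
  have e1 : (fun b => (update ((xb D s).get j) a u b).2) = update ((dgL D s D).get j) a u.2 :=
    funext fun b => apply_update (fun _ => Prod.snd) _ _ _ _
  have e2 : (fun b => (update ((xb D s).get j) a u b).1) = update ((bL D).get
      ((dgL D s D).set j (update ((dgL D s D).get j) a u.2))) a u.1 := by
    rw [xb21]; exact funext fun b => apply_update (fun _ => Prod.fst) _ _ _ _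
  dsimp only [xb] at e1 e2 ⊢
  rw [e1, e2, bL_upd, dgL_upd]

lemma xb_val {D s : ℕ} (j : ℕ) (a : Fin D) : ((xb D s).get j a).1.val = bt a j ∧
    ((xb D s).get j a).2.val = fld j (2 ^ (D + a * s)) (2 ^ s) :=
  ⟨(dgL_val (D := D) (s := 1) (r := 0) j a).trans (by simp [bt]), dgL_val j a⟩

abbrev MM (s : ℕ) := Matrix (ZMod (2 ^ s)) (ZMod (2 ^ s)) ℂ

abbrev M2 (s : ℕ) := Matrix (Fin 2) (Fin 2) (MM s)

lemma xb_diag {D s r : ℕ} (K : Fin D → MM s) (v : ℕ → ℂ) :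
    opM ((xb D s).up r) (tens fun a => Matrix.comp _ _ _ _ _ !![K a, 0; 0, K a]) v =
      opM (dgL D s (D + r)) (tens K) v := funext fun z => by
  have e : ∀ (a : Fin D) (b b' : Fin 2) x y, !![K a, 0; 0, K a] b b' x y = (if b = b' then 1 else 0) * K a x y :=
    fun a b b' x y => by fin_cases b <;> fin_cases b' <;> simp
  rw [opM_up, opM, ← (Equiv.arrowProdEquivProdArrow _ _ _).symm.sum_comp, Fintype.sum_prod_type_right]
  refine sum_congr rfl fun y _ => ?_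
  rw [sum_eq_single ((bL D).get (z / 2 ^ r))]
  · simp only [tens, of_apply, Matrix.comp_apply, e, Lens.up, xb, Equiv.arrowProdEquivProdArrow_symm_apply, if_true,
      one_mul]
    congr 4
    exact (congrArg _ (xb21 _ _ _ _).symm).trans (Lens.sg _ _)
  · intro b _ hb
    obtain ⟨a, ha⟩ := Function.ne_iff.1 hb
    exact mul_eq_zero_of_left (prod_eq_zero (mem_univ a) ((e a _ _ _ _).trans (by
      rw [if_neg (by exact fun h => ha h.symm), zero_mul]))) _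
  · simp

variable {γ : Type} [Cd γ] {w : Wd γ} {μ μ' k r p ψ T D s g : γ → ℕ} {ν : ℕ → ℕ}

lemma NOp.axes (pD : In polyB D) (hμ : ∃ C, ∀ c, D c * (μ' c + 1) ≤ C * (μ c + 1)) {κ : γ → Type}
    [∀ c, Fintype (κ c)] [∀ c, DecidableEq (κ c)] (L : ∀ c, Lens (Fin (D c) → κ c))
    (m : ∀ c, ℕ → Matrix (κ c) (κ c) ℂ) (h : NOp (w.ext D) (fun x => k x.1.1) (fun x => μ' x.1.1)
      (fun x => ψ x.1.1) (fun x => p x.1.1) (fun x => p x.1.1) (fun x => g x.1.1) fun x v z =>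
        ∑ u, m x.1.1 x.1.2 ((L _).get z ⟨x.1.2, x.2⟩) u * v ((L _).set z (update ((L _).get z) ⟨x.1.2, x.2⟩ u))) :
    NOp w k μ ψ p p (fun c => g c ^ D c) fun c => opM (L c) (tens fun a => m c a) := by
  have h1 : NOp (w.ext D) (fun x => k x.1.1) (fun x => μ' x.1.1) (fun x => ψ x.1.1) (fun x => p x.1.1)
      (fun x => p x.1.1) (fun x => g x.1.1) fun x => (fun c j v => if h : j < D c then
        opM (L c) (tens (update 1 ⟨j, h⟩ (m c j))) v else v) x.1.1 x.1.2 :=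
    h.congr fun x v => funext fun z => by dsimp only; rw [dif_pos x.2, opM_single]
  refine (NOp.loop pD hμ (S := fun c j v => if h : j < D c then opM (L c) (tens (update 1 ⟨j, h⟩ (m c j))) v else v)
    (S' := fun c j => opM (L c) (tens fun b => if (b : ℕ) < j then m c b else 1)) h1
    (fun c v => by simp [tens_one, opM_one]) fun c j hj v => ?_).congr fun c v => by simp
  rw [dif_pos hj, ← opM_mul, (tens_insert (p := fun b : Fin (D c) => (b : ℕ) < j) (fun b => m c b) (a := ⟨j, hj⟩)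
    (by simp) fun b => by simp [Fin.ext_iff]; omega).2]

lemma Rich.ext (R : Rich w k r T) (h : ∀ c, D c ≤ T c) :
    Rich (w.ext D) (fun x => k x.1.1) (fun x => r x.1.1) fun x => T x.1.1 := by
  have v1 := In.id.val.fst (B := polyB) (α := {p : γ × ℕ // p.2 < D p.1})
  refine ⟨R.fw.pull _ v1, R.pT.comp v1, R.pk.comp v1, fun x => R.kT _, fun e => ?_⟩
  obtain ⟨C, hC⟩ := R.big e
  refine ⟨7 ^ e * C, fun x => ?_⟩
  rw [mul_assoc]
  refine le_trans ?_ (Nat.mul_le_mul_left _ (hC _))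
  rw [← mul_pow]
  have := sz_lt_pow (x.2.trans_le ((h _).trans Nat.lt_two_pow_self.le))
  exact Nat.pow_le_pow_left (by rw [sz_sub, sz_prod]; omega) _

structure Wc (w : Wd γ) (k μ ψ p T D s : γ → ℕ) (ν : ℕ → ℕ) : Prop where
  R : Rich w k (fun c => p c + 1) T
  sm : SM ν
  pψ : In polyB ψ
  pD : In polyB D
  ps : In polyB s
  hT : ∀ c, ψ c ≤ T c ∧ 2 * 2 ^ s c ≤ T c ∧ D c ≤ T c ∧ 0 < s c ∧ 0 < D c
  dv : ∀ c, 2 ^ (p c + 1 + D c + D c * s c) ∣ w.N c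
  hμ : ∃ C, ∀ c, D c * (ν (k c) + 1) ≤ C * (μ c + 1)
  cv : ∀ f : ∀ c, (Fin (D c) → ZMod (2 ^ s c)) → ℂ, (∀ c y, ‖f c y‖ ≤ 1) →
    Cp (fun q : Rc T × ℕ => f q.1.1.1 ((dgL _ _ (D q.1.1.1)).get q.2)) →
    NOp w k μ ψ p p (fun c => (2 ^ s c) ^ D c * 10 + 2) fun c =>
      opM (dgL (D c) (s c) (D c + (p c + 1))) (circulant (f c))

def Sg (w : Wd γ) (k μ ψ p D s : γ → ℕ) (n : ℕ) (M : ∀ c, ℕ → M2 (s c)) : Prop :=
  NOp w k μ ψ p p (fun c => (2 ^ (s c + 5)) ^ (D c * n)) fun c =>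
    opM ((xb (D c) (s c)).up (p c + 1)) (tens fun a => Matrix.comp _ _ _ _ _ (M c a))

variable {n n' : ℕ} {M M' : ∀ c, ℕ → M2 (s c)}

lemma Sg.congr (h : Sg w k μ ψ p D s n M) (e : ∀ c a, M c a = M' c a) : Sg w k μ ψ p D s n M' :=
  (funext fun c => funext (e c) : M = M') ▸ h

lemma Sg.mul (h : Sg w k μ ψ p D s n M) (h' : Sg w k μ ψ p D s n' M') :
    Sg w k μ ψ p D s (n + n') fun c a => M c a * M' c a :=
  ((NOp.comp h' h).mono ⟨1, by simp⟩ fun c => le_of_eq (by ring)).congr fun c v => by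
    rw [← opM_mul, tens_mul]
    exact congrArg (fun m => opM _ (tens m) v) (funext fun a => (map_mul (compRingEquiv _ _ _) _ _).symm)

def dgm (s : ℕ) (e : ℕ → ℂ) : MM s := diagonal fun x => e x.val

def Cq (T s : γ → ℕ) (e : γ → ℕ → ℕ → ℂ) : Prop :=
  Cp (fun q : Rc T × ℕ × ℕ => e q.1.1.1 q.2.1 q.2.2) ∧ ∀ c a x, ‖e c a x‖ ≤ (2 ^ s c : ℕ)

lemma Wc.dD (W : Wc w k μ ψ p T D s ν) : Dom polyB fun c => p c + 1 + D c + D c * s c := w.domE W.dv

lemma Wc.dig (W : Wc w k μ ψ p T D s ν) : In polyB fun q : {x : γ × ℕ // x.2 < D x.1} × ℕ =>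
    (bt q.1.1.2 q.2, fld q.2 (2 ^ (D q.1.1.1 + q.1.1.2 * s q.1.1.1)) (2 ^ s q.1.1.1)) := by
  have v := In.id.fst.val (B := polyB) (α := {x : γ × ℕ // x.2 < D x.1} × ℕ)
  have d := W.dD.comp v.fst
  refine (In.id.snd.fld (v.snd.pow2 (d.mono' fun q => ?_)) (In.const 2)).pair (In.id.snd.fld
    (((W.pD.comp v.fst).add (v.snd.mul (W.ps.comp v.fst))).pow2 (d.mono' fun q => ?_))
    ((W.ps.comp v.fst).pow2 (d.mono' fun q => ?_))) <;> have := q.1.2 <;> nlinarith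

lemma pass_eq {D s r : ℕ} (a : Fin D) (e0 e1 e2 e3 : ℕ → ℂ) (v : ℕ → ℂ) (z : ℕ) :
    (if bt a (z / 2 ^ r) = 0 then e0 (fld (z / 2 ^ r) (2 ^ (D + a * s)) (2 ^ s))
      else e3 (fld (z / 2 ^ r) (2 ^ (D + a * s)) (2 ^ s))) * v z +
    (if bt a (z / 2 ^ r) = 0 then e1 (fld (z / 2 ^ r) (2 ^ (D + a * s)) (2 ^ s))
      else e2 (fld (z / 2 ^ r) (2 ^ (D + a * s)) (2 ^ s))) * v ((z / 2 ^ r ^^^ 2 ^ (a : ℕ)) * 2 ^ r + z % 2 ^ r) =
    ∑ u, Matrix.comp _ _ _ _ _ !![dgm s e0, dgm s e1; dgm s e2, dgm s e3] (((xb D s).up r).get z a) u *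
      v (((xb D s).up r).set z (update (((xb D s).up r).get z) a u)) := by
  obtain ⟨h, b⟩ := xb_val (s := s) (z / 2 ^ r) a
  have c := xor_eq_setF (z / 2 ^ r) a
  have d := setF_self (z / 2 ^ r) (2 ^ (a : ℕ)) 2
  simp only [Lens.up, xb_upd, Fintype.sum_prod_type, Fin.sum_univ_two, Matrix.comp_apply]
  rw [← h]
  rw [bt] at h
  rw [← h] at c d
  generalize ((xb D s).get (z / 2 ^ r) a).1 = β at *
  fin_cases β <;> simp [dgm, diagonal_apply, b, setF_self] at c d ⊢ <;>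
    simp [c, d, Nat.mod_add_div', add_comm]

lemma rc_ext : In polyB fun q : Rc (fun x : {p : γ × ℕ // p.2 < D p.1} => T x.1.1) × ℕ => rc T q.1.1.1.1.1 :=
  (In.id.fst.val.fst.val.fst.pair In.id.fst.val.snd).of_cd fun q => by
    obtain ⟨⟨⟨a, ⟨b⟩⟩, h⟩, _⟩ := q
    obtain rfl : b = T a.1.1 := h
    rfl

lemma Wc.cq (W : Wc w k μ ψ p T D s ν) {e e' : γ → ℕ → ℕ → ℂ} (h : Cq T s e) (h' : Cq T s e') :
    Cp fun q : Rc (fun x : {p : γ × ℕ // p.2 < D p.1} => T x.1.1) × ℕ => if bt q.1.1.1.1.2 q.2 = 0 then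
      e q.1.1.1.1.1 q.1.1.1.1.2 (fld q.2 (2 ^ (D q.1.1.1.1.1 + q.1.1.1.1.2 * s q.1.1.1.1.1)) (2 ^ s q.1.1.1.1.1))
    else e' q.1.1.1.1.1 q.1.1.1.1.2
      (fld q.2 (2 ^ (D q.1.1.1.1.1 + q.1.1.1.1.2 * s q.1.1.1.1.1)) (2 ^ s q.1.1.1.1.1)) := by
  have u := In.id.fst.val (B := polyB) (α := Rc (fun x : {p : γ × ℕ // p.2 < D p.1} => T x.1.1) × ℕ)
  have dg := W.dig.comp (u.fst.pair In.id.snd)
  have u1 := rc_ext.pair (u.fst.val.snd.pair dg.snd)
  have a := h.1.comp u1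
  have b := h'.1.comp u1
  exact Cp.ite (Dec.eq dg.fst (In.const 0)) a b

lemma Wc.pass (W : Wc w k μ ψ p T D s ν) {e0 e1 e2 e3 : γ → ℕ → ℕ → ℂ} (h0 : Cq T s e0) (h1 : Cq T s e1)
    (h2 : Cq T s e2) (h3 : Cq T s e3) : Sg w k μ ψ p D s 1 fun c a =>
      !![dgm _ (e0 c a), dgm _ (e1 c a); dgm _ (e2 c a), dgm _ (e3 c a)] := by
  have R := W.R.ext fun c => (W.hT c).2.2.1
  have v1 := In.id.val (B := polyB) (α := {p : γ × ℕ // p.2 < D p.1})
  have f0 : Pm ((w.ext D).zp fun x => k x.1.1) (fun x => ν (k x.1.1)) fun x z => z ^^^ 2 ^ (x.1.2 + (p x.1.1 + 1)) :=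
    Pm.flip (v1.snd.add R.fw.pr) ((W.dD.comp v1.fst).mono' fun x => by have := x.2; omega) fun x =>
      (pow_dvd_pow _ (by have := x.2; omega)).trans (W.dv x.1.1)
  have fl : OpR (w.ext D) (fun x => k x.1.1) (fun x => p x.1.1 + 1) (fun x => ν (k x.1.1))
      fun x G j => G (j ^^^ 2 ^ x.1.2) := OpR.pm f0 fun x j t ht => by rw [pow_add 2 x.1.2, xor_fib _ _ ht]
  have h4 := R.pass W.sm ⟨1, by simp⟩ (W.pψ.comp v1.fst) (fun x => (W.hT _).1)
    (α := fun x j => if bt x.1.2 j = 0 then e0 x.1.1 x.1.2 (fld j (2 ^ (D x.1.1 + x.1.2 * s x.1.1)) (2 ^ s x.1.1))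
      else e3 x.1.1 x.1.2 (fld j (2 ^ (D x.1.1 + x.1.2 * s x.1.1)) (2 ^ s x.1.1)))
    (β := fun x j => if bt x.1.2 j = 0 then e1 x.1.1 x.1.2 (fld j (2 ^ (D x.1.1 + x.1.2 * s x.1.1)) (2 ^ s x.1.1))
      else e2 x.1.1 x.1.2 (fld j (2 ^ (D x.1.1 + x.1.2 * s x.1.1)) (2 ^ s x.1.1))) (K := fun x => 2 ^ s x.1.1)
    (W.cq h0 h3) (W.cq h1 h2)
    (fun x j => ⟨by split_ifs; exacts [h0.2 _ _ _, h3.2 _ _ _], by split_ifs; exacts [h1.2 _ _ _, h2.2 _ _ _]⟩) fl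
  have h5 := NOp.axes (g := fun c => 4 * 2 ^ s c + 18) W.pD W.hμ (fun c => (xb (D c) (s c)).up (p c + 1))
    (fun c a => Matrix.comp _ _ _ _ _ !![dgm _ (e0 c a), dgm _ (e1 c a); dgm _ (e2 c a), dgm _ (e3 c a)])
    (h4.congr fun x v => funext fun z => pass_eq ⟨x.1.2, x.2⟩ _ _ _ _ v z)
  exact h5.mono ⟨1, by simp⟩ fun c => by
    rw [mul_one, pow_add]; exact Nat.pow_le_pow_left (by have := Nat.two_pow_pos (s c); omega) _

lemma ee_sum {ι : Type} (t : Finset ι) (f : ι → ℝ) : ee (∑ i ∈ t, f i) = ∏ i ∈ t, ee (f i) := by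
  classical
  induction t using Finset.induction_on with
  | empty => simp [ee_zero]
  | insert a t h ih => rw [sum_insert h, prod_insert h, ee_add, ih]

noncomputable def Kc (s : ℕ) (σ : ℤ) : MM s :=
  circulant fun δ => ee ((σ * (δ.val * δ.val : ℕ) : ℤ) / (2 * 2 ^ s : ℕ))

lemma Wc.conv (W : Wc w k μ ψ p T D s ν) (σ : ℤ) :
    Sg w k μ ψ p D s 1 fun c _ => !![Kc _ σ, 0; 0, Kc _ σ] := by
  have u := In.id.fst.val.fst (B := polyB) (α := Rc T × ℕ)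
  have v := In.id.fst.fst (B := polyB) (α := (Rc T × ℕ) × Un)
  have hs : ∀ c, s c ≤ T c := fun c => by have := W.hT c; have := (s c).lt_two_pow_self; omega
  have dD := Rc.dom v fun c => (W.hT c).2.2.1
  have ds := Rc.dom v hs
  have f1 := In.id.fst.snd.fld (((W.pD.comp v.val.fst).add (In.id.snd.unval.mul (W.ps.comp v.val.fst))).pow2
    (dD.add ((Dom.unval In.id.snd).mul ds))) ((W.ps.comp v.val.fst).pow2 ds)
  have f1' := f1.mul f1
  have d0 := Rc.dom (In.id.fst (α := Rc T × ℕ)) fun c => (W.hT c).2.2.1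
  have d1 := Rc.dom (In.id.fst (α := Rc T × ℕ)) hs
  have f2 := In.usum (g := fun (q : Rc T × ℕ) a => fld q.2 (2 ^ (D q.1.1.1 + a * s q.1.1.1)) (2 ^ s q.1.1.1) *
    fld q.2 (2 ^ (D q.1.1.1 + a * s q.1.1.1)) (2 ^ s q.1.1.1)) (W.pD.comp u) d0 f1'
  have f3 := Cp.ee ((In.const σ).imul f2.inat) ((In.const 2).mul ((W.ps.comp u).pow2 d1))
    fun _ => by positivity
  have f4 := W.cv (fun c y => ∏ a, ee ((σ * ((y a).val * (y a).val : ℕ) : ℤ) / (2 * 2 ^ s c : ℕ)))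
    (fun c y => by simp [norm_ee]) (f3.congr fun q => by
      simp only [dgL_val, ← ee_sum, ← Fin.sum_univ_eq_sum_range]
      congr 1; push_cast; rw [mul_sum, sum_div])
  refine (f4.mono ⟨1, by simp⟩ fun c => ?_).congr fun c v => (xb_diag (fun _ => Kc _ σ) v).symm
  have := Nat.two_pow_pos (s c * D c)
  have : 2 ^ 5 ≤ 2 ^ (5 * D c) := Nat.pow_le_pow_right (by norm_num) (by have := W.hT c; omega)
  rw [mul_one, ← pow_mul, ← pow_mul, add_mul, pow_add]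
  nlinarith

def Rm (s q : ℕ) : MM s := of fun x y => if y = if x = 0 then x else -x + q then 1 else 0

lemma rev_eq {D s r q : ℕ} (a : Fin D) (v : ℕ → ℂ) (z : ℕ) :
    v ((if bt a (z / 2 ^ r) ≠ 0 ∧ fld (z / 2 ^ r) (2 ^ (D + a * s)) (2 ^ s) ≠ 0 then
      setF (z / 2 ^ r) (2 ^ (D + a * s)) (2 ^ s) (-(fld (z / 2 ^ r) (2 ^ (D + a * s)) (2 ^ s) : ZMod (2 ^ s)) + q).val
      else z / 2 ^ r) * 2 ^ r + z % 2 ^ r) =
    ∑ u, Matrix.comp _ _ _ _ _ !![1, 0; 0, Rm s q] (((xb D s).up r).get z a) u *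
      v (((xb D s).up r).set z (update (((xb D s).up r).get z) a u)) := by
  obtain ⟨h, b⟩ := xb_val (s := s) (z / 2 ^ r) a
  have d := setF_self (z / 2 ^ r) (2 ^ (a : ℕ)) 2
  have d' := setF_self (z / 2 ^ r) (2 ^ (D + a * s)) (2 ^ s)
  have c : ∀ x, setF (setF (z / 2 ^ r) (2 ^ (D + a * s)) (2 ^ s) x) (2 ^ (a : ℕ)) 2 (bt a (z / 2 ^ r)) =
      setF (z / 2 ^ r) (2 ^ (D + a * s)) (2 ^ s) x := fun x => by
    rw [bt, ← fld_setF_inner (s := 2 ^ (D + a * s)) (Q := 2 ^ s) (x := x) (by positivity)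
      (by rw [← pow_succ']; exact pow_dvd_pow _ (by omega)), setF_self]
  simp only [Lens.up, xb_upd, Fintype.sum_prod_type, Fin.sum_univ_two, Matrix.comp_apply]
  rw [← h] at c ⊢
  rw [← b] at d' ⊢
  generalize ((xb D s).get (z / 2 ^ r) a).1 = β at *
  generalize ((xb D s).get (z / 2 ^ r) a).2 = x at *
  fin_cases β <;> simp [Rm, one_apply] at c ⊢ <;> rw [c]
  · rw [d']
  · split_ifs with h0
    · rw [d']
    · rfl

lemma Wc.rev (W : Wc w k μ ψ p T D s ν) {q : γ → ℕ → ℕ} (pq : In polyB fun x : γ × ℕ => q x.1 x.2) :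
    Sg w k μ ψ p D s 0 fun c a => !![1, 0; 0, Rm _ (q c a)] := by
  have R := W.R.ext fun c => (W.hT c).2.2.1
  have v1 := In.id.val (B := polyB) (α := {p : γ × ℕ // p.2 < D p.1})
  have d := W.dD.comp v1.fst
  have fd : Fd ((w.ext D).zp fun x => k x.1.1) (fun x => 2 ^ (D x.1.1 + x.1.2 * s x.1.1) * 2 ^ (p x.1.1 + 1))
      fun x => 2 ^ s x.1.1 := ⟨(((W.pD.comp v1.fst).add (v1.snd.mul (W.ps.comp v1.fst))).pow2
    (d.mono' fun x => by have := x.2; nlinarith)).mul R.fw.pR, (W.ps.comp v1.fst).pow2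
      (d.mono' fun x => by have := x.2; nlinarith), fun x => by
        rw [← pow_add, ← pow_add]; exact (pow_dvd_pow _ (by have := x.2; nlinarith)).trans (W.dv x.1.1)⟩
  have z0 := pq.comp (v1.comp (In.id.fst (α := {p : γ × ℕ // p.2 < D p.1} × ℕ)))
  have r1 := fd.ax_comp (fd.rot (Zc.nat z0)) fd.neg
  have f0 : Op ((w.ext D).zp fun x => k x.1.1) (fun _ => 0) fun x F z => F (axm (2 ^ (D x.1.1 + x.1.2 * s x.1.1) *
      2 ^ (p x.1.1 + 1)) (2 ^ s x.1.1) (fun _ y => -y + q x.1.1 x.1.2) z) := r1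
  have dg := W.dig.comp (In.id.fst.pair (In.id.snd.div (R.fw.pR.comp In.id.fst)))
  have d1 := (Dec.ne dg.fst (In.const 0)).and' (Dec.ne dg.snd (In.const 0))
  have f1 := Op.sel (w := (w.ext D).zp fun x => k x.1.1) (p := fun x z => bt x.1.2 (z / 2 ^ (p x.1.1 + 1)) ≠ 0 ∧
    fld (z / 2 ^ (p x.1.1 + 1)) (2 ^ (D x.1.1 + x.1.2 * s x.1.1)) (2 ^ s x.1.1) ≠ 0) d1 f0 Op.id
  have f2 : Pm ((w.ext D).zp fun x => k x.1.1) (fun _ => 0) _ := f1.congr fun x F z _ => (apply_ite F _ _ _).symm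
  have f3 := OpR.pm (r := fun x => p x.1.1 + 1) (τ := fun x j => if bt x.1.2 j ≠ 0 ∧
      fld j (2 ^ (D x.1.1 + x.1.2 * s x.1.1)) (2 ^ s x.1.1) ≠ 0 then setF j (2 ^ (D x.1.1 + x.1.2 * s x.1.1))
      (2 ^ s x.1.1) (-(fld j (2 ^ (D x.1.1 + x.1.2 * s x.1.1)) (2 ^ s x.1.1) : ZMod (2 ^ s x.1.1)) +
        q x.1.1 x.1.2).val else j) f2 fun x j t ht => by
    simp only [axm, setF_wire, fld_wire, lex_div ht, lex_mod ht]
    split_ifs <;> rfl
  have h5 := NOp.axes (ψ := ψ) (μ := μ) (μ' := fun _ => 0) (g := fun c => 1) W.pD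
    (W.hμ.imp fun C h c => le_trans (Nat.mul_le_mul_left _ (by omega)) (h c))
    (fun c => (xb (D c) (s c)).up (p c + 1)) (fun c a => Matrix.comp _ _ _ _ _ !![1, 0; 0, Rm _ (q c a)])
    ((NOp.perm f3).congr fun x v => funext fun z => rev_eq ⟨x.1.2, x.2⟩ v z)
  exact h5.mono ⟨1, by simp⟩ fun c => by simp

end Vale.Agent.P338
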