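import Vale.Agent.P338.Prim

/-! Typed cost calculus. -/

namespace Vale.Agent.P338

open Filter

class Cd (α : Type) where
  cd : α → V

open Cd

instance : Cd V := ⟨id⟩
instance : Cd Unit := ⟨fun _ => .nil⟩
instance : Cd Empty := ⟨fun _ => .nil⟩
instance : Cd Bool := ⟨V.bit⟩
instance {α β : Type} [Cd α] [Cd β] : Cd (α × β) := ⟨fun p => .cons (cd p.1) (cd p.2)⟩
instance {α : Type} [Cd α] : Cd (List α) := ⟨fun l => V.ofList (l.map cd)⟩
instance {α : Type} [Cd α] : Cd (Option α) := ⟨fun o => V.opt (o.map cd)⟩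
instance : Cd ℕ := ⟨fun n => cd n.bits⟩
instance {α : Type} [Cd α] (p : α → Prop) : Cd (Subtype p) := ⟨fun x => cd x.1⟩

def sz {α : Type} [Cd α] (a : α) : ℕ := (cd a).size

variable {α β γ δ σ : Type} [Cd α] [Cd β] [Cd γ] [Cd δ] [Cd σ]

lemma sz_pos (a : α) : 0 < sz a := V.size_pos _
lemma sz_pair (a : α) (b : β) : sz (a, b) = sz a + sz b + 1 := rfl
lemma sz_prod (p : α × β) : sz p = sz p.1 + sz p.2 + 1 := rfl
lemma sz_nil : sz ([] : List α) = 1 := rfl
lemma sz_cons (a : α) (l : List α) : sz (a :: l) = sz a + sz l + 1 := rfl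
lemma sz_bool (b : Bool) : sz b ≤ 3 := by cases b <;> decide
lemma sz_unit (b : Unit) : sz b = 1 := rfl
lemma sz_none : sz (none : Option α) = 1 := rfl
lemma sz_some (a : α) : sz (some a) = sz a + 2 := rfl
lemma sz_sub {p : α → Prop} (a : Subtype p) : sz a = sz a.1 := rfl
lemma sz_nat (n : ℕ) : sz n = sz n.bits := rfl

lemma sz_list (l : List α) : sz l = (l.map fun a => sz a + 1).sum + 1 := by
  induction l with
  | nil => rfl
  | cons a l ih => simp [sz_cons, ih]; omega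

lemma sz_append (l m : List α) : sz (l ++ m) + 1 = sz l + sz m := by
  simp [sz_list]; omega

lemma sz_reverse (l : List α) : sz l.reverse = sz l := by
  simp [sz_list, List.sum_reverse]

lemma sz_list_le (l : List α) {k : ℕ} (h : ∀ a ∈ l, sz a ≤ k) : sz l ≤ l.length * (k + 1) + 1 := by
  induction l with
  | nil => simp [sz_nil]
  | cons a l ih =>
    have := ih fun b hb => h b (List.mem_cons_of_mem _ hb)
    have := h a (by simp)
    simp only [sz_cons, List.length_cons]; nlinarith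

lemma length_le_sz (l : List α) : l.length ≤ sz l := by
  induction l with
  | nil => simp
  | cons a l ih => rw [sz_cons, List.length_cons]; omega

lemma sz_mem {l : List α} {a : α} (h : a ∈ l) : sz a ≤ sz l := by
  induction l with
  | nil => simp at h
  | cons b l ih =>
    rw [sz_cons]
    rcases List.mem_cons.1 h with rfl | h
    · omega
    · have := ih h; omega

lemma sz_bits (l : List Bool) : sz l ≤ 4 * l.length + 1 := by
  have := sz_list_le l (k := 3) fun a _ => sz_bool a; omega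

lemma sz_nat_le (n : ℕ) : sz n ≤ 4 * n.size + 1 := by
  rw [sz_nat, ← Nat.size_eq_bits_len]; exact sz_bits _

lemma size_le_sz (n : ℕ) : n.size ≤ sz n := by
  rw [sz_nat, ← Nat.size_eq_bits_len]; exact length_le_sz _

def Runs (ρ P : L) (v w : V) (t : ℕ∞) : Prop := ∀ n : ℕ, t ≤ n → Rn ρ P v w n

lemma Rn.runs {ρ P v w} {n : ℕ} (h : Rn ρ P v w n) : Runs ρ P v w n :=
  fun _ hm => h.mono (by exact_mod_cast hm)

lemma enat_split {a b : ℕ∞} {n : ℕ} (h : a + b ≤ n) : ∃ x y : ℕ, a = x ∧ b = y ∧ x + y ≤ n := by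
  have ha : a ≠ ⊤ := ne_top_of_le_ne_top (ENat.natCast_ne_top n) (le_self_add.trans h)
  have hb : b ≠ ⊤ := ne_top_of_le_ne_top (ENat.natCast_ne_top n) (le_add_self.trans h)
  lift a to ℕ using ha
  lift b to ℕ using hb
  exact ⟨a, b, rfl, rfl, by exact_mod_cast h⟩

def TmO (φ : γ → δ) (T : α → ℕ) (K : (γ → ℕ∞) → α → ℕ∞) (f : α → β) : Prop :=
  ∃ (P : L) (c : ℕ), ∀ ρ κ, (∀ g, Runs ρ .call (cd g) (cd (φ g)) (κ g)) →
    ∀ a (k : ℕ), K κ a ≤ k → Rn ρ P (cd a) (cd (f a)) (c * (T a + sz a) + k)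

def Tm (T : α → ℕ) (f : α → β) : Prop :=
  ∃ (P : L) (c : ℕ), ∀ ρ a, Rn ρ P (cd a) (cd (f a)) (c * (T a + sz a))

variable {φ : γ → δ}

lemma Tm.lift {T : α → ℕ} {f : α → β} (h : Tm T f) : TmO φ T (fun _ _ => 0) f :=
  let ⟨P, c, h⟩ := h; ⟨P, c, fun ρ _ _ a _ _ => (h ρ a).mono (by omega)⟩

lemma TmO.tm {T : α → ℕ} {f : α → β} {K}
    (h : TmO (fun x : Empty => x) T K f) (hK : ∀ κ a, K κ a = 0) : Tm T f :=
  let ⟨P, c, h⟩ := h
  ⟨P, c, fun ρ a => h ρ (fun _ => 0) (fun g => g.elim) a 0 (by simp [hK])⟩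

lemma TmO.mono {T T' : α → ℕ} {K K'} {f f' : α → β} (h : TmO φ T K f)
    (hT : ∃ c, ∀ a, T a ≤ c * (T' a + sz a)) (hK : ∀ κ a, K κ a ≤ K' κ a)
    (hf : ∀ a, f a = f' a) : TmO φ T' K' f' := by
  obtain ⟨P, c, h⟩ := h
  obtain ⟨c', hT⟩ := hT
  refine ⟨P, c * (c' + 1), fun ρ κ hκ a k hk => ?_⟩
  rw [← hf]
  refine (h ρ κ hκ a k ((hK κ a).trans hk)).mono ?_
  have := hT a
  have : c * (T a + sz a) ≤ c * ((c' + 1) * (T' a + sz a)) := Nat.mul_le_mul_left _ (by nlinarith)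
  nlinarith

lemma Tm.mono {T T' : α → ℕ} {f f' : α → β} (h : Tm T f)
    (hT : ∃ c, ∀ a, T a ≤ c * (T' a + sz a)) (hf : ∀ a, f a = f' a) : Tm T' f' :=
  (h.lift.mono hT (fun _ _ => le_rfl) hf).tm fun _ _ => rfl

lemma Tm.size {T : α → ℕ} {f : α → β} (h : Tm T f) : ∃ c, ∀ a, sz (f a) ≤ c * (T a + sz a) := by
  obtain ⟨P, c, h⟩ := h
  refine ⟨c + 1, fun a => ?_⟩
  have := (h .call a).size
  change sz (f a) ≤ sz a + _ at this
  nlinarith

lemma TmO.comp {ε : Type} [Cd ε] {T : α → ℕ} {T' : β → ℕ} {K K'} {f : α → β} {g : β → ε}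
    (hg : TmO φ T' K' g) (hf : TmO φ T K f) :
    TmO φ (fun a => T a + T' (f a) + sz (f a)) (fun κ a => K κ a + K' κ (f a))
      (fun a => g (f a)) := by
  obtain ⟨P, c, h⟩ := hf
  obtain ⟨Q, c', h'⟩ := hg
  refine ⟨.seq P Q, c + c' + 1, fun ρ κ hκ a k hk => ?_⟩
  obtain ⟨x, y, hx, hy, hxy⟩ := enat_split hk
  refine ((h ρ κ hκ a x hx.le).seq (h' ρ κ hκ (f a) y hy.le)).mono ?_
  have := sz_pos a
  nlinarith [Nat.zero_le (c * T' (f a)), Nat.zero_le (c * sz (f a)), Nat.zero_le (c' * T a),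
    Nat.zero_le (c' * sz a)]

lemma TmO.pair {ε : Type} [Cd ε] {T T' : α → ℕ} {K K'} {f : α → β} {g : α → ε}
    (hf : TmO φ T K f) (hg : TmO φ T' K' g) :
    TmO φ (fun a => T a + T' a) (fun κ a => K κ a + K' κ a) (fun a => (f a, g a)) := by
  obtain ⟨P, c, h⟩ := hf
  obtain ⟨Q, c', h'⟩ := hg
  refine ⟨pPair P Q, c + c' + 69, fun ρ κ hκ a k hk => ?_⟩
  obtain ⟨x, y, hx, hy, hxy⟩ := enat_split hk
  refine (rn_pair (h ρ κ hκ a x hx.le) (h' ρ κ hκ a y hy.le)).mono ?_
  have := sz_pos a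
  change _ + 38 * sz a + 31 ≤ _
  nlinarith [Nat.zero_le (c * T' a), Nat.zero_le (c' * T a)]

lemma TmO.call : TmO φ (fun _ => 0) (fun κ a => κ a) φ :=
  ⟨.call, 0, fun _ _ hκ a k hk => (hκ a k hk).mono (by omega)⟩

lemma Tm.id : Tm (fun _ => 0) fun a : α => a :=
  ⟨.dat .nop, 1, fun _ a => (rn_id _).mono (by have := sz_pos a; omega)⟩

lemma Tm.fst : Tm (fun _ => 0) (Prod.fst : α × β → α) :=
  ⟨pFst, 60, fun _ a => (rn_fst _ _).mono (by rw [zero_add]; exact le_rfl)⟩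

lemma Tm.snd : Tm (fun _ => 0) (Prod.snd : α × β → β) :=
  ⟨pSnd, 60, fun _ a => (rn_snd _ _).mono (by rw [zero_add]; exact le_rfl)⟩

lemma Tm.comp {T : α → ℕ} {T' : β → ℕ} {f : α → β} {g : β → γ} (hg : Tm T' g) (hf : Tm T f) :
    Tm (fun a => T a + T' (f a)) (fun a => g (f a)) := by
  obtain ⟨c, hc⟩ := hf.size
  refine ((hg.lift.comp hf.lift).tm (by simp)).mono ⟨c + 1, fun a => ?_⟩ fun _ => rfl
  have := hc a
  nlinarith [Nat.zero_le (c * T' (f a))]

lemma Tm.pair {T T' : α → ℕ} {f : α → β} {g : α → γ} (hf : Tm T f) (hg : Tm T' g) :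
    Tm (fun a => T a + T' a) (fun a => (f a, g a)) := (hf.lift.pair hg.lift).tm (by simp)

lemma Tm.of_cd {T : α → ℕ} {f : α → β} {g : α → γ} (h : Tm T f) (e : ∀ a, cd (f a) = cd (g a)) :
    Tm T g :=
  let ⟨P, c, h⟩ := h; ⟨P, c, fun ρ a => e a ▸ h ρ a⟩

lemma Tm.constV (v : V) : Tm (fun _ => 0) fun _ : α => v := by
  induction v with
  | nil => exact ⟨pNil, 34, fun _ a => (rn_nil _).mono (by
      have := sz_pos a; change 19 * sz a + 15 ≤ _; omega)⟩
  | cons a b ha hb => exact (ha.pair hb).of_cd fun _ => rfl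

lemma Tm.const (b : β) : Tm (fun _ => 0) fun _ : α => b := (Tm.constV (cd b)).of_cd fun _ => rfl

/-- case distinction on the first component being a leaf -/
lemma TmO.cases {ε ζ η : Type} [Cd ε] [Cd ζ] [Cd η] {T : α → ℕ} {K} {s : α → ζ} {x : α → η}
    {f : α → ε} (p : α → Prop) [DecidablePred p] (hs : Tm T s) (hx : Tm T x)
    {T1 T2 : ζ × η → ℕ} {g1 g2 : ζ × η → ε} {K1 K2}
    (h1 : TmO φ T1 K1 g1) (h2 : TmO φ T2 K2 g2)
    (e1 : ∀ a, p a → cd (s a) ≠ .nil ∧ f a = g1 (s a, x a) ∧ ∀ κ, K1 κ (s a, x a) ≤ K κ a)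
    (e2 : ∀ a, ¬ p a → cd (s a) = .nil ∧ f a = g2 (s a, x a) ∧ ∀ κ, K2 κ (s a, x a) ≤ K κ a) :
    TmO φ (fun a => T a + if p a then T1 (s a, x a) else T2 (s a, x a)) K f := by
  obtain ⟨c0, hc0⟩ := (hs.pair hx).size
  obtain ⟨P, c, h⟩ := hs.pair hx
  obtain ⟨P1, c1, h1⟩ := h1
  obtain ⟨P2, c2, h2⟩ := h2
  refine ⟨.seq P (.seq (.dat (.pop (some 0))) (.test (some 0) isT
    (.seq (.dat (.push 0 (some true))) P1) (.seq (.dat (.push 0 (some true))) P2))),
    2 * c + (c1 + c2) * (2 * c0 + 1) + 6, fun ρ κ hκ a k hk i o r t cc u y y' z => ?_⟩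
  have hP := h ρ a i o r t cc u y y' z
  have b0 := hc0 a
  have := sz_pos a
  by_cases hp : p a
  · obtain ⟨n1, n2, n3⟩ := e1 a hp
    have hP1 := h1 ρ κ hκ (s a, x a) k ((n3 κ).trans hk) i o r t cc u y y' z
    rw [n2]
    simp only [if_pos hp]
    change Le ρ P _ (mk i o ((V.cons (cd (s a)) (cd (x a))).enc ++ r) t cc u y y' z) _ at hP
    change Le ρ P1 (mk i o ((V.cons (cd (s a)) (cd (x a))).enc ++ r) t cc u y y' z) _ _ at hP1
    simp only [V.enc, List.cons_append] at hP hP1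
    refine Le.mono (hP.seq ((pop0 _).seq (Le.test1 ?_ ((push0 _).seq hP1)))) ?_
    · cases e : cd (s a) with
      | nil => exact absurd e n1
      | cons _ _ => rfl
    · have : c1 * (T1 (s a, x a) + sz (s a, x a)) ≤
          c1 * ((2 * c0 + 1) * (T a + T1 (s a, x a) + sz a)) :=
        Nat.mul_le_mul_left _ (by nlinarith [Nat.zero_le (c0 * T1 (s a, x a))])
      nlinarith [Nat.zero_le (c * T1 (s a, x a)), Nat.zero_le (c * sz a),
        Nat.zero_le (c2 * ((2 * c0 + 1) * (T a + T1 (s a, x a) + sz a)))]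
  · obtain ⟨n1, n2, n3⟩ := e2 a hp
    have hP1 := h2 ρ κ hκ (s a, x a) k ((n3 κ).trans hk) i o r t cc u y y' z
    rw [n2]
    simp only [if_neg hp]
    change Le ρ P _ (mk i o ((V.cons (cd (s a)) (cd (x a))).enc ++ r) t cc u y y' z) _ at hP
    change Le ρ P2 (mk i o ((V.cons (cd (s a)) (cd (x a))).enc ++ r) t cc u y y' z) _ _ at hP1
    simp only [V.enc, List.cons_append] at hP hP1
    refine Le.mono (hP.seq ((pop0 _).seq (Le.test0 ?_ ((push0 _).seq hP1)))) ?_
    · rw [n1]; rfl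
    · have : c2 * (T2 (s a, x a) + sz (s a, x a)) ≤
          c2 * ((2 * c0 + 1) * (T a + T2 (s a, x a) + sz a)) :=
        Nat.mul_le_mul_left _ (by nlinarith [Nat.zero_le (c0 * T2 (s a, x a))])
      nlinarith [Nat.zero_le (c * T2 (s a, x a)), Nat.zero_le (c * sz a),
        Nat.zero_le (c1 * ((2 * c0 + 1) * (T a + T2 (s a, x a) + sz a)))]

lemma TmO.precomp {ε : Type} [Cd ε] {T : α → ℕ} {T' : β → ℕ} {K'} {f : α → β} {g : β → ε}
    (hg : TmO φ T' K' g) (hf : Tm T f) :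
    TmO φ (fun a => T a + T' (f a)) (fun κ a => K' κ (f a)) (fun a => g (f a)) := by
  obtain ⟨c, hc⟩ := hf.size
  refine (hg.comp hf.lift).mono ⟨c + 1, fun a => ?_⟩ (by simp) fun _ => rfl
  have := hc a
  nlinarith [Nat.zero_le (c * T' (f a))]

lemma TmO.ite {ε : Type} [Cd ε] {T T1 T2 : α → ℕ} {K1 K2} {b : α → Bool} {f g : α → ε}
    (hb : Tm T b) (h1 : TmO φ T1 K1 f) (h2 : TmO φ T2 K2 g) :
    TmO φ (fun a => T a + if b a then T1 a else T2 a) (fun κ a => if b a then K1 κ a else K2 κ a)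
      (fun a => if b a then f a else g a) := by
  refine (TmO.cases (f := fun a => if b a then f a else g a) (fun a => b a = true) hb
    (Tm.id.mono ⟨0, by simp⟩ fun _ => rfl) (h1.precomp Tm.snd) (h2.precomp Tm.snd)
    (fun a ha => ?_) (fun a ha => ?_)).mono ⟨1, fun a => by dsimp only; split_ifs <;> omega⟩
    (fun _ _ => le_rfl) fun _ => rfl
  · simp only [ha, if_true, le_refl, implies_true, and_true]; exact fun h => by cases h
  · simp only [ha, if_false, le_refl, implies_true, and_true, Bool.false_eq_true]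
    rfl

def scan (f : σ × α → σ × List β) : σ → List α → σ × List β
  | s, [] => (s, [])
  | s, a :: l => ((scan f (f (s, a)).1 l).1, (f (s, a)).2 ++ (scan f (f (s, a)).1 l).2)

def scanS {M : Type} [AddMonoid M] (f : σ × α → σ × List β) (T : σ × α → M) : σ → List α → M
  | _, [] => 0
  | s, a :: l => T (s, a) + scanS f T (f (s, a)).1 l

lemma TmO.rscan {ε : Type} [Cd ε] {T : σ × α → ℕ} {K} {f : σ × α → σ × List ε}
    (h : TmO φ T K f) :
    TmO φ (fun p : σ × List α => scanS f (fun q => T q + sz q + sz (f q)) p.1 p.2 +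
      sz (scan f p.1 p.2)) (fun κ p => scanS f (K κ) p.1 p.2)
      (fun p => ((scan f p.1 p.2).1, (scan f p.1 p.2).2.reverse)) := by
  obtain ⟨P, c, h⟩ := h
  refine ⟨pScan P, c + 60, fun ρ κ hκ p k hk => ?_⟩
  obtain ⟨s, l⟩ := p
  have key : ∀ (l : List α) (s : σ) (k : ℕ), scanS f (K κ) s l ≤ k → ∃ n,
      n ≤ (c + 60) * scanS f (fun q => T q + sz q + sz (f q)) s l + k ∧
      Steps ρ P (cd s) (l.map cd) (cd (scan f s l).1) ((scan f s l).2.map cd) n := by
    intro l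
    induction l with
    | nil => intro s k _; exact ⟨0, by omega, Steps.nil _⟩
    | cons a l ih =>
      intro s k hk
      obtain ⟨x, y, hx, hy, hxy⟩ := enat_split hk
      obtain ⟨n, hn, hs⟩ := ih (f (s, a)).1 y hy.le
      have h1 := h ρ κ hκ (s, a) x hx.le
      refine ⟨_, ?_, by simpa only [scan, List.map_append, List.map_cons] using Steps.cons h1 hs⟩
      change _ + 60 * (sz (s, a) + sz (f (s, a))) + n ≤ _
      simp only [scanS]
      nlinarith [Nat.zero_le (c * sz (f (s, a)))]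
  obtain ⟨n, hn, hs⟩ := key l s k hk
  have := rn_scan hs
  rw [← List.map_reverse] at this
  refine this.mono ?_
  change n + 60 * (sz (s, l) + sz ((scan f s l).1, (scan f s l).2.reverse)) ≤ _
  rw [sz_pair _ (List.reverse _), sz_reverse, ← sz_prod]
  nlinarith [Nat.zero_le (c * sz (s, l)), Nat.zero_le (c * sz (scan f s l))]

theorem TmO.fix {T : α → ℕ} {K} {f : α → β} (h : TmO f T K f) (μ : α → ℕ) (B : α → ℕ)
    (hB : ∀ c : ℕ, ∃ C : ℕ, ∀ a, (c * (T a + sz a) + 1 : ℕ) +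
      K (fun g => if μ g < μ a then ((C * B g : ℕ) : ℕ∞) else ⊤) a ≤ (C * B a : ℕ)) :
    Tm B f := by
  obtain ⟨P, c, h⟩ := h
  obtain ⟨C, hC⟩ := hB c
  have key : ∀ n, ∀ a, μ a = n → Rn P .call (cd a) (cd (f a)) (C * B a) := by
    intro n
    induction n using Nat.strong_induction_on with
    | _ n ih =>
      intro a ha
      obtain ⟨x, y, hx, hy, hxy⟩ := enat_split (hC a)
      have hx' : c * (T a + sz a) + 1 = x := by exact_mod_cast hx
      refine (rn_call (h P _ (fun g => ?_) a y hy.le)).mono (by omega)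
      split_ifs with hg
      · exact (ih _ (ha ▸ hg) g rfl).runs
      · intro n hn; simp at hn
  refine ⟨.fix P, C + 1, fun ρ a => ?_⟩
  intro i o r t cc u y y' z
  obtain ⟨k, hk, e⟩ := key _ a rfl i o r t cc u y y' z
  cases e with
  | call e => exact ⟨_, by have := sz_pos a; nlinarith, e.fix⟩

lemma Tm.raw : Tm (fun _ => 0) fun a : α => (cd a).bits :=
  ⟨pRaw, 41, fun _ a => (rn_raw _).mono (by have := sz_pos a; change 21 * sz a + 20 ≤ _; omega)⟩

lemma Tm.unraw {T : α → ℕ} {f : α → List Bool} {g : α → β} (h : Tm T f)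
    (e : ∀ a, f a = (cd (g a)).bits) : Tm T g := by
  obtain ⟨c0, hc0⟩ := h.size
  obtain ⟨P, c, h⟩ := h
  refine ⟨.seq P pUnraw, c + 18 * c0 + 21, fun ρ a => ?_⟩
  have h1 := h ρ a
  have h2 := hc0 a
  have h3 := length_le_sz (f a)
  rw [e] at h1
  rw [e, V.bits_length] at h3
  rw [e] at h2
  refine (h1.seq (rn_unraw _)).mono ?_
  have := sz_pos a
  nlinarith

lemma pick_map {α β α' β' : Type} (f : α → α') (g : β → β') (l : List (Bool × α)) (m : List β) :
    pick (l.map fun p => (p.1, f p.2)) (m.map g) = (pick l m).map fun p => (f p.1, p.2.map g) := by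
  induction l generalizing m with
  | nil => rfl
  | cons p l ih =>
    obtain ⟨b, a⟩ := p
    cases b
    · simp [pick, ih]
    · simp [pick, ← ih]

lemma sz_pick (l : List (Bool × α)) (m : List β) : sz (pick l m) ≤ 3 * sz l + sz m := by
  induction l generalizing m with
  | nil => simp [pick, sz_nil]; omega
  | cons p l ih =>
    obtain ⟨b, a⟩ := p
    have := sz_pos b
    cases b
    · have := ih m
      simp only [pick, sz_cons, sz_pair, sz_none]; omega
    · cases m with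
      | nil =>
        have := ih []
        simp only [pick, sz_cons, sz_pair, sz_none, List.head?_nil, List.tail_nil]; omega
      | cons g m =>
        have := ih m
        simp only [pick, sz_cons, sz_pair, sz_some, List.head?_cons, List.tail_cons]; omega

lemma Tm.rpick : Tm (fun _ => 0) fun p : List (Bool × α) × List β => (pick p.1 p.2).reverse := by
  refine ⟨pPick, 400, fun ρ p => ?_⟩
  have h := rn_pick (ρ := ρ) (p.1.map fun q => (q.1, cd q.2)) (p.2.map cd)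
  rw [pick_map, List.map_map, List.map_map, ← List.map_reverse] at h
  refine Rn.mono h ?_
  change 100 * (sz p + sz (pick p.1 p.2).reverse) ≤ _
  have := sz_pick p.1 p.2
  rw [sz_reverse, sz_prod p]; omega

end Vale.Agent.P338
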