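import Vale.Agent.P338.Apx

/-! Coefficient arrays, scalar passes and convolutions. -/

namespace Vale.Agent.P338

open Filter Cd Finset Function Complex Matrix

set_option linter.unusedSectionVars false
set_option linter.unusedVariables false

variable {γ : Type} [Cd γ] {w : Wd γ} {μ k r p ψ T : γ → ℕ} {ν : ℕ → ℕ}

abbrev Rc (T : γ → ℕ) := {p : γ × Un // p.2.n = T p.1}

def rc (T : γ → ℕ) (c : γ) : Rc T := ⟨(c, ⟨T c⟩), rfl⟩

structure Rich (w : Wd γ) (k r T : γ → ℕ) : Prop where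
  fw : Fw w r
  pT : In polyB T
  pk : In polyB k
  kT : ∀ c, k c ≤ T c
  big : ∀ e, ∃ C, ∀ c, (sz c + T c + 1) ^ e ≤ C * 2 ^ r c

lemma Rc.dom {α : Type} [Cd α] {f : α → Rc T} (hf : In polyB f) {t : γ → ℕ} (h : ∀ c, t c ≤ T c) :
    Dom polyB fun a => t (f a).1.1 := (Dom.unval hf.val.snd).mono' fun a => by rw [(f a).2]; exact h _

lemma In.encZ {α : Type} [Cd α] {k : α → ℕ} {f : α → ℤ} (hk : In polyB k) (dk : Dom polyB k)
    (hf : In polyB f) : In polyB fun a => enc (k a) (f a) := by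
  have a := hk.add (In.const 2)
  have b := dk.add (Dom.const 2)
  have d := (a.pow2 b).sub (In.const 1)
  refine ((a.bitl b (hf.ipos.mod d)).sadd (a.bitl b (hf.inegp.mod d)).sneg).congr fun x => ?_
  rw [← pz, ← enc_nat, ← enc_nat, sneg_enc, sadd_enc]
  conv_rhs => rw [← Int.toNat_sub_toNat_neg (f x), Int.cast_sub, Int.cast_natCast, Int.cast_natCast,
    sub_eq_add_neg]

lemma Rich.cf (R : Rich w k r T) {f : Rc T → ℕ → ℤ} (hf : In polyB fun p : Rc T × ℕ => f p.1 p.2) :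
    Op (w.zp k) μ fun c _ z => (f (rc T c) (z / 2 ^ r c) : Zp (k c)) := by
  intro α _ B c E F hF
  have l : ∀ c, 2 ^ r c ≤ w.N c := fun c => Nat.le_of_dvd (w.pos c) (R.fw.dvd c)
  have e0 : ∀ c, w.N c / 2 ^ r c * 2 ^ r c = w.N c := fun c => Nat.div_mul_cancel (R.fw.dvd c)
  obtain ⟨C, hC⟩ := R.big 1
  have ic : In B fun x => rc T (c x) := (E.inc.pair ((E.small R.pT).unmk ((E.big.self.cmul C).mono' fun x =>
    by have := hC (c x); have := Nat.mul_le_mul_left C (l (c x)); simp only [pow_one] at *; omega))).of_cd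
      fun _ => rfl
  have hB : Big B (fun x => w.N (c x) / 2 ^ r (c x)) fun x => rc T (c x) := fun e => by
    obtain ⟨C, hC⟩ := R.big e
    refine (E.big.self.cmul (2 * 3 ^ e * C)).mono' fun x => ?_
    have a : sz (rc T (c x)) + 1 ≤ 3 * (sz (c x) + T (c x) + 1) := by
      change sz (c x) + sz (Un.mk _) + 1 + 1 ≤ _; rw [sz_un]; dsimp only; omega
    have b := Nat.div_pos (l (c x)) (Nat.two_pow_pos _)
    calc _ ≤ (2 * (w.N (c x) / 2 ^ r (c x))) * (3 ^ e * (C * 2 ^ r (c x))) := Nat.mul_le_mul (by dsimp only; omega)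
          ((Nat.pow_le_pow_left a e).trans (by rw [mul_pow]; exact Nat.mul_le_mul_left _ (hC _)))
      _ = 2 * 3 ^ e * C * (w.N (c x) / 2 ^ r (c x) * 2 ^ r (c x)) := by ring
      _ = _ := by rw [e0]
  have u := In.id.fst.val.fst (B := polyB) (α := Rc T × ℕ)
  have h0 := hB.tab ic ((w.poly.div R.fw.pR).comp In.id.val.fst) (fun _ => le_rfl)
    (In.encZ (R.pk.comp u) (Rc.dom In.id.fst R.kT) hf)
  have h1 : In B fun x => tab (w.N (c x) / 2 ^ r (c x)) fun i => enc (k (c x)) (f (rc T (c x)) i) := h0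
  clear h0
  have h2 : In (⟨fun _ q => q.1.length * sz q.2⟩ : Bd (List Unit × List Bool))
      fun q => List.replicate q.1.length q.2 :=
    In.replicateC In.id.fst.length In.id.snd (Eventually.of_forall fun _ => ⟨1, fun _ => by simp⟩)
  refine (In.mapC h2 ((E.small R.fw.pR).un (E.big.self.mono' fun x => l _)) h1 fun _ =>
    (E.dl.cmul 4).mono' fun x => ?_).flatten.congr fun x => ?_
  · refine (sum_le_mul _ _ (M := 2 ^ r (c x) * (4 * (4 * (k (c x) + 2) + 2))) fun a ha => ?_).trans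
      (le_of_eq (by rw [tab_length, ← mul_assoc, e0]; ring))
    obtain ⟨z, -, rfl⟩ := mem_tab.1 ha
    have := sz_bits (enc (k (c x)) (f (rc T (c x)) z))
    have := sz_list_le (List.replicate (2 ^ r (c x)) ()) (k := 1) fun _ _ => le_rfl
    have := Nat.two_pow_pos (r (c x))
    simp only [enc_length, List.length_replicate] at *
    generalize sz (enc _ _) = a at *
    nlinarith
  · rw [Wd.arr]
    conv_rhs => rw [← e0, ← tab_flatten]
    rw [tab_map]
    refine congrArg _ (tab_congr fun i _ => ?_)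
    rw [List.length_replicate, tab_congr (g := fun _ => enc (k (c x)) (f (rc T (c x)) i))
      fun j hj => by dsimp only; rw [lex_div hj]]
    simp [tab]

lemma Rich.cc (R : Rich w k (fun c => p c + 1) T) (h : SM ν) (hν : ∃ C, ∀ c, ν (k c) ≤ C * (μ c + 1))
    {U V : Rc T → ℕ → ℤ} (hU : In polyB fun p : Rc T × ℕ => U p.1 p.2)
    (hV : In polyB fun p : Rc T × ℕ => V p.1 p.2) {f} (hf : OpR w k (fun c => p c + 1) μ f) :
    OpR w k (fun c => p c + 1) μ fun c G j => gz _ (p c) (U (rc T c) j) (V (rc T c) j) * f c G j := by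
  have a : ∀ {U : Rc T → ℕ → ℤ} (hU : In polyB fun p : Rc T × ℕ => U p.1 p.2) {f}
      (hf : OpR w k (fun c => p c + 1) μ f), OpR w k (fun c => p c + 1) μ fun c G j =>
        U (rc T c) j • f c G j := fun hU _ hf =>
    (Op.mul h hν (R.cf hU) hf).congr fun c F z _ => by rw [ub, ub, map_zsmul, zsmul_eq_mul]
  have b := (R.fw.pr.sub (In.const 1)).pow2 R.fw.dr.sub
  exact ((a hU hf).add (a hV (hf.comp (R.fw.tw (x := fun c _ => 2 ^ (p c + 1 - 1)) (b.comp In.id.fst))))).congr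
    fun c G j => by simp only [gz, zsmul_eq_mul, add_mul, mul_assoc, Nat.add_sub_cancel]

lemma Rich.one (R : Rich w k r T) : OpR w k r μ fun _ _ _ => 1 :=
  (Op.sel (p := fun c z => z % 2 ^ r c = 0) (Dec.eq (In.id.snd.mod (R.fw.pR.comp In.id.fst)) (In.const 0))
    (R.cf (f := fun _ _ => 1) (In.const _)) (R.cf (f := fun _ _ => 0) (In.const _))).congr fun c F z _ => by
      rw [ub]; dsimp only; rw [← pow_zero (Yg _ _), cf_mono (by positivity)]; simp [eq_comm]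

lemma Tz.app {f g} (hf : Op w μ f) (hg : Op w μ g) : Tz w μ w.N (fun c => 2 * w.N c)
    fun c F z => if z < w.N c then f c F z else g c F (z - w.N c) := fun α _ B c E F hF =>
  ((hf α B c E F hF).append (hg α B c E F hF)).congr fun x => by
    simp only [Wd.arr, two_mul, tab_add]
    congr 1 <;> exact tab_congr fun z hz => by simp [hz]

lemma Tz.take : Tz w μ (fun c => 2 * w.N c) w.N fun _ F => F := fun α _ B c E F hF =>
  (In.take (E.small w.poly) hF).congr fun x => by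
    dsimp only
    rw [two_mul, tab_add, List.take_left' (tab_length _ _)]

lemma stk_app {A : Type} [CommRing A] {n r N z : ℕ} (e0 : n * 2 ^ r = N) (G H : ℕ → Rg A r) (hz : z < N) :
    ub r (stk n (fb r fun z => if z < N then ub r G z else ub r H (z - N))) z =
      ub r (fun j => G j * H j) z := by
  have l : z / 2 ^ r < n := (Nat.div_lt_iff_lt_mul (by positivity)).2 (e0 ▸ hz)
  rw [ub, ub, stk, Nat.mod_eq_of_lt l, ← congrFun (fb_ub G) _, ← congrFun (fb_ub H) _]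
  congr 2 <;> refine fb_congr fun t ht => ?_
  · rw [zero_mul, add_zero, if_pos (by rw [← e0]; exact lex_bound l ht)]
  · rw [one_mul, add_mul, e0, if_neg (by omega)]; congr 1; omega

lemma Fw.mul (fw : Fw w r) (h : SM ν) {a : ℝ} (ha : 1 < a)
    (hμ : ∃ C, ∀ c, (ν (k c) + 1) * pw a (r c) ≤ C * (μ c + 1)) {f g} (hf : OpR w k r μ f)
    (hg : OpR w k r μ g) : OpR w k r μ fun c G j => f c G j * g c G j := by
  have hp : ∀ c, 0 < 2 * w.N c := fun c => by have := w.pos c; omega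
  have e0 : ∀ c, w.N c / 2 ^ r c * 2 ^ r c = w.N c := fun c => Nat.div_mul_cancel (fw.dvd c)
  have h0 : Op ((w.zp k).rsz _ ((In.const 2).mul w.poly) hp) μ
      fun c F => ub (r c) (stk (w.N c / 2 ^ r c) (fb (r c) F)) :=
    (negMul (w := w.rsz _ ((In.const 2).mul w.poly) hp) (k := k) h ha
      (w.poly.div fw.pR) fw.pr fun c => by rw [e0]).mono hμ
  have h1 := Op.tz h0 2 fun _ => le_rfl
  have h3 := h1.comp (Tz.take (w := w.zp k))
  have h2 := (Tz.app (w := w.zp k) hf hg).comp h3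
  have h4 : Tz (w.zp k) μ w.N w.N fun c (F : ℕ → Zp (k c)) => ub (r c) (stk (w.N c / 2 ^ r c) (fb (r c)
    fun z => if z < w.N c then ub (r c) (f c (fb (r c) F)) z else ub (r c) (g c (fb (r c) F)) (z - w.N c))) := h2
  have h5 : Tz (w.zp k) μ w.N w.N fun c (F : ℕ → Zp (k c)) =>
      ub (r c) fun j => f c (fb (r c) F) j * g c (fb (r c) F) j :=
    h4.congr fun c F z hz => stk_app (e0 c) _ _ hz
  exact h5

lemma Cp.ints {κ : Rc T × ℕ → ℂ} (h : Cp κ) (hψ : In polyB ψ) (hT : ∀ c, ψ c ≤ T c) :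
    ∃ U V : Rc T → ℕ → ℤ, In polyB (fun p : Rc T × ℕ => U p.1 p.2) ∧
      In polyB (fun p : Rc T × ℕ => V p.1 p.2) ∧
      ∀ c j, ‖U (rc T c) j + V (rc T c) j * I - 2 ^ ψ c * κ (rc T c, j)‖ ≤ 4 := by
  obtain ⟨⟨f, a, b⟩, f', a', b'⟩ := h
  have u := In.id.pair ((hψ.comp (In.id.fst.val.fst (α := Rc T × ℕ))).unmk (Rc.dom In.id.fst hT))
  have a1 := a.comp u
  have a2 := a'.comp u
  refine ⟨fun x j => f (x, j) (ψ x.1.1), fun x j => f' (x, j) (ψ x.1.1), a1, a2, fun c j =>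
    (norm_le_abs_re_add_abs_im _).trans ?_⟩
  have := b (rc T c, j) (ψ c)
  have := b' (rc T c, j) (ψ c)
  rw [show (2 : ℂ) ^ ψ c = (2 ^ ψ c : ℝ) by simp]
  simp only [sub_re, add_re, intCast_re, mul_re, I_re, I_im, intCast_im, ofReal_re, ofReal_im, sub_im,
    add_im, mul_im, mul_zero, mul_one, zero_mul, sub_zero, add_zero, zero_add]
  simp only [rc] at *
  linarith

lemma Rich.pass (R : Rich w k (fun c => p c + 1) T) (h : SM ν) (hν : ∃ C, ∀ c, ν (k c) ≤ C * (μ c + 1))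
    (hψ : In polyB ψ) (hT : ∀ c, ψ c ≤ T c) {α β : γ → ℕ → ℂ} {σ : γ → ℕ → ℕ} {K : γ → ℕ}
    (hα : Cp fun q : Rc T × ℕ => α q.1.1.1 q.2) (hβ : Cp fun q : Rc T × ℕ => β q.1.1.1 q.2)
    (hK : ∀ c j, ‖α c j‖ ≤ K c ∧ ‖β c j‖ ≤ K c)
    (hσ : OpR w k (fun c => p c + 1) μ fun c G j => G (σ c j)) :
    NOp w k μ ψ p p (fun c => 4 * K c + 18) fun c v z => α c (z / 2 ^ (p c + 1)) * v z +
      β c (z / 2 ^ (p c + 1)) * v (σ c (z / 2 ^ (p c + 1)) * 2 ^ (p c + 1) + z % 2 ^ (p c + 1)) := by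
  obtain ⟨U, V, a1, a2, a3⟩ := hα.ints hψ hT
  obtain ⟨U', V', b1, b2, b3⟩ := hβ.ints hψ hT
  refine ((NOp.lin (ι := fun _ => Fin 2) (U := fun c j => ![U (rc T c) j, U' (rc T c) j])
    (V := fun c j => ![V (rc T c) j, V' (rc T c) j]) (σ := fun c j => ![j, σ c j])
    (κ := fun c j => ![α c j, β c j]) (K := K) (((R.cc h hν a1 a2 OpR.id).add (R.cc h hν b1 b2 hσ)).congr
      fun c G j => by simp [Fin.sum_univ_two]) hψ fun c j => ?_).mono ⟨1, by simp⟩
      fun c => by simp; omega).congr fun c v => funext fun z => by simp [Nat.div_add_mod']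
  rw [Fin.forall_fin_two]
  exact ⟨⟨a3 c j, (hK c j).1⟩, b3 c j, (hK c j).2⟩

lemma cyc_conv {B : Type} [CommRing B] {y l : B} {D s e ρ R m : ℕ} (hy : y ^ R = -1)
    (hρ : ρ * 2 ^ s = 2 * R) (hR : 0 < R) (hl : l * l * 2 ^ D = 1) (hm : l ^ s * 2 ^ m = 1)
    (κ : (Fin D → ZMod (2 ^ s)) → B) (G : ℕ → B) (j : ℕ) :
    opT D s e (l ^ s) (MB y s 0 ρ R s) (fun j => opT D s e (l ^ s) (MF y s 0 ρ 0)
      (fun j => 2 ^ m * κ ((dgL D s e).get j)) j * opT D s e (l ^ s) (MF y s 0 ρ 0) G j) j =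
      opM (dgL D s e) (circulant κ) G j := by
  have t : ∀ x a b : Fin D → ZMod (2 ^ s), tens (fun _ => MF y s 0 ρ 0) x (a + b) =
      tens (fun _ => MF y s 0 ρ 0) x a * tens (fun _ => MF y s 0 ρ 0) x b := fun x a b => by
    simp only [tens, of_apply, ← prod_mul_distrib, MF_zero, ← pow_add, Pi.add_apply, ZMod.val_add]
    exact prod_congr rfl fun i _ => (pow_eq_pow_mod _ (by rw [fE_pow hy hρ, zero_mul, pow_zero])).symm
  have u : tens (fun _ => MF y s 0 ρ 0) * circulant κ =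
      diagonal (tens (fun _ => MF y s 0 ρ 0) *ᵥ κ) * tens fun _ => MF y s 0 ρ 0 := by
    ext x z
    rw [diagonal_mul, mul_apply, mulVec, dotProduct, sum_mul, ← Equiv.sum_comp (Equiv.addRight z)]
    exact sum_congr rfl fun a _ => by simp [t, mul_right_comm]
  have : (fun j => opT D s e (l ^ s) (MF y s 0 ρ 0) (fun j => 2 ^ m * κ ((dgL D s e).get j)) j *
      opT D s e (l ^ s) (MF y s 0 ρ 0) G j) = opT D s e (l ^ s) (MF y s 0 ρ 0)
        (opM (dgL D s e) (circulant κ) G) := funext fun j => by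
    rw [opT, opM_smul, opM_smul, opM_smul, ← opM_mul, u, opM_mul, opM_diag, opM]
    simp only [Lens.gs, mul_left_comm _ ((2 : B) ^ m), ← mul_sum, mulVec, dotProduct]
    linear_combination (l ^ s * (∑ a, tens (fun _ => MF y s 0 ρ 0) ((dgL D s e).get j) a * κ a) *
      opM (dgL D s e) (tens fun _ => MF y s 0 ρ 0) G j) * hm
  rw [this, fft_inv hy hρ hR, hl, one_pow, one_mul]

lemma opM_up {B : Type} [CommRing B] {D s e r : ℕ} (M) (v : ℕ → B) (z : ℕ) : opM (dgL D s (e + r)) M v z =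
    ∑ y, M ((dgL D s e).get (z / 2 ^ r)) y * v ((dgL D s e).set (z / 2 ^ r) y * 2 ^ r + z % 2 ^ r) := by
  have : dg D (2 ^ s) (2 ^ e * 2 ^ r) z = dg D (2 ^ s) (2 ^ e) (z / 2 ^ r) := funext fun i => by
    rw [dg, dg, mul_right_comm, fld_wire]
  simp only [opM, dgL, pow_add, setF_wire, this]

lemma Rich.conv (R : Rich w k (fun c => p c + 1) T) (sm : SM ν) {a : ℝ} (ha : 1 < a)
    (hμ : ∃ C, ∀ c, (ν (k c) + 1) * pw a (p c + 1) ≤ C * (μ c + 1)) {d s e ρ : γ → ℕ} (pψ : In polyB ψ)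
    (hT : ∀ c, ψ c ≤ T c) (pd : In polyB d) (ps : In polyB s) (pe : In polyB e) (dd : Dom polyB d)
    (ds : Dom polyB s) (de : Dom polyB e) (hρ : ∀ c, ρ c * 2 ^ s c = 2 * 2 ^ (p c + 1))
    (h2 : OpR w k (fun c => p c + 1) μ fun c => opT (d c + d c) (s c) (e c)
      ((algebraMap A2 _ t2 ^ d c) ^ s c) (MF (Yg _ _) (s c) 0 (ρ c) 0))
    (h3 : OpR w k (fun c => p c + 1) μ fun c => opT (d c + d c) (s c) (e c)
      ((algebraMap A2 _ t2 ^ d c) ^ s c) (MB (Yg _ _) (s c) 0 (ρ c) (2 ^ (p c + 1)) (s c)))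
    {f : ∀ c, (Fin (d c + d c) → ZMod (2 ^ s c)) → ℂ} (f1 : ∀ c y, ‖f c y‖ ≤ 1)
    (f2 : Cp fun q : Rc T × ℕ => f q.1.1.1 ((dgL _ _ (e q.1.1.1)).get q.2)) :
    NOp w k μ ψ p p (fun c => (2 ^ s c) ^ (d c + d c) * 10 + 2) fun c =>
      opM (dgL (d c + d c) (s c) (e c + (p c + 1))) (circulant (f c)) := by
  obtain ⟨U, V, b1, b2, b3⟩ := f2.ints pψ hT
  have u := In.id.fst.val.fst (B := polyB) (α := Rc T × ℕ)
  have p2 := In.id.fst.pair ((In.id.snd.fld ((pe.pow2 de).comp u) (((ps.pow2 ds).pow (pd.add pd)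
    (dd.add dd)).comp u)).mul ((pe.pow2 de).comp u))
  have p3 := (((pd.mul ps).pow2 (dd.mul ds)).comp u).inat
  have hν : ∃ C, ∀ c, ν (k c) ≤ C * (μ c + 1) := hμ.imp fun C h c => by
    have := h c; have := pw_pos a (p c + 1); nlinarith
  have p4 := p3.imul (b1.comp p2)
  have p5 := p3.imul (b2.comp p2)
  have h4 := R.cc sm hν (U := fun x j => (2 ^ (d x.1.1 * s x.1.1) : ℕ) *
      U x (fld j (2 ^ e x.1.1) ((2 ^ s x.1.1) ^ (d x.1.1 + d x.1.1)) * 2 ^ e x.1.1))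
    (V := fun x j => (2 ^ (d x.1.1 * s x.1.1) : ℕ) *
      V x (fld j (2 ^ e x.1.1) ((2 ^ s x.1.1) ^ (d x.1.1 + d x.1.1)) * 2 ^ e x.1.1)) p4 p5 R.one
  have h5 : OpR w k (fun c => p c + 1) μ fun c G j => 2 ^ (d c * s c) * gz _ (p c)
      (U (rc T c) ((dgL _ _ (e c)).set 0 ((dgL (d c + d c) (s c) (e c)).get j)))
      (V (rc T c) ((dgL _ _ (e c)).set 0 ((dgL (d c + d c) (s c) (e c)).get j))) := h4.congr fun c G j => by
    simp only [dgL, und_dg (Nat.two_pow_pos _), setF, gz, rc, Nat.zero_div, zero_mul, zero_add,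
      Nat.zero_mod, add_zero]
    push_cast; ring
  have h7 := (R.fw.mul sm ha hμ (h5.comp h2) h2).comp h3
  have h6 : OpR w k (fun c => p c + 1) μ fun c G j => ∑ y, gz _ (p c)
      (U (rc T c) ((dgL _ _ (e c)).set 0 ((dgL _ _ (e c)).get j - y)))
      (V (rc T c) ((dgL _ _ (e c)).set 0 ((dgL _ _ (e c)).get j - y))) *
        G ((dgL (d c + d c) (s c) (e c)).set j y) := h7.congr fun c G j => by
    have ht := (congrArg (algebraMap A2 (Rg (Zp (k c)) (p c + 1))) two_t2).trans (map_one _)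
    rw [map_mul, map_ofNat] at ht
    exact cyc_conv Yg_pow (hρ c) (by positivity) (by rw [← pow_add, ← mul_pow, mul_comm, ht, one_pow])
      (by rw [← pow_mul, ← mul_pow, mul_comm, ht, one_pow])
      (fun y => gz _ (p c) (U (rc T c) ((dgL _ _ (e c)).set 0 y)) (V (rc T c) ((dgL _ _ (e c)).set 0 y))) G j
  have h8 := NOp.lin (κ := fun c j y => f c ((dgL _ _ (e c)).get j - y)) (K := fun _ => 1) h6 pψ
    fun c j y => ⟨by
      have := b3 c ((dgL _ _ (e c)).set 0 ((dgL (d c + d c) (s c) (e c)).get j - y))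
      dsimp only [rc] at this ⊢
      rwa [Lens.gs] at this, by simpa using f1 _ _⟩
  exact (h8.mono ⟨1, by simp⟩ fun c => by simp).congr fun c v => funext fun z => by rw [opM_up]; rfl

theorem convD : ∃ (K : ℕ) (a : ℝ), 0 < a ∧ a < 1 ∧ ∀ (γ : Type) [Cd γ] (w : Wd γ)
    (k μ ψ p T d s e κ : γ → ℕ) (ν : ℕ → ℕ) (a' : ℝ), SM ν → 1 < a' → Rich w k (fun c => p c + 1) T →
    In polyB ψ → In polyB d → In polyB s → In polyB e → In polyB κ →
    (∀ c, ψ c ≤ T c ∧ 0 < d c ∧ d c ≤ 2 ^ κ c ∧ κ c * d c < s c ∧ K * (κ c + 1) * d c ≤ p c + 1 ∧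
      s c ≤ p c + 1 ∧ 2 ^ (p c + 1 + e c + s c + (d c + d c) * s c) ∣ w.N c) →
    (∃ C, ∀ c, s c * ((κ c + 1) * pw a (d c) + 1) + (ν (k c) + 1) * pw a' (p c + 1) ≤ C * (μ c + 1)) →
    ∀ f : ∀ c, (Fin (d c + d c) → ZMod (2 ^ s c)) → ℂ, (∀ c y, ‖f c y‖ ≤ 1) →
    Cp (fun q : Rc T × ℕ => f q.1.1.1 ((dgL _ _ (e q.1.1.1)).get q.2)) →
    NOp w k μ ψ p p (fun c => (2 ^ s c) ^ (d c + d c) * 10 + 2) fun c =>
      opM (dgL (d c + d c) (s c) (e c + (p c + 1))) (circulant (f c)) := by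
  obtain ⟨K, a, a0, a1, h⟩ := hall
  refine ⟨K, a, a0, a1, fun γ _ w k μ ψ p T d s e κ ν a' sm ha R pψ pd ps pe pκ H ⟨C, hμ⟩ f f1 f2 => ?_⟩
  have v1 := In.id.val.fst (B := polyB) (α := {p : γ × ℕ // p.2 < s p.1})
  have d0 := w.domE fun c => (H c).2.2.2.2.2.2
  have ds : Dom polyB s := d0.mono' fun c => by omega
  have de : Dom polyB e := d0.mono' fun c => by omega
  have dd : Dom polyB d := d0.mono' fun c => by
    have : 1 ≤ s c := by have := H c; omega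
    nlinarith
  have h0 := h _ (w.ext s) (fun x => k x.1.1) _ _ _ _ _ (R.fw.pr.comp v1) ((pe.comp v1).add In.id.val.snd)
    (ps.comp v1) (pd.comp v1) (pκ.comp v1) fun x => by
      obtain ⟨-, b1, b2, b3, b4, -, b5⟩ := H x.1.1
      exact ⟨b1, b2, b3, b4, (pow_dvd_pow _ (by have := x.2; omega)).trans b5, by omega⟩
  have h1 : OpR (w.ext s) (fun x => k x.1.1) (fun x => p x.1.1 + 1) (fun x => (κ x.1.1 + 1) * pw a (d x.1.1))
      fun x => opT (d x.1.1 + d x.1.1) (s x.1.1) (e x.1.1) (algebraMap A2 _ t2 ^ d x.1.1) (Hm _ _ x.1.2) :=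
    h0.congr fun x G j => by rw [Hs_opM x.2]; rfl
  have pρ := ((R.fw.pr.add (In.const 1)).sub ps).pow2 (R.fw.dr.add (Dom.const 1)).sub
  have hρ : ∀ c, 2 ^ (p c + 1 + 1 - s c) * 2 ^ s c = 2 * 2 ^ (p c + 1) := fun c => by
    rw [← pow_add, Nat.sub_add_cancel (by have := H c; omega), pow_succ']
  obtain ⟨h2, h3⟩ := fft (μ := μ) (μ' := fun c => (κ c + 1) * pw a (d c))
    (l := fun c => algebraMap A2 _ t2 ^ d c) R.fw (pd.add pd) ps pe (dd.add dd)
    ds de (In.const 0) pρ hρ ⟨C, fun c => by have := hμ c; omega⟩ h1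
  exact R.conv sm ha ⟨C, fun c => by have := hμ c; omega⟩ pψ (fun c => (H c).1) pd ps pe dd ds de hρ h2 h3 f1 f2

end Vale.Agent.P338
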