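import Vale.Agent.P338.Crt

/-! The fast polynomial product. -/

namespace Vale.Agent.P338

open Filter Cd Finset Function Complex Matrix

set_option linter.unusedSectionVars false
set_option linter.unusedVariables false

lemma lens_conj {ι : Type} [Fintype ι] {L L' : Lens ι} {π : ℕ → ℕ}
    (h : ∀ z, L.get (π z) = L'.get z ∧ ∀ y, π (L'.set z y) = L.set (π z) y) (z : ℕ) :
    (∀ (M : Matrix ι ι ℂ) v, opM L M v (π z) = opM L' M (fun z => v (π z)) z) ∧
      ∀ H, L.act H (π z) = π (L'.act H z) := by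
  simp only [opM, Lens.act, h, implies_true, and_self]

lemma pi_lens {D s e P p : ℕ} (he : e + s = P + 1) (hp : p < P) (z : ℕ) :
    (dgL D s e).rev.get (Rv D s e (sg P p z)) = (dgL D s (0 + (P + 1))).get z ∧ ∀ y,
      Rv D s e (sg P p ((dgL D s (0 + (P + 1))).set z y)) = (dgL D s e).rev.set (Rv D s e (sg P p z)) y := by
  simp only [zero_add, Rv_get, ← Rv_set, he, sg_up hp, implies_true, and_self]

def qq (s D i : ℕ) : ℕ := ((2 ^ s - 1) / D.factorial - i) * D.factorial + 1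

def cq (s D i : ℕ) : ℕ := ∏ a ∈ range i,
  ((2 ^ s - 1) / D.factorial - i) * ((2 ^ s - 1) / D.factorial - i) * (D.factorial / (i - a))

lemma moduli {s D : ℕ} (h : 2 * (D * D) * D.factorial ≤ 2 ^ s) (hD : 0 < D) :
    (∀ a, 0 < qq s D a ∧ qq s D a ≤ 2 ^ s) ∧
    (∀ i < D, cq s D i * ∏ b ∈ range i, qq s D b ≡ 1 [MOD qq s D i]) ∧
    (2 ^ s) ^ D ≤ 2 * ∏ b ∈ range D, qq s D b := by
  have hL := D.factorial_pos
  have h1 := Nat.div_add_mod' (2 ^ s - 1) D.factorial
  have h2 := Nat.mod_lt (2 ^ s - 1) hL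
  have h3 := Nat.two_pow_pos s
  have h4 : D ≤ (2 ^ s - 1) / D.factorial := (Nat.le_div_iff_mul_le hL).2 (by
    have : D * D.factorial ≤ D * D * D.factorial := by gcongr; nlinarith
    have := Nat.mul_pos hD hL
    rw [mul_assoc] at h; omega)
  unfold qq cq
  have hd : ∀ i < D, ∀ a < i, i - a ∣ D.factorial := fun i hi a ha => Nat.dvd_factorial (by omega) (by omega)
  generalize (2 ^ s - 1) / D.factorial = t at *
  generalize D.factorial = L at *
  generalize 2 ^ s = τ at *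
  refine ⟨fun a => ⟨by omega, by have := Nat.mul_le_mul_right L (Nat.sub_le t a); omega⟩, fun i hi => ?_, ?_⟩
  · rw [← ZMod.natCast_eq_natCast_iff, ← prod_mul_distrib, Nat.cast_prod, Nat.cast_one]
    refine prod_eq_one fun a ha => ?_
    have ha := mem_range.1 ha
    have e1 : (((t - i) * L + 1 : ℕ) : ZMod ((t - i) * L + 1)) = 0 := ZMod.natCast_self _
    have e2 := congrArg (Nat.cast (R := ZMod ((t - i) * L + 1))) (Nat.div_mul_cancel (hd i hi a ha))
    rw [show t - a = t - i + (i - a) by omega]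
    generalize t - i = u, i - a = v at *
    push_cast at *
    linear_combination (u * u * (L / v : ℕ) + u * L - 1) * e1 + u * u * L * e2
  · have a : (τ - D * L) ^ D ≤ ∏ b ∈ range D, ((t - b) * L + 1) := by
      rw [← card_range D, ← prod_const, card_range]
      refine prod_le_prod' fun b hb => ?_
      obtain ⟨u, rfl⟩ := Nat.exists_eq_add_of_le h4
      have := Nat.mul_le_mul_right L (show u + 1 ≤ D + u - b by simp at hb; omega)
      rw [add_mul] at h1 this; omega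
    refine le_trans ?_ (Nat.mul_le_mul_left _ a)
    have t0 : (0 : ℝ) < τ := by exact_mod_cast h3
    have b : (2 * (D * D) * L : ℝ) ≤ τ := by exact_mod_cast h
    have d1 : (1 : ℝ) ≤ D := by exact_mod_cast hD
    have c : D * L ≤ τ := by nlinarith
    have c' : (D * L : ℝ) ≤ τ := by exact_mod_cast c
    have e := one_add_mul_le_pow (a := -(D * L / τ : ℝ)) (by have := (div_le_one t0).2 c'; linarith) D
    have f : ((τ - D * L : ℕ) : ℝ) = τ * (1 + -(D * L / τ)) := by rw [Nat.cast_sub c]; push_cast; field_simp; ring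
    have g : (D * (D * L / τ) : ℝ) ≤ 1 / 2 := by rw [← mul_div_assoc, div_le_iff₀ t0]; linarith
    rw [← Nat.cast_le (α := ℝ)]
    push_cast
    rw [f, mul_pow]
    nlinarith [pow_pos t0 D]

variable {γ : Type} [Cd γ] {w : Wd γ} {μ k p ψ T D s : γ → ℕ} {ν : ℕ → ℕ}

lemma Wc.both (W : Wc w k μ ψ p T D s ν) (dv : ∀ c, 2 ^ (s c + D c + p c + 1) ∣ w.N c)
    (hR : Pm (w.zp k) μ fun c => Rv (D c) (s c) (D c + (p c + 1))) {q m : γ → ℕ → ℕ}
    (pq : In polyB fun x : γ × ℕ => q x.1 x.2) (hq : ∀ c a, 0 < q c a ∧ q c a ≤ 2 ^ s c)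
    (pm : In polyB fun x : γ × ℕ => m x.1 x.2) (hm : ∀ c a, 0 < m c a) {σ : ℤ} (hσ : σ = 1 ∨ σ = -1)
    {H : ∀ c, (Fin (D c) → ZMod (2 ^ s c)) → Fin (D c) → ZMod (2 ^ s c)}
    (hH : Pm (w.zp k) μ fun c => (dgL (D c) (s c) (D c + (p c + 1))).rev.act (H c)) :
    NOp w k μ ψ (fun c => s c + D c + p c) (fun c => s c + D c + p c) (fun c => (2 ^ (s c + 5)) ^ (D c * 40))
      (fun c v => opM (dgL (D c) (s c) (0 + (s c + D c + p c + 1))) (Af _ _ (q c) (m c) σ)
        fun z => v ((dgL (D c) (s c) (0 + (s c + D c + p c + 1))).act (H c) z)) ∧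
    NOp w k μ ψ (fun c => s c + D c + p c) (fun c => s c + D c + p c) (fun c => (2 ^ (s c + 5)) ^ (D c * 40))
      fun c v z => opM (dgL (D c) (s c) (0 + (s c + D c + p c + 1))) (Af _ _ (q c) (m c) σ) v
        ((dgL (D c) (s c) (0 + (s c + D c + p c + 1))).act (H c) z) := by
  have l : ∀ c, p c < s c + D c + p c := fun c => by have := W.hT c; omega
  have d := w.domE dv
  have pp : In polyB p := (W.R.fw.pr.sub (In.const 1)).congr fun c => by simp
  have h0 : Pm (w.zp k) μ fun c z => sg (s c + D c + p c) (p c) z := Pm.swp 2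
    (((W.ps.add W.pD).add pp).pow2 (d.mono' fun c => by omega)) (pp.pow2 (d.mono' fun c => by omega))
    (fun c => sg_dvd (l c)) fun c => by rw [← pow_succ']; exact dv c
  have n1 := NOp.pm (ψ := ψ) h0 fun c z => (sg_bt (l c) z).1
  have n1' := NOp.pm (ψ := ψ) h0 fun c z => (sg_bt (l c) z).2
  have n2 : NOp w k μ ψ p p (fun _ => 1) fun c v z => v (Rv (D c) (s c) (D c + (p c + 1)) z) :=
    NOp.act (D := fun c => D c + 1) hR
  have n3 : NOp w k μ ψ p p (fun _ => 1) fun c v z => v ((dgL (D c) (s c) (D c + (p c + 1))).rev.act (H c) z) :=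
    NOp.act (H := fun c x i => H c (fun i => x i.rev) i.rev) hH
  have u := In.id.fst.pair ((W.pD.comp In.id.fst).sub (In.id.snd.add (In.const 1)))
  have q' := pq.comp u
  have m' := pm.comp u
  have n4 : NOp w k μ ψ p p (fun c => (2 ^ (s c + 5)) ^ (D c * 40)) fun c =>
      opM (dgL (D c) (s c) (D c + (p c + 1))).rev (Af _ _ (q c) (m c) σ) :=
    (W.dft (q := fun c a => q c (D c - (a + 1))) (m := fun c a => m c (D c - (a + 1))) q' (fun c a => hq _ _) m'
      (fun c a => hm _ _) hσ).congr fun c v => opM_rev _ (fun i => (1 / m c i : ℂ) • Am (s c) (q c i) σ) v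
  have e := fun c => lens_conj (pi_lens (D := D c) (s := s c) (e := D c + (p c + 1)) (by omega) (l c))
  have a := ((((n1.comp n2).comp n3).comp n4).comp n2).comp n1'
  have b := ((((n1.comp n2).comp n4).comp n3).comp n2).comp n1'
  exact ⟨(a.mono ⟨1, by simp⟩ fun c => by simp).congr fun c v => funext fun z => by
    simp only [e, Rv_Rv, sg_sg (l c)], (b.mono ⟨1, by simp⟩ fun c => by simp).congr fun c v => funext fun z => by
    simp only [e, Rv_Rv, sg_sg (l c)]⟩

lemma Emb.res {M M' N : γ → ℕ} {f g} (h : Emb M N f g) (pM : In polyB M') (l : ∀ c, M' c ≤ M c) : Emb M' N f g :=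
  ⟨pM, h.pN, h.pf, h.pg, fun c y y' a b => h.mono c y y' a (b.trans_le (l c)),
    fun c y a => h.lt c y (a.trans_le (l c)), fun c y a => h.inv c y (a.trans_le (l c))⟩

lemma poly_qq (ps : In polyB s) (ds : Dom polyB s) (pD : In polyB D) (dD : Dom polyB D) :
    In polyB (fun x : γ × ℕ => qq (s x.1) (D x.1) x.2) ∧
      In polyB fun x : {x : γ × ℕ // x.2 < D x.1} => cq (s x.1.1) (D x.1.1) x.1.2 := by
  have l0 := In.id.snd.add (In.const (B := polyB) (α := γ × ℕ) 1)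
  have pL : In polyB fun c => (D c).factorial := (In.fprod (g := fun (_ : γ) a => a + 1) pD dD l0).congr
    fun c => prod_range_add_one_eq_factorial _
  have pt := ((((ps.pow2 ds).sub (In.const 1)).div pL).comp In.id.fst).sub (In.id.snd (α := γ × ℕ))
  have v := In.id.fst.val (B := polyB) (α := {x : γ × ℕ // x.2 < D x.1} × ℕ)
  have v' := In.id.val (B := polyB) (α := {x : γ × ℕ // x.2 < D x.1})
  have a := ((pt.comp v).mul (pt.comp v)).mul ((pL.comp v.fst).div (v.snd.sub In.id.snd))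
  have d := (dD.comp v'.fst).mono' (s := fun x => x.1.2) fun x => x.2.le
  have b := In.fprod (g := fun (x : {x : γ × ℕ // x.2 < D x.1}) a => ((2 ^ s x.1.1 - 1) / (D x.1.1).factorial - x.1.2) *
    ((2 ^ s x.1.1 - 1) / (D x.1.1).factorial - x.1.2) * ((D x.1.1).factorial / (x.1.2 - a))) v'.snd d a
  have c := (pt.mul (pL.comp In.id.fst)).add (In.const 1)
  exact ⟨c, b⟩

lemma Rich.cst {r : γ → ℕ} (R : Rich w k r T) {a : γ → ℕ} (pa : In polyB a) (h : ∀ c, a c ≤ T c) :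
    In polyB fun x : Rc T × ℕ => 2 ^ a x.1.1.1 :=
  (pa.comp In.id.fst.val.fst).pow2 (Rc.dom In.id.fst h)

lemma core_mid {b r0 : γ → ℕ} (W : Wc w k μ (fun c => 3 * b c + 1) p T D s ν)
    (pb : In polyB b) (dD : Dom polyB D) (hT : ∀ c, 10 * b c ≤ k c)
    (hN : ∀ c, w.N c = 2 * (2 ^ s c) ^ D c * 2 ^ (s c + D c + p c + 1))
    (hR : Pm (w.zp k) μ fun c => Rv (D c) (s c) (D c + (p c + 1))) {a : ℝ} (ha : 1 < a)
    (hμ : ∃ C, ∀ c, (ν (k c) + 1) * pw a (s c + D c + p c + 1) ≤ C * (μ c + 1))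
    (H : ∀ c, r0 c + 2 = D c * s c ∧ 2 * (D c * D c) * (D c).factorial ≤ 2 ^ s c ∧
      800 * (D c * s c + (s c + D c + p c + 1)) ≤ b c) :
    ∃ g : ∀ c, (ℕ → Zp (k c)) → ℕ → Zp (k c), Op (w.zp k) μ g ∧ ∀ c (f f' : ℕ → ℕ), (∀ t, ∀ n < 2 ^ (r0 c + 1),
      ∀ u < 2 ^ (s c + D c + p c + 1), f ((t * 2 ^ (r0 c + 1) + n) * 2 ^ (s c + D c + p c + 1) + u) =
        (t * (2 ^ s c) ^ D c + mx (qq (s c) (D c)) (2 ^ s c) (D c) n) * 2 ^ (s c + D c + p c + 1) + u) →
      (∀ y < 2 * 2 ^ (r0 c + 1) * 2 ^ (s c + D c + p c + 1), f' (f y) = y) →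
      PM (k c) (b c) (r0 c + (s c + D c + p c)) fun F =>
        recF (r0 c + (s c + D c + p c) + 1) (s c + D c + p c) fun y =>
          if y < 2 * 2 ^ (r0 c + 1) * 2 ^ (s c + D c + p c + 1) then g c (fun z =>
            if f' z < 2 * 2 ^ (r0 c + 1) * 2 ^ (s c + D c + p c + 1) ∧ f (f' z) = z then
              padF (s c + D c + p c) F (f' z) else 0) (f y) else 0 := by
  have md := fun c => moduli (H c).2.1 (W.hT c).2.2.2.2
  have dv : ∀ c, 2 ^ (s c + D c + p c + 1) ∣ w.N c := fun c => hN c ▸ dvd_mul_left _ _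
  have ds : Dom polyB s := (w.domE dv).mono' fun c => by omega
  obtain ⟨pq, pc⟩ := poly_qq W.ps ds W.pD dD
  have pe := W.pD.add W.R.fw.pr
  obtain ⟨θ, θ', t1, t2, i1, i2, i3⟩ := rotP (w := w.zp k) (μ := μ)
    (q := fun c => qq (s c) (D c)) (cc := fun c => cq (s c) (D c)) W.pD W.ps pe dD
    (fun c => (pow_dvd_pow _ (by omega)).trans (W.dv c)) pq (fun c => (md c).1)
    (W.hμ.imp fun C h c => le_trans (Nat.mul_le_mul_left _ (by omega)) (h c)) pc
  obtain ⟨-, f1, o1, s1⟩ := (W.both (q := fun c => qq (s c) (D c)) dv hR pq (fun c => (md c).1) (m := fun _ _ => 1) (In.const 1) (by simp)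
    (.inl rfl) t1).1
  obtain ⟨-, f2, o2, s2⟩ := (W.both (q := fun c => qq (s c) (D c)) (m := fun c => qq (s c) (D c)) dv hR pq
    (fun c => (md c).1) pq (fun c a => ((md c).1 a).1) (.inr rfl) t2).2
  have pp : In polyB p := (W.R.fw.pr.sub (In.const 1)).congr fun c => by simp
  have o3 : Op (w.zp k) μ fun c F => ub (s c + D c + p c + 1)
      (stk ((2 ^ s c) ^ D c) (fb (s c + D c + p c + 1) F)) := (negMul W.sm ha ((W.ps.pow2 ds).pow W.pD dD)
    (((W.ps.add W.pD).add pp).add (In.const 1)) fun c => by rw [hN, mul_assoc]).mono hμ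
  have pa := ((In.const 4).mul pb).sub (In.const 1)
  have pψ := ((In.const 3).mul pb).add (In.const 1)
  have c0 := (W.R.cst ((In.const 2).mul pb) fun c => by have := hT c; have := W.R.kT c; have := H c; omega).inat
  have c1 := ((W.R.cst pa fun c => by have := hT c; have := W.R.kT c; have := H c; omega).add (W.R.cst ((pa.add (In.const 1)).add pψ)
    fun c => by have := hT c; have := W.R.kT c; have := H c; omega)).inat
  have c2 := (W.R.cst pψ fun c => by have := hT c; have := W.R.kT c; have := H c; omega).inat.ineg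
  have m0 := Op.mul W.sm (W.hμ.imp fun C h c => by have := h c; have := (W.hT c).2.2.2.2; nlinarith)
    (W.R.cf (μ := μ) (f := fun x _ => (2 ^ (2 * b x.1.1) : ℕ)) c0) Op.id
  have m3 := ((m0.comp o1).comp o3).comp o2
  have m5 := Op.trunc (Op.add m3 (W.R.cf (f := fun x _ => (2 ^ (4 * b x.1.1 - 1) +
    2 ^ (4 * b x.1.1 - 1 + 1 + (3 * b x.1.1 + 1)) : ℕ)) c1)) (pa.add (In.const 1))
  have m6 := Op.add m5 (W.R.cf (f := fun x _ => -(2 ^ (3 * b x.1.1 + 1) : ℕ)) c2)
  refine ⟨_, m6, fun c f f' hf hi => ?_⟩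
  obtain ⟨h1, h2, h3⟩ := H c
  obtain ⟨-, -, -, h4, h5⟩ := W.hT c
  have h6 := (md c).2.2
  rw [← pow_mul, mul_comm (s c), ← h1] at h6
  exact core_math (md c).1 (by rw [pow_add] at h6; omega) rfl (by simpa only [und_Yn (md c).1] using hf) hi (i1 c)
    (i2 c) (fun n => funext fun i => (i3 c _ i).trans (HY (md c).1 (md c).2.1 n i)) (by omega) (by
      have e : ∀ x y : ℕ, 2 ^ x * 2 ^ x * 2 ^ x * (3 * 4 ^ y) * 8 ≤ 2 ^ (x * 3 + 2 * y + 5) := fun x y => by
        rw [pow_add, pow_add, pow_mul 2 x 3, pow_mul 2 2 y, show 2 ^ 2 = 4 by rfl]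
        nlinarith [Nat.zero_le ((2 ^ x) ^ 3 * 4 ^ y)]
      dsimp only
      rw [← pow_mul]
      exact (e _ _).trans (Nat.pow_le_pow_right two_pos (by nlinarith))) (by positivity) (hT c) (s1 c) (s2 c)

lemma Tz.op {f} (h : Tz w μ w.N w.N f) : Op w μ f := h

theorem core : ∃ (K : ℕ) (a : ℝ), 0 < a ∧ a < 1 ∧ ∀ (γ : Type) [Cd γ] (w : Wd γ) (μ k b ρ p d s κ : γ → ℕ)
    (ν : ℕ → ℕ) (a' : ℝ), SM ν → 1 < a' → In polyB k → In polyB b → In polyB p → In polyB d → In polyB s → In polyB κ →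
    (∀ c, w.N c = 2 * 2 ^ (ρ c + 1) ∧ ρ c + 3 = (d c + d c) * s c + (s c + (d c + d c) + p c + 1) ∧ 0 < d c ∧
      d c ≤ 2 ^ κ c ∧ κ c * d c < s c ∧ K * (κ c + 1) * d c ≤ p c + 1 ∧ K * s c ≤ p c + 1 ∧ s c ≤ p c + 1 ∧
      2 * ((d c + d c) * (d c + d c)) * (d c + d c).factorial ≤ 2 ^ s c ∧ 800 * (ρ c + 3) ≤ b c ∧ 10 * b c ≤ k c) →
    (∀ e, ∃ C, ∀ c, (sz c + 2 ^ s c + k c + 1) ^ e ≤ C * 2 ^ (p c + 1)) →
    (∃ C, ∀ c, s c * ((κ c + 1) * pw a (d c) + 1) + (ν (k c) + 1) * pw a' (s c + (d c + d c) + p c + 1) +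
      (d c + d c) * (pw a (s c) + ν (k c) + 1) ≤ C * (μ c + 1)) →
    ∃ f, Op (w.zp k) μ f ∧ ∀ c, PM (k c) (b c) (ρ c) (f c) := by
  obtain ⟨K1, a1, a10, a11, h1⟩ := dft
  obtain ⟨K2, a2, a20, a21, h2⟩ := revP
  refine ⟨K1 + K2, max a1 a2, lt_max_of_lt_left a10, max_lt a11 a21,
    fun γ _ w μ k b ρ p d s κ ν a' sm ha pk pb pp pd ps pκ H big ⟨C, hμ⟩ => ?_⟩
  have H2 : ∀ c, (d c + d c) * s c - 2 + 2 = (d c + d c) * s c := fun c => by
    have := H c; exact Nat.sub_add_cancel (by nlinarith)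
  obtain ⟨r0, pr, hr⟩ : ∃ r0, In polyB r0 ∧ ∀ c, r0 c + 2 = (d c + d c) * s c :=
    ⟨_, ((pd.add pd).mul ps).sub (In.const 2), H2⟩
  obtain rfl : ρ = fun c => r0 c + (s c + (d c + d c) + p c) := funext fun c => by have := H c; have := hr c; omega
  have d0 := w.domE (t := fun c => r0 c + (s c + (d c + d c) + p c) + 1) fun c => (H c).1 ▸ dvd_mul_left _ _
  have ds : Dom polyB s := d0.mono' fun c => by omega
  have dD : Dom polyB fun c => d c + d c := d0.mono' fun c => by omega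
  have pD := pd.add pd
  have p2 := (ps.add pD).add pp
  have d2 : Dom polyB fun c => s c + (d c + d c) + p c := d0.mono' fun c => by omega
  have pR := (p2.add (In.const 1)).pow2 (d2.add (Dom.const 1))
  have pM := (pr.add (In.const 1)).pow2 (d0.mono' fun c => by omega)
  have md := fun c => moduli (H c).2.2.2.2.2.2.2.2.1 (by have := H c; omega)
  have E0 := ((Emb.refl (In.const 2)).lex ((Emb.mx (q := fun c => qq (s c) (d c + d c)) (poly_qq ps ds pD dD).1
    (ps.pow2 ds) pD dD fun c a _ => (md c).1 a).res pM fun c => by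
      have := (md c).2.2; rw [← pow_mul, mul_comm (s c), ← hr, pow_succ] at this; omega)).lex (Emb.refl pR)
  obtain ⟨f, f', E, hf⟩ : ∃ f f' : γ → ℕ → ℕ, Emb (fun c => 2 * 2 ^ (r0 c + 1) * 2 ^ (s c + (d c + d c) + p c + 1))
      (fun c => 2 * (2 ^ s c) ^ (d c + d c) * 2 ^ (s c + (d c + d c) + p c + 1)) f f' ∧ ∀ c t, ∀ n < 2 ^ (r0 c + 1),
      ∀ u < 2 ^ (s c + (d c + d c) + p c + 1), f c ((t * 2 ^ (r0 c + 1) + n) * 2 ^ (s c + (d c + d c) + p c + 1) + u) =
        (t * (2 ^ s c) ^ (d c + d c) + mx (qq (s c) (d c + d c)) (2 ^ s c) (d c + d c) n) *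
          2 ^ (s c + (d c + d c) + p c + 1) + u :=
    ⟨_, _, E0, fun c t n hn u hu => by simp only [lex_div hu, lex_mod hu, lex_div hn, lex_mod hn]⟩
  clear E0
  have n1 : ∀ c, 2 * (2 ^ s c) ^ (d c + d c) * 2 ^ (s c + (d c + d c) + p c + 1) = 4 * w.N c := fun c => by
    rw [(H c).1, ← pow_mul, mul_comm (s c), ← hr]; ring
  have n2 : ∀ c, 2 * w.N c = 2 * 2 ^ (r0 c + 1) * 2 ^ (s c + (d c + d c) + p c + 1) := fun c => by
    rw [(H c).1]; ring
  have hp : ∀ c, 0 < 2 * (2 ^ s c) ^ (d c + d c) * 2 ^ (s c + (d c + d c) + p c + 1) := fun c => by positivity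
  have dv : ∀ c t, t ≤ (d c + d c) * s c + (s c + (d c + d c) + p c + 1) →
      2 ^ t ∣ 2 * (2 ^ s c) ^ (d c + d c) * 2 ^ (s c + (d c + d c) + p c + 1) := fun c t h => by
    rw [← pow_mul, mul_assoc, ← pow_add]; exact (pow_dvd_pow _ (by linarith)).mul_left _
  have R : Rich (w.rsz _ E.pN hp) k (fun c => p c + 1) fun c => 2 * 2 ^ s c + (k c) :=
    ⟨⟨pp.add (In.const 1), fun c => dv c _ (by omega)⟩, ((In.const 2).mul (ps.pow2 ds)).add pk, pk,
      fun c => by omega, fun e => (big e).elim fun C h => ⟨2 ^ e * C, fun c => by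
        rw [mul_assoc]
        refine le_trans ?_ (Nat.mul_le_mul_left _ (h c))
        rw [← mul_pow]; exact Nat.pow_le_pow_left (by omega) _⟩⟩
  have w1 := fun b => pw_mono (a := a1) (le_max_of_le_left a10.le) (le_max_left a1 a2) (le_refl b)
  have w2 := fun b => pw_mono (a := a2) (le_max_of_le_left a10.le) (le_max_right a1 a2) (le_refl b)
  have W := h1 γ (w.rsz _ E.pN hp) _ μ (fun c => 3 * b c + 1) p _ d s κ ν a' sm ha R
    (((In.const 3).mul pb).add (In.const 1)) pd ps pκ (fun c => by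
      obtain ⟨-, -, b1, b2, b3, b4, -, b5, -⟩ := H c
      exact ⟨by have := H c; omega, by omega, b1, b2, b3, le_trans (by gcongr; omega) b4, b5, dv c _ (by omega)⟩)
    ⟨C, fun c => le_trans (by
      have := w1 (d c)
      have := pw_mono (a := a') (by linarith) le_rfl (show p c + 1 ≤ s c + (d c + d c) + p c + 1 by omega)
      gcongr; omega) (hμ c)⟩
  have hR := h2 γ ((w.rsz _ E.pN hp).zp k) μ _ s (fun c => d c + d c + (p c + 1)) pD ps
    (pD.add (pp.add (In.const 1))) (fun c => ⟨by have := (H c).2.2.2.2.2.2.1; nlinarith, dv c _ (by nlinarith)⟩)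
    ⟨C, fun c => le_trans (le_trans (by have := w2 (s c); gcongr; omega) (Nat.le_add_left _ _)) (hμ c)⟩
  obtain ⟨g, o, hg⟩ := core_mid (r0 := r0) W pb dD (fun c => by have := H c; omega) (fun c => rfl) hR ha
    ⟨C, fun c => by have := hμ c; omega⟩ fun c => ⟨hr c, (H c).2.2.2.2.2.2.2.2.1, by have := H c; omega⟩
  have d3 : ∀ c t, t ≤ r0 c + (s c + (d c + d c) + p c) + 1 → 2 ^ t ∣ w.N c := fun c t h =>
    (H c).1 ▸ (pow_dvd_pow _ h).mul_left _
  have t1 := (Tz.padF (w := w) (μ := μ) (k := k) w.poly p2 d2 (fun c => d3 c _ (by omega))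
    w.pos 2 fun _ => le_rfl).cast (fun _ => rfl) n2
  have t2 := (Tz.pad (w := w) (μ := μ) (k := k) E E.pM (fun _ => le_rfl) 4
    (fun c => by rw [← n2]; omega) (fun c => (n1 c).le) fun c => by positivity).congr
    (g := fun c (F : ℕ → Zp (k c)) z => if f' c z < 2 * 2 ^ (r0 c + 1) * 2 ^ (s c + (d c + d c) + p c + 1) ∧
      f c (f' c z) = z then F (f' c z) else (0 : Zp (k c))) fun c F z _ => if_congr Iff.rfl rfl rfl
  have t3 := Op.tz (w := w.zp k) (hN := E.pN) (hp := hp) o 4 fun c => (n1 c).le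
  have t4 := (Tz.unpad (w := w) (μ := μ) (k := k) E E.pM (fun _ => le_rfl) 4
    (fun c => by rw [← n2]; omega) (fun c => (n1 c).le) hp).cast (fun _ => rfl) fun c => (n2 c).symm
  have t5 := Tz.recF (w := w) (μ := μ) (k := k) w.poly p2 d2 (fun c => d3 c _ (by omega))
    w.pos 2 (fun _ => le_rfl) ((pr.add p2).add (In.const 1)) fun c => d3 c _ le_rfl
  have t := (((t1.comp t2).comp t3).comp t4).comp t5
  have hc := fun c => hg c (f c) (f' c) (hf c) (E.inv c)
  have t' : Tz (w.zp k) μ w.N w.N fun c (F : ℕ → Zp (k c)) => recF (r0 c + (s c + (d c + d c) + p c) + 1)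
    (s c + (d c + d c) + p c) fun y => if y < 2 * 2 ^ (r0 c + 1) * 2 ^ (s c + (d c + d c) + p c + 1) then
      g c (fun z => if f' c z < 2 * 2 ^ (r0 c + 1) * 2 ^ (s c + (d c + d c) + p c + 1) ∧ f c (f' c z) = z then
        padF (s c + (d c + d c) + p c) F (f' c z) else 0) (f c y) else 0 := t
  exact ⟨_, Tz.op t', hc⟩

end Vale.Agent.P338
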