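import Vale.Agent.P338.Perm

/-! Cyclic convolutions of composite length. -/

namespace Vale.Agent.P338

open Filter Cd Finset Function Complex Matrix

set_option linter.unusedSectionVars false
set_option linter.unusedVariables false

def Yn (D s : ℕ) (q : ℕ → ℕ) (n : ℕ) (i : Fin D) : ZMod (2 ^ s) := (fld n (∏ b ∈ range i, q b) (q i) : ℕ)

def Jn (D s : ℕ) (q cc : ℕ → ℕ) (n : ℕ) (i : Fin D) : ZMod (2 ^ s) := (cc i * n % q i : ℕ)

noncomputable def Af (D s : ℕ) (q m : ℕ → ℕ) (σ : ℤ) : Matrix (Fin D → ZMod (2 ^ s)) (Fin D → ZMod (2 ^ s)) ℂ :=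
  tens fun i => (1 / m i : ℂ) • Am s (q i) σ

lemma l0_get {D s : ℕ} (t : ℕ) (x : Fin D → ZMod (2 ^ s)) : (dgL D s 0).get (t * (2 ^ s) ^ D + und x) = x ∧
    ∀ y, (dgL D s 0).set (t * (2 ^ s) ^ D + und x) y = t * (2 ^ s) ^ D + und y := by
  have a : ∀ j y, (dgL D s 0).set j y = j / (2 ^ s) ^ D * (2 ^ s) ^ D + und y := fun j y => by
    simp [dgL, setF, Nat.mod_one]
  have b := (dgL D s 0).gs (t * (2 ^ s) ^ D) x
  rw [a, Nat.mul_div_cancel _ (by positivity)] at b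
  exact ⟨b, fun y => by rw [a, lex_div (und_spec (by positivity) x).1]⟩

section
variable {D s : ℕ} {q cc : ℕ → ℕ} (hq : ∀ a, 0 < q a ∧ q a ≤ 2 ^ s)
include hq

lemma Yn_val (n : ℕ) (i : Fin D) : (Yn D s q n i).val = fld n (∏ b ∈ range i, q b) (q i) :=
  ZMod.val_cast_of_lt ((fld_lt _ _ (hq _).1).trans_le (hq _).2)

lemma Jn_val (n : ℕ) (i : Fin D) : (Jn D s q cc n i).val = cc i * n % q i :=
  ZMod.val_cast_of_lt ((Nat.mod_lt _ (hq _).1).trans_le (hq _).2)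

lemma und_Yn (n : ℕ) : und (Yn D s q n) = mx q (2 ^ s) D n := by
  simp only [und, Yn_val hq, mx, dsum, ← Fin.sum_univ_eq_sum_range]

lemma mS_Yn (n : ℕ) {i : ℕ} (h : i ≤ D) : mS q (Yn D s q n) i = n % ∏ b ∈ range i, q b := by
  simp only [mS, Yn_val hq]
  rw [Fin.sum_univ_eq_sum_range fun a => if a < i then fld n (∏ b ∈ range a, q b) (q a) * ∏ b ∈ range a, q b else 0,
    ← sum_filter, show (range D).filter (· < i) = range i by ext; simp; omega, sum_mixed]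

lemma Yn_inj {n m : ℕ} (hn : n < ∏ b ∈ range D, q b) (hm : m < ∏ b ∈ range D, q b)
    (h : Yn D s q n = Yn D s q m) : n = m := by
  have := mS_Yn hq n (le_refl D)
  rwa [h, mS_Yn hq m le_rfl, Nat.mod_eq_of_lt hn, Nat.mod_eq_of_lt hm, eq_comm] at this

lemma HY (hc : ∀ i < D, cc i * ∏ b ∈ range i, q b ≡ 1 [MOD q i]) (n : ℕ) (i : Fin D) :
    (rq (q i) (cc i * mS q (Yn D s q n) i % q i) (Yn D s q n i).val : ℕ) = Jn D s q cc n i := by
  rw [mS_Yn hq _ i.2.le, Yn_val hq, rq, if_pos (fld_lt _ _ (hq _).1), Jn, fld]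
  congr 1
  conv_rhs => rw [← Nat.div_add_mod n (∏ b ∈ range i, q b), mul_add, ← mul_assoc]
  rw [← Nat.add_mod]
  exact Nat.ModEq.add_right _ (by simpa using ((hc i i.2).mul_right _).symm)

lemma Af_mul (x) (n n' : ℕ) : Af D s q (fun _ => 1) 1 x (Jn D s q cc n) * Af D s q (fun _ => 1) 1 x (Jn D s q cc n') =
    Af D s q (fun _ => 1) 1 x (Jn D s q cc (n + n')) := by
  simp only [Af, tens, of_apply, ← prod_mul_distrib, Nat.cast_one, div_one, one_smul, Am, Jn_val hq,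
    Nat.mod_lt _ (hq _).1, and_true]
  refine prod_congr rfl fun i _ => ?_
  split_ifs
  · have e : ∀ a : ℕ, ((a % q i : ℕ) : ℝ) = a - q i * (a / q i : ℕ) := fun a => by
      rw [eq_sub_iff_add_eq]; exact_mod_cast Nat.mod_add_div a (q i)
    have : (q i : ℝ) ≠ 0 := by have := (hq i).1; positivity
    rw [← ee_add]
    refine ee_congr ((x i).val * ((cc i * (n + n') / q i : ℕ) - (cc i * n / q i : ℕ) - (cc i * n' / q i : ℕ))) ?_
    simp only [e, Int.cast_mul, Int.cast_sub, Int.cast_natCast, Nat.cast_mul, Nat.cast_add, Int.cast_one]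
    field_simp; ring
  · simp

lemma Af_inv (n : ℕ) (y) : (Af D s q q (-1) * Af D s q (fun _ => 1) 1) (Jn D s q cc n) y =
    if Jn D s q cc n = y then 1 else 0 := by
  have : ∀ i : Fin D, (1 / q i : ℂ) • Am s (q i) (-1) * (1 / (1 : ℕ) : ℂ) • Am s (q i) 1 = Pq s (q i) 1 1 :=
    fun i => by
      have := AA (σ := -1) (hq i).1 (hq i).2 (.inr rfl)
      have c : (q i : ℂ) ≠ 0 := by exact_mod_cast (hq i).1.ne'
      rw [neg_neg] at this
      simp [this, smul_smul, c]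
  simp only [Af, tens_mul, this, Pq, dgm, tens_diag, diagonal_apply, Jn_val hq, Nat.mod_lt _ (hq _).1]
  simp

lemma crt_conv {B : Type} [CommRing B] [Algebra ℂ B] {M : ℕ} (hM : 2 * M ≤ ∏ b ∈ range D, q b)
    {H H' : (Fin D → ZMod (2 ^ s)) → Fin D → ZMod (2 ^ s)} (h1 : ∀ x, H (H' x) = x) (h2 : ∀ x, H' (H x) = x)
    (h3 : ∀ n, H' (Yn D s q n) = Jn D s q cc n) {G : ℕ → B} {g : ℕ → ℕ → B}
    (hG : ∀ t < 2, ∀ y, G (t * (2 ^ s) ^ D + und y) = ∑ n ∈ range M, if Yn D s q n = y then g t n else 0)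
    (a : B) {m : ℕ} (hm : m < 2 * M) : opM (dgL D s 0) ((Af D s q q (-1)).map (algebraMap ℂ B)) (fun j =>
      a * stk ((2 ^ s) ^ D) (opM (dgL D s 0) ((Af D s q (fun _ => 1) 1).map (algebraMap ℂ B))
        fun j => G ((dgL D s 0).act H j)) j) ((dgL D s 0).act H' (und (Yn D s q m))) =
      a * ∑ n ∈ range M, ∑ n' ∈ range M, if n + n' = m then g 0 n * g 1 n' else 0 := by
  have e0 := fun x : Fin D → ZMod (2 ^ s) => l0_get 0 x
  simp only [zero_mul, zero_add] at e0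
  have e1 : ∀ t < 2, ∀ x, opM (dgL D s 0) ((Af D s q (fun _ => 1) 1).map (algebraMap ℂ B))
      (fun j => G ((dgL D s 0).act H j)) (und x + t * (2 ^ s) ^ D) =
      ∑ n ∈ range M, algebraMap ℂ B (Af D s q (fun _ => 1) 1 x (Jn D s q cc n)) * g t n := fun t ht x => by
    have : ∀ n y, Yn D s q n = H y ↔ y = Jn D s q cc n := fun n y =>
      ⟨fun h => by rw [← h3, h, h2], fun h => by rw [h, ← h3, h1]⟩
    simp only [opM, add_comm (und x), Lens.act, l0_get, hG t ht, this, mul_sum, mul_ite, mul_zero, map_apply]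
    rw [sum_comm]; simp
  generalize opM (dgL D s 0) ((Af D s q (fun _ => 1) 1).map (algebraMap ℂ B)) _ = G' at e1 ⊢
  simp only [opM, Lens.act, e0, h3, stk, Nat.mod_eq_of_lt (und_spec (Nat.two_pow_pos s) _).1, e1 0 two_pos,
    e1 1 one_lt_two, sum_mul_sum]
  simp only [mul_sum, map_apply]
  rw [sum_comm]
  refine sum_congr rfl fun n hn => ?_
  rw [sum_comm]
  refine sum_congr rfl fun n' hn' => ?_
  have := congrArg (algebraMap ℂ B) (Af_inv (cc := cc) hq m (Jn D s q cc (n + n')))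
  have e : Jn D s q cc m = Jn D s q cc (n + n') ↔ n + n' = m := ⟨fun h => Yn_inj (D := D) hq
    (by simp at hn hn'; omega) (by omega) (by rw [← h1 (Yn _ _ _ _), h3, ← h, ← h3, h1]), fun h => by rw [h]⟩
  simp only [mul_apply, map_sum, map_mul, ← Af_mul hq, e, apply_ite (algebraMap ℂ B), map_one, map_zero] at this
  have := congrArg (a * (g 0 n * g 1 n') * ·) this
  simp only [mul_sum] at this
  exact (sum_congr rfl fun _ _ => by ring).trans (this.trans (by split_ifs <;> simp))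

end

section
variable {A : Type} [CommRing A] {D s r p : ℕ}

lemma fb_opM (M) (v : ℕ → ℂ) (j : ℕ) : fb r (opM (dgL D s (0 + r)) M v) j =
    opM (dgL D s 0) (M.map (algebraMap ℂ _)) (fb r v) j := by
  simp only [fb, opM, mul_sum]
  rw [sum_comm]
  refine sum_congr rfl fun t ht => ?_
  simp only [dgL_up, lex_div (mem_range.1 ht), lex_mod (mem_range.1 ht), map_apply, Algebra.smul_def, map_sum,
    map_mul, sum_mul, mul_assoc]

lemma fb_act (H) (v : ℕ → A) (j : ℕ) : fb r (fun z => v ((dgL D s (0 + r)).act H z)) j =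
    fb r v ((dgL D s 0).act H j) :=
  fb_congr fun t ht => by simp only [Lens.act, dgL_up, lex_div ht, lex_mod ht]

lemma fb_mul (a : A) (v : ℕ → A) (j : ℕ) : fb r (fun z => a * v z) j = algebraMap _ _ a * fb r v j := by
  simp only [fb, mul_sum, Algebra.smul_def, map_mul, mul_assoc]

lemma fb_JJ (F : ℕ → A) (j : ℕ) : fb (p + 1) (JJ p F) j = -(Yg A (p + 1) ^ 2 ^ p * fb (p + 1) F j) := by
  have := congrFun (fb_ub fun j => Yg A (p + 1) ^ 2 ^ p * fb (p + 1) F j) j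
  rw [← this, funext (ub_Y F)]
  simp [fb]

lemma fb_cv (W : ℕ → ℤ) (j : ℕ) : fb (p + 1) (cv p W) j =
    (1 - algebraMap _ _ I * Yg ℂ (p + 1) ^ 2 ^ p) * fb (p + 1) (fun z => (W z : ℂ)) j := by
  have : fb (p + 1) (cv p W) j = fb (p + 1) (fun z => (W z : ℂ)) j +
      fb (p + 1) (fun z => I * JJ p (fun z => (W z : ℂ)) z) j := by
    simp only [fb, cv, JJ_cast, add_smul, sum_add_distrib]
  rw [this, fb_mul, fb_JJ]; ring

noncomputable def Cz (r M : ℕ) (F F' : ℕ → A) (m u : ℕ) : A :=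
  cf u (∑ n ∈ range M, ∑ n' ∈ range M, if n + n' = m then fb r F n * fb r F' (2 * M + n') else 0)

lemma Cz_cast (M : ℕ) (F F' : ℕ → ℤ) (m u : ℕ) :
    ((Cz r M F F' m u : ℤ) : A) = Cz r M (fun z => (F z : A)) (fun z => F' z) m u := by
  have : ∀ {A : Type} [CommRing A] (F F' : ℕ → A) a b, cf u (fb r F a * fb r F' b) = ∑ s ∈ range (2 ^ r),
      ∑ t ∈ range (2 ^ r), (if (s + t) % 2 ^ r = u then (-1) ^ ((s + t) / 2 ^ r) else 0) *
        (F (a * 2 ^ r + s) * F' (b * 2 ^ r + t)) := fun {A} _ F F' a b => by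
    simp only [fb, sum_mul_sum, map_sum]
    refine sum_congr rfl fun s _ => sum_congr rfl fun t _ => ?_
    rw [smul_mul_smul_comm, ← pow_add, map_smul, pow_neg_mod Yg_pow,
      show (-1 : Rg A r) ^ ((s + t) / 2 ^ r) = algebraMap A _ ((-1) ^ ((s + t) / 2 ^ r)) by simp,
      ← Algebra.smul_def, map_smul, cf_mono (Nat.mod_lt _ (by positivity))]
    simp [mul_comm]
  simp only [Cz, map_sum, apply_ite (cf u), map_zero, this]
  push_cast; rfl

lemma Cz_eq {r0 : ℕ} {F : ℕ → A} (h : ∀ j, 2 ^ r0 ≤ j % 2 ^ (r0 + 1) → fb r F j = 0) {m u : ℕ}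
    (hm : m < 2 ^ (r0 + 1)) (hu : u < 2 ^ r) :
    ub r (ub (r0 + 1) (stk 1 (fb (r0 + 1) (fb r F)))) (m * 2 ^ r + u) = Cz r (2 ^ r0) F F m u := by
  rw [ub, lex_div hu, lex_mod hu, ub, stk, fb_half h, fb_half h, cf_mul (by rw [pow_succ']), Nat.mod_eq_of_lt hm, Cz]
  simp [Nat.mod_one, pow_succ']

lemma recF_congr {r1 r2 z : ℕ} (hr : r = r1 + r2) {H H' : ℕ → A} (h : ∀ m < 2 ^ r1, ∀ u < 2 ^ (r2 + 1),
    H (m * 2 ^ (r2 + 1) + u) = H' (m * 2 ^ (r2 + 1) + u)) (hz : z < 2 ^ r) :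
    recF r r2 H z = recF r r2 H' z := by
  subst hr
  have : ∀ b < 2, fb (r1 + r2) (pk r2 b H) 0 = fb (r1 + r2) (pk r2 b H') 0 := fun b hb => fb_congr fun t ht => by
    have := Nat.mod_lt t (Nat.two_pow_pos r2)
    rw [zero_mul, zero_add]
    exact h _ ((Nat.div_lt_iff_lt_mul (by positivity)).2 (by rwa [← pow_add])) _ (by
      rw [pow_succ]; nlinarith [Nat.mul_le_mul_right (2 ^ r2) (Nat.le_of_lt_succ hb)])
  simp only [recF, ub, Nat.div_eq_of_lt hz, this 0 two_pos, this 1 one_lt_two]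

end

lemma round_eq {W C : ℤ} {a ψ : ℕ} (h : |W - 2 ^ (a + 1) * C| < 2 ^ a) (hC : |C| ≤ 2 ^ ψ) :
    (W + (2 ^ a + 2 ^ (a + 1 + ψ) : ℕ)).tdiv (2 ^ (a + 1)) = C + 2 ^ ψ ∧
      |W + (2 ^ a + 2 ^ (a + 1 + ψ) : ℕ)| < 2 ^ (a + 1 + ψ + 2) := by
  rw [abs_lt] at h
  rw [abs_le] at hC
  have e : W + (2 ^ a + 2 ^ (a + 1 + ψ) : ℕ) = W - 2 ^ (a + 1) * C + 2 ^ a + 2 ^ (a + 1) * (C + 2 ^ ψ) := by
    push_cast; ring
  have p : (0 : ℤ) < 2 ^ a := by positivity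
  have p' : (0 : ℤ) < 2 ^ ψ := by positivity
  have n : 0 ≤ W - 2 ^ (a + 1) * C + 2 ^ a + 2 ^ (a + 1) * (C + 2 ^ ψ) :=
    add_nonneg (by linarith) (mul_nonneg (by positivity) (by linarith))
  rw [e, Int.tdiv_eq_ediv_of_nonneg n, Int.add_mul_ediv_left _ _ (by positivity),
    Int.ediv_eq_zero_of_lt (by linarith) (by rw [pow_succ] at *; linarith), zero_add, abs_of_nonneg n]
  refine ⟨rfl, ?_⟩
  rw [show (2 : ℤ) ^ (a + 1 + ψ + 2) = 2 ^ a * 2 ^ ψ * 8 by ring, pow_succ] at *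
  nlinarith

section
variable {k b a g r0 r2 D s N : ℕ} {q cc f f' : ℕ → ℕ} (hq : ∀ a, 0 < q a ∧ q a ≤ 2 ^ s)
  (hM : 2 * 2 ^ r0 ≤ ∏ b ∈ range D, q b) (hN : N = 2 * 2 ^ (r0 + 1) * 2 ^ (r2 + 1))
  (hf : ∀ t, ∀ n < 2 ^ (r0 + 1), ∀ u < 2 ^ (r2 + 1), f ((t * 2 ^ (r0 + 1) + n) * 2 ^ (r2 + 1) + u) =
    (t * (2 ^ s) ^ D + und (Yn D s q n)) * 2 ^ (r2 + 1) + u) (hi : ∀ y < N, f' (f y) = y)
include hq hM hN hf hi

lemma pad_fb {A : Type} [CommRing A] {X : ℕ → A} (h : ∀ j, 2 ^ r0 ≤ j % 2 ^ (r0 + 1) → fb (r2 + 1) X j = 0)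
    {t : ℕ} (ht : t < 2) (y : Fin D → ZMod (2 ^ s)) :
    fb (r2 + 1) (fun z => if f' z < N ∧ f (f' z) = z then X (f' z) else 0) (t * (2 ^ s) ^ D + und y) =
      ∑ n ∈ range (2 ^ r0), if Yn D s q n = y then fb (r2 + 1) X (t * 2 ^ (r0 + 1) + n) else 0 := by
  have e := pow_succ' 2 r0
  by_cases hy : ∃ n < 2 ^ (r0 + 1), Yn D s q n = y
  · obtain ⟨n, hn, rfl⟩ := hy
    have : fb (r2 + 1) (fun z => if f' z < N ∧ f (f' z) = z then X (f' z) else 0)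
        (t * (2 ^ s) ^ D + und (Yn D s q n)) = fb (r2 + 1) X (t * 2 ^ (r0 + 1) + n) := fb_congr fun u hu => by
      have l : _ < N := hN ▸ lex_bound (lex_bound ht hn) hu
      rw [← hf t n hn u hu, hi _ l, if_pos ⟨l, rfl⟩]
    rw [this, sum_congr rfl fun n' h' => if_congr ⟨Yn_inj hq (by simp at h'; omega) (by omega),
      congrArg _⟩ rfl rfl, sum_ite_eq']
    split_ifs with c
    · rfl
    · exact h _ (by rw [lex_mod hn]; simpa using c)
  · rw [sum_eq_zero fun n hn => if_neg fun c => hy ⟨n, by simp at hn; omega, c⟩]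
    refine sum_eq_zero fun u hu => ?_
    dsimp only
    rw [if_neg, zero_smul]
    rintro ⟨-, c⟩
    have l := Nat.mod_lt (f' ((t * (2 ^ s) ^ D + und y) * 2 ^ (r2 + 1) + u) / 2 ^ (r2 + 1)) (Nat.two_pow_pos (r0 + 1))
    have := hf (f' ((t * (2 ^ s) ^ D + und y) * 2 ^ (r2 + 1) + u) / 2 ^ (r2 + 1) / 2 ^ (r0 + 1)) _ l _
      (Nat.mod_lt (f' ((t * (2 ^ s) ^ D + und y) * 2 ^ (r2 + 1) + u)) (Nat.two_pow_pos (r2 + 1)))
    rw [Nat.div_add_mod', Nat.div_add_mod', c] at this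
    have := congrArg (fun z => (dgL D s 0).get (z / 2 ^ (r2 + 1))) this
    simp only [lex_div (mem_range.1 hu), lex_div (Nat.mod_lt _ (Nat.two_pow_pos _)), l0_get] at this
    exact hy ⟨_, l, this.symm⟩

variable {H H' : (Fin D → ZMod (2 ^ s)) → Fin D → ZMod (2 ^ s)} (h1 : ∀ x, H (H' x) = x)
  (h2 : ∀ x, H' (H x) = x) (h3 : ∀ n, H' (Yn D s q n) = Jn D s q cc n)
include h1 h2 h3

lemma core_val {X : ℕ → ℤ} (h : ∀ j, 2 ^ r0 ≤ j % 2 ^ (r0 + 1) → fb (r2 + 1) (fun z => (X z : ℂ)) j = 0)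
    (c : ℤ) {m u : ℕ} (hm : m < 2 ^ (r0 + 1)) (hu : u < 2 ^ (r2 + 1)) :
    opM (dgL D s (0 + (r2 + 1))) (Af D s q q (-1)) (fun z => ub (r2 + 1) (stk ((2 ^ s) ^ D) (fb (r2 + 1)
      (opM (dgL D s (0 + (r2 + 1))) (Af D s q (fun _ => 1) 1) fun z => cv r2 (fun z => c * if f' z < N ∧
        f (f' z) = z then X (f' z) else 0) ((dgL D s (0 + (r2 + 1))).act H z)))) z / 2)
      ((dgL D s (0 + (r2 + 1))).act H' (f (m * 2 ^ (r2 + 1) + u))) = (c * c * Cz (r2 + 1) (2 ^ r0) X X m u : ℤ) +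
        (c * c * Cz (r2 + 1) (2 ^ r0) (JJ r2 X) X m u : ℤ) * I := by
  have e := hf 0 m hm u hu
  simp only [zero_mul, zero_add] at e
  have := crt_conv hq hM h1 h2 h3 (G := fb (r2 + 1) (cv r2 fun z => c * if f' z < N ∧ f (f' z) = z then X (f' z) else 0))
    (g := fun t n => (1 - algebraMap _ _ I * Yg ℂ (r2 + 1) ^ 2 ^ r2) * (algebraMap ℂ _ c *
      fb (r2 + 1) (fun z => (X z : ℂ)) (t * 2 ^ (r0 + 1) + n))) (fun t ht y => by
        simp only [fb_cv, Int.cast_mul, fb_mul, Int.cast_ite, Int.cast_zero, pad_fb hq hM hN hf hi h ht]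
        simp only [mul_sum, mul_ite, mul_zero]) (algebraMap ℂ _ 2⁻¹) (by rwa [← pow_succ'])
  simp only [← funext (fb_act H _), ← funext (fb_opM _ _)] at this
  conv_lhs at this => rw [← fb_ub (stk _ _)]
  simp only [← fb_mul, ← fb_opM, ← fb_act] at this
  have := congrArg (cf u) this
  rw [fb, cf_sum _ hu] at this
  simp only [e, div_eq_inv_mul, this, Int.cast_mul, Cz_cast, JJ_cast]
  rw [mul_right_comm _ _ I, ← smul_eq_mul (c * c : ℂ) (Cz ..), ← smul_eq_mul (_ * I), Cz, Cz, ← map_smul, ← map_smul,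
    ← map_add]
  simp only [mul_sum, smul_sum, ← sum_add_distrib]
  refine congrArg _ (sum_congr rfl fun n _ => sum_congr rfl fun n' _ => ?_)
  have hI : algebraMap ℂ (Rg ℂ (r2 + 1)) I * algebraMap ℂ _ I = -1 := by rw [← map_mul]; simp
  have hY : Yg ℂ (r2 + 1) ^ 2 ^ r2 * Yg ℂ (r2 + 1) ^ 2 ^ r2 = -1 := by
    rw [← pow_add, ← two_mul, ← pow_succ', Yg_pow]
  have h2 : algebraMap ℂ (Rg ℂ (r2 + 1)) 2⁻¹ * 2 = 1 := by
    rw [← map_ofNat (algebraMap ℂ (Rg ℂ (r2 + 1))) 2, ← map_mul]; simp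
  split_ifs
  · simp only [fb_JJ, fb_mul, Algebra.smul_def, map_mul, zero_mul, zero_add, one_mul, pow_succ' 2 r0]
    generalize fb (r2 + 1) (fun z => (X z : ℂ)) n = A, fb (r2 + 1) (fun z => (X z : ℂ)) (_ + n') = B,
      algebraMap ℂ (Rg ℂ (r2 + 1)) c = c, Yg ℂ (r2 + 1) ^ 2 ^ r2 = y, algebraMap ℂ (Rg ℂ (r2 + 1)) I = i,
      algebraMap ℂ (Rg ℂ (r2 + 1)) 2⁻¹ = h at hI hY h2 ⊢
    linear_combination c * c * A * B * (1 - i * y) * h2 + h * c * c * A * B * y * y * hI - h * c * c * A * B * hY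
  · simp

lemma core_math (ha : a + 1 = 4 * b) (hg : g * g * g * (3 * 4 ^ (r2 + 1)) * 8 ≤ 2 ^ b) (hg0 : 0 < g)
    (hk : 10 * b ≤ k) {f1 f2 : (ℕ → Zp k) → ℕ → Zp k}
    (s1 : ∀ (W : ℕ → ℤ) v (E : ℝ), 1 ≤ E → E * g * (2 ^ (3 * b + 1) * 2 ^ (3 * b + 1)) ≤ 2 ^ k →
      Apx r2 (3 * b + 1) W v E → ∃ W' : ℕ → ℤ, f1 (fun z => W z) = (fun z => (W' z : Zp k)) ∧ Apx r2 (3 * b + 1) W'
        (opM (dgL D s (0 + (r2 + 1))) (Af D s q (fun _ => 1) 1) fun z => v ((dgL D s (0 + (r2 + 1))).act H z)) (E * g))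
    (s2 : ∀ (W : ℕ → ℤ) v (E : ℝ), 1 ≤ E → E * g * (2 ^ (3 * b + 1) * 2 ^ (3 * b + 1)) ≤ 2 ^ k →
      Apx r2 (3 * b + 1) W v E → ∃ W' : ℕ → ℤ, f2 (fun z => W z) = (fun z => (W' z : Zp k)) ∧ Apx r2 (3 * b + 1) W'
        (fun z => opM (dgL D s (0 + (r2 + 1))) (Af D s q q (-1)) v ((dgL D s (0 + (r2 + 1))).act H' z)) (E * g)) :
    PM k b (r0 + r2) fun F => recF (r0 + r2 + 1) r2 fun y => if y < N then tr k (a + 1) (f2 (ub (r2 + 1)
      (stk ((2 ^ s) ^ D) (fb (r2 + 1) (f1 fun z => ((2 ^ (2 * b) : ℕ) : ℤ) * if f' z < N ∧ f (f' z) = z then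
        padF r2 F (f' z) else 0)))) (f y) + ((2 ^ a + 2 ^ (a + 1 + (3 * b + 1)) : ℕ) : ℤ)) +
          (-(2 ^ (3 * b + 1) : ℕ) : ℤ) else 0 := by
  intro x hx hx0 z hz
  have hr : r0 + r2 + 1 = r0 + 1 + r2 := by omega
  rw [← rec_stk hr 1]
  refine recF_congr hr (fun m hm u hu => ?_) hz
  obtain ⟨X, hX⟩ : ∃ X, X = padF r2 fun z => (x z : ℤ) := ⟨_, rfl⟩
  have c1 : padF r2 (fun z => (x z : Zp k)) = fun z => (X z : Zp k) := funext fun z => by
    rw [hX, padF, padF]; split_ifs <;> simp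
  have c2 : ∀ (A : Type) [CommRing A] j, 2 ^ r0 ≤ j % 2 ^ (r0 + 1) → fb (r2 + 1) (fun z => (X z : A)) j = 0 :=
    fun A _ j hj => sum_eq_zero fun t ht => by
      dsimp only
      rw [hX, padF, lex_div (mem_range.1 ht), lex_mod (mem_range.1 ht)]
      split_ifs with h
      · rw [hx0 _ (by
          rw [hr, pow_add, pow_add _ _ r2, mul_comm (2 ^ (r0 + 1)), Nat.mod_mul, lex_div h]
          nlinarith [Nat.mul_le_mul_left (2 ^ r2) hj, Nat.zero_le ((j * 2 ^ r2 + t) % 2 ^ r2)])]; simp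
      · simp
  have c3 : ∀ z, |(X z : ℝ)| ≤ 2 ^ b := fun z => by
    rw [hX, padF]; split_ifs
    · simpa using (Nat.cast_le (α := ℝ)).2 (hx _).le
    · simp
  rw [if_pos (hN ▸ (lex_bound (hm.trans_le (by omega)) hu)), c1, Cz_eq (c2 _) hm hu, ← Cz_cast]
  obtain ⟨W, hW⟩ : ∃ W : ℕ → ℤ, W = fun z => ((2 ^ (2 * b) : ℕ) : ℤ) * if f' z < N ∧ f (f' z) = z then
    X (f' z) else 0 := ⟨_, rfl⟩
  have c4 : ∀ z, ‖(W z : ℂ)‖ ≤ 2 ^ (3 * b) := fun z => by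
    rw [hW, Complex.norm_intCast, show 3 * b = 2 * b + b by ring, pow_add]
    push_cast
    rw [abs_mul, abs_of_pos (by positivity)]
    gcongr; split_ifs
    · exact c3 _
    · simp
  have A0 : Apx r2 (3 * b + 1) W (cv r2 W) 1 := fun z => ⟨by simp, (norm_add_le _ _).trans (by
    have := c4 z
    have := c4 (z ^^^ 2 ^ r2)
    simp only [JJ, norm_mul, norm_I, Int.cast_mul, Int.cast_pow, Int.cast_neg, Int.cast_one, norm_pow, norm_neg,
      norm_one, one_pow, one_mul, pow_succ]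
    linarith)⟩
  have g1 : (1 : ℝ) ≤ g := by exact_mod_cast hg0
  have g2 : (g : ℝ) * g * g * (3 * 4 ^ (r2 + 1)) * 8 ≤ 2 ^ b := by exact_mod_cast hg
  have g3 : 1 * (g : ℝ) * (1 * g) * 2 ^ (3 * b + 1) * (3 * 4 ^ (r2 + 1)) * g * 2 ≤ 2 ^ a := by
    have : (2 : ℝ) ^ a * 2 = 2 ^ b * 2 ^ (3 * b) := by rw [← pow_succ, ha, ← pow_add]; congr 1; ring
    have := mul_le_mul_of_nonneg_right g2 (by positivity : (0 : ℝ) ≤ 2 ^ (3 * b))
    rw [pow_succ]; nlinarith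
  have g4 : (1 : ℝ) ≤ 1 * g * (1 * g) * 2 ^ (3 * b + 1) * (3 * 4 ^ (r2 + 1)) / (1 * g) := by
    rw [one_mul, mul_assoc, mul_assoc, mul_div_cancel_left₀ _ (by positivity)]
    exact one_le_mul_of_one_le_of_one_le g1 (one_le_mul_of_one_le_of_one_le (one_le_pow₀ one_le_two)
      (by have := one_le_pow₀ (n := r2 + 1) (show (1 : ℝ) ≤ 4 by norm_num); linarith))
  rw [one_le_div (by positivity)] at g4
  have g5 : (2 : ℝ) ^ a / 2 * (2 ^ (3 * b + 1) * 2 ^ (3 * b + 1)) ≤ 2 ^ k := by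
    rw [← pow_add, div_mul_eq_mul_div, ← pow_add, div_le_iff₀ two_pos, ← pow_succ]
    exact pow_le_pow_right₀ one_le_two (by omega)
  obtain ⟨W1, e1, A1⟩ := s1 W _ 1 le_rfl (le_trans (by gcongr; nlinarith) g5) A0
  obtain ⟨W3, e3, A3⟩ := s2 _ _ _ (by linarith) (le_trans (by gcongr; linarith) g5) (A1.prod ((2 ^ s) ^ D))
  obtain ⟨b1, b2⟩ := A3 (f (m * 2 ^ (r2 + 1) + u))
  dsimp only at b1 b2
  rw [hW, core_val hq hM hN hf hi h1 h2 h3 (c2 ℂ) _ hm hu] at b1 b2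
  have b3 := (abs_re_le_norm _).trans b1
  have b4 := (abs_re_le_norm _).trans b2
  have e4 : ((2 ^ (2 * b) : ℕ) : ℤ) * (2 ^ (2 * b) : ℕ) = 2 ^ (a + 1) := by push_cast; rw [← pow_add, ha]; congr 1; ring
  simp only [e4, cv, sub_re, add_re, mul_re, intCast_re, intCast_im, I_re, I_im, mul_zero, zero_mul, sub_zero,
    add_zero] at b3 b4
  have p : (0 : ℝ) < 2 ^ a := by positivity
  obtain ⟨r1, r2'⟩ := round_eq (W := W3 (f (m * 2 ^ (r2 + 1) + u))) (C := Cz (r2 + 1) (2 ^ r0) X X m u) (a := a)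
    (ψ := 3 * b + 1) (by exact_mod_cast (b3.trans_lt (by linarith) : _ < (2 : ℝ) ^ a)) (by
      push_cast at b4
      rw [abs_mul, abs_of_pos (by positivity)] at b4
      exact_mod_cast le_of_mul_le_mul_left (b4.trans (by gcongr; rw [pow_succ 2 a]; linarith) :
        _ ≤ (2 : ℝ) ^ (a + 1) * 2 ^ (3 * b + 1)) (by positivity))
  have e5 : (fun z => (((2 ^ (2 * b) : ℕ) : ℤ) : Zp k) * if f' z < N ∧ f (f' z) = z then (X (f' z) : Zp k) else 0) =
      fun z => (W z : Zp k) := funext fun z => by rw [hW]; simp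
  have e6 : ub (r2 + 1) (stk ((2 ^ s) ^ D) (fb (r2 + 1) fun z => (W1 z : Zp k))) =
      fun z => ((ub (r2 + 1) (stk ((2 ^ s) ^ D) (fb (r2 + 1) W1)) z : ℤ) : Zp k) := funext fun z => by
    simp only [ub_stk]; push_cast; rfl
  rw [e5, e1, e6, e3, ← Int.cast_add, tr_int _ _ _ (r2'.trans_le (by
    rw [← pow_succ']; exact pow_le_pow_right₀ one_le_two (by omega))), r1]
  push_cast; ring

end

end Vale.Agent.P338
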