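import Mathlib

namespace Vale.Agent.P338

/-- Head moves. -/
inductive Move
  | left
  | stay
  | right

/-- The new head position on a one-way infinite tape (a left move at cell `0` stays there). -/
def Move.apply : Move → ℕ → ℕ
  | .left, p => p - 1
  | .stay, p => p
  | .right, p => p + 1

/-- The letters used for input and output: the blank, the two bits and the separator. -/
inductive Letter
  | blank
  | bit (b : Bool)
  | sep

/-- A deterministic Turing machine with `k + 1` one-dimensional tapes, a finite state set `Q` and
a finite alphabet `Γ` containing the four letters.  Tape `0` holds the input and `out` is the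
designated output tape. -/
structure TM where
  k : ℕ
  Q : Type
  Γ : Type
  finQ : Finite Q
  finΓ : Finite Γ
  letter : Letter ↪ Γ
  start : Q
  halting : Q → Bool
  out : Fin (k + 1)
  trans : Q → (Fin (k + 1) → Γ) → Q × (Fin (k + 1) → Γ × Move)

/-- A configuration: state, tape contents and head positions. -/
structure Cfg (A : TM) where
  state : A.Q
  tape : Fin (A.k + 1) → ℕ → A.Γ
  head : Fin (A.k + 1) → ℕ

/-- One step; halting configurations do not change. -/
def TM.step (A : TM) (c : Cfg A) : Cfg A :=
  if A.halting c.state then c else
    let d := A.trans c.state fun j => c.tape j (c.head j)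
    ⟨d.1, fun j => Function.update (c.tape j) (c.head j) (d.2 j).1,
      fun j => (d.2 j).2.apply (c.head j)⟩

/-- The tape holding the word `w` in its first cells and blanks elsewhere. -/
def TM.word (A : TM) (w : List Letter) : ℕ → A.Γ := fun p => A.letter (w.getD p .blank)

/-- The configuration after `t` steps on input `w`: at the start `w` is on tape `0`, the other
tapes are blank and all heads are on the leftmost cell. -/
def TM.run (A : TM) (w : List Letter) (t : ℕ) : Cfg A :=
  A.step^[t] ⟨A.start, fun j => if j = 0 then A.word w else A.word [], fun _ => 0⟩

/-- The running time on input `w`: the first time at which the state is halting. -/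
noncomputable def TM.time (A : TM) (w : List Letter) : ℕ :=
  sInf {t | A.halting (A.run w t).state = true}

/-- The value of a binary string, leftmost bit most significant. -/
def val (x : List Bool) : ℕ := x.foldl (fun a b => 2 * a + b.toNat) 0

/-- The binary representation of `z` with exactly `k` bits, most significant bit first. -/
def bin (k z : ℕ) : List Bool := List.ofFn fun i : Fin k => z.testBit (k - 1 - i)

/-- The input word `x # y`. -/
def input (x y : List Bool) : List Letter := x.map .bit ++ .sep :: y.map .bit

/-- `A` multiplies: on `x # y` with `|x| = |y| = n ≥ 1` it halts with the `2n`-bit product on its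
output tape. -/
def TM.Multiplies (A : TM) : Prop :=
  ∀ n : ℕ, 1 ≤ n → ∀ x y : List Bool, x.length = n → y.length = n →
    ∃ t : ℕ, A.halting (A.run (input x y) t).state = true ∧
      (A.run (input x y) t).tape A.out = A.word ((bin (2 * n) (val x * val y)).map .bit)

/-- The worst-case running time over pairs of `n`-bit strings. -/
noncomputable def TM.worst (A : TM) (n : ℕ) : ℕ :=
  ⨆ p : (Fin n → Bool) × (Fin n → Bool), A.time (input (List.ofFn p.1) (List.ofFn p.2))

end Vale.Agent.P338
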