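import Vale.Agent.P338.Rec

/-! Digit systems on two blocks of axes. -/

namespace Vale.Agent.P338

open Filter Cd Function Finset

set_option linter.unusedSectionVars false

variable {α β γ δ Ω Ω' : Type} [Cd α] [Cd β] [Cd γ] [Cd δ] [Cd Ω] [Cd Ω'] {B : Bd α} {w : Wd γ}
  {μ : γ → ℕ} {φ : Ω → Ω'}

lemma Op.transfer {f} (h : Op w μ f) {w' : Wd δ} {μ' : δ → ℕ} {g : δ → γ} (hg : In polyB g) (k : ℕ)
    (hk : ∀ c, μ (g c) ≤ k * (μ' c + 1) ∧ w.N (g c) = w'.N c ∧ w.ℓ (g c) ≤ k * (w'.ℓ c + 1) ∧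
      w.Y (g c) ≤ w'.Y c ∧ 1 ≤ k)
    (t : ∀ c, w'.V c → w.V (g c)) (ht : ∀ c x, w.enc _ (t c x) = w'.enc c x) {f'}
    (e : ∀ c F, ∀ z < w'.N c, w.enc _ (f (g c) (fun z => t c (F z)) z) = w'.enc c (f' c F z)) :
    Op w' μ' f' := fun α _ B c E F hF =>
  (h α B _ (E.map w hg k fun c => by
    obtain ⟨a1, a2, a3, a4, a5⟩ := hk c
    exact ⟨a1, by rw [a2]; nlinarith, a3, a4⟩) (fun x z => t _ (F x z)) (hF.congr fun x => by
      simp only [Wd.arr, ht, (hk _).2.1])).congr fun x => by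
    simp only [Wd.arr, (hk _).2.1]; exact tab_congr (e _ _)

lemma OA.call {f : ∀ c, (ℕ → w.V c) → ℕ → w.V c} {w' : Wd δ} {μ' : δ → ℕ} {g : δ → γ}
    (hg : In polyB g) (hN : ∀ c, w.N (g c) = w'.N c)
    (t : ∀ c, w'.V c → w.V (g c)) (ht : ∀ c x, w.enc _ (t c x) = w'.enc c x) {f'}
    (e : ∀ c F, ∀ z < w'.N c, w.enc _ (f (g c) (fun z => t c (F z)) z) = w'.enc c (f' c F z))
    {S} (hS : ∀ κ c F, κ ⟨g c, F⟩ ≤ S κ c) :
    OA (fun x : Ar w => (⟨x.1, f x.1 x.2⟩ : Ar w)) w' μ' S f' := by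
  have E := w'.env μ'
  have h1 : In (w'.bx μ' Ar.c) fun x : Ar w' => (⟨g x.1, fun z => t _ (x.2 z)⟩ : Ar w) :=
    In.armk (E.small hg) (In.id.ar2.congr fun x => by simp only [Wd.arr, ht, hN])
  have h2 := (OX.call (φ := fun x : Ar w => (⟨x.1, f x.1 x.2⟩ : Ar w)) h1 fun κ x => hS κ _ _).of_cd
    (g := fun x => (g x.1, w'.arr x.1 (f' x.1 x.2))) fun x =>
      congrArg (fun l : List (List Bool) => cd (g x.1, l)) (by
        simp only [Wd.arr, hN]; exact tab_congr (e _ _))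
  refine ((((In.ox In.id.ar1).pair h2).post (g := fun p => (p.1, p.2.2)) (by fun_prop) ?_).mono
    (by simp) fun _ => rfl).of_cd fun _ => rfl
  obtain ⟨C, k, h⟩ := w'.polyle (t := fun c => sz c + sz (g c) + 2) (by
    have := Dom.sz hg; have := Dom.szid (B := (polyB : Bd δ)); fun_prop)
  refine ⟨k, C + 4, fun x => ?_⟩
  have a1 := h x.1
  have a2 := w'.arr_le k x.1 (f' x.1 x.2)
  have a3 : (w'.lg x.1 + 1) ^ k ≤ w'.U k x.1 := by
    have := w'.pos x.1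
    unfold Wd.U; nlinarith [Nat.zero_le (w'.Y x.1 * (w'.Y x.1 + w'.lg x.1 + 1) ^ k),
      Nat.zero_le (w'.N x.1 * w'.ℓ x.1), Nat.zero_le ((w'.lg x.1 + 1) ^ k)]
  simp only [sz_pair]
  nlinarith [Nat.mul_le_mul_left C a3]

lemma foldl_range_ind {σ : Type} (g : σ → ℕ → σ) (P : ℕ → σ → Prop) (k : ℕ) (s : σ) (h0 : P 0 s)
    (h : ∀ j < k, ∀ t, P j t → P (j + 1) (g t j)) : P k ((List.range k).foldl g s) := by
  induction k with
  | zero => exact h0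
  | succ k ih =>
    rw [List.range_succ, List.foldl_append]
    exact h k (by omega) _ (ih fun j hj => h j (by omega))

lemma Pm.loop {μ' k : γ → ℕ} (hk : In polyB k) (hμ : ∃ C, ∀ c, k c * (μ' c + 1) ≤ C * (μ c + 1))
    {σ τ : γ → ℕ → ℕ → ℕ} (hg : Pm (w.ext k) (fun p => μ' p.1.1) fun p => σ p.1.1 p.1.2)
    (h0 : ∀ c z, τ c 0 z = z) (h1 : ∀ c, ∀ j < k c, ∀ z, τ c (j + 1) z = τ c j (σ c j z)) :
    Pm w μ fun c => τ c (k c) :=
  (Op.loop hk hμ (g := fun c j F z => F (σ c j z)) hg).congr fun c F z _ => congrFun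
    (foldl_range_ind _ (fun j G => G = fun z => F (τ c j z)) _ F (by simp [h0])
      fun j hj G e => by simp [e, h1 c j hj]) z

section swp
variable {s1 s2 Q z : ℕ} (h2 : 0 < s2) (hQ : 0 < Q) (h1 : 0 < s1) (hd : Q * s2 ∣ s1)
include h1 h2 hQ hd

lemma swp_fld1 : fld (swp s1 s2 Q z) s1 Q = fld z s2 Q := by
  rw [swp, fld_setF_outer h2 (fld_lt _ _ hQ) hd, fld_setF h1 (fld_lt _ _ hQ)]
omit h1 hd in
lemma swp_fld2 : fld (swp s1 s2 Q z) s2 Q = fld z s1 Q := by rw [swp, fld_setF h2 (fld_lt _ _ hQ)]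
lemma swp_div {t : ℕ} (h : Q * s1 ∣ t) : swp s1 s2 Q z / t = z / t := by
  rw [swp, setF_div_outer h2 (fld_lt _ _ hQ) (hd.trans ((dvd_mul_left _ _).trans h)),
    setF_div_outer h1 (fld_lt _ _ hQ) h]
omit hQ in
lemma swp_mod {t : ℕ} (h : t ∣ s2) : swp s1 s2 Q z % t = z % t := by
  rw [swp, setF_mod_inner h2 h, setF_mod_inner h1 (h.trans ((dvd_mul_left _ _).trans hd))]
lemma swp_out {s' Q' : ℕ} (h : Q * s1 ∣ s') : fld (swp s1 s2 Q z) s' Q' = fld z s' Q' := by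
  unfold fld; rw [swp_div h2 hQ h1 hd h]
omit hd in
lemma swp_mid {s' Q' : ℕ} (h : Q * s2 ∣ s') (h' : Q' * s' ∣ s1) :
    fld (swp s1 s2 Q z) s' Q' = fld z s' Q' := by
  rw [swp, fld_setF_outer h2 (fld_lt _ _ hQ) h, fld_setF_inner h1 h']
omit hQ in
lemma swp_in {s' Q' : ℕ} (h : Q' * s' ∣ s2) : fld (swp s1 s2 Q z) s' Q' = fld z s' Q' := by
  rw [swp, fld_setF_inner h2 h, fld_setF_inner h1 (h.trans ((dvd_mul_left _ _).trans hd))]
lemma swp_lt {N : ℕ} (h : Q * s1 ∣ N) (hz : z < N) : swp s1 s2 Q z < N :=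
  setF_lt h2 (fld_lt _ _ hQ) (hd.trans ((dvd_mul_left _ _).trans h)) (setF_lt h1 (fld_lt _ _ hQ) h hz)

omit h1 h2 hQ in
lemma ext5 {z' : ℕ} (e1 : z / (Q * s1) = z' / (Q * s1)) (e2 : fld z s1 Q = fld z' s1 Q)
    (e3 : fld z (Q * s2) (s1 / (Q * s2)) = fld z' (Q * s2) (s1 / (Q * s2)))
    (e4 : fld z s2 Q = fld z' s2 Q) (e5 : z % s2 = z' % s2) : z = z' := by
  rw [← e5_self z Q (s1 / (Q * s2)) Q s2, ← e5_self z' Q (s1 / (Q * s2)) Q s2,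
    Nat.div_mul_cancel hd, e1, e2, e3, e4, e5]
end swp

lemma fld_split (z s Q c : ℕ) : fld z s (Q * c) = fld z (s * Q) c * Q + fld z s Q := by
  unfold fld; rw [Nat.mod_mul, Nat.div_div_eq_div_mul]; ring

lemma swp_succ {s1 s2 Q c : ℕ} (h1 : 0 < s1) (hd : Q * c * s2 ∣ s1) (z : ℕ) :
    swp s1 s2 (Q * c) z = swp s1 s2 Q (swp (s1 * Q) (s2 * Q) c z) := by
  have h0 := Nat.pos_of_dvd_of_pos hd h1
  have h2 := Nat.pos_of_mul_pos_left h0
  have hQc := Nat.pos_of_mul_pos_right h0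
  have hQ := Nat.pos_of_mul_pos_right hQc
  have hc := Nat.pos_of_mul_pos_left hQc
  have d1 : Q * s2 ∣ s1 := Dvd.dvd.trans ⟨c, by ring⟩ hd
  have d2 : c * (s2 * Q) ∣ s1 := Dvd.dvd.trans ⟨1, by ring⟩ hd
  have d3 := d2.mul_right Q
  have p1 : 0 < s1 * Q := by positivity
  have p2 : 0 < s2 * Q := by positivity
  refine ext5 hd ?_ ?_ ?_ ?_ ?_
  · rw [swp_div h2 hQc h1 hd dvd_rfl, swp_div h2 hQ h1 d1 ⟨c, by ring⟩,
      swp_div p2 hc p1 d3 ⟨1, by ring⟩]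
  · rw [swp_fld1 h2 hQc h1 hd, fld_split, fld_split, swp_out h2 hQ h1 d1 ⟨1, by ring⟩,
      swp_fld1 p2 hc p1 d3, swp_fld1 h2 hQ h1 d1, swp_in p2 p1 d3 ⟨1, by ring⟩]
  · have := (Nat.div_mul_cancel hd).dvd
    rw [swp_mid h2 hQc h1 dvd_rfl this, swp_mid h2 hQ h1 ⟨c, by ring⟩ this,
      swp_mid p2 hc p1 ⟨1, by ring⟩ (this.mul_right _)]
  · rw [swp_fld2 h2 hQc, fld_split, fld_split, swp_mid h2 hQ h1 ⟨1, by ring⟩ d2, swp_fld2 p2 hc,
      swp_fld2 h2 hQ, swp_mid p2 hc p1 d2 ⟨1, by ring⟩]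
  · rw [swp_mod h2 h1 hd dvd_rfl, swp_mod h2 h1 d1 dvd_rfl, swp_mod p2 p1 d3 ⟨Q, rfl⟩]

lemma swp_one (s1 s2 z : ℕ) : swp s1 s2 1 z = z := by
  have : ∀ s, fld z s 1 = 0 := fun s => Nat.mod_one _
  have h : ∀ z s, setF z s 1 0 = z := fun z s => by
    simpa [fld, Nat.mod_one] using setF_self z s 1
  rw [swp, this, this, h, h]

lemma Pm.swpN (p k : ℕ) {s1 s2 t : γ → ℕ} (h1 : In polyB s1) (h2 : In polyB s2) (ht : In polyB t)
    (hk : ∀ c, t c ≤ k) (hd : ∀ c, p ^ t c * s2 c ∣ s1 c) (hd' : ∀ c, p ^ t c * s1 c ∣ w.N c) :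
    Pm w μ fun c z => P338.swp (s1 c) (s2 c) (p ^ t c) z := by
  have dj : Dom polyB fun q : {q : γ × ℕ // q.2 < t q.1} => q.1.2 :=
    (Dom.const k).mono' fun q => q.2.le.trans (hk _)
  have key : ∀ {j t s s' : ℕ}, j < t → p ^ t * s ∣ s' → p * (s * p ^ j) ∣ s' := fun {j t s s'} hj h =>
    Dvd.dvd.trans (by rw [mul_comm s, ← mul_assoc, ← pow_succ']
                      exact Nat.mul_dvd_mul_right (pow_dvd_pow _ hj) _) h
  have a0 : In polyB fun q : {q : γ × ℕ // q.2 < t q.1} => p ^ q.1.2 :=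
    In.pow (In.const _) In.id.val.snd dj
  refine Pm.loop (μ' := fun _ => 0) ht ⟨k, fun c => by have := hk c; nlinarith⟩
    (σ := fun c j => P338.swp (s1 c * p ^ j) (s2 c * p ^ j) p)
    (τ := fun c j => P338.swp (s1 c) (s2 c) (p ^ j)) (Pm.swp (w := w.ext t) p
      ((h1.comp In.id.val.fst).mul a0) ((h2.comp In.id.val.fst).mul a0)
      (fun q => (key q.2 (hd _)).mul_right _) fun q => key q.2 (hd' _)) (fun c z => swp_one _ _ _)
    fun c j hj z => ?_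
  rw [pow_succ, swp_succ (Nat.pos_of_mul_pos_left (Nat.pos_of_dvd_of_pos (hd' c) (w.pos c)))]
  rw [← pow_succ]; exact (Nat.mul_dvd_mul_right (pow_dvd_pow _ hj) _).trans (hd c)

lemma fld_wire {W : ℕ} (z s Q : ℕ) : fld z (s * W) Q = fld (z / W) s Q := by
  unfold fld; rw [Nat.div_div_eq_div_mul, mul_comm]

lemma setF_wire {W : ℕ} (z s Q x : ℕ) : setF z (s * W) Q x = setF (z / W) s Q x * W + z % W := by
  unfold setF
  rw [mul_comm s W, Nat.mod_mul, Nat.div_div_eq_div_mul, mul_left_comm Q]; ring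

lemma swp_wire {W : ℕ} (hW : 0 < W) (z s1 s2 Q : ℕ) :
    swp (s1 * W) (s2 * W) Q z = swp s1 s2 Q (z / W) * W + z % W := by
  rw [swp, setF_wire, setF_wire, lex_div (Nat.mod_lt _ hW), lex_mod (Nat.mod_lt _ hW),
    fld_wire, fld_wire, swp]

/-! digit vectors -/

def dg (m Q s z : ℕ) (i : Fin m) : ZMod Q := fld z (s * Q ^ (i : ℕ)) Q

def und {m Q : ℕ} (x : Fin m → ZMod Q) : ℕ := ∑ i, (x i).val * Q ^ (i : ℕ)

lemma fld_pow (m Q s z : ℕ) : fld z s (Q ^ m) = ∑ i : Fin m, fld z (s * Q ^ (i : ℕ)) Q * Q ^ (i : ℕ) := by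
  induction m with
  | zero => simp [fld, Nat.mod_one]
  | succ m ih => rw [pow_succ, fld_split, ih, Fin.sum_univ_castSucc, add_comm]; rfl

lemma und_dg {Q : ℕ} (hQ : 0 < Q) (m s z : ℕ) : und (dg m Q s z) = fld z s (Q ^ m) := by
  rw [fld_pow]
  exact sum_congr rfl fun i _ => by rw [dg, ZMod.val_natCast, Nat.mod_eq_of_lt (fld_lt _ _ hQ)]

lemma und_spec {Q : ℕ} (hQ : 0 < Q) {m : ℕ} (x : Fin m → ZMod Q) :
    und x < Q ^ m ∧ dg m Q 1 (und x) = x := by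
  have : NeZero Q := ⟨hQ.ne'⟩
  let y : Fin m → Fin Q := fun i => ⟨(x i).val, ZMod.val_lt _⟩
  have e : und x = finFunctionFinEquiv y := by rw [finFunctionFinEquiv_apply]; rfl
  refine ⟨e ▸ Fin.is_lt _, funext fun i => ?_⟩
  have := finFunctionFinEquiv_symm_apply_val (finFunctionFinEquiv y) i
  rw [Equiv.symm_apply_apply] at this
  rw [dg, fld, one_mul, e, ← this, ZMod.natCast_zmod_val]

lemma fld_fld {Q Q' s s' : ℕ} (z : ℕ) (h : Q' * s' ∣ Q) : fld (fld z s Q) s' Q' = fld z (s * s') Q' := by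
  unfold fld
  rw [← Nat.mod_mul_right_div_self, mul_comm s', Nat.mod_mod_of_dvd _ h, mul_comm Q',
    Nat.mod_mul_right_div_self, Nat.div_div_eq_div_mul]

lemma dvd_pow_blk {Q m : ℕ} (i : Fin m) (s : ℕ) : Q * (s * Q ^ (i : ℕ)) ∣ Q ^ m * s := by
  rw [mul_comm s, ← mul_assoc, ← pow_succ']; exact Nat.mul_dvd_mul_right (pow_dvd_pow _ i.2) _

lemma dg_fld (m Q s z : ℕ) : dg m Q 1 (fld z s (Q ^ m)) = dg m Q s z := funext fun i => by
  rw [dg, dg, fld_fld _ (by simpa using dvd_pow_blk i 1), one_mul]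

lemma dg_set {m Q s : ℕ} (hs : 0 < s) (hQ : 0 < Q) (z : ℕ) (i : Fin m) (x : ZMod Q) :
    dg m Q s (setF z (s * Q ^ (i : ℕ)) Q x.val) = update (dg m Q s z) i x := by
  have : NeZero Q := ⟨hQ.ne'⟩
  have p : 0 < s * Q ^ (i : ℕ) := by positivity
  funext j
  rcases lt_trichotomy j i with h | rfl | h
  · rw [update_of_ne h.ne, dg, dg, fld_setF_inner p]
    rw [mul_comm _ (Q ^ (i : ℕ))]; exact dvd_pow_blk (⟨j, h⟩ : Fin i) s
  · rw [update_self, dg, fld_setF p (ZMod.val_lt _), ZMod.natCast_zmod_val]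
  · rw [update_of_ne h.ne', dg, dg, fld_setF_outer p (ZMod.val_lt _)]
    rw [mul_comm _ (Q ^ (j : ℕ))]; exact dvd_pow_blk (⟨i, h⟩ : Fin j) s

abbrev UV (m Q : ℕ) := (Fin m → ZMod Q) × (Fin m → ZMod Q)

def Act (m Q s1 s2 : ℕ) (σ : ℕ → ℕ) (H : UV m Q → UV m Q) : Prop :=
  ∀ z, σ z / (Q ^ m * s1) = z / (Q ^ m * s1) ∧
    fld (σ z) (Q ^ m * s2) (s1 / (Q ^ m * s2)) = fld z (Q ^ m * s2) (s1 / (Q ^ m * s2)) ∧
    σ z % s2 = z % s2 ∧ (dg m Q s1 (σ z), dg m Q s2 (σ z)) = H (dg m Q s1 z, dg m Q s2 z)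

section act
variable {m Q s1 s2 : ℕ} {σ τ : ℕ → ℕ} {H H' : UV m Q → UV m Q}

lemma Act.comp (h : Act m Q s1 s2 σ H) (h' : Act m Q s1 s2 τ H') :
    Act m Q s1 s2 (fun z => σ (τ z)) fun t => H (H' t) := fun z =>
  let ⟨a, b, c, d⟩ := h (τ z); let ⟨a', b', c', d'⟩ := h' z
  ⟨a.trans a', b.trans b', c.trans c', by rw [d, d']⟩

lemma Act.congr (h : Act m Q s1 s2 σ H) (e : ∀ t, H t = H' t) : Act m Q s1 s2 σ H' :=
  funext e ▸ h

variable (hQ : 0 < Q) (h1 : 0 < s1) (hd : Q ^ m * s2 ∣ s1)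
include hQ hd

lemma Act.ext (h : Act m Q s1 s2 σ H) (h' : Act m Q s1 s2 τ H) (z : ℕ) : σ z = τ z := by
  obtain ⟨a, b, c, d⟩ := h z
  obtain ⟨a', b', c', d'⟩ := h' z
  rw [← d', Prod.mk.injEq] at d
  exact ext5 hd (a.trans a'.symm) (by rw [← und_dg hQ, ← und_dg hQ, d.1]) (b.trans b'.symm)
    (by rw [← und_dg hQ, ← und_dg hQ, d.2]) (c.trans c'.symm)

include h1

lemma act_U {s Q' : ℕ} (hs : s1 ∣ s) (hs' : Q' * s ∣ Q ^ m * s1) {x : ℕ → ℕ} (hx : ∀ z, x z < Q')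
    {G : UV m Q → Fin m → ZMod Q}
    (e : ∀ z, dg m Q s1 (setF z s Q' (x z)) = G (dg m Q s1 z, dg m Q s2 z)) :
    Act m Q s1 s2 (fun z => setF z s Q' (x z)) fun t => (G t, t.2) := fun z => by
  have p : 0 < s := Nat.pos_of_mul_pos_left (Nat.pos_of_dvd_of_pos hs' (by positivity))
  refine ⟨setF_div_outer p (hx z) hs', fld_setF_inner p ((Nat.div_mul_cancel hd).dvd.trans hs),
    setF_mod_inner p ((dvd_mul_left _ _).trans (hd.trans hs)), Prod.ext (e z) (funext fun i => ?_)⟩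
  simp only [dg]; rw [fld_setF_inner p ((dvd_pow_blk i s2).trans (hd.trans hs))]

lemma act_V {s Q' : ℕ} (hs : s2 ∣ s) (hs' : Q' * s ∣ Q ^ m * s2) {x : ℕ → ℕ} (hx : ∀ z, x z < Q')
    {G : UV m Q → Fin m → ZMod Q}
    (e : ∀ z, dg m Q s2 (setF z s Q' (x z)) = G (dg m Q s1 z, dg m Q s2 z)) :
    Act m Q s1 s2 (fun z => setF z s Q' (x z)) fun t => (t.1, G t) := fun z => by
  have p : 0 < s := Nat.pos_of_mul_pos_left
    (Nat.pos_of_dvd_of_pos hs' (Nat.pos_of_dvd_of_pos hd h1))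
  refine ⟨setF_div_outer p (hx z) (hs'.trans (hd.trans (dvd_mul_left _ _))),
    fld_setF_outer p (hx z) hs', setF_mod_inner p hs, Prod.ext (funext fun i => ?_) (e z)⟩
  simp only [dg]; rw [fld_setF_outer p (hx z) (hs'.trans (hd.mul_right _))]

lemma act_full : Act m Q s1 s2 (swp s1 s2 (Q ^ m)) fun t => (t.2, t.1) := fun z => by
  have p : 0 < Q ^ m := by positivity
  have h2 := Nat.pos_of_mul_pos_left (Nat.pos_of_dvd_of_pos hd h1)
  refine ⟨swp_div h2 p h1 hd dvd_rfl, swp_mid h2 p h1 dvd_rfl (Nat.div_mul_cancel hd).dvd,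
    swp_mod h2 h1 hd dvd_rfl, ?_⟩
  rw [← dg_fld, swp_fld1 h2 p h1 hd, dg_fld, ← dg_fld _ _ s2 (swp _ _ _ _), swp_fld2 h2 p, dg_fld]

lemma act_swp (i j : Fin m) : Act m Q s1 s2 (swp (s1 * Q ^ (i : ℕ)) (s2 * Q ^ (j : ℕ)) Q)
    fun t => (update t.1 i (t.2 j), update t.2 j (t.1 i)) := fun z => by
  have : NeZero Q := ⟨hQ.ne'⟩
  have h2 := Nat.pos_of_mul_pos_left (Nat.pos_of_dvd_of_pos hd h1)
  have v : ∀ s (i : Fin m), fld z (s * Q ^ (i : ℕ)) Q = (dg m Q s z i).val := fun s i => by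
    rw [dg, ZMod.val_natCast, Nat.mod_eq_of_lt (fld_lt _ _ hQ)]
  have a := act_U hQ h1 hd (dvd_mul_right _ _) (dvd_pow_blk i s1) (x := fun _ => (dg m Q s2 z j).val)
    (fun _ => ZMod.val_lt _) (G := fun t => update t.1 i (dg m Q s2 z j)) fun y => dg_set h1 hQ _ _ _
  have b := act_V hQ h1 hd (dvd_mul_right _ _) (dvd_pow_blk j s2) (x := fun _ => (dg m Q s1 z i).val)
    (fun _ => ZMod.val_lt _) (G := fun t => update t.2 j (dg m Q s1 z i)) fun y => dg_set h2 hQ _ _ _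
  rw [swp, v, v]
  exact b.comp a z

def gM {m : ℕ} (Q s1 s2 : ℕ) (M : Matrix (Fin m) (Fin m) ℤ) (z : ℕ) : ℕ :=
  setF z s1 (Q ^ m) (und (dg m Q s1 z + (M.map (Int.cast : ℤ → ZMod Q)).mulVec (dg m Q s2 z)))

lemma act_gM (M : Matrix (Fin m) (Fin m) ℤ) : Act m Q s1 s2 (gM Q s1 s2 M)
    fun t => (t.1 + (M.map (Int.cast : ℤ → ZMod Q)).mulVec t.2, t.2) :=
  act_U hQ h1 hd dvd_rfl dvd_rfl (fun _ => (und_spec hQ _).1) fun z => by
    rw [← dg_fld, fld_setF h1 (und_spec hQ _).1, (und_spec hQ _).2]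

end act

end Vale.Agent.P338
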