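import Vale.Agent.P338.Swap

/-! Monotone embeddings of index sets. -/

namespace Vale.Agent.P338

open Filter Cd Finset

set_option linter.unusedSectionVars false
set_option linter.unusedVariables false

variable {α γ : Type} [Cd α] [Cd γ] {B : Bd α} {w : Wd γ} {μ : γ → ℕ} {c : α → γ}

lemma In.c2 {β δ : Type} [Cd β] [Cd δ] {f : γ → β → δ} (h : In polyB fun p : γ × β => f p.1 p.2)
    {a : α → γ} {b : α → β} (ha : In polyB a) (hb : In polyB b) : In polyB fun x => f (a x) (b x) :=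
  h.comp (ha.pair hb)

structure Emb (M N : γ → ℕ) (f g : γ → ℕ → ℕ) : Prop where
  pM : In polyB M
  pN : In polyB N
  pf : In polyB fun p : γ × ℕ => f p.1 p.2
  pg : In polyB fun p : γ × ℕ => g p.1 p.2
  mono : ∀ c y y', y < y' → y' < M c → f c y < f c y'
  lt : ∀ c, ∀ y < M c, f c y < N c
  inv : ∀ c, ∀ y < M c, g c (f c y) = y

variable {M N M' N' : γ → ℕ} {f g f' g' : γ → ℕ → ℕ}

lemma Emb.le (hM : In polyB M) (hN : In polyB N) (h : ∀ c, M c ≤ N c) :
    Emb M N (fun _ y => y) fun _ y => y :=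
  ⟨hM, hN, In.id.snd, In.id.snd, fun _ _ _ h _ => h, fun c _ hy => hy.trans_le (h c),
    fun _ _ _ => rfl⟩

lemma Emb.refl (hM : In polyB M) : Emb M M (fun _ y => y) fun _ y => y := .le hM hM fun _ => le_rfl

lemma Emb.lex (h : Emb M N f g) (h' : Emb M' N' f' g') :
    Emb (fun c => M c * M' c) (fun c => N c * N' c)
      (fun c y => f c (y / M' c) * N' c + f' c (y % M' c))
      fun c z => g c (z / N' c) * M' c + g' c (z % N' c) := by
  have a0 := h'.pM.comp (In.id.fst (β := γ) (γ := ℕ))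
  have b0 := h'.pN.comp (In.id.fst (β := γ) (γ := ℕ))
  have a1 := h.pf.comp (In.id.fst.pair (In.id.snd.div a0))
  have a2 := h'.pf.comp (In.id.fst.pair (In.id.snd.mod a0))
  have a3 := h.pg.comp (In.id.fst.pair (In.id.snd.div b0))
  have a4 := h'.pg.comp (In.id.fst.pair (In.id.snd.mod b0))
  have p : ∀ c y, y < M c * M' c → y % M' c < M' c ∧ y / M' c < M c := fun c y hy =>
    have : 0 < M' c := Nat.pos_of_mul_pos_left (Nat.zero_lt_of_lt hy)
    ⟨Nat.mod_lt _ this, by rwa [Nat.div_lt_iff_lt_mul this]⟩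
  refine ⟨h.pM.mul h'.pM, h.pN.mul h'.pN, (a1.mul b0).add a2, (a3.mul a0).add a4,
    fun c y y' h1 h2 => ?_, fun c y hy => lex_bound (h.lt _ _ (p c y hy).2) (h'.lt _ _ (p c y hy).1),
    fun c y hy => ?_⟩
  · have q := p c y (h1.trans h2)
    have q' := p c y' h2
    rw [← Nat.div_add_mod' y (M' c), ← Nat.div_add_mod' y' (M' c), lex_lt q.1 q'.1] at h1
    rw [lex_lt (h'.lt _ _ q.1) (h'.lt _ _ q'.1)]
    exact h1.imp (fun a => h.mono _ _ _ a q'.2) fun a => ⟨by rw [a.1], h'.mono _ _ _ a.2 q'.1⟩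
  · have q := p c y hy
    rw [lex_div (h'.lt _ _ q.1), lex_mod (h'.lt _ _ q.1), h.inv _ _ q.2, h'.inv _ _ q.1,
      Nat.div_add_mod']

lemma Emb.mono' (h : Emb M N f g) {c y y'} (hy : y < M c) (hl : f c y < f c y') : y < y' := by
  rcases lt_trichotomy y y' with a | rfl | a
  · exact a
  · omega
  · have := h.mono c _ _ a hy; omega

def Emb.im (M : γ → ℕ) (f g : γ → ℕ → ℕ) (c : γ) (z : ℕ) : Prop := g c z < M c ∧ f c (g c z) = z

instance (c z) : Decidable (Emb.im M f g c z) := by unfold Emb.im; infer_instance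

lemma Emb.im_f (h : Emb M N f g) {c y} (hy : y < M c) : Emb.im M f g c (f c y) := by
  unfold Emb.im; rw [h.inv c y hy]; exact ⟨hy, rfl⟩

lemma Emb.dec (h : Emb M N f g) : Dec polyB fun r : γ × ℕ => Emb.im M f g r.1 r.2 :=
  have a := h.pf.c2 In.id.fst h.pg
  have b := (Dec.lt h.pg (h.pM.comp In.id.fst)).and' (Dec.eq a In.id.snd)
  b

lemma Env.pad (E : Env w μ B c) (h : Emb M N f g) {M0 : γ → ℕ} (p0 : In polyB M0)
    (h0 : ∀ c, M c ≤ M0 c) (h1 : ∀ c, M0 c ≤ w.N c) (h2 : ∀ c, N c ≤ w.N c)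
    {F : α → ℕ → List Bool} (hF : In B fun x => tab (M0 (c x)) (F x)) {z0 : α → List Bool}
    (hz : In B z0) (hz' : ∀ x, (z0 x).length ≤ w.ℓ (c x)) :
    In B fun x => tab (N (c x)) fun z =>
      if Emb.im M f g (c x) z then F x (g (c x) z) else z0 x :=
  E.selL p0 h.pN h1 h2 hF hz hz' h.dec (q := fun c y => y < M c)
    (Dec.lt In.id.snd (h.pM.comp In.id.fst)) g
    (fun c z z' a b l => h.mono' a.1 (by rwa [a.2, b.2]))
    (fun c z _ a => ⟨a.1.trans_le (h0 c), a.1⟩)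
    fun c y _ hy => ⟨_, h.lt c y hy, h.im_f hy, h.inv c y hy⟩

lemma Env.unpad (E : Env w μ B c) (h : Emb M N f g) {M0 : γ → ℕ} (p0 : In polyB M0)
    (h0 : ∀ c, M c ≤ M0 c) (h1 : ∀ c, M0 c ≤ w.N c) (h2 : ∀ c, N c ≤ w.N c)
    {F : α → ℕ → List Bool} (hF : In B fun x => tab (N (c x)) (F x)) {z0 : α → List Bool}
    (hz : In B z0) (hz' : ∀ x, (z0 x).length ≤ w.ℓ (c x)) :
    In B fun x => tab (M0 (c x)) fun y => if y < M (c x) then F x (f (c x) y) else z0 x :=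
  E.selL h.pN p0 h2 h1 hF hz hz' (p := fun c y => y < M c)
    (Dec.lt In.id.snd (h.pM.comp In.id.fst)) h.dec f
    (fun c z z' _ b l => h.mono c _ _ l b) (fun c z _ a => ⟨h.lt c z a, h.im_f a⟩)
    fun c y _ a => ⟨_, a.1.trans_le (h0 c), a.1, a.2⟩

lemma Emb.card (h : Emb M N f g) (c : γ) : M c ≤ N c := by
  have : ∀ y < M c, y ≤ f c y := fun y hy => by
    induction y with
    | zero => omega
    | succ y ih => have := h.mono c y (y + 1) (by omega) hy; have := ih (by omega); omega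
  rcases Nat.eq_zero_or_pos (M c) with e | e
  · omega
  · have := this (M c - 1) (by omega); have := h.lt c (M c - 1) (by omega); omega

@[reducible] def Wd.rsz (w : Wd γ) (N : γ → ℕ) (hN : In polyB N) (h : ∀ c, 0 < N c) : Wd γ :=
  { w with N := N, pos := h, poly := hN }

lemma Env.rsz (E : Env w μ B c) (hN : In polyB N) (h : ∀ c, 0 < N c) (k : ℕ)
    (hk : ∀ c, N c ≤ k * w.N c) : Env (w.rsz N hN h) μ B c :=
  E.map (w.rsz N hN h) In.id (k + 1) fun c =>
    ⟨by nlinarith, by have := hk c; nlinarith, by nlinarith, le_rfl⟩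

lemma Pm.conj (h : Emb M N f g) (hM : ∀ c, M c = w.N c) (k : ℕ) (hk : ∀ c, N c ≤ k * w.N c)
    {τ σ : γ → ℕ → ℕ} (hp) (hτ : Pm (w.rsz N h.pN hp) μ τ)
    (e : ∀ c, ∀ y < w.N c, σ c y < w.N c ∧ τ c (f c y) = f c (σ c y)) : Pm w μ σ := by
  obtain rfl : M = w.N := funext hM
  intro α _ B c E F hF
  have E' := E.rsz h.pN hp k hk
  have h1 := E'.pad h w.poly (fun _ => le_rfl) h.card (fun _ => le_rfl) hF hF.hd
    fun _ => (w.len _ _).le
  have h2 := hτ _ _ _ E' (fun x z => if Emb.im w.N f g (c x) z then F x (g (c x) z) else F x 0)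
    (h1.congr fun x => tab_congr fun z _ => by dsimp only; split_ifs <;> rfl)
  refine (E'.unpad h w.poly (fun _ => le_rfl) h.card (fun _ => le_rfl) h2 hF.hd
    fun _ => (w.len _ _).le).congr fun x => tab_congr fun y hy => ?_
  obtain ⟨e1, e2⟩ := e _ y hy
  simp only [if_pos hy, e2, if_pos (h.im_f e1), h.inv _ _ e1]

lemma swp_e5 {a i b j r Q M s : ℕ} (hi : i < Q) (hb : b < M) (hj : j < Q) (hr : r < s) :
    swp (M * (Q * s)) s Q (e5 a i b j r Q M Q s) = e5 a j b i r Q M Q s := by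
  obtain ⟨h1, h2, h3, h4, h5⟩ := e5_dec (a := a) hi hb hj hr
  rw [← sw5_eq (by omega) (by omega) (by omega), sw5, h1, h2, h3, h4, h5]

lemma e5_lt {a i b j r c1 M c2 s A : ℕ} (ha : a < A) (hi : i < c1) (hb : b < M) (hj : j < c2)
    (hr : r < s) : e5 a i b j r c1 M c2 s < A * c1 * M * c2 * s :=
  lex_bound (lex_bound (lex_bound (lex_bound ha hi) hb) hj) hr

lemma ex_e5 {A c1 M c2 s z : ℕ} (hz : z < A * c1 * M * c2 * s) : ∃ a < A, ∃ i < c1, ∃ b < M,
    ∃ j < c2, ∃ r < s, z = e5 a i b j r c1 M c2 s := by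
  have h : 0 < A * c1 * M * c2 * s := by omega
  simp only [CanonicallyOrderedAdd.mul_pos] at h
  obtain ⟨⟨⟨⟨-, h1⟩, h2⟩, h3⟩, h4⟩ := h
  exact ⟨_, by rw [Nat.div_lt_iff_lt_mul (by positivity)]; linarith, _, fld_lt _ _ h1, _,
    fld_lt _ _ h2, _, fld_lt _ _ h3, _, Nat.mod_lt _ h4, (e5_self z c1 M c2 s).symm⟩

lemma ex_log {p : ℕ} (hp : 2 ≤ p) {Q t : γ → ℕ} (pQ : In polyB Q) (pt : In polyB t)
    (dt : Dom polyB t) (h : ∀ c, 0 < Q c ∧ Q c ≤ 2 ^ t c) : ∃ b : γ → ℕ, In polyB b ∧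
      ∀ c, b c ≤ t c ∧ Q c ≤ p ^ b c ∧ p ^ b c ≤ p * Q c := by
  have a1 : Dom polyB fun q : γ × ℕ => if q.2 ≤ t q.1 then q.2 else 0 :=
    (dt.comp In.id.fst).mono' fun _ => by split_ifs <;> omega
  have a2 : In polyB fun q : γ × ℕ => if q.2 ≤ t q.1 then q.2 else 0 :=
    In.ite (Dec.le In.id.snd (pt.comp In.id.fst)) In.id.snd (In.const _)
  refine ⟨fun c => ∑ j ∈ range (t c), if p ^ (if j ≤ t c then j else 0) < Q c then 1 else 0,
    In.fsum pt dt (In.ite (Dec.lt ((In.const _).pow a2 a1) (pQ.comp In.id.fst)) (In.const _)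
      (In.const _)), fun c => ?_⟩
  have h1 : Nat.clog p (Q c) ≤ t c :=
    (Nat.clog_le_iff_le_pow hp).2 ((h c).2.trans (Nat.pow_le_pow_left hp _))
  have e : (∑ j ∈ range (t c), if p ^ (if j ≤ t c then j else 0) < Q c then 1 else 0) =
      Nat.clog p (Q c) := by
    rw [← card_filter, ← card_range (Nat.clog _ _)]
    congr 1; ext j
    simp only [mem_filter, mem_range, ← Nat.lt_clog_iff_pow_lt hp]; split_ifs <;> omega
  dsimp only
  rw [e]
  refine ⟨h1, Nat.le_pow_clog hp _, ?_⟩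
  rcases Nat.eq_zero_or_pos (Nat.clog p (Q c)) with h0 | h0
  · rw [h0]; exact Nat.mul_pos (by omega) (h c).1
  · have := (Nat.lt_clog_iff_pow_lt hp).1 (Nat.sub_lt h0 one_pos)
    rw [← Nat.sub_add_cancel h0, pow_succ']; exact Nat.mul_le_mul_left _ this.le

theorem swapQ : ∃ (K : ℕ) (a : ℝ), 0 < a ∧ a < 1 ∧ ∀ (γ : Type) [Cd γ] (w : Wd γ)
    (s1 s2 Q t : γ → ℕ), In polyB s1 → In polyB s2 → In polyB Q → In polyB t → Dom polyB t →
    (∀ c, Q c ≤ 2 ^ t c) → (∀ c, Q c * s2 c ∣ s1 c) → (∀ c, Q c * s1 c ∣ w.N c) →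
    (∀ c, 2 ^ (K * t c) ∣ s2 c) → Pm w (fun c => pw a (t c)) fun c => swp (s1 c) (s2 c) (Q c) := by
  obtain ⟨p, K, a, hp, a0, a1, h⟩ := swapP'
  refine ⟨K, a, a0, a1, fun γ _ w s1 s2 Q t p1 p2 pQ pt dt hQ d2 d1 dW => ?_⟩
  obtain ⟨A, pA, hA⟩ : ∃ A : γ → ℕ, In polyB A ∧ ∀ c, w.N c = A c * (Q c * s1 c) :=
    ⟨fun c => w.N c / (Q c * s1 c), w.poly.div (pQ.mul p1), fun c => (Nat.div_mul_cancel (d1 c)).symm⟩
  obtain ⟨M, pM, hM⟩ : ∃ M : γ → ℕ, In polyB M ∧ ∀ c, s1 c = M c * (Q c * s2 c) :=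
    ⟨fun c => s1 c / (Q c * s2 c), p1.div (pQ.mul p2), fun c => (Nat.div_mul_cancel (d2 c)).symm⟩
  have hN : ∀ c, A c * Q c * M c * Q c * s2 c = w.N c := fun c => by rw [hA, hM]; ring
  have ps : ∀ c, (((0 < A c ∧ 0 < Q c) ∧ 0 < M c) ∧ 0 < Q c) ∧ 0 < s2 c := fun c => by
    simpa only [← hN, CanonicallyOrderedAdd.mul_pos] using w.pos c
  obtain ⟨b, pb, hb⟩ := ex_log hp pQ pt dt fun c => ⟨(ps c).1.2, hQ c⟩
  have db : Dom polyB b := dt.mono' fun c => (hb c).1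
  have pP : In polyB fun c => p ^ b c := (In.const _).pow pb db
  have eQ := Emb.le pQ pP fun c => (hb c).2.1
  refine Pm.conj (((((Emb.refl pA).lex eQ).lex (Emb.refl pM)).lex eQ).lex (Emb.refl p2)) hN (p * p)
    (fun c => ?_) (fun c => by have := ps c; have := (hb c).2.1; simp [*]; omega)
    ((h _ _ (fun c => M c * (p ^ b c * s2 c)) s2 b (pM.mul (pP.mul p2)) p2 pb db
      (fun c => dvd_mul_left _ _) (fun c => ⟨A c, by simp only; ring⟩)
      fun c => (pow_dvd_pow _ (Nat.mul_le_mul_left _ (hb c).1)).trans (dW c)).mono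
        ⟨1, fun c => by have := pw_mono a0.le le_rfl (hb c).1; omega⟩) fun c y hy => ?_
  · have := (hb c).2.2
    rw [← hN]
    calc _ ≤ A c * (p * Q c) * M c * (p * Q c) * s2 c := by gcongr
      _ = _ := by ring
  · rw [← hN] at hy ⊢
    obtain ⟨a, ha, i, hi, m, hm, j, hj, r, hr, rfl⟩ := ex_e5 hy
    have l := (hb c).2.1
    rw [hM, swp_e5 hi hm hj hr]
    refine ⟨e5_lt ha hj hm hi hr, ?_⟩
    simp only [e5, lex_div, lex_mod, hi, hj, hm, hr]
    exact swp_e5 (hi.trans_le l) hm (hj.trans_le l) hr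

/-! digit sums -/

def dsum (B r : ℕ) (f : ℕ → ℕ) : ℕ := ∑ t ∈ range r, f t * B ^ t

lemma dsum_succ (B r : ℕ) (f : ℕ → ℕ) : dsum B (r + 1) f = f r * B ^ r + dsum B r f := by
  rw [dsum, sum_range_succ, add_comm]; rfl

lemma dsum_lt {B r : ℕ} {f : ℕ → ℕ} (h : ∀ t < r, f t < B) : dsum B r f < B ^ r := by
  induction r with
  | zero => simp [dsum]
  | succ r ih =>
    rw [dsum_succ, pow_succ']
    exact lex_bound (h r (by omega)) (ih fun t ht => h t (by omega))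

lemma fld_dsum {B r t : ℕ} {f : ℕ → ℕ} (h : ∀ t < r, f t < B) (ht : t < r) :
    fld (dsum B r f) (B ^ t) B = f t := by
  induction r with
  | zero => omega
  | succ r ih =>
    have h' : ∀ t < r, f t < B := fun t ht => h t (by omega)
    rw [dsum_succ]
    rcases Nat.lt_succ_iff_lt_or_eq.1 ht with a | rfl
    · rw [← ih h' a, ← one_mul (B ^ t), ← fld_fld (Q := B ^ r) _ (by
        rw [← pow_succ']; exact pow_dvd_pow _ a), fld.eq_1 _ 1, Nat.div_one, lex_mod (dsum_lt h'),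
        one_mul]
    · rw [fld, lex_div (dsum_lt h'), Nat.mod_eq_of_lt (h t ht)]

lemma dsum_congr {B r : ℕ} {f g : ℕ → ℕ} (h : ∀ t < r, f t = g t) : dsum B r f = dsum B r g :=
  sum_congr rfl fun t ht => by rw [h t (mem_range.1 ht)]

lemma dsum_add (B r : ℕ) (f g : ℕ → ℕ) : dsum B r f + dsum B r g = dsum B r fun t => f t + g t := by
  simp only [dsum, add_mul, sum_add_distrib]

lemma dsum_fld (B r z : ℕ) : dsum B r (fun t => fld z (B ^ t) B) = z % B ^ r := by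
  induction r with
  | zero => simp [dsum, Nat.mod_one]
  | succ r ih => rw [dsum_succ, ih, pow_succ, Nat.mod_mul, fld]; ring

def cap (r : γ → ℕ) (q : γ × ℕ) : ℕ := if q.2 < r q.1 then q.2 else 0

lemma In.cap {r : γ → ℕ} (h : In polyB r) : In polyB (cap r) :=
  In.ite (Dec.lt In.id.snd (h.comp In.id.fst)) In.id.snd (In.const _)

lemma Dom.cap {r : γ → ℕ} (h : Dom polyB r) : Dom polyB (cap r) :=
  (h.comp In.id.fst).mono' fun _ => by unfold P338.cap; split_ifs <;> omega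

/-- sums over a range whose terms may use the index in unary -/
lemma In.usum {n : α → ℕ} {g : α → ℕ → ℕ} (hn : In polyB n) (hd : Dom polyB n)
    (hg : In polyB fun p : α × Un => g p.1 p.2.n) :
    In polyB fun a => ∑ i ∈ Finset.range (n a), g a i :=
  have h := hg.comp (In.id.fst.pair (hn.cap.unmk hd.cap))
  (In.fsum (g := fun a i => g a (P338.cap n (a, i))) hn hd h).congr fun a =>
      sum_congr rfl fun i hi => by simp [P338.cap, mem_range.1 hi]

lemma In.uprod {n : α → ℕ} {g : α → ℕ → ℕ} (hn : In polyB n) (hd : Dom polyB n)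
    (hg : In polyB fun p : α × Un => g p.1 p.2.n) :
    In polyB fun a => ∏ i ∈ Finset.range (n a), g a i :=
  have h := hg.comp (In.id.fst.pair (hn.cap.unmk hd.cap))
  (In.fprod (g := fun a i => g a (P338.cap n (a, i))) hn hd h).congr fun a =>
      prod_congr rfl fun i hi => by simp [P338.cap, mem_range.1 hi]

lemma In.dsum {b n : α → ℕ} {g : α → ℕ → ℕ} (hb : In polyB b) (hn : In polyB n) (hd : Dom polyB n)
    (hg : In polyB fun p : α × Un => g p.1 p.2.n) : In polyB fun a => dsum (b a) (n a) (g a) :=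
  have h := hg.mul ((hb.comp In.id.fst).pow In.id.snd.unval (Dom.unval In.id.snd))
  In.usum (g := fun a t => g a t * b a ^ t) hn hd h

/-- mixed radix digits -/
def mx (q : ℕ → ℕ) (B D n : ℕ) : ℕ := dsum B D fun a => fld n (∏ i ∈ range a, q i) (q a)

def xm (q : ℕ → ℕ) (B D z : ℕ) : ℕ := ∑ a ∈ range D, fld z (B ^ a) B * ∏ i ∈ range a, q i

lemma sum_mixed (q : ℕ → ℕ) (D n : ℕ) : ∑ a ∈ range D, fld n (∏ i ∈ range a, q i) (q a) *
    ∏ i ∈ range a, q i = n % ∏ i ∈ range D, q i := by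
  induction D with
  | zero => simp [Nat.mod_one]
  | succ D ih => rw [sum_range_succ, ih, prod_range_succ, Nat.mod_mul, fld]; ring

lemma mx_mono {q : ℕ → ℕ} {B D : ℕ} (h : ∀ a < D, 0 < q a ∧ q a ≤ B) {y y' : ℕ}
    (hy : y % ∏ i ∈ range D, q i < y' % ∏ i ∈ range D, q i) : mx q B D y < mx q B D y' := by
  induction D with
  | zero => simp [Nat.mod_one] at hy
  | succ D ih =>
    have h' : ∀ a < D, 0 < q a ∧ q a ≤ B := fun a ha => h a (by omega)
    have p : 0 < ∏ i ∈ range D, q i := prod_pos fun i hi => (h' i (mem_range.1 hi)).1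
    have l : ∀ y, mx q B D y < B ^ D := fun y =>
      dsum_lt fun a ha => (fld_lt _ _ (h' a ha).1).trans_le (h' a ha).2
    rw [prod_range_succ, Nat.mod_mul, Nat.mod_mul, add_comm, add_comm (y' % _), mul_comm,
      mul_comm (∏ i ∈ range D, q i), lex_lt (Nat.mod_lt _ p) (Nat.mod_lt _ p)] at hy
    rw [mx, mx, dsum_succ, dsum_succ]
    exact (lex_lt (l y) (l y')).2 (hy.imp_right fun a => ⟨a.1, ih h' a.2⟩)

lemma Emb.mx {q : γ → ℕ → ℕ} {b D : γ → ℕ} (pq : In polyB fun p : γ × ℕ => q p.1 p.2)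
    (pb : In polyB b) (pD : In polyB D) (dD : Dom polyB D)
    (h : ∀ c, ∀ a < D c, 0 < q c a ∧ q c a ≤ b c) :
    Emb (fun c => ∏ i ∈ range (D c), q c i) (fun c => b c ^ D c) (fun c => mx (q c) (b c) (D c))
      fun c => xm (q c) (b c) (D c) := by
  have a1 : In polyB fun p : (γ × ℕ) × Un => ∏ i ∈ range p.2.n, q p.1.1 i :=
    In.fprod In.id.snd.unval (Dom.unval In.id.snd) (pq.c2 In.id.fst.fst.fst In.id.snd)
  have a2 := pD.comp (In.id.fst (β := γ) (γ := ℕ))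
  have a3 := dD.comp (In.id.fst (β := γ) (γ := ℕ))
  have a4 := pb.comp (In.id.fst.fst (α := (γ × ℕ) × Un) (β := γ) (γ := ℕ))
  have l : ∀ c y, ∀ a < D c, fld y (∏ i ∈ range a, q c i) (q c a) < b c := fun c y a ha =>
    (fld_lt _ _ (h c a ha).1).trans_le (h c a ha).2
  have a5 := In.id.fst.snd.fld a1 (pq.c2 In.id.fst.fst In.id.snd.unval)
  have a6 := (In.id.fst.snd.fld (a4.pow In.id.snd.unval (Dom.unval In.id.snd)) a4).mul a1
  refine ⟨In.fprod pD dD pq, pb.pow pD dD, In.dsum (g := fun (p : γ × ℕ) a =>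
    fld p.2 (∏ i ∈ range a, q p.1 i) (q p.1 a)) (pb.comp In.id.fst) a2 a3 a5,
    In.usum (g := fun (p : γ × ℕ) a => fld p.2 (b p.1 ^ a) (b p.1) * ∏ i ∈ range a, q p.1 i) a2 a3 a6,
    fun c y y' h1 h2 => mx_mono (h c) (by rwa [Nat.mod_eq_of_lt h2, Nat.mod_eq_of_lt (h1.trans h2)]),
    fun c y _ => dsum_lt (l c y), fun c y hy => ?_⟩
  refine Eq.trans ?_ ((sum_mixed _ _ _).trans (Nat.mod_eq_of_lt hy))
  exact sum_congr rfl fun a ha => by rw [P338.mx, fld_dsum (l c y) (mem_range.1 ha)]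

end Vale.Agent.P338
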