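import Vale.Agent.P338.Arr

/-! Array worlds: passes over arrays with a small context. -/

namespace Vale.Agent.P338

open Filter Cd

set_option linter.unusedSectionVars false

variable {α β γ δ ε ζ : Type} [Cd α] [Cd β] [Cd γ] [Cd δ] [Cd ε] [Cd ζ] {B : Bd α}

lemma TmO.of_cd {φ : γ → δ} {T : α → ℕ} {K} {f : α → β} {g : α → ε} (h : TmO φ T K f)
    (e : ∀ a, cd (f a) = cd (g a)) : TmO φ T K g :=
  let ⟨P, c, h⟩ := h; ⟨P, c, fun ρ κ hκ a k hk => e a ▸ h ρ κ hκ a k hk⟩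

lemma TmO.part {φ : γ → δ} {T : α → ℕ} {p : α → Prop} [DecidablePred p]
    (hb : Tm T fun a => decide (p a)) {T1 K1} {f : {a // p a} → ε} (h1 : TmO φ T1 K1 f) :
    TmO φ (fun a => T a + if h : p a then T1 ⟨a, h⟩ else 0)
      (fun κ a => if h : p a then K1 κ ⟨a, h⟩ else 0)
      (fun a => (if h : p a then cd (f ⟨a, h⟩) else V.nil : V)) := by
  have h0 : Tm T fun a => bif decide (p a) then some a else none :=
    (In.cond (B := ⟨fun _ => T⟩) (Eventually.of_forall fun _ => hb) In.id.some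
      (In.const none)).exists.choose_spec
  obtain ⟨P, c, h⟩ := h0
  obtain ⟨P1, c1, h1⟩ := h1
  refine ⟨.seq P (.test (some 0) isT (.seq pFst P1) (.dat .nop)), c + c1 + 200,
    fun ρ κ hκ a k hk => ?_⟩
  have hP := h ρ a
  have := sz_pos a
  by_cases hp : p a
  · simp only [hp, dite_true, decide_true, cond_true] at hP hk ⊢
    have hP1 := h1 ρ κ hκ ⟨a, hp⟩ k hk
    refine (hP.seq (rn_case1 ((rn_fst _ _).seq hP1))).mono ?_
    change _ + (60 * (sz a + 1 + 1) + (c1 * (_ + sz a) + k) + 1 + 1) + 1 ≤ _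
    nlinarith [Nat.zero_le (c * T1 ⟨a, hp⟩), Nat.zero_le (c1 * T a)]
  · simp only [hp, dite_false, decide_false, cond_false] at hP hk ⊢
    refine (hP.seq (rn_case0 (rn_id _))).mono ?_
    nlinarith [Nat.zero_le (c1 * T a), Nat.zero_le (c1 * sz a)]

lemma TmO.dite {φ : γ → δ} {T : α → ℕ} {p : α → Prop} [DecidablePred p]
    (hb : Tm T fun a => decide (p a)) {T1 K1 T2 K2} {f : {a // p a} → ε} {g : {a // ¬ p a} → ε}
    (h1 : TmO φ T1 K1 f) (h2 : TmO φ T2 K2 g) :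
    TmO φ (fun a => T a + if h : p a then T1 ⟨a, h⟩ else T2 ⟨a, h⟩)
      (fun κ a => if h : p a then K1 κ ⟨a, h⟩ else K2 κ ⟨a, h⟩)
      (fun a => if h : p a then f ⟨a, h⟩ else g ⟨a, h⟩) := by
  have hb' : Tm T fun a => decide (¬ p a) :=
    (In.congr (In.not (B := ⟨fun _ => T⟩) (Eventually.of_forall fun _ => hb))
      fun _ => by simp).exists.choose_spec
  refine ((TmO.ite hb (TmO.part hb h1) (TmO.part hb' h2)).of_cd fun a => ?_).mono
    ⟨2, fun a => ?_⟩ (fun κ a => ?_) fun _ => rfl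
  · by_cases h : p a <;> simp [h] <;> rfl
  · by_cases h : p a <;> simp [h] <;> omega
  · by_cases h : p a <;> simp [h]

def Bd.sub (B : Bd α) (p : α → Prop) : Bd {a // p a} := ⟨fun e a => B.b e a.1⟩

lemma In.dite {p : α → Prop} [DecidablePred p] (hb : Dec B p) {f : {a // p a} → ε}
    {g : {a // ¬ p a} → ε} (h1 : In (B.sub p) f) (h2 : In (B.sub fun a => ¬ p a) g) :
    In B fun a => if h : p a then f ⟨a, h⟩ else g ⟨a, h⟩ :=
  ((In.dec hb).and (h1.and h2)).mono fun _ ⟨a0, a1, a2⟩ =>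
    ((TmO.dite a0 a1.lift a2.lift).tm fun _ a => by simp).mono
      ⟨2, fun a => by simp only [Bd.sub, dite_eq_ite, ite_self]; omega⟩ fun _ => rfl

lemma In.sub' {f : α → β} (h : In B f) (p : α → Prop) : In (B.sub p) fun a => f a.1 :=
  h.mono fun _ ⟨P, c, h⟩ => ⟨P, c, fun ρ a => h ρ a.1⟩

lemma Dom.sub' {t : α → ℕ} (h : Dom B t) (p : α → Prop) : Dom (B.sub p) fun a => t a.1 :=
  h.mono fun _ ⟨c, h⟩ => ⟨c, fun a => h a.1⟩

structure Wd (γ : Type) [Cd γ] where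
  N : γ → ℕ
  ℓ : γ → ℕ
  Y : γ → ℕ
  lg : γ → ℕ
  V : γ → Type
  enc : ∀ c, V c → List Bool
  len : ∀ c x, (enc c x).length = ℓ c
  pos : ∀ c, 0 < N c
  poly : In polyB N
  lgd : Dom polyB lg
  szle : ∃ C k, ∀ c, sz c ≤ C * (lg c + 1) ^ k

def Wd.U (w : Wd γ) (e : ℕ) (c : γ) : ℕ :=
  w.N c * (w.ℓ c + (w.lg c + 1) ^ e) + w.Y c * (w.Y c + w.lg c + 1) ^ e

def Wd.arr (w : Wd γ) (c : γ) (F : ℕ → w.V c) : List (List Bool) :=
  tab (w.N c) fun z => w.enc c (F z)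

structure Ar (w : Wd γ) where
  c : γ
  F : ℕ → w.V c

instance (w : Wd γ) : Cd (Ar w) := ⟨fun a => cd (a.1, w.arr a.1 a.2)⟩

structure Env (w : Wd γ) (μ : γ → ℕ) (B : Bd α) (c : α → γ) : Prop where
  inc : In B c
  dom : ∀ e, Dom B fun x => (μ (c x) + 1) * w.U e (c x)

variable {w : Wd γ} {μ : γ → ℕ} {c : α → γ}

lemma Wd.U_mono (w : Wd γ) {e e' : ℕ} (h : e ≤ e') (c : γ) : w.U e c ≤ w.U e' c := by
  unfold Wd.U
  gcongr <;> omega

lemma Wd.polyle (w : Wd γ) {t : γ → ℕ} (ht : Dom polyB t) :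
    ∃ C k, ∀ c, t c ≤ C * (w.lg c + 1) ^ k := by
  obtain ⟨e, C, h⟩ := dom_poly.1 ht
  obtain ⟨C', k, h'⟩ := w.szle
  refine ⟨C * (C' + 1) ^ e, k * e, fun c => (h c).trans ?_⟩
  rw [mul_assoc, pow_mul, ← mul_pow]
  have : 0 < (w.lg c + 1) ^ k := by positivity
  have := h' c
  gcongr; nlinarith

lemma Env.dom1 (E : Env w μ B c) (e : ℕ) : Dom B fun x => w.U e (c x) :=
  (E.dom e).mono' fun x => by nlinarith

lemma Env.domP (E : Env w μ B c) {t : γ → ℕ} (ht : Dom polyB t) :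
    Dom B fun x => (μ (c x) + 1) * (w.N (c x) * (w.ℓ (c x) + t (c x))) := by
  obtain ⟨C, k, h⟩ := w.polyle ht
  refine ((E.dom k).cmul (C + 1)).mono' fun x => ?_
  have := h (c x)
  rw [mul_left_comm (C + 1)]
  refine Nat.mul_le_mul_left _ (le_trans ?_ (Nat.mul_le_mul_left _ (Nat.le_add_right _ _)))
  rw [mul_left_comm (C + 1)]
  exact Nat.mul_le_mul_left _ (by
    nlinarith [Nat.zero_le (C * w.ℓ (c x)), Nat.zero_le ((w.lg (c x) + 1) ^ k)])

lemma Env.big (E : Env w μ B c) : Big B (fun x => w.N (c x)) c := fun e =>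
  ((E.domP (t := fun c => (sz c + 1) ^ e) ((Dom.szid.add (Dom.const 1)).pow e)).cmul 2).mono'
    fun x => by
      have := w.pos (c x)
      calc _ ≤ 2 * (1 * (w.N (c x) * (0 + (sz (c x) + 1) ^ e))) := by nlinarith [Nat.zero_le ((sz (c x) + 1) ^ e)]
        _ ≤ _ := by gcongr <;> omega

lemma Env.small (E : Env w μ B c) {g : γ → δ} (hg : In polyB g) : In B fun x => g (c x) :=
  E.big.small E.inc hg

lemma Env.dl (E : Env w μ B c) : Dom B fun x => w.N (c x) * (4 * w.ℓ (c x) + 2) :=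
  ((E.domP (Dom.const 1)).cmul 4).mono' fun x => by
    nlinarith [Nat.zero_le (μ (c x) * (w.N (c x) * (w.ℓ (c x) + 1)))]

lemma Env.mono (E : Env w μ B c) {μ' : γ → ℕ} (h : ∃ C, ∀ c, μ' c ≤ C * (μ c + 1)) :
    Env w μ' B c :=
  let ⟨C, h⟩ := h
  ⟨E.inc, fun e => ((E.dom e).cmul (C + 1)).mono' fun x => by
    rw [← mul_assoc]; exact Nat.mul_le_mul_right _ (by have := h (c x); nlinarith)⟩

lemma Env.map (E : Env w μ B c) (w' : Wd δ) {μ' : δ → ℕ} {g : γ → δ} (hg : In polyB g) (k : ℕ)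
    (h : ∀ c, μ' (g c) ≤ k * (μ c + 1) ∧ w'.N (g c) ≤ k * w.N c ∧ w'.ℓ (g c) ≤ k * (w.ℓ c + 1) ∧
      w'.Y (g c) ≤ w.Y c) : Env w' μ' B fun x => g (c x) := by
  refine ⟨E.small hg, fun e => ?_⟩
  obtain ⟨C, j, hj⟩ := w.polyle (w'.lgd.comp hg)
  refine ((E.dom ((j + 1) * e)).cmul ((k + 1) * ((k + 1) * (k + (C + 2) ^ e)))).mono' fun x => ?_
  obtain ⟨h1, h2, h3, h4⟩ := h (c x)
  have h5 := hj (c x)
  generalize c x = y at *
  have p1 : (w'.lg (g y) + 1) ^ e ≤ (C + 2) ^ e * (w.lg y + 1) ^ ((j + 1) * e) := by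
    rw [pow_mul, ← mul_pow]
    have : (w.lg y + 1) ^ j ≤ (w.lg y + 1) ^ (j + 1) := Nat.pow_le_pow_right (by omega) (by omega)
    have : 0 < (w.lg y + 1) ^ (j + 1) := by positivity
    gcongr; nlinarith
  have p2 : (w'.Y (g y) + w'.lg (g y) + 1) ^ e ≤
      (C + 2) ^ e * (w.Y y + w.lg y + 1) ^ ((j + 1) * e) := by
    rw [pow_mul, ← mul_pow]
    have a1 : (w.lg y + 1) ^ j ≤ (w.Y y + w.lg y + 1) ^ (j + 1) :=
      (Nat.pow_le_pow_left (by omega) _).trans (Nat.pow_le_pow_right (by omega) (by omega))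
    have a2 : (w.Y y + w.lg y + 1) ^ 1 ≤ (w.Y y + w.lg y + 1) ^ (j + 1) :=
      Nat.pow_le_pow_right (by omega) (by omega)
    rw [pow_one] at a2
    gcongr; nlinarith
  have p3 : 0 < (w.lg y + 1) ^ ((j + 1) * e) := by positivity
  have q : w'.U e (g y) ≤ (k + 1) * (k + (C + 2) ^ e) * w.U ((j + 1) * e) y := by
    unfold Wd.U
    generalize (w.lg y + 1) ^ ((j + 1) * e) = P at *
    generalize (w.Y y + w.lg y + 1) ^ ((j + 1) * e) = P' at *
    have p4 : 0 < (C + 2) ^ e := by positivity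
    generalize (C + 2) ^ e = D at *
    have b1 : w'.ℓ (g y) + (w'.lg (g y) + 1) ^ e ≤ (k + D) * (w.ℓ y + P) := by nlinarith
    have b2 := Nat.mul_le_mul h2 b1
    have b3 := Nat.mul_le_mul h4 p2
    have b4 : w.Y y * (D * P') ≤ (k + 1) * (k + D) * (w.Y y * P') := by
      rw [mul_left_comm]; exact Nat.mul_le_mul_right _ (by nlinarith)
    have b5 : k * w.N y * ((k + D) * (w.ℓ y + P)) ≤ (k + 1) * (k + D) * (w.N y * (w.ℓ y + P)) := by
      nlinarith [Nat.zero_le ((k + D) * (w.N y * (w.ℓ y + P)))]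
    rw [mul_add ((k + 1) * (k + D))]; omega
  calc _ ≤ ((k + 1) * (μ y + 1)) * ((k + 1) * (k + (C + 2) ^ e) * w.U ((j + 1) * e) y) :=
        Nat.mul_le_mul (by nlinarith) q
    _ = _ := by ring

lemma Env.sub (E : Env w μ B c) (p : α → Prop) : Env w μ (B.sub p) fun a => c a.1 :=
  ⟨E.inc.sub' p, fun e => (E.dom e).sub' p⟩

def Op (w : Wd γ) (μ : γ → ℕ) (f : ∀ c, (ℕ → w.V c) → ℕ → w.V c) : Prop :=
  ∀ (α : Type) [Cd α] (B : Bd α) (c : α → γ), Env w μ B c → ∀ F : ∀ x, ℕ → w.V (c x),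
    In B (fun x => w.arr (c x) (F x)) → In B fun x => w.arr (c x) (f (c x) (F x))

def Pm (w : Wd γ) (μ : γ → ℕ) (σ : γ → ℕ → ℕ) : Prop := Op w μ fun c F z => F (σ c z)

lemma Op.congr {f g} (h : Op w μ f) (e : ∀ c F, ∀ z < w.N c, f c F z = g c F z) : Op w μ g :=
  fun α _ B c E F hF => (h α B c E F hF).congr fun _ => tab_congr fun z hz => by rw [e _ _ z hz]

lemma Pm.congr {σ τ} (h : Pm w μ σ) (e : ∀ c, ∀ z < w.N c, σ c z = τ c z) : Pm w μ τ :=
  Op.congr h fun c F z hz => by rw [e c z hz]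

lemma Op.id : Op w μ fun _ F => F := fun _ _ _ _ _ _ hF => hF

lemma Pm.id : Pm w μ fun _ z => z := Op.id

lemma Op.comp {f g} (hf : Op w μ f) (hg : Op w μ g) : Op w μ fun c F => g c (f c F) :=
  fun α _ B c E F hF => hg α B c E _ (hf α B c E F hF)

lemma Pm.comp {σ τ} (hf : Pm w μ σ) (hg : Pm w μ τ) : Pm w μ fun c z => σ c (τ c z) :=
  Op.comp hf hg

lemma Op.mono {f μ'} (h : Op w μ' f) (hμ : ∃ C, ∀ c, μ' c ≤ C * (μ c + 1)) : Op w μ f :=
  fun α _ B c E F hF => h α B c (E.mono hμ) F hF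

lemma Op.zero {f} (h : Op w (fun _ => 0) f) : Op w μ f := h.mono ⟨0, by simp⟩

lemma Op.ite {f g} {p : γ → Prop} [DecidablePred p] (hp : Dec polyB p) (hf : Op w μ f)
    (hg : Op w μ g) : Op w μ fun c F => if p c then f c F else g c F :=
  fun α _ B c E F hF => (In.ite (p := fun x => p (c x)) (E.small hp) (hf α B c E F hF)
    (hg α B c E F hF)).congr fun x => by dsimp only; split_ifs <;> rfl

def Wd.bd (w : Wd γ) (μ : γ → ℕ) : Bd (Ar w) := ⟨fun e a => (μ a.1 + 1) * w.U e a.1⟩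

lemma In.ar1 {f : α → Ar w} (h : In B f) : In B fun x => (f x).1 :=
  (h.of_cd (g := fun x => ((f x).1, w.arr _ (f x).2)) fun _ => rfl).fst

lemma In.ar2 {f : α → Ar w} (h : In B f) : In B fun x => w.arr _ (f x).2 :=
  (h.of_cd (g := fun x => ((f x).1, w.arr _ (f x).2)) fun _ => rfl).snd

lemma In.armk {F : ∀ x, ℕ → w.V (c x)} (h : In B c) (h' : In B fun x => w.arr _ (F x)) :
    In B fun x => (⟨c x, F x⟩ : Ar w) := (h.pair h').of_cd fun _ => rfl

lemma Wd.env (w : Wd γ) (μ : γ → ℕ) : Env w μ (w.bd μ) fun a => a.1 :=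
  ⟨In.id.ar1, fun e => eventually_atTop.2 ⟨e, fun e' he => ⟨1, fun a => by
    have := Nat.mul_le_mul_left (μ a.1 + 1) (w.U_mono he a.1)
    simp only [Wd.bd]; omega⟩⟩⟩

lemma Op.in {f} (h : Op w μ f) : In (w.bd μ) fun a : Ar w => (⟨a.1, f a.1 a.2⟩ : Ar w) :=
  In.armk In.id.ar1 (h _ _ _ (w.env μ) (fun a => a.2) In.id.ar2)

lemma Op.of_tm {f e} (h : Tm ((w.bd μ).b e) fun a : Ar w => (⟨a.1, f a.1 a.2⟩ : Ar w)) :
    Op w μ f := fun _ _ _ _ E _ hF => (h.comp_in (In.armk E.inc hF) (E.dom e)).ar2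

lemma Wd.sz_arr (w : Wd γ) (c : γ) (F) : sz (w.arr c F) ≤ w.N c * (4 * w.ℓ c + 2) + 1 := by
  have := sz_list_le (w.arr c F) (k := 4 * w.ℓ c + 1) fun a ha => by
    obtain ⟨z, _, rfl⟩ := mem_tab.1 ha
    have := sz_bits (w.enc c (F z)); rwa [w.len] at this
  rwa [Wd.arr, tab_length] at this

lemma Wd.sz_ar (w : Wd γ) : ∃ e C, ∀ a : Ar w, sz a ≤ C * w.U e a.1 := by
  obtain ⟨C, k, h⟩ := w.szle
  refine ⟨k, C + 8, fun a => ?_⟩
  change sz a.1 + sz (w.arr a.1 a.2) + 1 ≤ _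
  have h1 := h a.1
  have h2 := w.sz_arr a.1 a.2
  have h3 := w.pos a.1
  have h4 : 0 < (w.lg a.1 + 1) ^ k := by positivity
  unfold Wd.U
  generalize (w.lg a.1 + 1) ^ k = P at *
  have : P ≤ w.N a.1 * P := by nlinarith
  have : w.N a.1 ≤ w.N a.1 * P := by nlinarith
  have : C * P ≤ C * (w.N a.1 * P) := by gcongr
  nlinarith [Nat.zero_le (C * (w.N a.1 * w.ℓ a.1)),
    Nat.zero_le ((C + 8) * (w.Y a.1 * (w.Y a.1 + w.lg a.1 + 1) ^ k))]

/-- the same arrays over a richer context -/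
@[reducible] def Wd.pull (w : Wd γ) (g : δ → γ) (hg : In polyB g) : Wd δ where
  N d := w.N (g d)
  ℓ d := w.ℓ (g d)
  Y d := w.Y (g d)
  lg := sz
  V d := w.V (g d)
  enc d := w.enc (g d)
  len d := w.len (g d)
  pos d := w.pos (g d)
  poly := w.poly.comp hg
  lgd := Dom.szid
  szle := ⟨1, 1, fun _ => by simp⟩

lemma Op.pull {f} (h : Op w μ f) (g : δ → γ) (hg : In polyB g) :
    Op (w.pull g hg) (fun d => μ (g d)) fun d => f (g d) :=
  fun α _ B c E F hF => h α B _ (E.map w hg 1 fun _ => by simp [Wd.pull]) F hF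

@[reducible] def Wd.res (w : Wd γ) (p : γ → Prop) : Wd {c // p c} := w.pull Subtype.val In.id.val

lemma Op.dite {p : γ → Prop} [DecidablePred p] (hp : Dec polyB p)
    {f : ∀ c : {c // p c}, (ℕ → w.V c.1) → ℕ → w.V c.1}
    {g : ∀ c : {c // ¬ p c}, (ℕ → w.V c.1) → ℕ → w.V c.1}
    (hf : Op (w.res p) (fun c => μ c.1) f) (hg : Op (w.res fun c => ¬ p c) (fun c => μ c.1) g) :
    Op w μ fun c F => if h : p c then f ⟨c, h⟩ F else g ⟨c, h⟩ F := by
  intro α _ B c E F hF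
  have key : ∀ q : γ → Prop, Env (w.res q) (fun c => μ c.1) (B.sub fun x => q (c x))
      fun x => ⟨c x.1, x.2⟩ := fun q => by
    refine ⟨In.mk _ (E.inc.sub' _), fun e => ?_⟩
    have := (E.map (w.pull (fun c => c) In.id) (μ' := μ) (g := fun c => c) In.id 1
      fun _ => by simp [Wd.pull]).dom e
    exact this.sub' _
  exact (In.dite (p := fun x => p (c x)) (E.small hp)
    (hf _ _ _ (key p) (fun x => F x.1) (hF.sub' _))
    (hg _ _ _ (key _) (fun x => F x.1) (hF.sub' _))).congr fun x => by dsimp only; split_ifs <;> rfl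

@[reducible] def Wd.ext (w : Wd γ) (k : γ → ℕ) : Wd {p : γ × ℕ // p.2 < k p.1} :=
  w.pull (fun p => p.1.1) In.id.val.fst

def Wd.bd2 (w : Wd γ) (μ' : γ → ℕ) : Bd (Ar w × ℕ) :=
  ⟨fun e q => (μ' q.1.1 + 1) * (w.pull Prod.fst In.id.fst).U e (q.1.1, q.2)⟩

def Wd.stp (w : Wd γ) (k : γ → ℕ) (g : ∀ c, ℕ → (ℕ → w.V c) → ℕ → w.V c) (t : Ar w) (j : ℕ) :
    Ar w := if j < k t.1 then ⟨t.1, g t.1 j t.2⟩ else t

lemma loop_step {μ' k : γ → ℕ} (hk : In polyB k) {g : ∀ c, ℕ → (ℕ → w.V c) → ℕ → w.V c}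
    (hg : Op (w.ext k) (fun p => μ' p.1.1) fun p => g p.1.1 p.1.2) :
    In (w.bd2 μ') fun q => w.stp k g q.1 q.2 := by
  have E1 : Env (w.pull Prod.fst In.id.fst) (fun p => μ' p.1) (w.bd2 μ') fun q => (q.1.1, q.2) :=
    ⟨In.id.fst.ar1.pair In.id.snd, fun e => eventually_atTop.2 ⟨e, fun e' he => ⟨1, fun a => by
      have := Nat.mul_le_mul_left (μ' a.1.1 + 1)
        ((w.pull Prod.fst In.id.fst).U_mono he (a.1.1, a.2))
      simp only [Wd.bd2]; omega⟩⟩⟩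
  have E2 : Env (w.ext k) (fun p => μ' p.1.1) ((w.bd2 μ').sub fun q => q.2 < k q.1.1)
      fun q => ⟨(q.1.1.1, q.1.2), q.2⟩ := ⟨In.mk _ (E1.inc.sub' _), fun e => (E1.dom e).sub' _⟩
  have h1 : In ((w.bd2 μ').sub fun q => q.2 < k q.1.1) fun q => w.arr _ q.1.1.2 :=
    In.ar2 (f := fun q : {q : Ar w × ℕ // q.2 < k q.1.1} => q.1.1) In.id.val.fst
  have h2 := hg _ _ _ E2 (fun q => q.1.1.2) h1
  have h3 : Dec (w.bd2 μ') fun q => q.2 < k q.1.1 :=
    E1.small (g := fun p : γ × ℕ => @decide (p.2 < k p.1) (Classical.propDecidable _))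
      (Dec.lt In.id.snd (hk.comp In.id.fst))
  refine (In.dite (f := fun q => (⟨q.1.1.1, g q.1.1.1 q.1.2 q.1.1.2⟩ : Ar w)) (g := fun q => q.1.1)
    h3 (In.armk (c := fun q : {q : Ar w × ℕ // q.2 < k q.1.1} => q.1.1.1) In.id.val.fst.ar1 h2)
    In.id.val.fst).congr fun q => by simp only [Wd.stp, dite_eq_ite]

lemma loop_bound (w : Wd γ) (m e : ℕ) (y : γ) {a k s U : ℕ} (ha : a < k) (hs : s ≤ U) :
    (m + 1) * (w.pull Prod.fst In.id.fst).U e (y, a) + (s + sz a + 1) ≤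
      (m + 1) * ((w.pull Prod.fst In.id.fst).U (e + 1) (y, [k, k, k, k]) * 2 + U) := by
  have a1 := sz_le_of_le ha.le
  have a3 := w.pos y
  unfold Wd.U Wd.pull
  simp only [sz_pair, sz_cons, sz_nil]
  have a4 : sz y + sz a + 1 ≤ sz y + (sz k + (sz k + (sz k + (sz k + 1 + 1) + 1) + 1) + 1) + 1 := by
    omega
  generalize sz y + (sz k + (sz k + (sz k + (sz k + 1 + 1) + 1) + 1) + 1) + 1 = S at *
  have a5 : (sz y + sz a + 1 + 1) ^ e ≤ (S + 1) ^ (e + 1) :=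
    (Nat.pow_le_pow_left (by omega) _).trans (Nat.pow_le_pow_right (by omega) (by omega))
  have a6 : (w.Y y + (sz y + sz a + 1) + 1) ^ e ≤ (w.Y y + S + 1) ^ (e + 1) :=
    (Nat.pow_le_pow_left (by omega) _).trans (Nat.pow_le_pow_right (by omega) (by omega))
  have a7 : (S + 1) ^ 1 ≤ (S + 1) ^ (e + 1) := Nat.pow_le_pow_right (by omega) (by omega)
  rw [pow_one] at a7
  have a8 : sz a + 1 ≤ w.N y * (w.ℓ y + (S + 1) ^ (e + 1)) := by nlinarith
  have a9 : w.N y * (w.ℓ y + (sz y + sz a + 1 + 1) ^ e) +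
      w.Y y * (w.Y y + (sz y + sz a + 1) + 1) ^ e ≤
      w.N y * (w.ℓ y + (S + 1) ^ (e + 1)) + w.Y y * (w.Y y + S + 1) ^ (e + 1) := by gcongr
  generalize w.N y * (w.ℓ y + (sz y + sz a + 1 + 1) ^ e) +
      w.Y y * (w.Y y + (sz y + sz a + 1) + 1) ^ e = U1 at *
  generalize w.N y * (w.ℓ y + (S + 1) ^ (e + 1)) = U2 at *
  generalize w.Y y * (w.Y y + S + 1) ^ (e + 1) = U3 at *
  nlinarith [Nat.zero_le (m * U2), Nat.zero_le (m * U3), Nat.zero_le (m * U)]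

lemma Op.loop {μ' k : γ → ℕ} (hk : In polyB k) (hμ : ∃ C, ∀ c, k c * (μ' c + 1) ≤ C * (μ c + 1))
    {g : ∀ c, ℕ → (ℕ → w.V c) → ℕ → w.V c}
    (hg : Op (w.ext k) (fun p => μ' p.1.1) fun p => g p.1.1 p.1.2) :
    Op w μ fun c F => (List.range (k c)).foldl (fun F j => g c j F) F := by
  intro α _ B c E F hF
  obtain ⟨C, hμ⟩ := hμ
  obtain ⟨e0, C0, h0⟩ := w.sz_ar
  have hr : In B fun x => List.range (k (c x)) := In.range (E.small hk)
    (((E.domP (Dom.sz hk)).cmul C).mono' fun x => by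
      have := hμ (c x); have := w.pos (c x)
      calc _ ≤ (k (c x) * (μ' (c x) + 1)) * (1 * (0 + sz (k (c x)))) := by
            nlinarith [Nat.zero_le (k (c x) * μ' (c x) * sz (k (c x)))]
        _ ≤ (C * (μ (c x) + 1)) * (w.N (c x) * (w.ℓ (c x) + sz (k (c x)))) := by gcongr <;> omega
        _ = _ := by ring)
  have h2 := In.foldl (g := w.stp k g) (loop_step hk hg) (In.armk E.inc hF) hr
    (fun x _ t => t.1 = c x) (fun _ => rfl)
    (fun x j t a _ _ ht => by unfold Wd.stp; split_ifs <;> exact ht) fun e => ?_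
  · refine h2.ar2.congr fun x => ?_
    have : ∀ (l : List ℕ) (F : ℕ → w.V (c x)), (∀ j ∈ l, j < k (c x)) →
        l.foldl (w.stp k g) ⟨c x, F⟩ = ⟨c x, l.foldl (fun F j => g (c x) j F) F⟩ := by
      intro l
      induction l with
      | nil => intro F _; rfl
      | cons a l ih =>
        intro F h
        rw [List.foldl_cons, List.foldl_cons, ← ih _ fun j hj => h j (List.mem_cons_of_mem _ hj)]
        simp only [Wd.stp, if_pos (h a (by simp))]
    rw [this _ _ fun j hj => List.mem_range.1 hj]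
  · have E2 := (E.map (w.pull Prod.fst In.id.fst) (μ' := fun p : γ × List ℕ => μ p.1)
      (g := fun c => (c, [k c, k c, k c, k c])) (by fun_prop) 1 fun _ => by simp [Wd.pull])
    refine ⟨fun x => (μ' (c x) + 1) * ((w.pull Prod.fst In.id.fst).U (e + 1)
      (c x, [k (c x), k (c x), k (c x), k (c x)]) * 2 + C0 * w.U e0 (c x)),
      ((((E2.dom (e + 1)).cmul 2).add ((E.dom e0).cmul C0)).cmul C).mono' fun x => ?_,
      fun x j t a _ ha ht => ?_⟩
    · rw [List.length_range, ← mul_assoc]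
      exact (Nat.mul_le_mul_right _ (hμ _)).trans (le_of_eq (by ring))
    · dsimp only
      rw [← ht] at ha ⊢
      exact loop_bound w _ e _ (List.mem_range.1 ha) (h0 t)

end Vale.Agent.P338
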