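import Vale.Agent.P338.Net2

/-! The global network and the two families. -/

namespace Vale.Agent.P338

open Matrix Finset Function Sum

set_option linter.unusedSectionVars false

section k3
variable {F H : Type} [Field F] [Fintype H] [DecidableEq H]

def k3 (A B C : Matrix H H F) : Matrix (H × H × H) (H × H × H) F :=
  kroneckerMap (· * ·) A (kroneckerMap (· * ·) B C)

variable (A B C A' B' C' : Matrix H H F)

lemma k3_mul : k3 A B C * k3 A' B' C' = k3 (A * A') (B * B') (C * C') := by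
  simp only [k3, mul_kronecker_mul]
lemma k3_one : k3 (1 : Matrix H H F) 1 1 = 1 := by simp only [k3, one_kronecker_one]
lemma k3_s1 : k3 (A - A') B C = k3 A B C - k3 A' B C := by ext; simp [k3]; ring
lemma k3_s2 : k3 A (B - B') C = k3 A B C - k3 A B' C := by ext; simp [k3]; ring
lemma k3_s3 : k3 A B (C - C') = k3 A B C - k3 A B C' := by ext; simp [k3]; ring
lemma k3_z1 : k3 0 B C = 0 := by ext; simp [k3]
lemma k3_z2 : k3 A 0 C = 0 := by ext; simp [k3]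
lemma k3_z3 : k3 A B 0 = 0 := by ext; simp [k3]
lemma k3_rank : (k3 A B C).rank ≤ A.rank * (B.rank * C.rank) :=
  (rank_kron _ _).trans (Nat.mul_le_mul_left _ (rank_kron _ _))
end k3

/-- the conclusion used by the programs -/
def Net (A R : Type) [Ring A] [CommRing R] (D : R) : Prop :=
  ∃ (m K n : ℕ) (ι : Type) (_ : Fintype ι) (_ : DecidableEq ι) (f g : ι → Matrix (Fin m) (Fin m) R)
    (b : Fin (2 ^ K) → Matrix (Fin m) (Fin m) R) (src : ι → Option (Fin (2 ^ K)))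
    (π : Fin (2 ^ K) → ι) (v : ι → Fin (2 ^ K) → A), 2 ≤ m ∧ n < 2 ^ K * m ∧
    Reach A f (fun a => (src a).elim (0 : Fin (2 ^ K) → A) fun i => Pi.single i 1) n g v ∧
    (∀ a i, src a = some i → f a = b i) ∧ ∀ i, v (π i) = Pi.single i 1 ∧ g (π i) = b i + D • 1

namespace Fam
variable {F A H S J M : Type} [Field F] [Ring A] [Fintype H] [DecidableEq H] [Fintype J]
  [DecidableEq J] [Fintype S] [DecidableEq S] [AddCommGroup M] [Module A M] (𝓕 : Fam F A H S J)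

abbrev ZI (I : Type) := (Fin 3 × (S × S) × 𝓕.Pr) ⊕ I
abbrev Wi (I : Type) := (S × S × S) ⊕ (S × S × S) ⊕ 𝓕.ZI I ⊕ (Fin 3 × (S × S) × J)

variable {I : Type} [Fintype I] [DecidableEq I]

noncomputable instance : DecidableEq (𝓕.Wi I) := Classical.decEq _

def Ω : 𝓕.Wi I → Bool := q4 (fun _ => true) (fun _ => true) (fun _ => true) fun _ => false

lemma stage {μ : Type} [Fintype μ] [DecidableEq μ] (s : Fin 3) (E : (S × S) × S ≃ S × S × S)
    {fx fy gx gy : S × S × S → Matrix μ μ F} {fz gz : 𝓕.ZI I → Matrix μ μ F}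
    {fc gc : Fin 3 × (S × S) × J → Matrix μ μ F} {x y x' y' : S × S × S → M} {z : 𝓕.ZI I → M}
    {c c' : Fin 3 × (S × S) × J → M} {L : ℕ}
    (hloc : ∀ g, Go A 𝓕.ω (q4 (fun T => fx (E (g, T))) (fun T => fy (E (g, T)))
      (fun π => fz (inl (s, g, π))) fun j => fc (s, g, j))
      (q4 (fun T => x (E (g, T))) (fun T => y (E (g, T))) (fun π => z (inl (s, g, π)))
        fun j => c (s, g, j)) L
      (q4 (fun T => gx (E (g, T))) (fun T => gy (E (g, T)))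
      (fun π => gz (inl (s, g, π))) fun j => gc (s, g, j))
      (q4 (fun T => x' (E (g, T))) (fun T => y' (E (g, T))) (fun π => z (inl (s, g, π)))
        fun j => c' (s, g, j)))
    (h1 : ∀ p, p.1 ≠ s → gz (inl p) = fz (inl p)) (h2 : ∀ i, gz (inr i) = fz (inr i))
    (h3 : ∀ p, p.1 ≠ s → gc p = fc p ∧ c' p = c p) :
    Go A 𝓕.Ω (q4 fx fy fz fc) (q4 x y z c) (Fintype.card (S × S) * L) (q4 gx gy gz gc)
      (q4 x' y' z c') := by
  refine Go.par (fun p => q4 (fun T => inl (E (p.1, T))) (fun T => inr (inl (E (p.1, T))))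
    (fun π => inr (inr (inl (inl (s, p.1, π))))) (fun j => inr (inr (inr (s, p.1, j)))) p.2)
    ?_ 𝓕.ω ?_ _ _ _ _ hloc ?_ ?_ ?_ ?_ ?_
  · rintro ⟨g, a | a | a | a⟩ ⟨g', b | b | b | b⟩ <;> simp [q4]
  any_goals rintro ⟨g, a | a | a | a⟩ <;> rfl
  rintro (a | a | (⟨t, g, π⟩ | a) | ⟨t, g, j⟩)
  · exact Or.inl ⟨((E.symm a).1, inl (E.symm a).2), by simp [q4]⟩
  · exact Or.inl ⟨((E.symm a).1, inr (inl (E.symm a).2)), by simp [q4]⟩
  · by_cases h : t = s
    · exact Or.inl ⟨(g, inr (inr (inl π))), by simp [q4, h]⟩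
    · exact Or.inr ⟨h1 _ h, rfl⟩
  · exact Or.inr ⟨h2 _, rfl⟩
  · by_cases h : t = s
    · exact Or.inl ⟨(g, inr (inr (inr j))), by simp [q4, h]⟩
    · exact Or.inr (h3 _ h)

def φ (s : Fin 3) (g : S × S) (N : Matrix H H F) : Matrix (H × H × H) (H × H × H) F :=
  ![k3 N (𝓕.P g.1) (𝓕.P g.2), k3 (1 - 𝓕.P g.1) 1 (𝓕.P g.2) + k3 (𝓕.P g.1) N (𝓕.P g.2),
    k3 (1 - 𝓕.P g.1) 1 1 + k3 (𝓕.P g.1) (1 - 𝓕.P g.2) 1 + k3 (𝓕.P g.1) (𝓕.P g.2) N] s

lemma φ_lq (s : Fin 3) (g : S × S) (N N' : Matrix H H F) (h : Lq N N') :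
    Lq (𝓕.φ s g N) (𝓕.φ s g N') := by
  obtain ⟨h1, h2, h3⟩ := h
  fin_cases s <;> refine ⟨?_, ?_, ?_⟩ <;>
    simp [φ, mul_add, add_mul, k3_mul, mul_sub, sub_mul, PP, h1, h2, h3, k3_z1, k3_z2]

lemma rank_P (T : S) : (𝓕.P T).rank ≤ 1 := rank_vecMulVec_le _ _

lemma φ_rank (s : Fin 3) (g : S × S) {N N' : Matrix H H F} (h : (N - N').rank ≤ Fintype.card H) :
    (𝓕.φ s g N - 𝓕.φ s g N').rank ≤ Fintype.card H := by
  have h1 := 𝓕.rank_P g.1
  have h2 := 𝓕.rank_P g.2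
  have e : 𝓕.φ s g N - 𝓕.φ s g N' = ![k3 (N - N') (𝓕.P g.1) (𝓕.P g.2),
      k3 (𝓕.P g.1) (N - N') (𝓕.P g.2), k3 (𝓕.P g.1) (𝓕.P g.2) (N - N')] s := by
    fin_cases s <;> simp [φ, k3_s1, k3_s2, k3_s3]
  rw [e]
  fin_cases s <;> refine (k3_rank _ _ _).trans ?_
  · exact (Nat.mul_le_mul h (Nat.mul_le_mul h1 h2)).trans (by simp)
  · exact (Nat.mul_le_mul h1 (Nat.mul_le_mul h h2)).trans (by simp)
  · exact (Nat.mul_le_mul h1 (Nat.mul_le_mul h2 h)).trans (by simp)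

def P3 (a : S × S × S) : Matrix (H × H × H) (H × H × H) F := k3 (𝓕.P a.1) (𝓕.P a.2.1) (𝓕.P a.2.2)

lemma P3_rank (a : S × S × S) : 1 ≤ (𝓕.P3 a).rank := by
  obtain ⟨X, Y, e⟩ := rank_fact (𝓕.P3 a)
  by_contra h
  have h0 : (𝓕.P3 a).rank = 0 := by omega
  have : trace (𝓕.P3 a) = 0 := by
    rw [e, trace_mul_comm]
    have : IsEmpty (Fin (𝓕.P3 a).rank) := by rw [h0]; infer_instance
    simp [trace]
  simp [P3, k3, trace_kronecker, P, trace_vecMulVec, dotProduct_comm, 𝓕.h1] at this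

def fz (k : ℕ) : 𝓕.ZI I → Matrix (H × H × H) (H × H × H) F :=
  Sum.elim (fun p => 𝓕.φ p.1 p.2.1 (if p.1 < k then 1 else 0)) 0

def fc (k : ℕ) (p : Fin 3 × (S × S) × J) : Matrix (H × H × H) (H × H × H) F :=
  𝓕.φ p.1 p.2.1 (if (p.1 < k ↔ p.1 ≠ 1) then 1 else 0)

def E0 : (S × S) × S ≃ S × S × S := Equiv.prodComm _ _
def E1 : (S × S) × S ≃ S × S × S :=
  ⟨fun p => (p.1.1, p.2, p.1.2), fun a => ((a.1, a.2.2), a.2.1), fun _ => rfl, fun _ => rfl⟩
def E2 : (S × S) × S ≃ S × S × S := Equiv.prodAssoc _ _ _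

lemma glob (x y : S × S × S → M) (z : 𝓕.ZI I → M) : ∃ c,
    Go A 𝓕.Ω (q4 0 𝓕.P3 0 (𝓕.fc 0)) (q4 x y z 0)
      (3 * (Fintype.card (S × S) * (Fintype.card J * Fintype.card H)))
      (q4 (fun a => 1 - 𝓕.P3 a) 1 1 (𝓕.fc 3)) (q4 (-y) x z c) := by
  have PP := 𝓕.PP
  have r1 : ((1 : Matrix H H F) - 0).rank ≤ Fintype.card H := rank_le_card_width _
  have r0 : ((0 : Matrix H H F) - 1).rank ≤ Fintype.card H := rank_le_card_width _
  let c0 : Fin 3 × (S × S) × J → M := fun p => 𝓕.cen (fun T => x (E0 (p.2.1, T))) p.2.2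
  let c1 : Fin 3 × (S × S) × J → M := fun p => 𝓕.cen (fun T => (y + x) (E1 (p.2.1, T))) p.2.2
  let c2 : Fin 3 × (S × S) × J → M := fun p => 𝓕.cen (fun T => (-y) (E2 (p.2.1, T))) p.2.2
  refine ⟨fun p => if p.1 = 0 then c0 p else if p.1 = 1 then c1 p else c2 p, Go.mono ((((((
    (Go.move0 (g := q4 0 𝓕.P3 (𝓕.fz 0) (𝓕.fc 0)) ?_).trans
    (𝓕.stage 0 E0 (gx := fun a => 𝓕.φ 0 a.2 (1 - 𝓕.P a.1)) (gy := fun a => 𝓕.φ 0 a.2 1)
      (gz := 𝓕.fz 1) (gc := 𝓕.fc 1) (x' := x) (y' := y + x)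
      (c' := fun p => if p.1 = 0 then c0 p else 0) (L := Fintype.card J * Fintype.card H)
      (fun g => ?_) ?_ (fun _ => rfl) ?_)).trans
    (Go.move0 (g := q4 (fun a => 𝓕.φ 1 (a.1, a.2.2) 0) (fun a => 𝓕.φ 1 (a.1, a.2.2) (𝓕.P a.2.1))
      (𝓕.fz 1) (𝓕.fc 1)) ?_)).trans
    (𝓕.stage 1 E1 (gx := fun a => 𝓕.φ 1 (a.1, a.2.2) (1 - 𝓕.P a.2.1))
      (gy := fun a => 𝓕.φ 1 (a.1, a.2.2) 1) (gz := 𝓕.fz 2) (gc := 𝓕.fc 2) (x' := -y) (y' := y + x)
      (c' := fun p => if p.1 = 0 then c0 p else if p.1 = 1 then c1 p else 0)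
      (L := Fintype.card J * Fintype.card H) (fun g => ?_) ?_ (fun _ => rfl) ?_)).trans
    (Go.move0 (g := q4 (fun a => 𝓕.φ 2 (a.1, a.2.1) 0) (fun a => 𝓕.φ 2 (a.1, a.2.1) (𝓕.P a.2.2))
      (𝓕.fz 2) (𝓕.fc 2)) ?_)).trans
    (𝓕.stage 2 E2 (gx := fun a => 𝓕.φ 2 (a.1, a.2.1) (1 - 𝓕.P a.2.2))
      (gy := fun a => 𝓕.φ 2 (a.1, a.2.1) 1) (gz := 𝓕.fz 3) (gc := 𝓕.fc 3) (x' := -y) (y' := x)
      (L := Fintype.card J * Fintype.card H) (fun g => ?_) ?_ (fun _ => rfl) ?_)).trans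
    (Go.move0 ?_)) (by omega)⟩
  · rintro (a | a | a | a) <;> simp [q4, Ω, Lq.zero, Lq.refl, P3, k3_mul, PP]
  · have := 𝓕.fwd (𝓕.φ 0 g) (𝓕.φ_lq 0 g) _ (𝓕.φ_rank 0 g r1) (fun T => x (T, g))
      (fun T => y (T, g)) fun π => z (inl (0, g, π))
    simpa [E0, fz, fc, φ, k3_z1, P3, c0, Pi.add_def, Pi.zero_def] using this
  · rintro ⟨s, p⟩ h; fin_cases s <;> simp_all [fz]
  · rintro ⟨s, p⟩ h; fin_cases s <;> simp_all [fc]
  · rintro (a | a | (a | a) | a) <;> simp only [q4, Ω, fz, elim_inl, elim_inr, if_true,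
      Bool.false_eq_true, if_false]
    · refine ⟨?_, ?_, ?_⟩ <;> simp [φ, k3_mul, mul_sub, sub_mul, PP, k3_z2]
    · refine ⟨?_, ?_, ?_⟩ <;> simp [φ, mul_add, add_mul, k3_mul, mul_sub, sub_mul, PP, k3_s1]
    · exact 𝓕.φ_lq _ _ _ _ (Lq.refl (by split_ifs <;> simp))
    · exact Lq.zero
  · have := 𝓕.bwd (𝓕.φ 1 g) (𝓕.φ_lq 1 g) _ (𝓕.φ_rank 1 g r0) (fun T => x (g.1, T, g.2))
      (fun T => (y + x) (g.1, T, g.2)) fun π => z (inl (1, g, π))
    simpa [E1, fz, fc, c1, Pi.add_def, Pi.zero_def, Pi.sub_def] using this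
  · rintro ⟨s, p⟩ h; fin_cases s <;> simp_all [fz]
  · rintro ⟨s, p⟩ h; fin_cases s <;> simp_all [fc]
  · rintro (a | a | (a | a) | a) <;> simp only [q4, Ω, fz, elim_inl, elim_inr, if_true,
      Bool.false_eq_true, if_false]
    · refine ⟨?_, ?_, ?_⟩ <;>
        simp [φ, mul_add, add_mul, k3_mul, mul_sub, sub_mul, PP, k3_z1, k3_z2, k3_z3]
    · refine ⟨?_, ?_, ?_⟩ <;>
        simp [φ, mul_add, add_mul, k3_mul, mul_sub, sub_mul, PP, k3_s1, k3_s2]
    · exact 𝓕.φ_lq _ _ _ _ (Lq.refl (by split_ifs <;> simp))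
    · exact Lq.zero
  · have := 𝓕.fwd (𝓕.φ 2 g) (𝓕.φ_lq 2 g) _ (𝓕.φ_rank 2 g r1) (fun T => (-y) (g.1, g.2, T))
      (fun T => (y + x) (g.1, g.2, T)) fun π => z (inl (2, g, π))
    simpa [E2, fz, fc, c2, Pi.add_def, Pi.zero_def, Pi.neg_def] using this
  · rintro ⟨s, p⟩ h; fin_cases s <;> simp_all [fz]
  · rintro ⟨s, p⟩ h; fin_cases s <;> simp_all [fc]
  · rintro (a | a | (a | a) | a) <;> simp only [q4, Ω, fz, elim_inl, elim_inr, if_true,
      Bool.false_eq_true, if_false, Pi.one_apply]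
    · have : 𝓕.φ 2 (a.1, a.2.1) (1 - 𝓕.P a.2.2) = 1 - 𝓕.P3 a := by
        simp [φ, k3_s1, k3_s2, k3_s3, k3_one, P3]
      rw [this]
      exact Lq.refl (idem_sub (by simp [P3, k3_mul, PP]))
    · exact Lq.one (𝓕.φ_lq _ _ _ _ (Lq.refl (mul_one 1))).1
    · exact Lq.one (𝓕.φ_lq _ _ _ _ (Lq.refl (by split_ifs <;> simp))).1
    · exact Lq.zero

lemma glob2 (hc : 3 * (Fintype.card J * Fintype.card H) < Fintype.card S)
    (x y : S × S × S → M) (z : 𝓕.ZI I → M) : ∃ c n,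
    n < Fintype.card ((S × S × S) ⊕ (S × S × S) ⊕ 𝓕.ZI I) * Fintype.card (H × H × H) ∧
    Reach (ι := 𝓕.Wi I) A (q4 0 𝓕.P3 0 (𝓕.fc 0)) (q4 x y z 0) n
      (q4 (fun a => 𝓕.P3 a + 1) 1 1 (𝓕.fc 3)) (q4 y x z c) := by
  obtain ⟨c, n, r, b⟩ := 𝓕.glob x y z
  have r2 := Reach.moveAll (ι := 𝓕.Wi I) (A := A) (q4 (fun a => 1 - 𝓕.P3 a) 1 1 (𝓕.fc 3))
    (q4 (fun a => 𝓕.P3 a + 1) 1 1 (𝓕.fc 3)) (q4 (-y) x z c)
  have neg : ∀ t : Finset (S × S × S), Reach (ι := 𝓕.Wi I) A (q4 (fun a => 𝓕.P3 a + 1) 1 1 (𝓕.fc 3))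
      (q4 (-y) x z c) 0 (q4 (fun a => 𝓕.P3 a + 1) 1 1 (𝓕.fc 3))
      (q4 (fun a => if a ∈ t then y a else -y a) x z c) := by
    intro t
    induction t using Finset.induction_on with
    | empty => simpa [Pi.neg_def] using Reach.refl
    | insert i t hi ih =>
      refine (ih.gate (inl i) (inl i) (-2) rfl).cast rfl (funext ?_)
      rintro (a | a)
      · by_cases h : a = i
        · subst h; simp [q4, hi, two_smul]
        · simp [q4, h]
      · simp [q4]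
  refine ⟨c, _, ?_, ((r.trans r2).trans (neg univ)).cast rfl (by simp)⟩
  have h1 : ∀ a, (𝓕.P3 a + 1 - (1 - 𝓕.P3 a)).rank ≤ 1 := fun a => by
    have : 𝓕.P3 a + 1 - (1 - 𝓕.P3 a) = k3 (vecMulVec ((2 : F) • 𝓕.v a.1) (𝓕.u a.1)) (𝓕.P a.2.1)
        (𝓕.P a.2.2) := by
      ext; simp [P3, k3, P, vecMulVec_apply]; ring
    rw [this]
    refine (k3_rank _ _ _).trans ?_
    calc _ ≤ 1 * (1 * 1) := by gcongr; exacts [rank_vecMulVec_le _ _, 𝓕.rank_P _, 𝓕.rank_P _]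
      _ = _ := rfl
  have h2 : ∀ a, (1 - 𝓕.P3 a).rank + 1 ≤ Fintype.card (H × H × H) := fun a => by
    have := (Lq.one (P := 𝓕.P3 a) (by simp [P3, k3_mul, PP])).rank
    have := 𝓕.P3_rank a
    rw [rank_one] at *; omega
  have s1 := sum_le_sum (s := univ) fun a _ => h1 a
  have s2 := sum_le_sum (s := univ) fun a _ => h2 a
  have s3 := sum_le_sum (s := univ) fun a _ => 𝓕.P3_rank a
  simp only [pot, Ω, q4, Fintype.sum_sum_type, elim_inl, elim_inr, if_true, Pi.zero_apply,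
    Matrix.rank_zero, Pi.one_apply, rank_one, sum_const, card_univ, smul_eq_mul, sub_self,
    Bool.false_eq_true, if_false, Fintype.card_sum, sum_add_distrib, mul_zero, mul_one,
    add_zero, zero_add] at b s1 s2 s3 ⊢
  have e : Fintype.card (S × S × S) = Fintype.card (S × S) * Fintype.card S := by simp [mul_assoc]
  have p : 0 < Fintype.card (S × S) := by simp; omega
  have := Nat.mul_lt_mul_of_pos_left hc p
  simp only [add_mul] at b ⊢
  nlinarith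

include 𝓕 in
lemma net0 (hc : 3 * (Fintype.card J * Fintype.card H) < Fintype.card S) (hH : 2 ≤ Fintype.card H) :
    Net A F 1 := by
  let n0 := Fintype.card ((S × S × S) ⊕ (S × S × S) ⊕ (Fin 3 × (S × S) × 𝓕.Pr))
  have hI : Fintype.card ((S × S × S) ⊕ (S × S × S) ⊕ 𝓕.ZI (Fin (2 ^ n0 - n0))) = 2 ^ n0 := by
    have := Nat.lt_two_pow_self (n := n0)
    simp only [n0, Fintype.card_sum, Fintype.card_fin] at this ⊢; omega
  let e := Fintype.equivFinOfCardEq hI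
  let m := Fintype.equivFin (H × H × H)
  obtain ⟨c, n, hn, r⟩ := 𝓕.glob2 (M := Fin (2 ^ n0) → A) hc (fun a => Pi.single (e (inl a)) 1)
    (fun a => Pi.single (e (inr (inl a))) 1) fun a => Pi.single (e (inr (inr a))) 1
  have r' := r.mapFr (reindex m m) fun x y => ⟨x ∘ m.symm, y ∘ m.symm, fun _ => by
    ext; simp [vecMulVec_apply]⟩
  refine ⟨_, n0, n, _, inferInstance, inferInstance, _, _,
    fun i => reindex m m (Sum.elim 0 (Sum.elim 𝓕.P3 0) (e.symm i)),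
    q4 (fun a => some (e (inl a))) (fun a => some (e (inr (inl a)))) (fun a => some (e (inr (inr a))))
      fun _ => none,
    fun i => Sum.elim (fun a => inr (inl a)) (Sum.elim inl fun a => inr (inr (inl a))) (e.symm i),
    _, ?_, by rw [← hI]; exact hn, (congrArg (Reach A _ · _ _ _) (funext ?_)).mp r', ?_, fun i => ?_⟩
  · simp only [Fintype.card_prod]; nlinarith [Nat.mul_le_mul hH hH]
  · rintro (a | a | a | a) <;> rfl
  · rintro (a | a | a | a) i h <;> simp [q4] at h <;> subst h <;> simp [q4]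
  · obtain ⟨a, rfl⟩ := e.surjective i
    rcases a with a | a | a <;> simp [q4, submatrix_add]

end Fam

lemma Net.int {A : Type} [Ring A] (h : Net A ℚ 1) : ∃ D : ℤ, D ≠ 0 ∧ Net A ℤ D := by
  obtain ⟨m, K, n, ι, _, _, f, g, b, src, π, v, h1, h2, r, h3, h4⟩ := h
  obtain ⟨D, hD, r⟩ := r.int
  obtain ⟨d, hd, z, hz⟩ := clear_den (τ := (ι ⊕ Fin (2 ^ K)) × Fin m × Fin m)
    fun p => Sum.elim f b p.1 p.2.1 p.2.2
  obtain ⟨g', e, r⟩ := r d (fun a => of fun i j => D * D * d * z (inl a, i, j)) fun a i j => by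
    simp only [of_apply]; push_cast; rw [hz]; simp; ring
  refine ⟨(D * d) ^ 2, by positivity, m, K, n, ι, inferInstance, inferInstance, _, g',
    fun a => of fun i j => D * D * d * z (inr a, i, j), src, π, v, h1, h2, r, fun a i h => ?_,
    fun i => ⟨(h4 i).1, ?_⟩⟩
  · ext p q
    refine Int.cast_injective (α := ℚ) ?_
    simp only [of_apply]; push_cast; rw [hz, hz]; simp [h3 a i h]
  · ext p q
    refine Int.cast_injective (α := ℚ) ?_
    rw [e, (h4 i).2]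
    simp only [of_apply, Matrix.add_apply, Matrix.smul_apply, one_apply]
    push_cast; rw [hz]; simp; split_ifs <;> ring

def Tr (h : ℕ) := {T : Finset (Fin h) // T.card = 3}

instance (h : ℕ) : Fintype (Tr h) := inferInstanceAs (Fintype {T : Finset (Fin h) // T.card = 3})
instance (h : ℕ) : DecidableEq (Tr h) := inferInstanceAs (DecidableEq {T : Finset (Fin h) // T.card = 3})

lemma card_Tr (h : ℕ) : Fintype.card (Tr h) = h.choose 3 :=
  (Fintype.card_finset_len 3).trans (by simp)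

def ind (R : Type) [Ring R] {h : ℕ} (T : Tr h) (i : Fin h) : R := if i ∈ T.1 then 1 else 0

lemma ind_dot (R : Type) [Ring R] {h : ℕ} (T U : Tr h) :
    ∑ i, ind R T i * ind R U i = (T.1 ∩ U.1).card := by
  simp only [ind, ite_mul, one_mul, zero_mul, ← ite_and, ← mem_inter, sum_ite_mem, univ_inter]; simp

lemma inter_cases {h : ℕ} {T U : Tr h} (hn : T ≠ U) : (T.1 ∩ U.1).card ≤ 2 := by
  by_contra hc
  have h1 := eq_of_subset_of_card_le (inter_subset_left (s₁ := T.1) (s₂ := U.1)) (by rw [T.2]; omega)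
  have h2 := eq_of_subset_of_card_le (inter_subset_right (s₁ := T.1) (s₂ := U.1)) (by rw [U.2]; omega)
  exact hn (Subtype.ext (h1.symm.trans h2))

def fam1 : Fam ℚ (ZMod 2) (Fin 21) (Tr 21) (Fin 21) where
  u T i := (ind ℚ T i - 1 / 3) / 2
  v := ind ℚ
  orth T U := (T.1 ∩ U.1).card = 1
  L j U := ind _ U j
  R := ind _
  h1 T := by
    have h1 := ind_dot ℚ T T
    have h2 : ∑ i, ind ℚ T i = 3 := by simp [ind, T.2]
    simp only [dotProduct, div_mul_eq_mul_div, sub_mul, ← sum_div, sum_sub_distrib, ← mul_sum, h1, h2]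
    simp [T.2]; norm_num
  h0 T U h := by
    have h2 : ∀ T : Tr 21, ∑ i, ind ℚ T i = 3 := fun T => by simp [ind, T.2]
    simp only [dotProduct, div_mul_eq_mul_div, sub_mul, ← sum_div, sum_sub_distrib, ← mul_sum,
      ind_dot, h2, inter_comm U.1, h]
    norm_num
  k1 T := by rw [ind_dot, inter_self, T.2]; rfl
  k0 T U h h' := by
    have := inter_cases h
    rw [ind_dot]
    generalize (T.1 ∩ U.1).card = k at *
    interval_cases k <;> first | rfl | omega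

theorem net1 : ∃ D : ℤ, D ≠ 0 ∧ Net (ZMod 2) ℤ D :=
  (fam1.net0 (by simp [card_Tr]; decide) (by simp)).int

def fam2 (A : Type) [CommRing A] (t : A) (ht : 2 * t = 1) :
    Fam (ZMod 2) A (Fin 22) (Tr 22) (Option (Fin 22)) where
  u := ind _
  v := ind _
  orth T U := Even (T.1 ∩ U.1).card
  L j U := j.elim 1 (ind _ U)
  R T j := j.elim (-t) fun j => t * ind _ T j
  h1 T := by rw [dotProduct, ind_dot, inter_self, T.2]; rfl
  h0 T U h := by
    simp only [dotProduct, ind_dot, inter_comm U.1]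
    simpa [ZMod.natCast_eq_zero_iff_even] using h
  k1 T := by
    simp only [Fintype.sum_option, Option.elim, mul_assoc, ← mul_sum, ind_dot, inter_self, T.2]
    push_cast; linear_combination ht
  k0 T U h h' := by
    have := inter_cases h
    simp only [Fintype.sum_option, Option.elim, mul_assoc, ← mul_sum, ind_dot]
    generalize (T.1 ∩ U.1).card = k at *
    interval_cases k <;> simp at h' ⊢

theorem net2 (A : Type) [CommRing A] (t : A) (ht : 2 * t = 1) : Net A (ZMod 2) 1 :=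
  (fam2 A t ht).net0 (by simp [card_Tr]; decide) (by simp)

end Vale.Agent.P338
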