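import Vale.Agent.P338.Sca
import Vale.Agent.P338.Net3

/-! Running a network on arrays. -/

namespace Vale.Agent.P338

open Filter Cd Function

set_option linter.unusedSectionVars false

variable {α β γ δ Ω Ω' X Y Z : Type} [Cd α] [Cd β] [Cd γ] [Cd δ] [Cd Ω] [Cd Ω'] [Cd X] [Cd Y] [Cd Z]
  {B : Bd α} {w : Wd γ} {μ : γ → ℕ} {φ : Ω → Ω'}

def Wd.bx (w : Wd γ) (μ : γ → ℕ) (cx : X → γ) : Bd X := ⟨fun e x => (μ (cx x) + 1) * w.U e (cx x)⟩

lemma Wd.envx (w : Wd γ) (μ : γ → ℕ) {cx : X → γ} (h : In (w.bx μ cx) cx) :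
    Env w μ (w.bx μ cx) cx :=
  ⟨h, fun e => eventually_atTop.2 ⟨e, fun e' he => ⟨1, fun a => by
    have := Nat.mul_le_mul_left (μ (cx a) + 1) (w.U_mono he (cx a))
    simp only [Wd.bx]; omega⟩⟩⟩

def OX (φ : Ω → Ω') (w : Wd γ) (μ : γ → ℕ) (cx : X → γ) (S : (Ω → ℕ∞) → γ → ℕ∞) (f : X → Y) : Prop :=
  ∀ᶠ e in atTop, TmO φ ((w.bx μ cx).b e) (fun κ x => S κ (cx x)) f

def Sm (w : Wd γ) (cy : Y → γ) : Prop := ∃ e C, ∀ y, sz y ≤ C * w.U e (cy y)

variable {cx : X → γ} {cy : Y → γ} {S S' : (Ω → ℕ∞) → γ → ℕ∞}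

lemma In.ox {f : X → Y} (h : In (w.bx μ cx) f) : OX φ w μ cx (fun _ _ => 0) f :=
  h.mono fun _ h => h.lift

lemma OX.mono {f g : X → Y} (h : OX φ w μ cx S f) (hS : ∀ κ c, S κ c ≤ S' κ c)
    (e : ∀ x, f x = g x) : OX φ w μ cx S' g :=
  Eventually.mono h fun _ h => h.mono ⟨1, by simp⟩ (fun _ _ => hS _ _) e

lemma OX.of_cd {f : X → Y} {g : X → Z} (h : OX φ w μ cx S f) (e : ∀ x, cd (f x) = cd (g x)) :
    OX φ w μ cx S g := Eventually.mono h fun _ h => h.of_cd e

lemma OX.comp {f : X → Y} {g : Y → Z} (hg : OX φ w μ cy S' g) (hf : OX φ w μ cx S f)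
    (hc : ∀ x, cy (f x) = cx x) (hs : Sm w cy) :
    OX φ w μ cx (fun κ c => S κ c + S' κ c) fun x => g (f x) := by
  obtain ⟨e0, C, hs⟩ := hs
  filter_upwards [hg, hf, eventually_ge_atTop e0] with e a b he
  refine (a.comp b).mono ⟨C + 2, fun x => ?_⟩ (fun κ x => by rw [hc]) fun _ => rfl
  have h1 := hs (f x)
  have h2 := Nat.mul_le_mul_left C (w.U_mono he (cx x))
  simp only [Wd.bx, hc] at h1 ⊢
  nlinarith [Nat.zero_le (C * (μ (cx x) * w.U e (cx x))), Nat.zero_le (C * sz x)]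

lemma OX.pair {f : X → Y} {g : X → Z} (hf : OX φ w μ cx S f) (hg : OX φ w μ cx S' g) :
    OX φ w μ cx (fun κ c => S κ c + S' κ c) fun x => (f x, g x) := by
  filter_upwards [hg, hf] with e a b
  exact (b.pair a).mono ⟨2, fun x => by omega⟩ (fun _ _ => le_rfl) fun _ => rfl

lemma OX.post {f : X → Y} {g : Y → Z} (hg : In linB g) (hf : OX φ w μ cx S f)
    (hs : ∃ e C, ∀ x, sz (f x) ≤ C * w.U e (cx x)) : OX φ w μ cx S fun x => g (f x) := by
  obtain ⟨e0, C, hs⟩ := hs
  filter_upwards [hf, eventually_ge_atTop e0] with e b he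
  refine (hg.ltm.lift.comp b).mono ⟨C + 2, fun x => ?_⟩ (fun κ x => by simp) fun _ => rfl
  have h1 := hs x
  have h2 := Nat.mul_le_mul_left C (w.U_mono he (cx x))
  simp only [Wd.bx] at h1 ⊢
  nlinarith [Nat.zero_le (C * (μ (cx x) * w.U e (cx x))), Nat.zero_le (C * sz x)]

lemma OX.call {g : X → Ω} (h : In (w.bx μ cx) g) (hS : ∀ κ x, κ (g x) ≤ S κ (cx x)) :
    OX φ w μ cx S fun x => φ (g x) :=
  Eventually.mono h fun _ h => (TmO.call.precomp h).mono ⟨1, by simp⟩ hS fun _ => rfl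

def OA (φ : Ω → Ω') (w : Wd γ) (μ : γ → ℕ) (S : (Ω → ℕ∞) → γ → ℕ∞)
    (f : ∀ c, (ℕ → w.V c) → ℕ → w.V c) : Prop :=
  OX φ w μ Ar.c S fun a : Ar w => (⟨a.1, f a.1 a.2⟩ : Ar w)

lemma Op.oa {f} (h : Op w μ f) : OA φ w μ (fun _ _ => 0) f := In.ox h.in

lemma OA.comp {f g} (hf : OA φ w μ S f) (hg : OA φ w μ S' g) :
    OA φ w μ (fun κ c => S κ c + S' κ c) fun c F => g c (f c F) :=
  OX.comp hg hf (fun _ => rfl) w.sz_ar

lemma OA.congr {f g} (h : OA φ w μ S f) (hS : ∀ κ c, S κ c ≤ S' κ c)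
    (e : ∀ c F, ∀ z < w.N c, f c F z = g c F z) : OA φ w μ S' g :=
  (OX.mono h hS fun _ => rfl).of_cd fun a => by
    exact congrArg (fun l : List (List Bool) => cd (a.1, l)) (tab_congr fun z hz => congrArg _ (e _ _ z hz))

lemma OA.pre {f g} (hf : Op w μ f) (hg : OA φ w μ S g) : OA φ w μ S fun c F => g c (f c F) :=
  (hf.oa.comp hg).congr (by simp) fun _ _ _ _ => rfl

lemma OA.post {f g} (hf : OA φ w μ S f) (hg : Op w μ g) : OA φ w μ S fun c F => g c (f c F) :=
  (hf.comp hg.oa).congr (by simp) fun _ _ _ _ => rfl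

lemma OA.dite {p : γ → Prop} [DecidablePred p] (hp : Dec polyB p)
    {f : ∀ c : {c // p c}, (ℕ → w.V c.1) → ℕ → w.V c.1}
    {g : ∀ c : {c // ¬ p c}, (ℕ → w.V c.1) → ℕ → w.V c.1} {S1}
    (hf : OA φ (w.res p) (fun c => μ c.1) S1 f) (hg : Op (w.res fun c => ¬ p c) (fun c => μ c.1) g) :
    OA φ w μ (fun κ c => if h : p c then S1 κ ⟨c, h⟩ else 0)
      fun c F => if h : p c then f ⟨c, h⟩ F else g ⟨c, h⟩ F := by
  have E := w.env μ
  have key : ∀ q : γ → Prop, Env (w.res q) (fun c => μ c.1) ((w.bd μ).sub fun x => q x.1)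
      fun x => ⟨x.1.1, x.2⟩ := fun q => ⟨In.mk _ (E.inc.sub' _), fun e =>
    ((E.map (w.pull (fun c => c) In.id) (μ' := μ) (g := fun c => c) In.id 1
      fun _ => by simp [Wd.pull]).dom e).sub' _⟩
  have h2 := In.armk (w := w) (c := fun x : {x : Ar w // ¬ p x.1} => x.1.1) In.id.val.ar1
    (hg _ _ _ (key _) (fun x => x.1.2) In.id.val.ar2)
  obtain ⟨e1, h1⟩ := hf.exists
  have h3 : In linB fun x : {x : Ar w // p x.1} => (⟨⟨x.1.1, x.2⟩, x.1.2⟩ : Ar (w.res p)) :=
    In.id.of_cd fun _ => rfl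
  filter_upwards [h2, In.dec (E.small hp : Dec _ fun a : Ar w => p a.1), (key p).dom e1]
    with e a b ⟨C, hC⟩
  refine ((TmO.dite b (h1.precomp h3.ltm |>.of_cd (g := fun x => (⟨x.1.1, f ⟨x.1.1, x.2⟩ x.1.2⟩ : Ar w))
    fun _ => rfl) a.lift).mono ⟨C + 2, fun x => ?_⟩ (fun _ _ => le_rfl) fun x => ?_)
  · split_ifs with h
    · have := hC ⟨x, h⟩
      simp only [Wd.bx, Wd.bd, Bd.sub, sz_sub] at this ⊢
      nlinarith
    · simp only [Wd.bx, Wd.bd, Bd.sub]
      nlinarith [Nat.zero_le (C * ((μ x.1 + 1) * w.U e x.1 + sz x))]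
  · dsimp only; split_ifs <;> rfl

lemma In.ofFn {n : ℕ} {f : Fin n → α → β} (h : ∀ i, In B (f i)) :
    In B fun x => List.ofFn fun i => f i x := by
  induction n with
  | zero => simpa using In.const _
  | succ n ih => simpa only [List.ofFn_succ] using (h 0).cons (ih fun i => h i.succ)

structure Wires (w : Wd γ) (ι : Type) where
  c : γ
  F : ι → ℕ → w.V c

variable {ι : Type} [Fintype ι]

noncomputable def Wires.code (s : Wires w ι) : γ × List (List (List Bool)) :=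
  (s.c, List.ofFn fun i => w.arr s.c (s.F ((Fintype.equivFin ι).symm i)))

noncomputable instance : Cd (Wires w ι) := ⟨fun s => cd s.code⟩

lemma In.wc {f : α → Wires w ι} (h : In B f) : In B fun x => (f x).c :=
  (h.of_cd (g := fun x => (f x).code) fun _ => rfl).fst

lemma In.wget {f : α → Wires w ι} (h : In B f) (a : ι) : In B fun x => w.arr _ ((f x).F a) :=
  (In.getD' (h.of_cd (g := fun x => (f x).code) fun _ => rfl).snd
    (In.const (Fintype.equivFin ι a : ℕ)) (In.const [])).congr fun x => by simp [Wires.code]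

lemma In.wmk {c : α → γ} {F : ∀ x, ι → ℕ → w.V (c x)} (h : In B c)
    (h' : ∀ a, In B fun x => w.arr _ (F x a)) : In B fun x => (⟨c x, F x⟩ : Wires w ι) :=
  (h.pair (In.ofFn fun i => h' ((Fintype.equivFin ι).symm i))).of_cd fun _ => rfl

lemma Wd.arr_le (w : Wd γ) (e : ℕ) (c : γ) (F) : sz (w.arr c F) + 1 ≤ 4 * w.U e c := by
  have h1 := w.sz_arr c F
  have h2 := w.pos c
  have h4 : 0 < (w.lg c + 1) ^ e := by positivity
  unfold Wd.U
  nlinarith [Nat.zero_le (w.Y c * (w.Y c + w.lg c + 1) ^ e), Nat.mul_le_mul_left (w.N c) h4]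

lemma sm_wires : Sm w (Wires.c : Wires w ι → γ) := by
  obtain ⟨C, k, h⟩ := w.szle
  refine ⟨k, C + 2 + Fintype.card ι * 4, fun s => ?_⟩
  have h1 := sz_list_le s.code.2 (k := 4 * w.U k s.c - 1) fun a ha => by
    obtain ⟨i, rfl⟩ := List.mem_ofFn.1 ha
    have := w.arr_le k s.c (s.F ((Fintype.equivFin ι).symm i))
    omega
  have h2 := h s.c
  have h3 : (w.lg s.c + 1) ^ k ≤ w.U k s.c := by
    have := w.pos s.c
    unfold Wd.U; nlinarith [Nat.zero_le (w.Y s.c * (w.Y s.c + w.lg s.c + 1) ^ k),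
      Nat.zero_le (w.N s.c * w.ℓ s.c), Nat.zero_le ((w.lg s.c + 1) ^ k)]
  have h4 : 0 < (w.lg s.c + 1) ^ k := by positivity
  change sz s.c + sz s.code.2 + 1 ≤ _
  rw [Nat.sub_add_cancel (by omega)] at h1
  simp only [Wires.code, List.length_ofFn] at h1 ⊢
  nlinarith [Nat.mul_le_mul_left C h3]

lemma OA.wire [DecidableEq ι] {f} (h : OA φ w μ S f) (a : ι) :
    OX φ w μ Wires.c S fun s : Wires w ι => (⟨s.c, update s.F a (f s.c (s.F a))⟩ : Wires w ι) := by
  have h1 : OX φ w μ Wires.c _ fun s : Wires w ι => (⟨s.c, f s.c (s.F a)⟩ : Ar w) :=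
    OX.comp h (In.ox (In.armk In.id.wc (In.id.wget a))) (fun _ => rfl) w.sz_ar
  have h2 := ((In.ox (f := Wires.code) (In.id.of_cd fun _ => rfl)).pair
    (h1.of_cd (g := fun s => (s.c, w.arr _ (f s.c (s.F a)))) fun _ => rfl)).post
    (g := fun p => (p.1.1, p.1.2.set (Fintype.equivFin ι a) p.2.2)) (by fun_prop) (by
      obtain ⟨e, C, h1⟩ := sm_wires (w := w) (ι := ι)
      obtain ⟨e', C', h2⟩ := w.sz_ar
      refine ⟨e + e', C + C' + 1, fun s => ?_⟩
      have a1 := h1 s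
      have a2 := h2 ⟨s.c, f s.c (s.F a)⟩
      have a3 := Nat.mul_le_mul_left C (w.U_mono (Nat.le_add_right e e') s.c)
      have a4 := Nat.mul_le_mul_left C' (w.U_mono (Nat.le_add_left e' e) s.c)
      have a5 := w.arr_le (e + e') s.c (s.F a)
      change sz s + sz (⟨s.c, f s.c (s.F a)⟩ : Ar w) + 1 ≤ _
      dsimp only at a2
      nlinarith)
  refine (h2.mono (by simp) fun _ => rfl).of_cd fun s => congrArg (fun l => cd (s.c, l)) ?_
  refine List.ext_getElem (by simp [Wires.code]) fun i h1 h2 => ?_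
  simp only [Wires.code, List.getElem_set, List.getElem_ofFn]
  split_ifs with hi
  · have : (Fintype.equivFin ι).symm ⟨i, by simpa using h2⟩ = a := by
      rw [Equiv.symm_apply_eq]; exact Fin.ext hi.symm
    rw [this, update_self]
  · rw [update_of_ne]
    intro e; apply hi; rw [← e]; simp

lemma In.split {n : α → ℕ} {F : α → ℕ → β} {W : ℕ} (d : β) (i : Fin W)
    (h : In B fun x => tab (n x * W) (F x)) : In B fun x => tab (n x) fun z => F x (z * W + i) :=
  (In.map (g := fun l : List β => l.getD i d) (by fun_prop)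
    (In.chunks (In.const W) (Dom.const _) h)).congr fun x => by
      rw [chunks_tab i.pos, tab_map]; exact tab_congr fun z _ => tab_getD _ _ i.2

lemma In.merge {n : α → ℕ} {G : ℕ → α → ℕ → β} {W : ℕ} (hW : 0 < W)
    (h : ∀ i < W, In B fun x => tab (n x) (G i x)) :
    In B fun x => tab (n x * W) fun z => G (z % W) x (z / W) := by
  have key : ∀ j ≤ W, In B fun x => tab (n x) fun z => tab j fun i => G i x z := by
    intro j hj
    induction j with
    | zero => exact (In.map (g := fun _ => ([] : List β)) (In.const _) (h 0 hW)).congr fun x =>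
        tab_map _ _ _
    | succ j ih =>
      refine (In.zipWith (g := fun (l : List β) b => l ++ [b]) (by fun_prop) (ih (by omega))
        (h j (by omega))).congr fun x => ?_
      rw [tab_zipWith]; exact tab_congr fun z _ => by rw [tab_add]; rfl
  refine (key W le_rfl).flatten.congr fun x => ?_
  rw [← tab_flatten]
  congr 1
  exact tab_congr fun z _ => tab_congr fun i hi => by rw [lex_div hi, lex_mod hi]

@[reducible] def Wd.div (w : Wd γ) (W : ℕ) (h : ∀ c, W ∣ w.N c) : Wd γ :=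
  { w with
    N := fun c => w.N c / W
    pos := fun c => Nat.div_pos (Nat.le_of_dvd (w.pos c) (h c)) (Nat.pos_of_dvd_of_pos (h c) (w.pos c))
    poly := w.poly.div (In.const W) }

lemma Reach.fin {ι m R M A : Type} [DecidableEq ι] [Ring A] [AddCommGroup M] [Module A M]
    [CommRing R] {f g : ι → Matrix m m R} {u v : ι → M} {n : ℕ} (h : Reach A f u n g v) :
    ∃ T : List ((m → R) × (m → R)), ∀ C : ℕ → (ι → Matrix m m R) → (ι → M) → Prop, C 0 f u →
      (∀ n g v a b (t : A), C n g v → g a = g b → C n g (update v a (v a + t • v b))) →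
      (∀ n g v a, ∀ p ∈ T, C n g v → C (n + 1) (update g a (g a + Matrix.vecMulVec p.1 p.2)) v) →
      C n g v := by
  induction h with
  | refl => exact ⟨[], fun C h _ _ => h⟩
  | gate a b t _ e ih => exact let ⟨T, h⟩ := ih; ⟨T, fun C a1 a2 a3 => a2 _ _ _ _ _ _ (h C a1 a2 a3) e⟩
  | step a x y _ ih => exact let ⟨T, h⟩ := ih; ⟨(x, y) :: T, fun C a1 a2 a3 =>
      a3 _ _ _ _ (x, y) (by simp) (h C a1 a2 fun n g v a p hp => a3 n g v a p (by simp [hp]))⟩

theorem exec {A R : Type} [Ring A] [CommRing R] {D : R} (hN : Net A R D) :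
    ∃ (m K n : ℕ) (T : List ((Fin m → R) × (Fin m → R))), 2 ≤ m ∧ n < 2 ^ K * m ∧ ∀ (γ Ω Ω' : Type) [Cd γ] [Cd Ω] [Cd Ω'] (φ : Ω → Ω')
      (w : Wd γ) (μ : γ → ℕ) (S : (Ω → ℕ∞) → γ → ℕ∞) [∀ c, AddCommGroup (w.V c)]
      [∀ c, Module A (w.V c)] (h : ∀ c, 2 ^ K ∣ w.N c)
      (Φ : ∀ c, Matrix (Fin m) (Fin m) R → Module.End A (ℕ → w.V c)),
      (∀ c, Φ c 0 = 1) → (∀ c M M', Φ c (M + M') = Φ c M * Φ c M') →
      (∀ t : A, ∃ G : List Bool → List Bool → List Bool,
        (In linB fun p : List Bool × List Bool => G p.1 p.2) ∧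
        ∀ c a b, G (w.enc c a) (w.enc c b) = w.enc c (a + t • b)) →
      (∀ p ∈ T, OA φ (w.div _ h) μ S fun c F => Φ c (Matrix.vecMulVec p.1 p.2) F) →
      OA φ w μ (fun κ c => n • S κ c)
        fun c F z => Φ c (D • 1) (fun y => F (y * 2 ^ K + z % 2 ^ K)) (z / 2 ^ K) := by
  obtain ⟨m, K, n, ι, _, _, f, g, b, src, π, v, h1, h2, r, h3, h4⟩ := hN
  obtain ⟨T, r⟩ := r.fin
  refine ⟨m, K, n, T, h1, h2, fun γ Ω Ω' _ _ _ φ w μ S _ _ h Φ p0 pa hg hs => ?_⟩
  let cont : (ι → Matrix (Fin m) (Fin m) R) → (ι → Fin (2 ^ K) → A) → Ar w → Wires (w.div _ h) ι :=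
    fun g v x => ⟨x.1, fun a => Φ x.1 (g a) (∑ i, v a i • Φ x.1 (-b i) fun y => x.2 (y * 2 ^ K + i))⟩
  have inv : ∀ c M u, Φ c M (Φ c (-M) u) = u := fun c M u => by
    rw [← Module.End.mul_apply, ← pa, add_neg_cancel, p0]; rfl
  have up : ∀ {X Y : Type} [Cd X] [Cd Y] {cx : X → γ} {f : X → Y} {S},
      OX φ (w.div _ h) μ cx S f → OX φ w μ cx S f := fun h' => Eventually.mono h' fun e h' =>
    h'.mono ⟨1, fun x => by
      simp only [Wd.bx, Wd.U, one_mul]
      exact le_add_right (by gcongr; exact Nat.div_le_self _ _)⟩ (fun _ _ => le_rfl) fun _ => rfl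
  have sm : Sm w (Wires.c : Wires (w.div _ h) ι → γ) :=
    let ⟨e, C, h'⟩ := sm_wires (w := w.div _ h) (ι := ι)
    ⟨e, C, fun y => (h' y).trans (by
      simp only [Wd.U, Wd.div]; gcongr; exact Nat.div_le_self _ _)⟩
  have sp : ∀ i : Fin (2 ^ K), In (w.bx μ Ar.c)
      fun x : Ar w => (w.div _ h).arr x.1 fun y => x.2 (y * 2 ^ K + i) := fun i =>
    In.split (B := w.bx μ Ar.c) (n := fun x : Ar w => w.N x.1 / 2 ^ K) (F := fun x : Ar w => fun z => w.enc _ (x.2 z))
      [] i (In.id.ar2.congr fun x => by simp only [Nat.div_mul_cancel (h _)]; rfl)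
  have key : OX φ w μ Ar.c (fun κ c => n • S κ c) (cont g v) := by
    refine r (fun n g v => OX φ w μ Ar.c (fun κ c => n • S κ c) (cont g v)) ?_
      (fun n g v a a' t ih e => ?_) fun n g v a p hp ih => ?_
    · refine (In.ox (In.wmk In.id.ar1 fun a => ?_)).mono (by simp) fun _ => rfl
      cases e : src a with
      | none =>
        obtain ⟨G, g1, g2⟩ := hg (-1)
        exact (In.zipA (w := w.div _ h) g1 g2 (sp 0) (sp 0)).congr fun x => by simp [e]; rfl
      | some i => exact (sp i).congr fun x => by simp [e, Pi.single_apply, h3 a i e, inv]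
    · obtain ⟨G, g1, g2⟩ := hg t
      refine ((In.ox (In.wmk (F := fun s : Wires (w.div _ h) ι =>
        update s.F a (s.F a + t • s.F a')) In.id.wc fun a0 => ?_)).comp ih (fun _ => rfl) sm).mono
        (by simp) fun x => ?_
      · by_cases ha : a0 = a
        · subst ha
          exact (In.zipA (w := w.div _ h) g1 g2 (In.id.wget a0) (In.id.wget a')).congr fun x => by
            rw [update_self]; rfl
        · exact (In.id.wget a0).congr fun x => by rw [update_of_ne ha]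
      · simp only [cont]
        congr 1
        funext a0
        by_cases ha : a0 = a
        · subst ha; simp [e, add_smul, Finset.sum_add_distrib, mul_smul, Finset.smul_sum]
        · simp [update_of_ne ha]
    · refine ((up ((hs p hp).wire a)).comp ih (fun _ => rfl) sm).mono
        (fun _ _ => by rw [succ_nsmul]) fun x => ?_
      simp only [cont]
      congr 1
      funext a0
      by_cases ha : a0 = a
      · subst ha; simp only [update_self]; rw [add_comm, pa, Module.End.mul_apply]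
      · simp [update_of_ne ha]
  have fin : In (w.bx μ Wires.c) fun s : Wires (w.div _ h) ι =>
      (⟨s.c, fun z => s.F (π (Fin.ofNat _ (z % 2 ^ K))) (z / 2 ^ K)⟩ : Ar w) :=
    In.armk In.id.wc ((In.merge (W := 2 ^ K) (G := fun i (s : Wires (w.div _ h) ι) z =>
      w.enc s.c (s.F (π (Fin.ofNat _ i)) z)) (by positivity)
      fun i _ => In.id.wget _).congr fun x => by simp only [Wd.div, Nat.div_mul_cancel (h _)]; rfl)
  refine (fin.ox.comp key (fun _ => rfl) sm).mono (by simp) fun x => ?_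
  simp only [cont]
  congr 1
  funext z
  rw [(h4 _).1, (h4 _).2, add_comm, pa]
  simp [Pi.single_apply, inv]

end Vale.Agent.P338
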