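import Vale.Agent.P338.Fib

/-! Tensor products of matrices acting on arrays and the fast Fourier transform. -/

namespace Vale.Agent.P338

open Filter Cd Finset Function Matrix

set_option linter.unusedSectionVars false
set_option linter.unusedVariables false

structure Lens (ι : Type) where
  get : ℕ → ι
  set : ℕ → ι → ℕ
  gs : ∀ z y, get (set z y) = y
  ss : ∀ z y y', set (set z y) y' = set z y'
  sg : ∀ z, set z (get z) = z

section
variable {B ι κ : Type} [CommRing B] [Fintype ι] [DecidableEq ι] [Fintype κ] [DecidableEq κ] {D : ℕ}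

def opM (L : Lens ι) (M : Matrix ι ι B) (F : ℕ → B) (z : ℕ) : B := ∑ y, M (L.get z) y * F (L.set z y)

lemma opM_mul (L : Lens ι) (M M' : Matrix ι ι B) (F : ℕ → B) : opM L (M * M') F = opM L M (opM L M' F) :=
  funext fun z => by
    simp only [opM, mul_apply, L.gs, L.ss, sum_mul, mul_sum, mul_assoc]; exact sum_comm

lemma opM_diag (L : Lens ι) (d : ι → B) (F : ℕ → B) (z : ℕ) :
    opM L (diagonal d) F z = d (L.get z) * F z := by
  simp [opM, diagonal_apply, L.sg]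

lemma opM_one (L : Lens ι) (F : ℕ → B) : opM L 1 F = F := funext fun z => by
  rw [← diagonal_one, opM_diag, one_mul]

lemma opM_smul (L : Lens ι) (a : B) (M : Matrix ι ι B) (F : ℕ → B) (z : ℕ) :
    opM L (a • M) F z = a * opM L M F z := by simp [opM, mul_sum, mul_assoc]

def tens (M : Fin D → Matrix κ κ B) : Matrix (Fin D → κ) (Fin D → κ) B :=
  of fun x y => ∏ a, M a (x a) (y a)

lemma tens_mul (M M' : Fin D → Matrix κ κ B) : tens M * tens M' = tens fun a => M a * M' a := by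
  ext x y
  simp only [tens, mul_apply, of_apply, ← prod_mul_distrib]
  rw [prod_univ_sum, Fintype.piFinset_univ]

lemma tens_diag (d : Fin D → κ → B) :
    tens (fun a => diagonal (d a)) = diagonal fun x => ∏ a, d a (x a) := by
  ext x y
  simp only [tens, of_apply, diagonal_apply, prod_ite_zero, mem_univ, forall_const, funext_iff]

lemma tens_one : tens (fun _ : Fin D => (1 : Matrix κ κ B)) = 1 := by
  simpa using tens_diag (D := D) (κ := κ) fun _ _ => (1 : B)

lemma tens_smul (c : B) (M : Fin D → Matrix κ κ B) : tens (fun a => c • M a) = c ^ D • tens M := by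
  ext x y; simp [tens, prod_mul_distrib]

lemma opM_single (L : Lens (Fin D → κ)) (a : Fin D) (m : Matrix κ κ B) (F : ℕ → B) (z : ℕ) :
    opM L (tens (update 1 a m)) F z = ∑ v, m (L.get z a) v * F (L.set z (update (L.get z) a v)) := by
  have : ∀ x y : Fin D → κ, tens (update 1 a m) x y = ∑ v, if update x a v = y then m (x a) v else 0 := by
    intro x y
    symm
    rw [sum_eq_single (y a) (fun v _ hv => if_neg fun h => hv (by rw [← h, update_self])) (by simp),
      tens, of_apply, ← mul_prod_erase _ _ (mem_univ a), update_self,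
      prod_congr rfl fun b hb => by rw [update_of_ne (ne_of_mem_erase hb), Pi.one_apply, one_apply],
      prod_ite_zero, prod_const_one, mul_ite, mul_one, mul_zero]
    simp [eq_update_iff, eq_comm]
  simp only [opM, this, sum_mul, ite_mul, zero_mul]
  rw [sum_comm]; simp

lemma tens_insert {p q : Fin D → Prop} [DecidablePred p] [DecidablePred q] (m : Fin D → Matrix κ κ B)
    {a : Fin D} (ha : ¬ p a) (h : ∀ b, q b ↔ p b ∨ b = a) : tens (fun b => if q b then m b else 1) =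
      tens (fun b => if p b then m b else 1) * tens (update 1 a (m a)) ∧
      tens (fun b => if q b then m b else 1) =
      tens (update 1 a (m a)) * tens (fun b => if p b then m b else 1) := by
  rw [tens_mul, tens_mul]
  constructor <;> refine congrArg _ (funext fun b => ?_) <;> by_cases e : b = a <;> simp [e, h, ha]
end

def dgL (D s r : ℕ) : Lens (Fin D → ZMod (2 ^ s)) where
  get := dg D (2 ^ s) (2 ^ r)
  set z y := setF z (2 ^ r) ((2 ^ s) ^ D) (und y)
  gs z y := by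
    have := und_spec (Nat.two_pow_pos s) y
    rw [← dg_fld, fld_setF (by positivity) this.1, this.2]
  ss z y y' := setF_setF (by positivity) (und_spec (Nat.two_pow_pos s) y).1 _
  sg z := by rw [und_dg (by positivity), setF_self]

lemma dgL_val {D s r : ℕ} (z : ℕ) (a : Fin D) : ((dgL D s r).get z a).val = fld z (2 ^ (r + a * s)) (2 ^ s) := by
  simp only [dgL]
  rw [dg, ZMod.val_natCast, Nat.mod_eq_of_lt (fld_lt _ _ (by positivity))]
  congr 1; ring

lemma dgL_upd {D s r : ℕ} (z : ℕ) (a : Fin D) (v : ZMod (2 ^ s)) :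
    (dgL D s r).set z (update ((dgL D s r).get z) a v) = setF z (2 ^ (r + a * s)) (2 ^ s) v.val := by
  have e : 2 ^ (r + a * s) = 2 ^ r * (2 ^ s) ^ (a : ℕ) := by ring
  have p : 0 < 2 ^ r * (2 ^ s) ^ (a : ℕ) := by positivity
  rw [e, dgL]
  dsimp only
  rw [← dg_set (by positivity) (by positivity), und_dg (by positivity)]
  conv_rhs => rw [← setF_self (setF _ _ _ _) (2 ^ r) ((2 ^ s) ^ D)]
  rw [setF.eq_1 (setF _ _ _ _), setF_div_outer p v.val_lt (dvd_pow_blk a _),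
    setF_mod_inner p (dvd_mul_right _ _), setF]

lemma setF_xor {z p s u : ℕ} (h : u < s) :
    setF z (2 ^ p) (2 ^ s) (fld z (2 ^ p) (2 ^ s) ^^^ 2 ^ u) = z ^^^ 2 ^ (p + u) := by
  have h1 : 2 ^ u < 2 ^ s := Nat.pow_lt_pow_right (by norm_num) h
  conv_rhs => rw [← setF_self z (2 ^ p) (2 ^ s), setF, add_comm p, pow_add,
    xor_fib _ _ (Nat.mod_lt _ (by positivity)), ← zero_add (2 ^ u), ← zero_mul (2 ^ s),
    xor_lex (fld_lt _ _ (by positivity)) h1, Nat.xor_zero]
  rfl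

section
variable {B : Type} [CommRing B] {s : ℕ}

def flp (s u : ℕ) (x : ZMod (2 ^ s)) : ZMod (2 ^ s) := (x.val ^^^ 2 ^ u : ℕ)

lemma flp_val {u : ℕ} (h : u < s) (x : ZMod (2 ^ s)) : (flp s u x).val = x.val ^^^ 2 ^ u := by
  rw [flp, ZMod.val_natCast, Nat.mod_eq_of_lt
    (Nat.xor_lt_two_pow x.val_lt (Nat.pow_lt_pow_right (by norm_num) h))]

def Hm (B : Type) [CommRing B] (s u : ℕ) : Matrix (ZMod (2 ^ s)) (ZMod (2 ^ s)) B :=
  of fun x y => (if x = y then (-1) ^ bt u x.val else 0) + if flp s u x = y then 1 else 0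

lemma Hm_sum (u : ℕ) (x : ZMod (2 ^ s)) (f : ZMod (2 ^ s) → B) :
    ∑ v, Hm B s u x v * f v = (-1) ^ bt u x.val * f x + f (flp s u x) := by
  simp [Hm, add_mul, sum_add_distrib]

lemma bt_lt (p z : ℕ) : bt p z < 2 := fld_lt _ _ two_pos

lemma Hm_sq {u : ℕ} (h : u < s) : Hm B s u * Hm B s u = (2 : B) • 1 := by
  ext x y
  have e : flp s u (flp s u x) = x := ZMod.val_injective _ (by
    rw [flp_val h, flp_val h, Nat.xor_xor_cancel_right])
  have := bt_lt u x.val
  rw [mul_apply, Hm_sum]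
  simp only [Hm, of_apply, e, flp_val h, bt_xor, if_true, Matrix.smul_apply, Matrix.one_apply]
  generalize bt u x.val = b at *
  interval_cases b <;> split_ifs <;> simp <;> norm_num

lemma Hb_opM [Algebra A2 B] {D u e : ℕ} (h : u < s) (a : Fin D) (F : ℕ → B) :
    Hb (e + u + a * s) F = opM (dgL D s e) (tens (update 1 a (Hm B s u))) F := funext fun z => by
  rw [Hb_apply, opM_single, Hm_sum, update_eq_self, (dgL D s e).sg, dgL_upd, flp_val h, dgL_val,
    setF_xor h, bt, bt, fld_fld _ (by rw [← pow_succ']; exact pow_dvd_pow _ h), ← pow_add,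
    add_right_comm e u]

lemma Hs_opM [Algebra A2 B] {d u e : ℕ} (h : u < s) (F : ℕ → B) :
    Hs B (fun t => e + u + (d + t) * s) (fun t => e + u + t * s) d F =
      opM (dgL (d + d) s e) (algebraMap A2 B t2 ^ d • tens fun _ => Hm B s u) F := by
  have key : ∀ j ≤ d, ∀ F, Hs B (fun t => e + u + (d + t) * s) (fun t => e + u + t * s) j F =
      opM (dgL (d + d) s e) (algebraMap A2 B t2 ^ j • tens fun a =>
        if (a : ℕ) < j ∨ d ≤ a ∧ (a : ℕ) < d + j then Hm B s u else 1) F := by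
    intro j hj
    induction j with
    | zero =>
      intro F
      rw [funext fun a : Fin (d + d) => if_neg (by omega), tens_one, pow_zero, one_smul, opM_one]; rfl
    | succ j ih =>
      intro F
      have e1 := (tens_insert (p := fun a : Fin (d + d) => (a : ℕ) < j ∨ d ≤ a ∧ (a : ℕ) < d + (j + 1))
          (q := fun a : Fin (d + d) => (a : ℕ) < j + 1 ∨ d ≤ a ∧ (a : ℕ) < d + (j + 1))
          (fun _ => Hm B s u) (a := ⟨j, by omega⟩) (by simp; omega)
          fun b => by simp [Fin.ext_iff]; omega).1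
      have e2 := (tens_insert (p := fun a : Fin (d + d) => (a : ℕ) < j ∨ d ≤ a ∧ (a : ℕ) < d + j)
          (q := fun a : Fin (d + d) => (a : ℕ) < j ∨ d ≤ a ∧ (a : ℕ) < d + (j + 1))
          (fun _ => Hm B s u) (a := ⟨d + j, by omega⟩) (by simp)
          fun b => by simp [Fin.ext_iff]; omega).1
      rw [Hs, Module.End.mul_apply, ih (by omega), LinearMap.smul_apply, Module.End.mul_apply,
        Hb_opM h (⟨j, by omega⟩ : Fin (d + d)), Hb_opM h (⟨d + j, by omega⟩ : Fin (d + d)),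
        e1, e2, mul_assoc, pow_succ, ← smul_mul_smul_comm, opM_mul]
      exact congrArg _ (funext fun z => by rw [opM_smul, opM_mul, Pi.smul_apply, Algebra.smul_def])
  rw [key d le_rfl, funext fun a : Fin (d + d) => if_pos (by omega)]

def fE (s ε ρ u x : ℕ) : ℕ := ε + ρ * ∑ v ∈ range s, if u ≤ v then bt v x * 2 ^ (s - 1 - v) else 0

lemma fE_succ {u : ℕ} (h : u < s) (ε ρ x : ℕ) :
    fE s ε ρ u x = fE s ε ρ (u + 1) x + ρ * (bt u x * 2 ^ (s - 1 - u)) := by
  rw [fE, fE, add_assoc, ← mul_add, ← sum_ite_eq_of_mem (range s) u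
    (fun v => bt v x * 2 ^ (s - 1 - v)) (mem_range.2 h), ← sum_add_distrib]
  congr 2
  exact sum_congr rfl fun v _ => by split_ifs <;> omega

lemma fE_xor (ε ρ u x : ℕ) : fE s ε ρ (u + 1) (x ^^^ 2 ^ u) = fE s ε ρ (u + 1) x := by
  unfold fE; congr 2
  exact sum_congr rfl fun v _ => by
    split_ifs with h
    · rw [bt_xor, if_neg (by omega)]
    · rfl

def MF (y : B) (s ε ρ u : ℕ) : Matrix (ZMod (2 ^ s)) (ZMod (2 ^ s)) B := of fun x v =>
  if x.val % 2 ^ u = v.val % 2 ^ u then y ^ (fE s ε ρ u x.val * (v.val / 2 ^ u * 2 ^ u)) else 0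

def twE (s ε ρ u x : ℕ) : ℕ := bt u x * 2 ^ u * fE s ε ρ (u + 1) x

lemma MF_top (y : B) (ε ρ : ℕ) : MF y s ε ρ s = 1 := by
  ext x v
  simp only [MF, of_apply, Nat.mod_eq_of_lt (ZMod.val_lt _), Nat.div_eq_of_lt (ZMod.val_lt _),
    one_apply, (ZMod.val_injective _).eq_iff]
  simp

lemma MF_step {y : B} {ε ρ u R : ℕ} (hy : y ^ R = -1) (hρ : ρ * 2 ^ s = 2 * R) (h : u < s) :
    Hm B s u * (diagonal (fun x => y ^ twE s ε ρ u x.val) * MF y s ε ρ (u + 1)) = MF y s ε ρ u := by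
  ext x v
  have e1 : ∀ x : ℕ, x % 2 ^ (u + 1) = x % 2 ^ u + 2 ^ u * bt u x := fun x => by
    rw [pow_succ, Nat.mod_mul]; rfl
  have e2 : v.val / 2 ^ u = v.val / 2 ^ (u + 1) * 2 + bt u v.val := by
    rw [pow_succ, ← Nat.div_div_eq_div_mul, bt, fld, Nat.div_add_mod']
  have e3 : y ^ (ρ * 2 ^ (s - 1 - u) * 2 ^ u) = -1 := by
    have : ρ * 2 ^ (s - 1 - u) * 2 ^ u * 2 = R * 2 := by
      rw [mul_comm R, ← hρ, mul_assoc, mul_assoc, ← pow_succ, ← pow_add]; congr 2; omega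
    rw [Nat.eq_of_mul_eq_mul_right two_pos this, hy]
  have e4 : ∀ a b a' b' : ℕ, a < 2 ^ u → a' < 2 ^ u →
      (a + 2 ^ u * b = a' + 2 ^ u * b' ↔ a = a' ∧ b = b') := fun a b a' b' h h' =>
    ⟨fun e => by
      have e' := congrArg (· % 2 ^ u) e
      simp only [Nat.add_mul_mod_self_left, Nat.mod_eq_of_lt h, Nat.mod_eq_of_lt h'] at e'
      exact ⟨e', by simpa [e'] using e⟩, fun e => by rw [e.1, e.2]⟩
  have p := Nat.two_pow_pos u
  rw [mul_apply, Hm_sum]
  simp only [diagonal_mul, MF, of_apply, flp_val h, twE, fE_xor, e1, bt_xor, if_true,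
    Nat.xor_mod_two_pow, Nat.mod_self, Nat.xor_zero, e4 _ _ _ _ (Nat.mod_lt _ p) (Nat.mod_lt _ p)]
  rw [fE_succ h, e2]
  have h1 := bt_lt u x.val
  have h2 := bt_lt u v.val
  generalize bt u x.val = a at *
  generalize bt u v.val = b at *
  generalize fE s ε ρ (u + 1) x.val = E
  generalize v.val / 2 ^ (u + 1) = n
  have e5 : y ^ ((E + ρ * (a * 2 ^ (s - 1 - u))) * ((n * 2 + b) * 2 ^ u)) =
      y ^ (E * (n * 2 ^ (u + 1))) * y ^ (b * 2 ^ u * E) *
        (y ^ (ρ * 2 ^ (s - 1 - u) * 2 ^ u)) ^ (2 * (a * n) + a * b) := by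
    rw [← pow_mul, ← pow_add, ← pow_add]; congr 1; ring
  rw [e5, e3, pow_add (-1 : B), pow_mul (-1 : B) 2]
  by_cases e : x.val % 2 ^ u = v.val % 2 ^ u <;> interval_cases a <;> interval_cases b <;>
    simp [e, mul_comm]

def MB (y : B) (s ε ρ R : ℕ) : ℕ → Matrix (ZMod (2 ^ s)) (ZMod (2 ^ s)) B
  | 0 => 1
  | u + 1 => diagonal (fun x => y ^ ((2 * R - 1) * twE s ε ρ u x.val)) * (Hm B s u * MB y s ε ρ R u)

lemma MB_MF {y : B} {ε ρ R : ℕ} (hy : y ^ R = -1) (hρ : ρ * 2 ^ s = 2 * R) (hR : 0 < R) :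
    MB y s ε ρ R s * MF y s ε ρ 0 = (2 : B) ^ s • 1 := by
  have : ∀ u ≤ s, MB y s ε ρ R u * MF y s ε ρ 0 = (2 : B) ^ u • MF y s ε ρ u := fun u hu => by
    induction u with
    | zero => simp [MB]
    | succ u ih =>
      have : ∀ n, y ^ ((2 * R - 1) * n) * y ^ n = 1 := fun n => by
        rw [← pow_add, ← add_one_mul, Nat.sub_add_cancel (by omega), mul_comm 2, pow_mul, pow_mul, hy]
        simp
      rw [MB, mul_assoc, mul_assoc, ih (by omega), ← MF_step hy hρ hu, Matrix.mul_smul, ← mul_assoc (Hm B s u),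
        Hm_sq hu, smul_mul_assoc, one_mul, smul_smul, Matrix.mul_smul, ← mul_assoc, diagonal_mul_diagonal]
      simp [this, pow_succ]
  rw [this s le_rfl, MF_top]

lemma MF_zero (y : B) (ε ρ : ℕ) (x v : ZMod (2 ^ s)) :
    MF y s ε ρ 0 x v = (y ^ fE s ε ρ 0 x.val) ^ v.val := by simp [MF, Nat.mod_one, pow_mul]

lemma fE_pow {y : B} {ε ρ R : ℕ} (hy : y ^ R = -1) (hρ : ρ * 2 ^ s = 2 * R) (x : ℕ) :
    (y ^ fE s ε ρ 0 x) ^ 2 ^ s = y ^ (ε * 2 ^ s) := by
  rw [← pow_mul, fE, add_mul, mul_right_comm, hρ, pow_add, mul_comm 2, pow_mul y (R * 2), pow_mul y R, hy]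
  simp
end

def opT (D s e : ℕ) {B : Type} [CommRing B] (l : B) (M : Matrix (ZMod (2 ^ s)) (ZMod (2 ^ s)) B) :
    (ℕ → B) → ℕ → B := opM (dgL D s e) (l • tens fun _ => M)

lemma opT_mul {D s e : ℕ} {B : Type} [CommRing B] (l l' : B) (M M') (G : ℕ → B) :
    opT D s e l M (opT D s e l' M' G) = opT D s e (l * l') (M * M') G := by
  rw [opT, opT, opT, ← opM_mul, smul_mul_smul_comm, tens_mul]

lemma opT_one {D s e : ℕ} {B : Type} [CommRing B] (G : ℕ → B) : opT D s e 1 1 G = G := by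
  rw [opT, tens_one, one_smul, opM_one]

def Tw (s : ℕ) {B : Type} [CommRing B] (y : B) (x : ℕ → ℕ) : Matrix (ZMod (2 ^ s)) (ZMod (2 ^ s)) B :=
  diagonal fun v => y ^ x v.val

noncomputable def stF (k r D s e ε ρ : ℕ) (l : Rg (Zp k) r) (u : ℕ) (G : ℕ → Rg (Zp k) r) :=
  opT D s e l (Hm _ s u) (opT D s e 1 (Tw s (Yg _ _) (twE s ε ρ u)) G)

noncomputable def stB (k r D s e ε ρ : ℕ) (l : Rg (Zp k) r) (u : ℕ) (G : ℕ → Rg (Zp k) r) :=
  opT D s e 1 (Tw s (Yg _ _) fun x => (2 * 2 ^ r - 1) * twE s ε ρ u x) (opT D s e l (Hm _ s u) G)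

variable {γ : Type} [Cd γ] {w : Wd γ} {μ k r : γ → ℕ}

lemma Fw.twT (fw : Fw w r) {D s e : γ → ℕ} {x : γ → ℕ → ℕ} (pD : In polyB D) (ps : In polyB s)
    (pe : In polyB e) (dD : Dom polyB D) (ds : Dom polyB s) (de : Dom polyB e)
    (hx : In polyB fun p : γ × ℕ => x p.1 p.2) :
    OpR w k r μ fun c => opT (D c) (s c) (e c) 1 (Tw (s c) (Yg _ _) (x c)) := by
  have u1 := In.id.snd.unval (B := polyB) (α := (γ × ℕ) × Un)
  have u2 := Dom.unval (In.id.snd (B := polyB) (α := (γ × ℕ) × Un))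
  have u3 := In.id.fst.fst (B := polyB) (α := (γ × ℕ) × Un)
  have a := hx.c2 u3 (In.id.fst.snd.fld (((pe.comp u3).add (u1.mul (ps.comp u3))).pow2
    ((de.comp u3).add (u2.mul (ds.comp u3)))) ((ps.pow2 ds).comp u3))
  have b := In.usum (g := fun (p : γ × ℕ) a => x p.1 (fld p.2 (2 ^ (e p.1 + a * s p.1)) (2 ^ s p.1)))
    (pD.comp In.id.fst) (dD.comp In.id.fst) a
  refine (fw.tw (x := fun c j => ∑ a ∈ range (D c), x c (fld j (2 ^ (e c + a * s c)) (2 ^ s c))) b).congr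
    fun c G j => ?_
  rw [opT, one_smul, Tw, tens_diag, opM_diag, prod_pow_eq_pow_sum, sum_range]
  simp only [dgL_val]

lemma poly_twE {s ε ρ u x : γ → ℕ} (ps : In polyB s) (ds : Dom polyB s) (pε : In polyB ε)
    (pρ : In polyB ρ) (pu : In polyB u) (du : Dom polyB u) (px : In polyB x) :
    In polyB fun c => twE (s c) (ε c) (ρ c) (u c) (x c) := by
  have u1 := In.id.snd.unval (B := polyB) (α := γ × Un)
  have u2 := Dom.unval (In.id.snd (B := polyB) (α := γ × Un))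
  have u3 := In.id.fst (B := polyB) (α := γ × Un)
  have a := In.ite (Dec.le ((pu.comp u3).add (In.const 1)) u1) (((px.comp u3).fld (u1.pow2 u2)
    (In.const 2)).mul ((((ps.comp u3).sub (In.const 1)).sub u1).pow2 (ds.comp u3).sub.sub)) (In.const 0)
  have b := In.usum (g := fun c v => if u c + 1 ≤ v then bt v (x c) * 2 ^ (s c - 1 - v) else 0) ps ds a
  exact ((px.fld (pu.pow2 du) (In.const 2)).mul (pu.pow2 du)).mul (pε.add (pρ.mul b))

lemma Op.rev {n : γ → ℕ} (hn : In polyB n) {g : ∀ c, ℕ → (ℕ → w.V c) → ℕ → w.V c}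
    (h : Op (w.ext n) (fun p => μ p.1.1) fun p => g p.1.1 p.1.2) :
    Op (w.ext n) (fun p => μ p.1.1) fun p => g p.1.1 (n p.1.1 - 1 - p.1.2) :=
  have v := In.id.val (B := polyB) (α := {p : γ × ℕ // p.2 < n p.1})
  have u := v.fst.pair (((hn.comp v.fst).sub (In.const 1)).sub v.snd)
  Op.pull h (fun p : {p : γ × ℕ // p.2 < n p.1} =>
    ⟨(p.1.1, n p.1.1 - 1 - p.1.2), by have := p.2; dsimp only; omega⟩) (u.of_cd fun _ => rfl)

lemma OpR.rev {n : γ → ℕ} (hn : In polyB n)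
    {g : ∀ c, ℕ → (ℕ → Rg (Zp (k c)) (r c)) → ℕ → Rg (Zp (k c)) (r c)}
    (h : OpR (w.ext n) (fun p => k p.1.1) (fun p => r p.1.1) (fun p => μ p.1.1) fun p => g p.1.1 p.1.2) :
    OpR (w.ext n) (fun p => k p.1.1) (fun p => r p.1.1) (fun p => μ p.1.1)
      fun p => g p.1.1 (n p.1.1 - 1 - p.1.2) :=
  Op.rev (w := w.zp k) hn (g := fun c j F => ub (r c) (g c j (fb (r c) F))) h

theorem fft (fw : Fw w r) {D s e ε ρ μ' : γ → ℕ} (pD : In polyB D) (ps : In polyB s) (pe : In polyB e)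
    (dD : Dom polyB D) (ds : Dom polyB s) (de : Dom polyB e) (pε : In polyB ε) (pρ : In polyB ρ)
    (hρ : ∀ c, ρ c * 2 ^ s c = 2 * 2 ^ r c) (hμ : ∃ C, ∀ c, s c * (μ' c + 1) ≤ C * (μ c + 1))
    {l : ∀ c, Rg (Zp (k c)) (r c)}
    (hH : OpR (w.ext s) (fun p => k p.1.1) (fun p => r p.1.1) (fun p => μ' p.1.1) fun p =>
      opT (D p.1.1) (s p.1.1) (e p.1.1) (l p.1.1) (Hm _ _ p.1.2)) :
    OpR w k r μ (fun c => opT (D c) (s c) (e c) (l c ^ s c) (MF (Yg _ _) (s c) (ε c) (ρ c) 0)) ∧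
    OpR w k r μ (fun c => opT (D c) (s c) (e c) (l c ^ s c)
      (MB (Yg _ _) (s c) (ε c) (ρ c) (2 ^ r c) (s c))) := by
  have v1 := In.id.val.fst (B := polyB) (α := {p : γ × ℕ // p.2 < s p.1})
  have v2 := In.id.val.snd (B := polyB) (α := {p : γ × ℕ // p.2 < s p.1})
  have dv : Dom polyB fun p : {p : γ × ℕ // p.2 < s p.1} => p.1.2 := (ds.comp v1).mono' fun p => p.2.le
  have fw' : Fw (w.ext s) fun p => r p.1.1 := fw.pull _ v1
  have u3 := In.id.fst (B := polyB) (α := {p : γ × ℕ // p.2 < s p.1} × ℕ)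
  have t1 := poly_twE ((ps.comp v1).comp u3) ((ds.comp v1).comp u3) ((pε.comp v1).comp u3)
    ((pρ.comp v1).comp u3) (v2.comp u3) (dv.comp u3) In.id.snd
  have tw := fun x => fw'.twT (μ := fun p => μ' p.1.1) (k := fun p => k p.1.1) (x := x) (pD.comp v1)
    (ps.comp v1) (pe.comp v1) (dD.comp v1) (ds.comp v1) (de.comp v1)
  constructor
  · have h1 := (tw (fun p => twE (s p.1.1) (ε p.1.1) (ρ p.1.1) p.1.2) t1).comp hH
    have h2 := OpR.rev ps (g := fun c => stF (k c) (r c) (D c) (s c) (e c) (ε c) (ρ c) (l c)) h1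
    refine (OpR.loop ps hμ (g := fun c j => stF (k c) (r c) (D c) (s c) (e c) (ε c) (ρ c) (l c)
      (s c - 1 - j)) (f := fun c j => opT (D c) (s c) (e c) (l c ^ j)
        (MF (Yg _ _) (s c) (ε c) (ρ c) (s c - j))) h2
      (fun c G => by simp [MF_top, opT_one]) fun c j hj G => ?_).congr fun c G j => by simp
    rw [stF, opT_mul, opT_mul, mul_assoc (Hm _ _ _), Tw, mul_one,
      show s c - j = s c - 1 - j + 1 by omega, MF_step Yg_pow (hρ c) (by omega), pow_succ',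
      show s c - (j + 1) = s c - 1 - j by omega]
  · have h1 := hH.comp (tw (fun p x => (2 * 2 ^ r p.1.1 - 1) * twE (s p.1.1) (ε p.1.1) (ρ p.1.1) p.1.2 x)
      (((((In.const 2).mul fw'.pR).sub (In.const 1)).comp u3).mul t1))
    refine OpR.loop ps hμ (g := fun c => stB (k c) (r c) (D c) (s c) (e c) (ε c) (ρ c) (l c))
      (f := fun c j => opT (D c) (s c) (e c) (l c ^ j) (MB (Yg _ _) (s c) (ε c) (ρ c) (2 ^ r c) j)) h1
      (fun c G => by simp [MB, opT_one]) fun c j hj G => ?_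
    rw [stB, opT_mul, opT_mul, mul_assoc (Tw _ _ _), one_mul, pow_succ', MB, Tw]

lemma fft_inv {B : Type} [CommRing B] {y : B} {D s e ε ρ R : ℕ} (hy : y ^ R = -1)
    (hρ : ρ * 2 ^ s = 2 * R) (hR : 0 < R) (l l' : B) (G : ℕ → B) (j : ℕ) :
    opT D s e (l' ^ s) (MB y s ε ρ R s) (opT D s e (l ^ s) (MF y s ε ρ 0) G) j =
      (l' * l * 2 ^ D) ^ s * G j := by
  rw [opT_mul, opT, MB_MF hy hρ hR, tens_smul, tens_one, smul_smul, opM_smul, opM_one]
  ring

end Vale.Agent.P338
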