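import Vale.Agent.P338.Zall

/-! Fibres as elements of negacyclic rings. -/

namespace Vale.Agent.P338

open Filter Cd Finset Polynomial

set_option linter.unusedSectionVars false
set_option linter.unusedVariables false

abbrev Rg (A : Type) [CommRing A] (r : ℕ) := AdjoinRoot (X ^ 2 ^ r + C 1 : A[X])

section
variable {A C' : Type} [CommRing A] [CommRing C'] {r : ℕ}

noncomputable abbrev Yg (A : Type) [CommRing A] (r : ℕ) : Rg A r := AdjoinRoot.root _

lemma rg_monic (A : Type) [CommRing A] (r : ℕ) : (X ^ 2 ^ r + C 1 : A[X]).Monic :=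
  monic_X_pow_add_C _ (by positivity)

lemma Yg_pow : Yg A r ^ 2 ^ r = -1 := by
  have := AdjoinRoot.mk_self (f := (X ^ 2 ^ r + C 1 : A[X]))
  rw [map_add, map_pow, AdjoinRoot.mk_X, C_1, map_one] at this
  exact eq_neg_of_add_eq_zero_left this

lemma pow_neg_mod {y : C'} {R : ℕ} (h : y ^ R = -1) (n : ℕ) : y ^ n = (-1) ^ (n / R) * y ^ (n % R) := by
  rw [← h, ← pow_mul, ← pow_add, Nat.div_add_mod]

noncomputable def cf (t : ℕ) : Rg A r →ₗ[A] A :=
  lcoeff A t ∘ₗ AdjoinRoot.modByMonicHom (rg_monic A r)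

lemma cf_mono {n : ℕ} (hn : n < 2 ^ r) (t : ℕ) : cf t (Yg A r ^ n) = if n = t then 1 else 0 := by
  nontriviality A
  rw [Yg, ← AdjoinRoot.mk_X, ← map_pow, cf, LinearMap.comp_apply, AdjoinRoot.modByMonicHom_mk,
    (modByMonic_eq_self_iff (rg_monic A r)).2 (by
      rw [degree_X_pow, degree_X_pow_add_C (by positivity)]; exact_mod_cast hn), lcoeff_apply,
    coeff_X_pow]
  simp only [eq_comm]

lemma sum_cf (a : Rg A r) : ∑ t ∈ range (2 ^ r), cf t a • Yg A r ^ t = a := by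
  rcases subsingleton_or_nontrivial A with h | h
  · have := Module.subsingleton A (Rg A r); exact Subsingleton.elim _ _
  obtain ⟨p, rfl⟩ := AdjoinRoot.mk_surjective a
  have h := natDegree_modByMonic_lt p (rg_monic A r) (X_pow_add_C_ne_one (by positivity) _)
  rw [natDegree_X_pow_add_C] at h
  conv_rhs => rw [← AdjoinRoot.mk_leftInverse (rg_monic A r) (AdjoinRoot.mk _ p),
    AdjoinRoot.modByMonicHom_mk, as_sum_range_C_mul_X_pow' _ h, map_sum]
  exact sum_congr rfl fun t _ => by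
    rw [map_mul, map_pow, AdjoinRoot.mk_X, AdjoinRoot.mk_C, Algebra.smul_def]; rfl

noncomputable def fb (r : ℕ) (F : ℕ → A) (j : ℕ) : Rg A r :=
  ∑ t ∈ range (2 ^ r), F (j * 2 ^ r + t) • Yg A r ^ t

noncomputable def ub (r : ℕ) (G : ℕ → Rg A r) (z : ℕ) : A := cf (z % 2 ^ r) (G (z / 2 ^ r))

lemma cf_sum (f : ℕ → A) {t : ℕ} (ht : t < 2 ^ r) :
    cf t (∑ s ∈ range (2 ^ r), f s • Yg A r ^ s) = f t := by
  rw [map_sum, sum_congr rfl fun s hs => by rw [map_smul, cf_mono (mem_range.1 hs)]]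
  simp [ht]

lemma ub_fb (F : ℕ → A) : ub r (fb r F) = F := funext fun z => by
  rw [ub, fb, cf_sum _ (Nat.mod_lt _ (by positivity)), Nat.div_add_mod']

lemma fb_ub (G : ℕ → Rg A r) : fb r (ub r G) = G := funext fun j => by
  rw [fb, ← sum_cf (G j)]
  exact sum_congr rfl fun t ht => by rw [ub, lex_div (mem_range.1 ht), lex_mod (mem_range.1 ht)]

lemma fb_congr {F G : ℕ → A} {j j' : ℕ} (h : ∀ t < 2 ^ r, F (j * 2 ^ r + t) = G (j' * 2 ^ r + t)) :
    fb r F j = fb r G j' := sum_congr rfl fun t ht => by rw [h t (mem_range.1 ht)]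

noncomputable def lft (r : ℕ) (φ : A →+ C') (y : C') : Rg A r →+ C' where
  toFun a := ∑ t ∈ range (2 ^ r), φ (cf t a) * y ^ t
  map_zero' := by simp
  map_add' a b := by simp [add_mul, sum_add_distrib]

lemma lft_mono (φ : A →+ C') (y : C') (a : A) {n : ℕ} (hn : n < 2 ^ r) :
    lft r φ y (a • Yg A r ^ n) = φ a * y ^ n := by
  simp [lft, cf_mono hn, apply_ite φ, hn]

lemma lft_mono' (φ : A →+ C') {y : C'} (h : y ^ 2 ^ r = -1) (a : A) (n : ℕ) :
    lft r φ y (a • Yg A r ^ n) = φ a * y ^ n := by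
  rw [pow_neg_mod Yg_pow, pow_neg_mod h n]
  rcases neg_one_pow_eq_or (Rg A r) (n / 2 ^ r) with e | e
  all_goals rcases Nat.even_or_odd (n / 2 ^ r) with e | e <;>
    simp [e.neg_one_pow, lft_mono φ y a (Nat.mod_lt n (Nat.two_pow_pos r))]

lemma lft_fb (φ : A →+ C') (y : C') (F : ℕ → A) (j : ℕ) :
    lft r φ y (fb r F j) = ∑ t ∈ range (2 ^ r), φ (F (j * 2 ^ r + t)) * y ^ t := by
  rw [fb, map_sum]; exact sum_congr rfl fun t ht => lft_mono _ _ _ (mem_range.1 ht)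

def twI (R x z : ℕ) : ℕ := (z % R + (R - x % R)) % R

lemma twI_spec {R x s : ℕ} (hs : s < R) : (twI R x s + x) % R = s ∧ twI R x ((s + x) % R) = s := by
  have h := Nat.mod_lt x (show 0 < R by omega)
  have e : ∀ t, (t + (R - x % R) + x) % R = t % R := fun t => by
    rw [← Nat.add_mod_mod, add_assoc, Nat.sub_add_cancel h.le, Nat.add_mod_right]
  constructor
  · rw [twI, Nat.mod_add_mod, e, Nat.mod_mod, Nat.mod_eq_of_lt hs]
  · rw [twI, Nat.mod_mod, Nat.mod_add_mod, add_right_comm, e, Nat.mod_eq_of_lt hs]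

lemma fb_tw (F : ℕ → A) (x j : ℕ) :
    fb r (fun z => (-1) ^ ((twI (2 ^ r) x z + x) / 2 ^ r) * F (z / 2 ^ r * 2 ^ r + twI (2 ^ r) x z)) j =
      Yg A r ^ x * fb r F j := by
  have p := Nat.two_pow_pos r
  rw [fb, fb, mul_sum]
  refine sum_nbij' (twI (2 ^ r) x) (fun s => (s + x) % 2 ^ r) (fun _ _ => mem_range.2 (Nat.mod_lt _ p))
    (fun _ _ => mem_range.2 (Nat.mod_lt _ p)) (fun t ht => (twI_spec (mem_range.1 ht)).1)
    (fun t ht => (twI_spec (mem_range.1 ht)).2) fun t ht => ?_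
  have ht := mem_range.1 ht
  have : twI (2 ^ r) x (j * 2 ^ r + t) = twI (2 ^ r) x t := by
    rw [twI, twI, lex_mod ht, Nat.mod_eq_of_lt ht]
  rw [this, lex_div ht, mul_smul_comm, ← pow_add, add_comm x, pow_neg_mod Yg_pow (_ + x),
    (twI_spec ht).1, mul_comm ((-1 : A) ^ _), mul_smul]
  simp [Algebra.smul_def]
end

variable {γ : Type} [Cd γ] {w : Wd γ} {μ k r : γ → ℕ}

def OpR (w : Wd γ) (k r μ : γ → ℕ) (g : ∀ c, (ℕ → Rg (Zp (k c)) (r c)) → ℕ → Rg (Zp (k c)) (r c)) : Prop :=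
  Op (w.zp k) μ fun c F => ub (r c) (g c (fb (r c) F))

structure Fw (w : Wd γ) (r : γ → ℕ) : Prop where
  pr : In polyB r
  dvd : ∀ c, 2 ^ r c ∣ w.N c

lemma Fw.dr (h : Fw w r) : Dom polyB r := w.domE h.dvd
lemma Fw.pR (h : Fw w r) : In polyB fun c => 2 ^ r c := h.pr.pow2 h.dr
lemma Fw.lt (h : Fw w r) {c z} (hz : z < w.N c) : z / 2 ^ r c < w.N c / 2 ^ r c :=
  Nat.div_lt_div_of_lt_of_dvd (h.dvd c) hz
lemma Fw.pull {δ : Type} [Cd δ] (h : Fw w r) (g : δ → γ) (hg : In polyB g) :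
    Fw (w.pull g hg) fun c => r (g c) := ⟨h.pr.comp hg, fun _ => h.dvd _⟩

lemma Fw.congr (h : Fw w r) {g g'} (hg : OpR w k r μ g)
    (e : ∀ c G, ∀ j < w.N c / 2 ^ r c, g c G j = g' c G j) : OpR w k r μ g' :=
  Op.congr hg fun c F z hz => by unfold ub; rw [e c _ _ (h.lt hz)]

lemma OpR.congr {g g'} (hg : OpR w k r μ g) (e : ∀ c G j, g c G j = g' c G j) : OpR w k r μ g' :=
  Op.congr hg fun c F z hz => by unfold ub; rw [e]

lemma OpR.of {f g} (hf : Op (w.zp k) μ f) (e : ∀ c F j, fb (r c) (f c F) j = g c (fb (r c) F) j) :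
    OpR w k r μ g := hf.congr fun c F z _ => by rw [← funext (e c F), ub_fb]

lemma OpR.id : OpR w k r μ fun _ G => G := .of Op.id fun _ _ _ => rfl

lemma OpR.comp {f g} (hf : OpR w k r μ f) (hg : OpR w k r μ g) : OpR w k r μ fun c G => g c (f c G) :=
  (Op.comp hf hg).congr fun c F z _ => by rw [fb_ub]

lemma OpR.add {f g} (hf : OpR w k r μ f) (hg : OpR w k r μ g) :
    OpR w k r μ fun c G j => f c G j + g c G j :=
  (Op.add hf hg).congr fun c F z _ => (map_add _ _ _).symm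

lemma OpR.half {f} (hf : OpR w k r μ f) :
    OpR w k r μ fun c G j => algebraMap _ _ (P338.hf (k c)) * f c G j :=
  (Op.half hf).congr fun c F z _ => by simp only [ub, ← Algebra.smul_def, map_smul]; rfl

lemma OpR.mono {f μ'} (h : OpR w k r μ' f) (hμ : ∃ C, ∀ c, μ' c ≤ C * (μ c + 1)) : OpR w k r μ f :=
  Op.mono h hμ

lemma OpR.loop {μ' n : γ → ℕ} (hn : In polyB n) (hμ : ∃ C, ∀ c, n c * (μ' c + 1) ≤ C * (μ c + 1))
    {g f : ∀ c, ℕ → (ℕ → Rg (Zp (k c)) (r c)) → ℕ → Rg (Zp (k c)) (r c)}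
    (hg : OpR (w.ext n) (fun p => k p.1.1) (fun p => r p.1.1) (fun p => μ' p.1.1) fun p => g p.1.1 p.1.2)
    (h0 : ∀ c G, f c 0 G = G) (h1 : ∀ c, ∀ j < n c, ∀ G, f c (j + 1) G = g c j (f c j G)) :
    OpR w k r μ fun c => f c (n c) :=
  (Op.loop (w := w.zp k) hn hμ (g := fun c j F => ub (r c) (g c j (fb (r c) F))) hg).congr
    fun c F z _ => congrFun (foldl_range_ind _ (fun j G => G = ub (r c) (f c j (fb (r c) F))) _ F
      (by rw [h0, ub_fb]) fun j hj G e => by rw [e, fb_ub, h1 c j hj]) z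

lemma Fw.tw (h : Fw w r) {x : γ → ℕ → ℕ} (hx : In polyB fun p : γ × ℕ => x p.1 p.2) :
    OpR w k r μ fun c G j => Yg _ _ ^ x c j * G j := by
  have pR := h.pR
  have p1 : In polyB fun p : γ × ℕ => 2 ^ r p.1 := pR.comp In.id.fst
  have a := (Fd.rotN (w := w.zp k) (μ := μ) (s := fun _ => 1) ⟨In.const _, pR, by simpa using h.dvd⟩
    (f := fun c j => 2 ^ r c - x c j % 2 ^ r c) (p1.sub (hx.mod p1)))
  have b := hx.c2 In.id.fst (In.id.snd.div p1)
  have d := (((((In.id.snd.mod p1).add (p1.sub (b.mod p1))).mod p1).add b).div p1).mod (In.const 2)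
  refine OpR.of (Op.sel (p := fun c z => (twI (2 ^ r c) (x c (z / 2 ^ r c)) z + x c (z / 2 ^ r c)) /
    2 ^ r c % 2 = 0) (Dec.eq d (In.const 0)) a (Op.neg a)) fun c F j => ?_
  rw [← fb_tw]
  refine fb_congr fun t ht => ?_
  simp only [lex_div ht, setF, fld, mul_one, Nat.div_one, Nat.mod_one, add_zero, twI]
  split_ifs with e
  · rw [(Nat.even_iff.2 e).neg_one_pow, one_mul]
  · rw [(Nat.odd_iff.2 (by omega)).neg_one_pow, neg_one_mul]

lemma OpR.pm {σ τ : γ → ℕ → ℕ} (h : Pm (w.zp k) μ σ)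
    (e : ∀ c j, ∀ t < 2 ^ r c, σ c (j * 2 ^ r c + t) = τ c j * 2 ^ r c + t) :
    OpR w k r μ fun c G j => G (τ c j) :=
  OpR.of h fun c F j => fb_congr fun t ht => by rw [e c j t ht]

lemma xor_fib {r t : ℕ} (j u : ℕ) (ht : t < 2 ^ r) : j * 2 ^ r + t ^^^ u * 2 ^ r = (j ^^^ u) * 2 ^ r + t := by
  simpa using xor_lex (y := j) (y' := u) ht (Nat.two_pow_pos r)

lemma Fw.had (h : Fw w r) {p : γ → ℕ} (hp : In polyB p) (hd : ∀ c, 2 ^ (r c + p c + 1) ∣ w.N c) :
    OpR w k r μ fun c G j => (-1) ^ fld j (2 ^ p c) 2 * G j + G (j ^^^ 2 ^ p c) := by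
  have d := w.domE hd
  have a : In polyB fun c => 2 ^ p c := hp.pow2 (d.mono' fun _ => by omega)
  have b := (In.id.snd.fld (a.comp In.id.fst) (In.const 2)).mul (h.pR.comp In.id.fst)
  refine ((h.tw (x := fun c j => fld j (2 ^ p c) 2 * 2 ^ r c) b).add (OpR.pm (Pm.flip (w := w.zp k)
    (h.pr.add hp) (d.mono' fun _ => by omega) hd) fun c j t ht => ?_)).congr fun c G j => by
      rw [mul_comm _ (2 ^ r c), pow_mul, Yg_pow]
  rw [add_comm (r c), pow_add, xor_fib _ _ ht]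

/-! the Hadamard transform through the gates `Zg` -/

lemma interleave {M : Type} [Monoid M] {T Z S T' t z s t' : M} (h1 : Commute t Z) (h2 : Commute t S)
    (h3 : Commute t T') (h4 : Commute z S) (h5 : Commute z Z) (h6 : Commute z T') (h7 : Commute s Z)
    (h8 : Commute s T') :
    T * t * (Z * z) * (S * s) * (Z * z) * (T' * t') = T * Z * S * Z * T' * (t * z * s * z * t') := by
  simp only [mul_assoc, h1.left_comm, h2.left_comm, h3.left_comm, h4.left_comm, h5.left_comm,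
    h6.left_comm, h7.left_comm, h8.left_comm]

section
variable {B : Type} [CommRing B] [Algebra A2 B]

noncomputable abbrev Dg : (ℕ → B) →ₐ[A2] Module.End A2 (ℕ → B) := Algebra.lmul A2 (ℕ → B)

lemma comm_DZ {g : ℕ → B} {ι : Type} (s : Finset ι) {u v : ι → Xn}
    (hu : ∀ i ∈ s, ∀ z, g (z ^^^ nx (u i)) = g z) (hv : ∀ i ∈ s, ∀ z, g (z ^^^ nx (v i)) = g z) :
    Commute (Dg g) (rho B (∏ i ∈ s, Zg (u i) (v i))) :=
  LinearMap.ext fun F => rho_int (Dg g) s (fun i hi F => funext fun z => by simp [hu i hi])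
    (fun i hi F => funext fun z => by simp [hv i hi]) F

lemma nx_xn (a : ℕ) : nx (xn a) = a := rfl

lemma rho_Z' (u v : ℕ) (F : ℕ → B) (z : ℕ) : rho B (Zg (xn u) (xn v)) F z =
    algebraMap A2 B t2 * (F z + F (z ^^^ u) + F (z ^^^ v) - F (z ^^^ u ^^^ v)) := by
  rw [rho_Z, Pi.smul_apply, Algebra.smul_def]; rfl

def bt (p z : ℕ) : ℕ := fld z (2 ^ p) 2

lemma bt_xor (p q z : ℕ) : bt p (z ^^^ 2 ^ q) = if q = p then 1 - bt p z else bt p z := by
  have := fld_xor z (2 ^ q) p 1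
  rw [pow_one, fld_two_pow] at this
  have h := fld_lt z (2 ^ p) two_pos
  unfold bt; rw [this]; split_ifs
  · generalize fld z (2 ^ p) 2 = x at *; interval_cases x <;> rfl
  · simp

noncomputable def Hb (p : ℕ) : Module.End A2 (ℕ → B) :=
  Dg (fun z => (-1) ^ bt p z) + rho B (Xg (xn (2 ^ p)))

lemma Hb_apply (p : ℕ) (F : ℕ → B) (z : ℕ) : Hb p F z = (-1) ^ bt p z * F z + F (z ^^^ 2 ^ p) := by
  simp [Hb, rho_X, nx_xn]

lemma had_pair {i : B} (hi : i * i = -1) {p q : ℕ} (h : p ≠ q) :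
    Dg (fun z => i ^ (3 + bt p z + bt q z + 2 * bt p z * bt q z)) * rho B (Zg (xn (2 ^ p)) (xn (2 ^ q))) *
      Dg (fun z => i ^ (bt p z + bt q z)) * rho B (Zg (xn (2 ^ p)) (xn (2 ^ q))) *
      Dg (fun z => i ^ (bt p z + bt q z + 2 * bt p z * bt q z)) = t2 • (Hb p * Hb q) := by
  ext F z
  have ht := congrArg (algebraMap A2 B) two_t2
  rw [map_mul, map_ofNat, map_one] at ht
  have e1 : ∀ z a, z ^^^ a ^^^ a = z := fun z a => Nat.xor_xor_cancel_right _ _
  have e2 : z ^^^ 2 ^ q ^^^ 2 ^ p = z ^^^ 2 ^ p ^^^ 2 ^ q := by ac_rfl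
  have e3 : z ^^^ 2 ^ p ^^^ 2 ^ q ^^^ 2 ^ p = z ^^^ 2 ^ q := by rw [← e2, e1]
  rw [LinearMap.smul_apply, Pi.smul_apply, Algebra.smul_def]
  simp only [Module.End.mul_apply, rho_Z', Hb_apply, Algebra.coe_lmul_eq_mul,
    LinearMap.mul_apply', Pi.mul_apply, bt_xor, if_true, h, h.symm, if_false, e1, e2, e3]
  have hp := fld_lt z (2 ^ p) two_pos
  have hq := fld_lt z (2 ^ q) two_pos
  change bt p z < 2 at hp
  change bt q z < 2 at hq
  generalize algebraMap A2 B t2 = t at *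
  generalize bt p z = a at *
  generalize bt q z = b at *
  generalize F (z ^^^ 2 ^ p ^^^ 2 ^ q) = x3
  generalize F (z ^^^ 2 ^ p) = x1
  generalize F (z ^^^ 2 ^ q) = x2
  generalize F z = x0
  clear e1 e2 e3 h
  interval_cases a <;> interval_cases b <;> grind

noncomputable def Hs (B : Type) [CommRing B] [Algebra A2 B] (p q : ℕ → ℕ) : ℕ → Module.End A2 (ℕ → B)
  | 0 => 1
  | d + 1 => Hs B p q d * t2 • (Hb (p d) * Hb (q d))

lemma had_all {i : B} (hi : i * i = -1) {p q : ℕ → ℕ} {d : ℕ}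
    (h : ∀ s < d, ∀ t < d, p s ≠ q t ∧ (s ≠ t → p s ≠ p t ∧ q s ≠ q t)) :
    Dg (fun z => i ^ ∑ t ∈ range d, (3 + bt (p t) z + bt (q t) z + 2 * bt (p t) z * bt (q t) z)) *
      rho B (∏ t ∈ range d, Zg (xn (2 ^ p t)) (xn (2 ^ q t))) *
      Dg (fun z => i ^ ∑ t ∈ range d, (bt (p t) z + bt (q t) z)) *
      rho B (∏ t ∈ range d, Zg (xn (2 ^ p t)) (xn (2 ^ q t))) *
      Dg (fun z => i ^ ∑ t ∈ range d, (bt (p t) z + bt (q t) z + 2 * bt (p t) z * bt (q t) z)) =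
      Hs B p q d := by
  induction d with
  | zero => ext F z; simp [Hs]
  | succ d ih =>
    have cD : ∀ f g : ℕ → B, Commute (Dg f) (Dg g) := fun f g => (Commute.all f g).map _
    have c1 : ∀ G : ℕ → ℕ → B, Commute (Dg fun z => G (bt (p d) z) (bt (q d) z))
        (rho B (∏ t ∈ range d, Zg (xn (2 ^ p t)) (xn (2 ^ q t)))) := fun G => by
      refine comm_DZ _ (fun t ht z => ?_) fun t ht z => ?_ <;>
        have := h t (by simp at ht; omega) d (by omega) <;>
        have := h d (by omega) t (by simp at ht; omega) <;>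
        simp only [nx_xn, bt_xor] <;> rw [if_neg, if_neg] <;> simp at ht <;> omega
    have c2 : ∀ G : ℕ → ℕ → ℕ, Commute (rho B (Zg (xn (2 ^ p d)) (xn (2 ^ q d))))
        (Dg fun z => i ^ ∑ t ∈ range d, G (bt (p t) z) (bt (q t) z)) := fun G => by
      rw [← prod_singleton (fun t => Zg (xn (2 ^ p t)) (xn (2 ^ q t))) d]
      refine (comm_DZ _ (fun t' ht' z => ?_) fun t' ht' z => ?_).symm <;>
        refine congrArg _ (sum_congr rfl fun t ht => ?_) <;>
        have := h t (by simp at ht; omega) d (by omega) <;>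
        have := h d (by omega) t (by simp at ht; omega) <;>
        simp only [nx_xn, bt_xor, mem_singleton.1 ht'] <;> rw [if_neg, if_neg] <;> simp at ht <;> omega
    rw [Hs, ← ih fun s hs t ht => h s (by omega) t (by omega), ← had_pair hi (h d (by omega) d
      (by omega)).1, ← interleave (c1 fun a b => i ^ (3 + a + b + 2 * a * b)) (cD _ _) (cD _ _)
      (c2 fun a b => a + b) (by rw [Commute, SemiconjBy, ← map_mul, ← map_mul, mul_comm (_ : GA)]) (c2 fun a b => a + b + 2 * a * b)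
      (c1 fun a b => i ^ (a + b)) (cD _ _)]
    simp only [← map_mul, sum_range_succ, prod_range_succ, pow_add i (∑ _ ∈ _, _), Pi.mul_def]
end

noncomputable def fbL (k r : ℕ) : (ℕ → Zp k) →ₗ[A2] ℕ → Rg (Zp k) r where
  toFun := fb r
  map_add' F G := funext fun j => by simp [fb, add_smul, sum_add_distrib]
  map_smul' a F := funext fun j => by
    simp only [fb, Pi.smul_apply, RingHom.id_apply, Algebra.smul_def, mul_sum, map_mul, mul_assoc]
    rfl

lemma fbL_apply (k r : ℕ) (F : ℕ → Zp k) : fbL k r F = fb r F := rfl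

lemma fb_ZA {k r e σ d : ℕ} (F : ℕ → Zp k) : fb r (ZA k (r + e) σ d d F) = rho (Rg (Zp k) r)
    (∏ t ∈ range d, Zg (xn (2 ^ (e + (d + t) * σ))) (xn (2 ^ (e + t * σ)))) (fb r F) := by
  have : ∀ n (F : ℕ → Zp k), fbL k r (fun z => F (z ^^^ nx (ps (r + e) σ n))) =
      fun z => fbL k r F (z ^^^ nx (xn (2 ^ (e + n * σ)))) := fun n F =>
    _root_.funext fun j => by
      rw [fbL_apply, fbL_apply]
      exact fb_congr fun t ht => by
        simp only [ps, nx_xn]; rw [add_assoc, add_comm r, pow_add, xor_fib _ _ ht]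
  rw [← fbL_apply, ← fbL_apply, ZA]
  exact rho_int (fbL k r) _ (fun t _ => this _) (fun t _ => this _) F

lemma Fw.twb (fw : Fw w r) {d : γ → ℕ} {p q : γ → ℕ → ℕ} (pd : In polyB d) (dd : Dom polyB d)
    (q1 : In polyB fun a : (γ × ℕ) × Un => bt (p a.1.1 a.2.n) a.1.2)
    (q2 : In polyB fun a : (γ × ℕ) × Un => bt (q a.1.1 a.2.n) a.1.2)
    (G : ℕ → ℕ → ℕ) (hG : In polyB fun p : ℕ × ℕ => G p.1 p.2) :
    OpR w k r μ fun c F => Dg (fun z => (Yg _ _ ^ 2 ^ (r c - 1)) ^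
      ∑ t ∈ range (d c), G (bt (p c t) z) (bt (q c t) z)) F := by
  have g1 := hG.c2 q1 q2
  have g2 := In.usum (g := fun (a : γ × ℕ) t => G (bt (p a.1 t) a.2) (bt (q a.1 t) a.2))
    (pd.comp In.id.fst) (dd.comp In.id.fst) g1
  have g3 := (((fw.pr.sub (In.const 1)).pow2 fw.dr.sub).comp In.id.fst).mul g2
  exact (fw.tw (x := fun c z => 2 ^ (r c - 1) * ∑ t ∈ range (d c), G (bt (p c t) z)
    (bt (q c t) z)) g3).congr fun c F j => by rw [pow_mul]; rfl

theorem hall : ∃ (K : ℕ) (a : ℝ), 0 < a ∧ a < 1 ∧ ∀ (γ : Type) [Cd γ] (w : Wd γ)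
    (k r e σ d κ : γ → ℕ), In polyB r → In polyB e → In polyB σ → In polyB d → In polyB κ →
    (∀ c, 0 < d c ∧ d c ≤ 2 ^ κ c ∧ κ c * d c < σ c ∧ K * (κ c + 1) * d c ≤ r c ∧
      2 ^ (r c + e c + (d c + d c) * σ c) ∣ w.N c ∧ 0 < r c) →
    OpR w k r (fun c => (κ c + 1) * pw a (d c)) fun c G =>
      Hs _ (fun t => e c + (d c + t) * σ c) (fun t => e c + t * σ c) (d c) G := by
  obtain ⟨K, a, a0, a1, h⟩ := zall
  refine ⟨K, a, a0, a1, fun γ _ w k r e σ d κ pr pe pσ pd pκ H => ?_⟩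
  have hz : OpR w k r (fun c => (κ c + 1) * pw a (d c)) fun c G => rho _ (∏ t ∈ range (d c),
      Zg (xn (2 ^ (e c + (d c + t) * σ c))) (xn (2 ^ (e c + t * σ c)))) G :=
    OpR.of (h γ w k _ σ d κ (pr.add pe) pσ pd pκ fun c => by
      obtain ⟨a, b, c, d, e, -⟩ := H c; exact ⟨a, b, c, by omega, e⟩) fun c F j => by rw [fb_ZA]
  have d0 := w.domE fun c => (H c).2.2.2.2.1
  have fw : Fw w r := ⟨pr, fun c => (pow_dvd_pow _ (by omega)).trans (H c).2.2.2.2.1⟩
  have de : Dom polyB e := d0.mono' fun c => by omega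
  have dσ : Dom polyB σ := d0.mono' fun c => by have := H c; nlinarith
  have dd : Dom polyB d := d0.mono' fun c => by
    have : 1 ≤ σ c := by have := H c; omega
    nlinarith
  have u1 := In.id.snd.unval (B := polyB) (α := (γ × ℕ) × Un)
  have u2 := Dom.unval (In.id.snd (B := polyB) (α := (γ × ℕ) × Un))
  have u3 := In.id.fst.fst (B := polyB) (α := (γ × ℕ) × Un)
  have q1 := In.id.fst.snd.fld (((pe.comp u3).add (((pd.comp u3).add u1).mul (pσ.comp u3))).pow2
    ((de.comp u3).add (((dd.comp u3).add u2).mul (dσ.comp u3)))) (In.const 2)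
  have q2 := In.id.fst.snd.fld (((pe.comp u3).add (u1.mul (pσ.comp u3))).pow2
    ((de.comp u3).add (u2.mul (dσ.comp u3)))) (In.const 2)
  have tw := fw.twb (k := k) (μ := fun c => (κ c + 1) * pw a (d c))
    (p := fun c t => e c + (d c + t) * σ c) (q := fun c t => e c + t * σ c) pd dd q1 q2
  refine (((((tw (fun a b => a + b + 2 * a * b) (by fun_prop)).comp hz).comp
    (tw (fun a b => a + b) (by fun_prop))).comp hz).comp
    (tw (fun a b => 3 + a + b + 2 * a * b) (by fun_prop))).congr fun c G j => ?_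
  have hσ : 0 < σ c := by have := H c; omega
  rw [← had_all (i := Yg _ _ ^ 2 ^ (r c - 1)) (by
    rw [← pow_add, ← two_mul, ← pow_succ', Nat.sub_add_cancel (H c).2.2.2.2.2, Yg_pow])
    fun s hs t ht => by
      simp only [ne_eq, add_right_inj, mul_left_inj' hσ.ne']; omega]
  simp only [Module.End.mul_apply]

end Vale.Agent.P338
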