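import Vale.Agent.P338.Calc

/-! Families of time bounds and a library of linear-time list functions. -/

namespace Vale.Agent.P338

open Filter Cd

variable {α β γ δ σ : Type} [Cd α] [Cd β] [Cd γ] [Cd δ] [Cd σ]

set_option linter.unusedSectionVars false

structure Bd (α : Type) where
  b : ℕ → α → ℕ

@[fun_prop] def In (B : Bd α) (f : α → β) : Prop := ∀ᶠ e in atTop, Tm (B.b e) f

@[fun_prop] def Dom (B : Bd α) (t : α → ℕ) : Prop :=
  ∀ᶠ e in atTop, ∃ c, ∀ a, t a ≤ c * (B.b e a + sz a)

def linB : Bd α := ⟨fun _ _ => 0⟩

variable {B : Bd α}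

lemma Tm.in {T : α → ℕ} {f : α → β} (h : Tm T f) (hT : Dom B T) : In B f :=
  hT.mono fun _ he => h.mono he fun _ => rfl

lemma In.tm {f : α → β} (h : In B f) : ∃ e, Tm (B.b e) f := h.exists

lemma In.ltm {f : α → β} (h : In linB f) : Tm (fun _ => 0) f := h.exists.choose_spec

lemma Tm.lin {f : α → β} (h : Tm (fun _ => 0) f) : In linB f := Eventually.of_forall fun _ => h

lemma In.congr {f g : α → β} (h : In B f) (e : ∀ a, f a = g a) : In B g := funext e ▸ h

lemma Dom.mono' {s t : α → ℕ} (h : Dom B t) (hst : ∀ a, s a ≤ t a) : Dom B s :=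
  h.mono fun _ ⟨c, hc⟩ => ⟨c, fun a => (hst a).trans (hc a)⟩

@[fun_prop] lemma Dom.const (k : ℕ) : Dom B fun _ => k :=
  Eventually.of_forall fun _ => ⟨k, fun a => by have := sz_pos a; nlinarith⟩

@[fun_prop] lemma Dom.add {s t : α → ℕ} (hs : Dom B s) (ht : Dom B t) :
    Dom B fun a => s a + t a :=
  (hs.and ht).mono fun _ ⟨⟨c, hc⟩, c', hc'⟩ =>
    ⟨c + c', fun a => by have := hc a; have := hc' a; nlinarith⟩

lemma Dom.cmul {t : α → ℕ} (k : ℕ) (ht : Dom B t) : Dom B fun a => k * t a :=
  ht.mono fun _ ⟨c, hc⟩ => ⟨k * c, fun a => by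
    rw [mul_assoc]; exact Nat.mul_le_mul_left _ (hc a)⟩

@[fun_prop] lemma Dom.sz {f : α → β} (h : In B f) : Dom B fun a => sz (f a) :=
  h.mono fun _ he => he.size

lemma Dom.lin {t : α → ℕ} (c : ℕ) (h : ∀ a, t a ≤ c * P338.sz a) : Dom B t :=
  Eventually.of_forall fun _ => ⟨c, fun a => (h a).trans (by nlinarith)⟩

@[fun_prop] lemma Dom.length {f : α → List β} (h : In B f) : Dom B fun a => (f a).length :=
  (Dom.sz h).mono' fun _ => length_le_sz _

@[fun_prop] lemma Dom.sub {s t : α → ℕ} (hs : Dom B s) : Dom B fun a => s a - t a :=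
  hs.mono' fun _ => Nat.sub_le _ _

@[fun_prop] lemma Dom.div {s t : α → ℕ} (hs : Dom B s) : Dom B fun a => s a / t a :=
  hs.mono' fun _ => Nat.div_le_self _ _

@[fun_prop] lemma Dom.size {f : α → ℕ} (h : In B f) : Dom B fun a => (f a).size :=
  (Dom.sz h).mono' fun _ => size_le_sz _

lemma Tm.comp_in {T : β → ℕ} {g : β → γ} {f : α → β} (hg : Tm T g) (hf : In B f)
    (hT : Dom B fun a => T (f a)) : In B fun a => g (f a) :=
  (hf.and hT).mono fun _ ⟨h1, c, h2⟩ => (hg.comp h1).mono
    ⟨c + 1, fun a => by have := h2 a; nlinarith⟩ fun _ => rfl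

@[fun_prop] lemma In.lin {g : β → γ} {f : α → β} (hg : In linB g) (hf : In B f) :
    In B fun a => g (f a) := hg.ltm.comp_in hf (Dom.const 0)

@[fun_prop] lemma In.id : In B fun a : α => a := Tm.id.in (Dom.const 0)

@[fun_prop] lemma In.const (b : β) : In B fun _ : α => b := (Tm.const b).in (Dom.const 0)

@[fun_prop] lemma In.pair {f : α → β} {g : α → γ} (hf : In B f) (hg : In B g) :
    In B fun a => (f a, g a) :=
  (hf.and hg).mono fun _ ⟨h1, h2⟩ => (h1.pair h2).mono ⟨2, fun a => by omega⟩ fun _ => rfl

@[fun_prop] lemma In.fst {f : α → β × γ} (hf : In B f) : In B fun a => (f a).1 :=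
  Tm.fst.lin.lin hf

@[fun_prop] lemma In.snd {f : α → β × γ} (hf : In B f) : In B fun a => (f a).2 :=
  Tm.snd.lin.lin hf

lemma In.of_cd {f : α → β} {g : α → γ} (h : In B f) (e : ∀ a, cd (f a) = cd (g a)) : In B g :=
  h.mono fun _ he => he.of_cd e

@[fun_prop] lemma In.val {p : β → Prop} {f : α → Subtype p} (hf : In B f) :
    In B fun a => (f a).1 := hf.of_cd fun _ => rfl

@[fun_prop] lemma In.mk {p : β → Prop} {f : α → β} (h : ∀ a, p (f a)) (hf : In B f) :
    In B fun a => (⟨f a, h a⟩ : Subtype p) := hf.of_cd fun _ => rfl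

@[fun_prop] lemma In.cond {b : α → Bool} {f g : α → β} (hb : In B b) (hf : In B f) (hg : In B g) :
    In B fun a => bif b a then f a else g a :=
  (hb.and (hf.and hg)).mono fun _ ⟨h0, h1, h2⟩ =>
    ((TmO.ite h0 h1.lift h2.lift).tm (by simp)).mono ⟨2, fun a => by split_ifs <;> omega⟩
      fun a => by cases b a <;> rfl

@[fun_prop] def Dec (B : Bd α) (p : α → Prop) : Prop :=
  In B fun a => @decide (p a) (Classical.propDecidable _)

lemma Dec.of {p : α → Prop} {b : α → Bool} (h : In B b) (e : ∀ a, b a = true ↔ p a) : Dec B p :=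
  h.congr fun a => by
    by_cases h : p a
    · simp [h, (e a).2 h]
    · simp only [h, decide_false]; exact Bool.eq_false_iff.2 fun hb => h ((e a).1 hb)

@[fun_prop] lemma In.dec {p : α → Prop} [DecidablePred p] (h : Dec B p) :
    In B fun a => decide (p a) := h.congr fun _ => by congr

@[fun_prop] lemma In.ite {p : α → Prop} [DecidablePred p] {f g : α → β}
    (hb : Dec B p) (hf : In B f) (hg : In B g) :
    In B fun a => if p a then f a else g a :=
  (hb.cond hf hg).congr fun a => by by_cases h : p a <;> simp [h]

@[fun_prop] lemma Dec.bool {b : α → Bool} (hb : In B b) : Dec B fun a => b a = true :=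
  Dec.of hb fun _ => Iff.rfl

@[fun_prop] lemma In.not {b : α → Bool} (hb : In B b) : In B fun a => !b a :=
  (hb.cond (In.const false) (In.const true)).congr fun a => by cases b a <;> rfl

@[fun_prop] lemma In.and' {b c : α → Bool} (hb : In B b) (hc : In B c) :
    In B fun a => (b a && c a) :=
  (hb.cond hc (In.const false)).congr fun a => by cases b a <;> rfl

@[fun_prop] lemma In.or' {b c : α → Bool} (hb : In B b) (hc : In B c) :
    In B fun a => (b a || c a) :=
  (hb.cond (In.const true) hc).congr fun a => by cases b a <;> rfl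

@[fun_prop] lemma In.xor {b c : α → Bool} (hb : In B b) (hc : In B c) :
    In B fun a => (b a ^^ c a) :=
  (hb.cond hc.not hc).congr fun a => by cases b a <;> simp

@[fun_prop] lemma Dec.and' {p q : α → Prop} (hp : Dec B p) (hq : Dec B q) :
    Dec B fun a => p a ∧ q a := Dec.of (In.and' hp hq) fun a => by simp

@[fun_prop] lemma Dec.or' {p q : α → Prop} (hp : Dec B p) (hq : Dec B q) :
    Dec B fun a => p a ∨ q a := Dec.of (In.or' hp hq) fun a => by simp

@[fun_prop] lemma Dec.not {p : α → Prop} (hp : Dec B p) : Dec B fun a => ¬ p a :=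
  Dec.of (In.not hp) fun a => by simp

@[fun_prop] lemma Dec.const (p : Prop) : Dec B fun _ => p := In.const _

@[fun_prop] lemma In.cons {f : α → β} {g : α → List β} (hf : In B f) (hg : In B g) :
    In B fun a => f a :: g a := (hf.pair hg).of_cd fun _ => rfl

@[fun_prop] lemma In.some {f : α → β} (hf : In B f) : In B fun a => some (f a) :=
  (hf.pair (In.const ())).of_cd fun _ => rfl

def V.fst : V → V
  | .nil => .nil
  | .cons a _ => a
def V.snd : V → V
  | .nil => .nil
  | .cons _ b => b
def V.isC : V → Bool
  | .nil => false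
  | .cons _ _ => true

lemma lin_vfst : In linB V.fst := Tm.lin ⟨.test (Option.some 0) isT pFst (.dat .nop), 61, fun _ v => by
  cases v with
  | nil => exact (rn_case0 (rn_id _)).mono (by decide)
  | cons a b => exact (rn_case1 (rn_fst a b)).mono (by
      have := (V.cons a b).size_pos; change _ ≤ 61 * (0 + (V.cons a b).size); omega)⟩

lemma lin_vsnd : In linB V.snd := Tm.lin ⟨.test (Option.some 0) isT pSnd (.dat .nop), 61, fun _ v => by
  cases v with
  | nil => exact (rn_case0 (rn_id _)).mono (by decide)
  | cons a b => exact (rn_case1 (rn_snd a b)).mono (by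
      have := (V.cons a b).size_pos; change _ ≤ 61 * (0 + (V.cons a b).size); omega)⟩

lemma lin_isC : In linB V.isC := by
  obtain ⟨P, c, h⟩ := Tm.const (α := V) true
  refine Tm.lin ⟨.test (Option.some 0) isT P (.dat .nop), c + 2, fun ρ v => ?_⟩
  cases v with
  | nil => exact (rn_case0 (rn_id _)).mono (by change _ ≤ (c + 2) * 1; omega)
  | cons a b => exact (rn_case1 (h ρ (.cons a b))).mono (by
      have := sz_pos (V.cons a b); nlinarith)

lemma In.toV {f : α → β} (hf : In B f) : In B fun a => (cd (f a) : V) := hf.of_cd fun _ => rfl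

@[fun_prop] lemma In.tail {f : α → List β} (hf : In B f) : In B fun a => (f a).tail :=
  (lin_vsnd.lin hf.toV).of_cd fun a => by cases f a <;> rfl

@[fun_prop] lemma In.isEmpty {f : α → List β} (hf : In B f) : In B fun a => (f a).isEmpty :=
  (lin_isC.lin hf.toV).not.congr fun a => by cases f a <;> rfl

@[fun_prop] lemma In.isSome {f : α → Option β} (hf : In B f) : In B fun a => (f a).isSome :=
  (lin_isC.lin hf.toV).congr fun a => by cases f a <;> rfl

@[fun_prop] lemma In.getD {f : α → Option β} {g : α → β} (hf : In B f) (hg : In B g) :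
    In B fun a => (f a).getD (g a) :=
  (hf.isSome.cond (lin_vfst.lin hf.toV) hg.toV).of_cd fun a => by cases f a <;> rfl

@[fun_prop] lemma In.head? {f : α → List β} (hf : In B f) : In B fun a => (f a).head? :=
  (hf.isEmpty.cond (In.const none) (lin_vfst.lin hf.toV).some).of_cd fun a => by cases f a <;> rfl

@[fun_prop] lemma In.toList {f : α → Option β} (hf : In B f) : In B fun a => (f a).toList :=
  hf.of_cd fun a => by cases f a <;> rfl

lemma sz_scan (f : σ × α → σ × List β) (s : σ) (l : List α) :
    sz (scan f s l) ≤ sz s + 2 + scanS f (fun q => sz (f q)) s l := by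
  induction l generalizing s with
  | nil => simp [scan, scanS, sz_pair, sz_nil]
  | cons a l ih =>
    have h1 := ih (f (s, a)).1
    have h2 := sz_append (f (s, a)).2 (scan f (f (s, a)).1 l).2
    have h3 := sz_prod (f (s, a))
    have h4 := sz_prod (scan f (f (s, a)).1 l)
    simp only [scan, scanS, sz_pair]; omega

lemma scanS_add (f : σ × α → σ × List β) (T T' : σ × α → ℕ) (s : σ) (l : List α) :
    scanS f (fun q => T q + T' q) s l = scanS f T s l + scanS f T' s l := by
  induction l generalizing s with
  | nil => rfl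
  | cons a l ih => simp only [scanS, ih]; omega

lemma scanS_mono (f : σ × α → σ × List β) {T T' : σ × α → ℕ} {c : ℕ} (h : ∀ q, T q ≤ c * T' q)
    (s : σ) (l : List α) : scanS f T s l ≤ c * scanS f T' s l := by
  induction l generalizing s with
  | nil => simp [scanS]
  | cons a l ih => have := ih (f (s, a)).1; have := h (s, a); simp only [scanS]; nlinarith

lemma Tm.rscan {T : σ × α → ℕ} {f : σ × α → σ × List β} (h : Tm T f) :
    Tm (fun p : σ × List α => scanS f (fun q => T q + sz q) p.1 p.2)
      (fun p => ((scan f p.1 p.2).1, (scan f p.1 p.2).2.reverse)) := by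
  obtain ⟨c, hc⟩ := h.size
  refine (h.lift.rscan.tm fun κ p => ?_).mono ⟨2 * c + 3, fun p => ?_⟩ fun _ => rfl
  · obtain ⟨s, l⟩ := p
    induction l generalizing s with
    | nil => rfl
    | cons a l ih => simp only [scanS, zero_add]; exact ih _
  · have h1 := sz_scan f p.1 p.2
    have h2 := scanS_mono f hc p.1 p.2
    have h3 := sz_prod p
    have := sz_pos p.2
    rw [scanS_add]
    nlinarith [Nat.zero_le (c * sz p)]

lemma scanS_le {M : Type} [AddCommMonoid M] [PartialOrder M] [IsOrderedAddMonoid M]
    (f : σ × α → σ × List β) (T : σ × α → M) (I : ℕ → σ → Prop) (g : α → M)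
    (l : List α) : ∀ (k : ℕ) (s : σ), I k s →
      (∀ j s a, j < k + l.length → a ∈ l → I j s → I (j + 1) (f (s, a)).1 ∧ T (s, a) ≤ g a) →
      scanS f T s l ≤ (l.map g).sum := by
  induction l with
  | nil => intro k s _ _; simp [scanS]
  | cons a l ih =>
    intro k s h0 h
    have h1 := h k s a (by simp) (by simp) h0
    simp only [scanS, List.map_cons, List.sum_cons]
    exact add_le_add h1.2 (ih (k + 1) _ h1.1 fun j s b hj hb =>
      h j s b (by simp only [List.length_cons]; omega) (List.mem_cons_of_mem _ hb))

lemma sum_lin (l : List α) (c : ℕ) : (l.map fun a => c * (sz a + 1)).sum ≤ c * sz l := by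
  rw [List.sum_map_mul_left, sz_list l]; nlinarith

/-- scans whose state stays of bounded size -/
lemma lin_rscan {f : σ × α → σ × List β} (h : In linB f) (k : ℕ) (hk : ∀ s : σ, sz s ≤ k) :
    In linB fun p : σ × List α => ((scan f p.1 p.2).1, (scan f p.1 p.2).2.reverse) :=
  h.ltm.rscan.in (Dom.lin (k + 1) fun p => by
    have := scanS_le f (fun q => 0 + sz q) (fun _ _ => True) (fun a => (k + 1) * (sz a + 1)) p.2 0
      p.1 trivial fun j s a _ _ _ => ⟨trivial, by
        have := hk s; simp only [sz_pair]; nlinarith⟩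
    have h2 := sum_lin p.2 (k + 1)
    rw [sz_prod p]; nlinarith)

lemma scan_flat (g : σ × α → List β) (s : σ) (l : List α) :
    scan (fun q => (q.1, g q)) s l = (s, l.flatMap fun a => g (s, a)) := by
  induction l with
  | nil => rfl
  | cons a l ih => simp [scan, ih]

@[fun_prop] lemma In.reverse {f : α → List β} (hf : In B f) : In B fun a => (f a).reverse :=
  ((lin_rscan (f := fun q : Unit × β => (q.1, [q.2])) (by fun_prop) 1 fun _ => le_rfl).lin
    ((In.const ()).pair hf)).snd.congr fun a => by simp [scan_flat]

lemma Tm.scan {T : σ × α → ℕ} {f : σ × α → σ × List β} (h : Tm T f) :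
    Tm (fun p : σ × List α => scanS f (fun q => T q + sz q) p.1 p.2)
      (fun p => scan f p.1 p.2) :=
  ((In.ltm (f := fun p : σ × List β => (p.1, p.2.reverse)) (by fun_prop)).comp h.rscan).mono
    ⟨1, fun _ => by omega⟩ fun _ => by simp

lemma In.scan {B' : Bd (σ × β)} {f : σ × β → σ × List γ} {s : α → σ} {l : α → List β}
    (h : In B' f) (hs : In B s) (hl : In B l)
    (hd : ∀ e, Dom B fun x => scanS f (fun q => B'.b e q + sz q) (s x) (l x)) :
    In B fun x => scan f (s x) (l x) :=
  let ⟨e, he⟩ := h.tm; he.scan.comp_in (hs.pair hl) (hd e)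

lemma In.bscan {f : σ × β → σ × List γ} {s : α → σ} {l : α → List β} (h : In linB f) (k : ℕ)
    (hk : ∀ s : σ, sz s ≤ k) (hs : In B s) (hl : In B l) : In B fun x => P338.scan f (s x) (l x) :=
  (In.lin (g := fun p : σ × List γ => (p.1, p.2.reverse)) (by fun_prop)
    ((lin_rscan h k hk).lin (hs.pair hl))).congr fun _ => by simp

@[fun_prop] lemma In.flatMap {g : β → List γ} {l : α → List β} (hg : In linB g) (hl : In B l) :
    In B fun x => (l x).flatMap g :=
  (In.bscan (f := fun q : Unit × β => (q.1, g q.2)) (by fun_prop) 1 (fun _ => le_rfl)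
    (In.const ()) hl).snd.congr fun a => by simp [scan_flat]

@[fun_prop] lemma In.map {g : β → γ} {l : α → List β} (hg : In linB g) (hl : In B l) :
    In B fun x => (l x).map g :=
  (In.flatMap (g := fun b => [g b]) (by fun_prop) hl).congr fun a => by
    induction l a <;> simp_all

@[fun_prop] lemma In.flatten {l : α → List (List β)} (hl : In B l) : In B fun x => (l x).flatten :=
  (In.flatMap (g := fun b => b) In.id hl).congr fun a => by simp

@[fun_prop] lemma In.append {f g : α → List β} (hf : In B f) (hg : In B g) :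
    In B fun x => f x ++ g x :=
  (In.flatten (l := fun x => [f x, g x]) (by fun_prop)).congr fun a => by simp

@[fun_prop] lemma In.filterMap {g : β → Option γ} {l : α → List β} (hg : In linB g) (hl : In B l) :
    In B fun x => (l x).filterMap g :=
  (In.flatMap (g := fun b => (g b).toList) (by fun_prop) hl).congr fun a =>
    (List.filterMap_eq_flatMap_toList _ _).symm

@[fun_prop] lemma In.filter {g : β → Bool} {l : α → List β} (hg : In linB g) (hl : In B l) :
    In B fun x => (l x).filter g :=
  (In.flatMap (g := fun b => bif g b then [b] else []) (by fun_prop) hl).congr fun a => by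
    induction l a with
    | nil => rfl
    | cons b m ih => rw [List.flatMap_cons, ih, List.filter_cons]; cases g b <;> rfl

@[fun_prop] lemma In.pick {l : α → List (Bool × β)} {m : α → List γ} (hl : In B l) (hm : In B m) :
    In B fun x => pick (l x) (m x) :=
  (Tm.rpick.lin.lin (hl.pair hm)).reverse.congr fun _ => by simp

lemma zip_pick (l : List α) (m : List β) :
    (pick (l.map fun a => (true, a)) m).flatMap
      (fun p => p.2.toList.map fun b => (p.1, b)) = l.zip m := by
  induction l generalizing m with
  | nil => simp [pick]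
  | cons a l ih => cases m with
    | nil => have := ih []; simp_all [pick]
    | cons b m => simp [pick, ih]

lemma lin_optpair : In linB fun p : α × Option β => p.2.toList.map fun b => (p.1, b) := by
  have h : In linB fun p : α × Option β =>
      bif p.2.isSome then [(p.1, V.fst (cd p.2))] else [] := by
    have : In linB fun p : α × Option β => V.fst (cd p.2) := lin_vfst.lin (In.toV (by fun_prop))
    fun_prop
  exact h.of_cd fun p => by obtain ⟨a, _ | b⟩ := p <;> rfl

@[fun_prop] lemma In.zip {l : α → List β} {m : α → List γ} (hl : In B l) (hm : In B m) :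
    In B fun x => (l x).zip (m x) :=
  (In.flatMap lin_optpair (In.pick (In.map (g := fun a => (true, a)) (by fun_prop) hl) hm)).congr
    fun _ => zip_pick _ _

@[fun_prop] lemma In.zipWith {g : β → γ → δ} {l : α → List β} {m : α → List γ}
    (hg : In linB fun p : β × γ => g p.1 p.2) (hl : In B l) (hm : In B m) :
    In B fun x => List.zipWith g (l x) (m x) :=
  (In.map hg (hl.zip hm)).congr fun _ => List.map_uncurry_zip_eq_zipWith

lemma In.takeL {u : α → List γ} {l : α → List β} (hu : In B u) (hl : In B l) :
    In B fun x => (l x).take (u x).length :=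
  (In.map (g := Prod.fst) Tm.fst.lin (hl.zip hu)).congr fun x => by
    generalize l x = l; generalize u x = u
    induction l generalizing u with
    | nil => simp
    | cons a l ih => cases u <;> simp_all

lemma In.dropL {u : α → List γ} {l : α → List β} (hu : In B u) (hl : In B l) :
    In B fun x => (l x).drop (u x).length :=
  (In.flatMap (g := fun p : β × Option γ => bif p.2.isSome then [] else [p.1]) (by fun_prop)
    (In.pick (In.map (g := fun a => (true, a)) (by fun_prop) hl) hu)).congr fun x => by
    generalize l x = l; generalize u x = u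
    induction l generalizing u with
    | nil => simp [P338.pick]
    | cons a l ih => cases u with
      | nil => have := ih []; simp_all [P338.pick]
      | cons b u => simp_all [P338.pick]

/-- map with a context -/
lemma Tm.flatMapC {T : σ × α → ℕ} {g : σ × α → List β} (h : Tm T g) :
    Tm (fun p : σ × List α => (p.2.map fun a => T (p.1, a) + sz p.1 + sz a + 1).sum)
      (fun p => p.2.flatMap fun a => g (p.1, a)) := by
  refine (Tm.snd.comp (Tm.fst.pair h).scan).mono ⟨1, fun p => ?_⟩ fun p => by simp [scan_flat]
  have := scanS_le (fun q : σ × α => (q.1, g q)) (fun q => 0 + T q + sz q) (fun _ s => s = p.1)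
    (fun a => T (p.1, a) + sz p.1 + sz a + 1) p.2 0 p.1 rfl fun j s a _ _ hs => by
      subst hs; exact ⟨rfl, by simp only [sz_pair]; omega⟩
  omega

lemma Tm.mapC {T : σ × α → ℕ} {g : σ × α → β} (h : Tm T g) :
    Tm (fun p : σ × List α => (p.2.map fun a => T (p.1, a) + sz p.1 + sz a + 1).sum)
      (fun p => p.2.map fun a => g (p.1, a)) :=
  (Tm.flatMapC (g := fun q => [g q]) ((In.ltm (f := fun b : β => [b]) (by fun_prop)).comp h)).mono
    ⟨1, fun _ => by simp⟩ fun p => by induction p.2 <;> simp_all

lemma In.mapC {B' : Bd (σ × β)} {g : σ × β → γ} {s : α → σ} {l : α → List β}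
    (h : In B' g) (hs : In B s) (hl : In B l)
    (hd : ∀ e, Dom B fun x => ((l x).map fun a => B'.b e (s x, a) + sz (s x) + sz a + 1).sum) :
    In B fun x => (l x).map fun a => g (s x, a) :=
  let ⟨e, he⟩ := h.tm; he.mapC.comp_in (hs.pair hl) (hd e)

def grp {α : Type} : List (Bool × α) → List (List α)
  | [] => []
  | (true, a) :: l => [a] :: grp l
  | (false, a) :: l => (a :: (grp l).headD []) :: (grp l).tail

def grpF (q : Bool × (Bool × α)) : Bool × List Bool :=
  (q.2.1, (bif q.1 then [true] else []) ++ true :: ((cd q.2.2).bits ++ bif q.2.1 then [false] else []))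

lemma grp_bits (l : List (Bool × α)) :
    ((scan grpF true l).2 ++ (bif (scan grpF true l).1 then [false] else [false, false]) =
      (cd (grp l)).bits) ∧
    ((scan grpF false l).2 ++ (bif (scan grpF false l).1 then [false] else [false, false]) =
      (cd ((grp l).headD [])).bits ++ (cd (grp l).tail).bits) := by
  induction l with
  | nil => exact ⟨rfl, rfl⟩
  | cons p l ih =>
    obtain ⟨b, a⟩ := p
    have e : ∀ (a : α) (m : List α), (cd (a :: m)).bits = true :: ((cd a).bits ++ (cd m).bits) :=
      fun _ _ => rfl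
    have e' : ∀ (a : List α) (m : List (List α)),
        (cd (a :: m)).bits = true :: ((cd a).bits ++ (cd m).bits) := fun _ _ => rfl
    have e0 : (cd ([] : List α)).bits = [false] := rfl
    cases b
    · simp only [scan, grpF, grp, e, e', List.headD_cons, List.tail_cons, cond_true, cond_false,
        List.append_assoc, List.cons_append, List.nil_append, List.append_nil]
      exact ⟨by rw [← ih.2], by rw [← ih.2]⟩
    · simp only [scan, grpF, grp, e, e', e0, List.headD_cons, List.tail_cons, cond_true, cond_false,
        List.append_assoc, List.cons_append, List.nil_append]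
      exact ⟨by rw [← ih.1], by rw [← ih.1]⟩

@[fun_prop] lemma In.grp {l : α → List (Bool × β)} (hl : In B l) : In B fun x => grp (l x) := by
  have h1 : In linB (grpF (α := β)) := by
    have : In linB fun q : Bool × (Bool × β) => (cd q.2.2).bits := Tm.raw.lin.lin (by fun_prop)
    unfold grpF; fun_prop
  have h2 := In.bscan h1 3 sz_bool (In.const true) hl
  have h3 : In B fun x => (P338.scan grpF true (l x)).2 ++
      (bif (P338.scan grpF true (l x)).1 then [false] else [false, false]) := by fun_prop
  exact h3.mono fun _ he => he.unraw fun x => (grp_bits (l x)).1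

end Vale.Agent.P338
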