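import Vale.Agent.P338.Lib1

/-! Binary arithmetic in linear time, lengths, and polynomial time. -/

namespace Vale.Agent.P338

open Filter Cd

set_option linter.unusedSectionVars false

variable {α β γ δ σ : Type} [Cd α] [Cd β] [Cd γ] [Cd δ] [Cd σ] {B : Bd α}

def bv : List Bool → ℕ
  | [] => 0
  | b :: l => b.toNat + 2 * bv l

lemma bv_bits (n : ℕ) : bv n.bits = n := by
  induction n using Nat.binaryRec' with
  | zero => rfl
  | bit b n h ih => rw [Nat.bits_append_bit n b h, bv, ih, Nat.bit_val]; omega

lemma bv_append (l m : List Bool) : bv (l ++ m) = bv l + 2 ^ l.length * bv m := by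
  induction l with
  | nil => simp [bv]
  | cons b l ih => simp only [List.cons_append, bv, ih, List.length_cons]; ring

lemma bv_lt (l : List Bool) : bv l < 2 ^ l.length := by
  induction l with
  | nil => simp [bv]
  | cons b l ih => have := Bool.toNat_le b; simp only [bv, List.length_cons, pow_succ]; omega

lemma bv_replicate_false (k : ℕ) : bv (List.replicate k false) = 0 := by
  induction k with
  | zero => rfl
  | succ k ih => simp [List.replicate_succ, bv, ih]

lemma bv_not (l : List Bool) : bv (l.map not) + bv l + 1 = 2 ^ l.length := by
  induction l with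
  | nil => rfl
  | cons b l ih => cases b <;> simp only [List.map_cons, bv, List.length_cons, pow_succ] <;>
      simp <;> omega

lemma bv_take_drop (l : List Bool) (k : ℕ) :
    bv (l.take k) = bv l % 2 ^ k ∧ bv (l.drop k) = bv l / 2 ^ k := by
  by_cases h : k ≤ l.length
  · have e := bv_append (l.take k) (l.drop k)
    have h1 := bv_lt (l.take k)
    rw [List.take_append_drop] at e
    rw [List.length_take, min_eq_left h] at e h1
    rw [e, Nat.add_mul_mod_self_left, Nat.mod_eq_of_lt h1,
      Nat.add_mul_div_left _ _ (by positivity), Nat.div_eq_of_lt h1]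
    simp
  · have h1 : bv l < 2 ^ k := (bv_lt l).trans_le (Nat.pow_le_pow_right (by norm_num) (by omega))
    rw [List.take_of_length_le (by omega), List.drop_of_length_le (by omega), Nat.mod_eq_of_lt h1,
      Nat.div_eq_of_lt h1]
    exact ⟨rfl, rfl⟩

lemma bits_bv_snoc (l : List Bool) : (bv (l ++ [true])).bits = l ++ [true] := by
  induction l with
  | nil => rfl
  | cons b l ih =>
    have e : bv (b :: l ++ [true]) = Nat.bit b (bv (l ++ [true])) := by
      rw [Nat.bit_val, List.cons_append, bv]; omega
    rw [e, Nat.bits_append_bit _ _ fun h => by rw [h] at ih; simp at ih, ih]; rfl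

def trimF (q : Bool × Bool) : Bool × List Bool := (q.1 || q.2, bif q.1 || q.2 then [q.2] else [])

lemma trim_true (l : List Bool) : (scan trimF true l).2 = l := by
  induction l with
  | nil => rfl
  | cons b l ih => simp [scan, trimF, ih]

lemma trim_eq (l : List Bool) : (scan trimF false l).2.reverse = (bv l.reverse).bits := by
  induction l with
  | nil => rfl
  | cons b l ih =>
    cases b
    · simp [scan, trimF, ih, bv_append, bv]
    · simp [scan, trimF, trim_true, bits_bv_snoc]

@[fun_prop] lemma In.bv {l : α → List Bool} (h : In B l) : In B fun a => bv (l a) :=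
  (In.bscan (f := trimF) (by unfold trimF; fun_prop) 3 sz_bool (In.const false)
    h.reverse).snd.reverse.of_cd fun a => by rw [trim_eq, List.reverse_reverse]; rfl

@[fun_prop] lemma In.bits {f : α → ℕ} (h : In B f) : In B fun a => (f a).bits :=
  h.of_cd fun _ => rfl

def adcF (q : Bool × (Bool × Option Bool)) : Bool × List Bool :=
  ((q.1 && q.2.1) || ((q.1 || q.2.1) && q.2.2.getD false), [q.1 ^^ (q.2.1 ^^ q.2.2.getD false)])

/-- addition with carry; the output has the length of the first argument -/
def adc (c : Bool) (l m : List Bool) : Bool × List Bool :=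
  scan adcF c (pick (l.map fun a => (true, a)) m)

lemma adc_cons (c a : Bool) (l m : List Bool) : adc c (a :: l) m =
    ((adc (adcF (c, a, m.head?)).1 l m.tail).1,
      (c ^^ (a ^^ m.head?.getD false)) :: (adc (adcF (c, a, m.head?)).1 l m.tail).2) := rfl

lemma adc_length (c : Bool) (l m : List Bool) : (adc c l m).2.length = l.length := by
  induction l generalizing c m with
  | nil => rfl
  | cons a l ih => rw [adc_cons, List.length_cons, ih, List.length_cons]

lemma adc_val (c : Bool) (l m : List Bool) (h : m.length ≤ l.length) :
    bv (adc c l m).2 + 2 ^ l.length * (adc c l m).1.toNat = c.toNat + bv l + bv m := by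
  induction l generalizing c m with
  | nil => cases m with
    | nil => simp [adc, pick, scan, bv]
    | cons _ _ => simp at h
  | cons a l ih =>
    rw [adc_cons]
    have := ih (adcF (c, a, m.head?)).1 m.tail (by simp at h ⊢; omega)
    simp only [bv, List.length_cons, pow_succ]
    cases m with
    | nil => cases c <;> cases a <;> simp [adcF, bv] at this ⊢ <;> nlinarith
    | cons b m => cases c <;> cases a <;> cases b <;> simp [adcF, bv] at this ⊢ <;> nlinarith

@[fun_prop] lemma In.adc {c : α → Bool} {l m : α → List Bool} (hc : In B c) (hl : In B l)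
    (hm : In B m) : In B fun a => adc (c a) (l a) (m a) :=
  In.bscan (f := adcF) (by unfold adcF; fun_prop) 3 sz_bool hc (by fun_prop)

lemma bv_pad (l : List Bool) {ε : Type} (m : List ε) : bv (l ++ m.map fun _ => false) = bv l := by
  rw [bv_append, List.map_const', bv_replicate_false]; simp

@[fun_prop] lemma In.add {f g : α → ℕ} (hf : In B f) (hg : In B g) : In B fun a => f a + g a := by
  have h : In B fun a => P338.bv (P338.adc false ((f a).bits ++ (false :: (g a).bits).map
    fun _ => false) (g a).bits).2 := by fun_prop
  refine h.congr fun a => ?_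
  have h1 := adc_val false ((f a).bits ++ (false :: (g a).bits).map fun _ => false) (g a).bits
    (by simp; omega)
  rw [bv_pad, bv_bits, bv_bits] at h1
  have h2 := bv_lt (f a).bits
  have h3 := bv_lt (g a).bits
  rw [bv_bits] at h2 h3
  simp only [List.length_append, List.length_map, List.length_cons, pow_add, pow_one] at h1
  cases e : (P338.adc false ((f a).bits ++ (false :: (g a).bits).map fun _ => false) (g a).bits).1
  · rw [e] at h1; simpa using h1
  · rw [e] at h1; simp at h1; nlinarith

def subB (x y : ℕ) : Bool × List Bool :=
  adc true (x.bits ++ y.bits.map fun _ => false) ((y.bits ++ x.bits.map fun _ => false).map not)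

lemma subB_spec (x y : ℕ) : (subB x y).1 = decide (y ≤ x) ∧ (y ≤ x → bv (subB x y).2 = x - y) := by
  have h1 := adc_val true (x.bits ++ y.bits.map fun _ => false)
    ((y.bits ++ x.bits.map fun _ => false).map not) (by simp; omega)
  have h2 := bv_not (y.bits ++ x.bits.map fun _ => false)
  have h3 := bv_lt (subB x y).2
  rw [subB, adc_length] at h3
  rw [bv_pad, bv_bits] at h1 h2
  have e : (y.bits ++ x.bits.map fun _ => false).length =
      (x.bits ++ y.bits.map fun _ => false).length := by simp; omega
  rw [e] at h2
  unfold subB
  generalize 2 ^ (x.bits ++ y.bits.map fun _ => false).length = N at *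
  generalize adc true (x.bits ++ y.bits.map fun _ => false)
    ((y.bits ++ x.bits.map fun _ => false).map not) = r at *
  generalize bv ((y.bits ++ x.bits.map fun _ => false).map not) = z at *
  obtain ⟨c, w⟩ := r
  cases c <;> simp at h1 h3 ⊢ <;> omega

lemma In.subB {f g : α → ℕ} (hf : In B f) (hg : In B g) : In B fun a => subB (f a) (g a) := by
  unfold P338.subB; fun_prop

@[fun_prop] lemma Dec.le {f g : α → ℕ} (hf : In B f) (hg : In B g) :
    Dec B fun a => f a ≤ g a := Dec.of (hg.subB hf).fst fun _ => by simp [(subB_spec _ _).1]

@[fun_prop] lemma Dec.lt {f g : α → ℕ} (hf : In B f) (hg : In B g) :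
    Dec B fun a => f a < g a := Dec.of (In.not (Dec.le hg hf)) fun a => by simp

@[fun_prop] lemma Dec.eq {f g : α → ℕ} (hf : In B f) (hg : In B g) :
    Dec B fun a => f a = g a := Dec.of (In.and' (Dec.le hg hf) (Dec.le hf hg)) fun a => by
      simp only [Bool.and_eq_true, decide_eq_true_eq]; omega

@[fun_prop] lemma Dec.ne {f g : α → ℕ} (hf : In B f) (hg : In B g) :
    Dec B fun a => f a ≠ g a := (Dec.eq hf hg).not

@[fun_prop] lemma In.sub {f g : α → ℕ} (hf : In B f) (hg : In B g) : In B fun a => f a - g a :=
  (In.ite (p := fun a => g a ≤ f a) (Dec.le hg hf) (hf.subB hg).snd.bv (In.const 0)).congr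
    fun a => by
      split_ifs with h
      · exact (subB_spec _ _).2 h
      · omega

@[fun_prop] lemma In.toNat {f : α → Bool} (hf : In B f) : In B fun a => (f a).toNat :=
  (hf.cond (In.const 1) (In.const 0)).congr fun a => by cases f a <;> rfl

def halfF (q : Bool × Unit) : Bool × List Unit := (!q.1, bif q.1 then [()] else [])

lemma half_spec (u : List Unit) (b : Bool) :
    (scan halfF b u).1.toNat + 2 * (scan halfF b u).2.length = b.toNat + u.length := by
  induction u generalizing b with
  | nil => rfl
  | cons a u ih => have := ih (!b); cases b <;> simp [scan, halfF] at this ⊢ <;> omega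

def lenF (q : List Unit × Unit) : List Unit × List Bool :=
  bif q.1.isEmpty then ([], []) else ((scan halfF false q.1).2, [(scan halfF false q.1).1])

lemma len_spec (d u : List Unit) (h : u.length ≤ d.length) :
    bv (scan lenF u d).2 = u.length ∧
      scanS lenF (fun q => 0 + sz q) u d ≤ 4 * u.length + 3 * d.length := by
  induction d generalizing u with
  | nil => cases u with
    | nil => exact ⟨rfl, le_rfl⟩
    | cons _ _ => simp at h
  | cons a d ih =>
    have hs := sz_list_le u (k := 1) fun _ _ => le_rfl
    cases u with
    | nil =>
      have := ih [] (by simp)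
      simp only [scan, scanS, lenF, List.isEmpty_nil, cond_true, List.nil_append, sz_pair, sz_unit,
        sz_nil, List.length_cons, List.length_nil] at this ⊢
      omega
    | cons b u =>
      have h1 := half_spec (b :: u) false
      have h2 := Bool.toNat_le (scan halfF false (b :: u)).1
      have := ih (scan halfF false (b :: u)).2 (by simp at h h1 ⊢; omega)
      simp only [List.length_cons, Bool.toNat_false] at h1 hs
      change bv ((scan halfF false (b :: u)).1 :: (scan lenF (scan halfF false (b :: u)).2 d).2) = _
        ∧ 0 + sz (b :: u, a) + scanS lenF _ (scan halfF false (b :: u)).2 d ≤ _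
      simp only [bv, sz_pair, sz_unit, List.length_cons]
      omega

@[fun_prop] lemma In.length {l : α → List β} (hl : In B l) : In B fun a => (l a).length := by
  have h0 : In linB lenF := by
    have : In linB fun q : List Unit × Unit => P338.scan halfF false q.1 :=
      In.bscan (by unfold halfF; fun_prop) 3 sz_bool (In.const false) (by fun_prop)
    unfold lenF; fun_prop
  have h1 : In B fun a => (l a).map fun _ => () := by fun_prop
  refine (In.scan h0 h1 h1 fun e => ((Dom.length hl).cmul 7).mono' fun a => ?_).snd.bv.congr
    fun a => by rw [(len_spec _ _ le_rfl).1, List.length_map]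
  have := (len_spec ((l a).map fun _ => ()) _ le_rfl).2
  rw [List.length_map] at this
  exact this.trans (by omega)

@[fun_prop] lemma In.size {f : α → ℕ} (hf : In B f) : In B fun a => (f a).size :=
  hf.bits.length.congr fun _ => Nat.size_eq_bits_len _

def unF (q : List Unit × Bool) : List Unit × List Unit :=
  (q.1 ++ q.1 ++ bif q.2 then [()] else [], [])

lemma un_spec (l : List Bool) (u : List Unit) :
    (scan unF u l).1.length = bv l.reverse + 2 ^ l.length * u.length ∧
      scanS unF (fun q => 0 + sz q) u l + 2 * u.length ≤
        2 * (scan unF u l).1.length + 5 * l.length := by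
  induction l generalizing u with
  | nil => simp [scan, scanS, bv]
  | cons b l ih =>
    have h := ih (unF (u, b)).1
    have hs := sz_list_le u (k := 1) fun _ _ => le_rfl
    have hb := sz_bool b
    have e : (unF (u, b)).1.length = 2 * u.length + b.toNat := by
      cases b <;> simp [unF] <;> omega
    simp only [scan, scanS, List.reverse_cons, bv_append, List.length_reverse, bv,
      List.length_cons, sz_pair, pow_succ]
    rw [e] at h
    refine ⟨by rw [h.1]; ring, by omega⟩

lemma In.un {f : α → ℕ} (hf : In B f) (hd : Dom B f) : In B fun a => List.replicate (f a) () := by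
  have e : ∀ n : ℕ, (P338.scan unF [] n.bits.reverse).1.length = n := fun n => by
    rw [(un_spec _ _).1, List.reverse_reverse, bv_bits]; simp
  refine (In.scan (f := unF) (B' := linB) (by unfold unF; fun_prop) (In.const []) hf.bits.reverse
    fun _ => ((hd.cmul 2).add ((Dom.sz hf).cmul 5)).mono' fun a => ?_).fst.congr fun a => ?_
  · have := (un_spec (f a).bits.reverse []).2
    rw [e, List.length_reverse] at this
    have h2 := length_le_sz (f a).bits
    change _ ≤ sz (f a) at h2
    change scanS unF (fun q => 0 + sz q) _ _ ≤ _
    omega
  · rw [List.eq_replicate_iff, e]; simp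

@[fun_prop] lemma In.take {k : α → ℕ} {l : α → List β} (hk : In B k) (hl : In B l) :
    In B fun x => (l x).take (k x) :=
  (In.takeL (In.un (f := fun x => if k x ≤ (l x).length then k x else (l x).length) (by fun_prop)
    ((Dom.length hl).mono' fun a => by split_ifs <;> omega)) hl).congr fun x => by
      rw [List.length_replicate]; split_ifs with h
      · rfl
      · rw [List.take_of_length_le le_rfl, List.take_of_length_le (by omega)]

@[fun_prop] lemma In.drop {k : α → ℕ} {l : α → List β} (hk : In B k) (hl : In B l) :
    In B fun x => (l x).drop (k x) :=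
  (In.dropL (In.un (f := fun x => if k x ≤ (l x).length then k x else (l x).length) (by fun_prop)
    ((Dom.length hl).mono' fun a => by split_ifs <;> omega)) hl).congr fun x => by
      rw [List.length_replicate]; split_ifs with h
      · rfl
      · rw [List.drop_of_length_le le_rfl, List.drop_of_length_le (by omega)]

@[fun_prop] lemma In.getD' {k : α → ℕ} {l : α → List β} {d : α → β} (hl : In B l) (hk : In B k)
    (hd : In B d) : In B fun x => (l x).getD (k x) (d x) :=
  ((In.drop hk hl).head?.getD hd).congr fun x => by
    rw [List.head?_drop, List.getD_eq_getElem?_getD]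

@[fun_prop] lemma In.headD {l : α → List β} {d : α → β} (hl : In B l) (hd : In B d) :
    In B fun x => (l x).headD (d x) := (hl.head?.getD hd).congr fun x => by cases l x <;> rfl

@[fun_prop] lemma In.set {k : α → ℕ} {l : α → List β} {d : α → β} (hl : In B l) (hk : In B k)
    (hd : In B d) : In B fun x => (l x).set (k x) (d x) :=
  (In.ite (p := fun x => k x < (l x).length) (f := fun x => (l x).take (k x) ++ d x ::
    (l x).drop (k x + 1)) (by fun_prop) (by fun_prop) hl).congr fun x => by
    rw [List.set_eq_take_append_cons_drop]

lemma In.replicate {k : α → ℕ} (b : β) (hk : In B k) (hd : Dom B k) :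
    In B fun x => List.replicate (k x) b :=
  (In.map (g := fun _ => b) (In.const b) (hk.un hd)).congr fun _ => by simp

lemma bv_pow (k : ℕ) : bv (List.replicate k false ++ [true]) = 2 ^ k := by
  simp [bv_append, bv_replicate_false, bv]

@[fun_prop] lemma In.pow2 {k : α → ℕ} (hk : In B k) (hd : Dom B k) : In B fun x => 2 ^ k x :=
  ((In.replicate false hk hd).append (In.const [true])).bv.congr fun _ => bv_pow _

@[fun_prop] lemma In.testBit {f k : α → ℕ} (hf : In B f) (hk : In B k) :
    In B fun x => (f x).testBit (k x) :=
  (In.getD' hf.bits hk (In.const false)).congr fun x => by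
    rw [Nat.testBit_eq_inth]; rfl

end Vale.Agent.P338
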