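import Vale.Agent.P338.Lib2

/-! Polynomial time closure, ranges, chunks. -/

namespace Vale.Agent.P338

open Filter Cd

set_option linter.unusedSectionVars false

variable {α β γ δ σ : Type} [Cd α] [Cd β] [Cd γ] [Cd δ] [Cd σ] {B : Bd α}

def polyB : Bd α := ⟨fun e a => (sz a + 1) ^ e⟩

lemma dom_poly {t : α → ℕ} : Dom polyB t ↔ ∃ e c, ∀ a, t a ≤ c * (sz a + 1) ^ e := by
  constructor
  · intro h
    obtain ⟨e, c, h⟩ := h.exists
    refine ⟨e + 1, 2 * c, fun a => (h a).trans ?_⟩
    change c * ((sz a + 1) ^ e + sz a) ≤ _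
    have h1 : (sz a + 1) ^ e ≤ (sz a + 1) ^ (e + 1) := Nat.pow_le_pow_right (by omega) (by omega)
    have h2 : (sz a + 1) ^ 1 ≤ (sz a + 1) ^ (e + 1) := Nat.pow_le_pow_right (by omega) (by omega)
    rw [pow_one] at h2
    nlinarith
  · rintro ⟨e, c, h⟩
    refine eventually_atTop.2 ⟨e, fun e' he => ⟨c, fun a => (h a).trans ?_⟩⟩
    have h1 : (sz a + 1) ^ e ≤ (sz a + 1) ^ e' := Nat.pow_le_pow_right (by omega) he
    change _ ≤ c * ((sz a + 1) ^ e' + sz a)
    nlinarith

@[fun_prop] lemma Dom.mul {s t : α → ℕ} (hs : Dom polyB s) (ht : Dom polyB t) :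
    Dom polyB fun a => s a * t a := by
  obtain ⟨e, c, h⟩ := dom_poly.1 hs
  obtain ⟨e', c', h'⟩ := dom_poly.1 ht
  exact dom_poly.2 ⟨e + e', c * c', fun a => (Nat.mul_le_mul (h a) (h' a)).trans (by
    rw [pow_add]; exact le_of_eq (by ring))⟩

@[fun_prop] lemma Dom.pow {s : α → ℕ} (hs : Dom polyB s) (k : ℕ) : Dom polyB fun a => s a ^ k := by
  induction k with
  | zero => simpa using Dom.const 1
  | succ k ih => simpa only [pow_succ] using ih.mul hs

lemma Dom.szid : Dom B fun a => P338.sz a := Dom.lin 1 fun _ => by omega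

@[fun_prop] lemma Dom.comp {t : β → ℕ} {f : α → β} (ht : Dom polyB t) (hf : In polyB f) :
    Dom polyB fun a => t (f a) := by
  obtain ⟨e, c, h⟩ := dom_poly.1 ht
  exact ((((Dom.sz hf).add (Dom.const 1)).pow e).cmul c).mono' fun a => h _

@[fun_prop] lemma In.comp {g : β → γ} {f : α → β} (hg : In polyB g) (hf : In polyB f) :
    In polyB fun a => g (f a) :=
  let ⟨e, he⟩ := hg.tm; he.comp_in hf (((Dom.sz hf).add (Dom.const 1)).pow e)

@[fun_prop] lemma Dec.comp {p : β → Prop} {f : α → β} (hg : Dec polyB p) (hf : In polyB f) :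
    Dec polyB fun a => p (f a) := In.comp (g := fun b => @decide (p b) (Classical.propDecidable _))
      hg hf

lemma In.poly {f : α → β} (h : In linB f) : In polyB f := h.ltm.in (Dom.const 0)

lemma sum_le_mul (l : List α) (g : α → ℕ) {M : ℕ} (h : ∀ a ∈ l, g a ≤ M) :
    (l.map g).sum ≤ l.length * M := by
  have := List.sum_le_card_nsmul (l.map g) M (by simpa using h)
  simpa using this

@[fun_prop] lemma In.flatMapP {g : α → β → List γ} {l : α → List β}
    (hg : In polyB fun p : α × β => g p.1 p.2) (hl : In polyB l) :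
    In polyB fun x => (l x).flatMap (g x) := by
  obtain ⟨e, he⟩ := hg.tm
  refine he.flatMapC.comp_in (In.id.pair hl) ?_
  have h1 : Dom polyB fun x => sz x + sz (l x) + 2 := (Dom.szid.add (Dom.sz hl)).add (Dom.const _)
  refine ((Dom.length hl).mul ((h1.pow e).add h1)).mono' fun x => sum_le_mul _ _ fun a ha => ?_
  have : sz a ≤ sz (l x) := sz_mem ha
  have h2 : (sz (x, a) + 1) ^ e ≤ (sz x + sz (l x) + 2) ^ e :=
    Nat.pow_le_pow_left (by rw [sz_pair]; omega) _
  change (sz (x, a) + 1) ^ e + sz x + sz a + 1 ≤ _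
  omega

@[fun_prop] lemma In.mapP {g : α → β → γ} {l : α → List β}
    (hg : In polyB fun p : α × β => g p.1 p.2) (hl : In polyB l) :
    In polyB fun x => (l x).map (g x) :=
  (In.flatMapP (g := fun x b => [g x b]) (by fun_prop) hl).congr fun a => by
    induction l a <;> simp_all

@[fun_prop] lemma In.filterP {g : α → β → Bool} {l : α → List β}
    (hg : In polyB fun p : α × β => g p.1 p.2) (hl : In polyB l) :
    In polyB fun x => (l x).filter (g x) :=
  (In.flatMapP (g := fun x b => bif g x b then [b] else []) (by fun_prop) hl).congr fun a => by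
    induction l a with
    | nil => rfl
    | cons b m ih => rw [List.flatMap_cons, ih, List.filter_cons]; cases g a b <;> rfl

lemma scan_fold (g : σ → β → σ) (s : σ) (l : List β) :
    scan (fun q : σ × β => (g q.1 q.2, ([] : List Unit))) s l = (l.foldl g s, []) := by
  induction l generalizing s with
  | nil => rfl
  | cons a l ih => simp [scan, ih]

/-- general fold; the cost is bounded through an invariant -/
lemma In.foldl {B' : Bd (σ × β)} {g : σ → β → σ} {s : α → σ} {l : α → List β}
    (h : In B' fun q : σ × β => g q.1 q.2) (hs : In B s) (hl : In B l) (I : α → ℕ → σ → Prop)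
    (h0 : ∀ x, I x 0 (s x))
    (h1 : ∀ x j t a, j < (l x).length → a ∈ l x → I x j t → I x (j + 1) (g t a))
    (hd : ∀ e, ∃ M : α → ℕ, Dom B (fun x => (l x).length * M x) ∧
      ∀ x j t a, j < (l x).length → a ∈ l x → I x j t → B'.b e (t, a) + sz (t, a) ≤ M x) :
    In B fun x => (l x).foldl g (s x) := by
  have h' : In B' fun q : σ × β => (g q.1 q.2, ([] : List Unit)) := h.pair (In.const _)
  refine (In.scan h' hs hl fun e => ?_).fst.congr fun x => by rw [scan_fold]
  obtain ⟨M, hM, hM'⟩ := hd e
  refine hM.mono' fun x => (scanS_le _ _ (I x) (fun _ => M x) (l x) 0 (s x) (h0 x)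
    fun j t a hj ha ht => ⟨h1 x j t a (by omega) ha ht, hM' x j t a (by omega) ha ht⟩).trans ?_
  simp

lemma foldl_ctx (g : α → σ → β → σ) (x : α) (s : σ) (l : List β) :
    l.foldl (fun (t : α × σ) b => (t.1, g t.1 t.2 b)) (x, s) = (x, l.foldl (g x) s) := by
  induction l generalizing s with
  | nil => rfl
  | cons a l ih => simp [ih]

lemma In.foldlP {g : α → σ → β → σ} {s : α → σ} {l : α → List β}
    (h : In polyB fun q : (α × σ) × β => g q.1.1 q.1.2 q.2) (hs : In polyB s) (hl : In polyB l)
    (I : α → ℕ → σ → Prop) (h0 : ∀ x, I x 0 (s x))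
    (h1 : ∀ x j t a, j < (l x).length → a ∈ l x → I x j t → I x (j + 1) (g x t a))
    {M : α → ℕ} (hM : Dom polyB M) (h2 : ∀ x j t, j < (l x).length → I x j t → sz t ≤ M x) :
    In polyB fun x => (l x).foldl (g x) (s x) := by
  refine (In.foldl (B' := polyB) (g := fun (t : α × σ) b => (t.1, g t.1 t.2 b))
    (In.pair (by fun_prop) h) (In.id.pair hs) hl (fun x j t => t.1 = x ∧ I x j t.2) (fun x => ⟨rfl, h0 x⟩)
    (fun x j t a hj ha ht => ⟨ht.1, ht.1 ▸ h1 _ j _ a (ht.1 ▸ hj) (ht.1 ▸ ha) (ht.1 ▸ ht.2)⟩)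
    fun e => ?_).snd.congr fun x => by rw [foldl_ctx]
  have h3 : Dom polyB fun x => sz x + M x + sz (l x) + 3 :=
    ((Dom.szid.add hM).add (Dom.sz hl)).add (Dom.const _)
  refine ⟨_, (Dom.length hl).mul ((h3.pow e).add h3), fun x j t a hj ha ht => ?_⟩
  have := sz_mem ha
  have := h2 x j t.2 hj ht.2
  have h4 : sz (t, a) + 1 ≤ sz x + M x + sz (l x) + 3 := by
    rw [sz_pair, sz_prod t, ht.1]; omega
  have := Nat.pow_le_pow_left h4 e
  change (sz (t, a) + 1) ^ e + _ ≤ _
  omega

lemma sz_le_of_le {a b : ℕ} (h : a ≤ b) : sz a ≤ 4 * sz b + 1 :=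
  (sz_nat_le a).trans (by have := Nat.size_le_size h; have := size_le_sz b; omega)

lemma sz_lt_pow {a k : ℕ} (h : a < 2 ^ k) : sz a ≤ 4 * k + 1 :=
  (sz_nat_le a).trans (by have := Nat.size_le.2 h; omega)

def rangeF (q : ℕ × Unit) : ℕ × List ℕ := (q.1 + 1, [q.1])

lemma range_scan (u : List Unit) (k : ℕ) : (scan rangeF k u).2 = List.range' k u.length := by
  induction u generalizing k with
  | nil => rfl
  | cons a u ih => simp [scan, rangeF, ih, List.range'_succ]

lemma In.range {n : α → ℕ} (hn : In B n) (hd : Dom B fun a => n a * sz (n a)) :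
    In B fun a => List.range (n a) := by
  have hd' : Dom B n := hd.mono' fun a => Nat.le_mul_of_pos_right _ (sz_pos _)
  refine (In.scan (f := rangeF) (B' := linB) (by unfold rangeF; fun_prop) (In.const 0) (hn.un hd')
    fun e => (hd.cmul 7).mono' fun a => ?_).snd.congr fun a => by
      rw [range_scan, List.length_replicate, List.range_eq_range']
  refine (scanS_le _ _ (fun j s => s = j) (fun _ => 7 * sz (n a)) _ 0 0 rfl
    fun j s b hj _ hs => ⟨by rw [hs]; rfl, ?_⟩).trans (by simp; nlinarith)
  have := sz_le_of_le (a := s) (b := n a) (by simp at hj; omega)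
  have := sz_pos (n a)
  change 0 + sz (s, b) ≤ _
  rw [sz_pair, sz_unit]; omega

@[fun_prop] lemma In.rangeP {n : α → ℕ} (hn : In polyB n) (hd : Dom polyB n) :
    In polyB fun a => List.range (n a) := hn.range (hd.mul (Dom.sz hn))

lemma foldl_bits (g : σ → Bool → σ) (s : σ) (P : ℕ → σ → Prop) (h0 : P 0 s)
    (h : ∀ v t b, P v t → P (b.toNat + 2 * v) (g t b)) (l : List Bool) :
    P (bv l) (l.reverse.foldl g s) := by
  induction l with
  | nil => exact h0
  | cons b l ih => rw [List.reverse_cons, List.foldl_append]; exact h _ _ _ ih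

@[fun_prop] lemma In.mul {f g : α → ℕ} (hf : In polyB f) (hg : In polyB g) :
    In polyB fun a => f a * g a := by
  refine (In.foldlP (g := fun x t b => t + t + bif b then g x else 0) (s := fun _ => 0)
    (l := fun x => (f x).bits.reverse) (by fun_prop) (by fun_prop) (by fun_prop)
    (fun x j t => t + g x ≤ 2 ^ j * g x) (fun x => by simp) (fun x j t a _ _ ht => ?_)
    (M := fun x => 4 * ((f x).bits.length + (g x).size) + 1) (by fun_prop)
    fun x j t hj ht => sz_lt_pow ?_).congr fun x => ?_
  · rw [pow_succ]; cases a <;> simp <;> nlinarith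
  · have h1 := Nat.lt_size_self (g x)
    have h2 : 2 ^ j ≤ 2 ^ (f x).bits.length := Nat.pow_le_pow_right (by norm_num) (by
      simp at hj; omega)
    rw [pow_add]
    calc t ≤ 2 ^ j * g x := by omega
      _ ≤ 2 ^ (f x).bits.length * g x := Nat.mul_le_mul_right _ h2
      _ < _ := Nat.mul_lt_mul_of_pos_left h1 (by positivity)
  · have := foldl_bits (fun t b => t + t + bif b then g x else 0) 0 (fun v t => t = v * g x)
      (by simp) (fun v t b h => by cases b <;> simp [h] <;> ring) (f x).bits
    rw [this, bv_bits]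

def dmF (y : ℕ) (t : ℕ × ℕ) (b : Bool) : ℕ × ℕ :=
  if y ≤ t.2 + t.2 + b.toNat then (t.1 + t.1 + 1, t.2 + t.2 + b.toNat - y)
  else (t.1 + t.1, t.2 + t.2 + b.toNat)

lemma In.divmod {f g : α → ℕ} (hf : In polyB f) (hg : In polyB g) :
    In polyB fun a => (f a / g a, f a % g a) := by
  have h : In polyB fun x => (f x).bits.reverse.foldl (dmF (g x)) (0, 0) := by
    refine In.foldlP (by unfold dmF; fun_prop) (by fun_prop) (by fun_prop)
      (fun x j t => t.1 < 2 ^ j ∧ t.2 < 2 ^ j) (fun x => by simp) (fun x j t a _ _ ht => ?_)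
      (M := fun x => 8 * (f x).bits.length + 3) (by fun_prop) fun x j t hj ht => ?_
    · have := Bool.toNat_le a
      unfold dmF; rw [pow_succ]; split_ifs <;> constructor <;> dsimp only <;> omega
    · have := sz_lt_pow ht.1
      have := sz_lt_pow ht.2
      simp at hj
      rw [sz_prod]; omega
  refine (In.ite (p := fun a => g a = 0) (f := fun a => (0, f a)) (by fun_prop) (by fun_prop)
    h).congr fun x => ?_
  split_ifs with h0
  · simp [h0]
  · have := foldl_bits (dmF (g x)) (0, 0) (fun v t => t.2 < g x ∧ v = g x * t.1 + t.2)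
      (by simp; omega) (fun v t b h => by
        have := Bool.toNat_le b
        unfold dmF; split_ifs with h1
        · refine ⟨by dsimp only; omega, ?_⟩
          dsimp only; rw [h.2]; zify [h1]; ring
        · exact ⟨by dsimp only; omega, by dsimp only; rw [h.2]; ring⟩) (f x).bits
    rw [bv_bits] at this
    have h2 := (Nat.div_mod_unique (a := f x) (Nat.pos_of_ne_zero h0)).2
      ⟨by rw [add_comm]; exact this.2.symm, this.1⟩
    exact Prod.ext h2.1.symm h2.2.symm

@[fun_prop] lemma In.div {f g : α → ℕ} (hf : In polyB f) (hg : In polyB g) :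
    In polyB fun a => f a / g a := (hf.divmod hg).fst

@[fun_prop] lemma In.mod {f g : α → ℕ} (hf : In polyB f) (hg : In polyB g) :
    In polyB fun a => f a % g a := (hf.divmod hg).snd

lemma lt_pow_size_mul (a b i j : ℕ) (ha : a ≤ 2 ^ i) (hb : b ≤ 2 ^ j) : a * b ≤ 2 ^ (i + j) := by
  rw [pow_add]; exact Nat.mul_le_mul ha hb

@[fun_prop] lemma In.lprod {l : α → List ℕ} (hl : In polyB l) : In polyB fun a => (l a).prod := by
  refine (In.foldlP (g := fun _ t b => t * b) (s := fun _ => 1) (by fun_prop) (by fun_prop) hl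
    (fun x j t => t ≤ 2 ^ (j * sz (l x))) (fun x => by simp) (fun x j t a _ ha ht => ?_)
    (M := fun x => 4 * ((l x).length * sz (l x) + 1) + 1) (by fun_prop)
    fun x j t hj ht => sz_lt_pow ?_).congr fun x => List.prod_eq_foldl.symm
  · rw [add_mul, one_mul]
    exact lt_pow_size_mul _ _ _ _ ht ((Nat.lt_size_self a).le.trans
      (Nat.pow_le_pow_right (by norm_num) ((size_le_sz a).trans (sz_mem ha))))
  · exact ht.trans_lt (Nat.pow_lt_pow_right (by norm_num) (by nlinarith))

@[fun_prop] lemma In.lsum {l : α → List ℕ} (hl : In polyB l) : In polyB fun a => (l a).sum := by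
  refine (In.foldlP (g := fun _ t b => t + b) (s := fun _ => 0) (by fun_prop) (by fun_prop) hl
    (fun x j t => t < 2 ^ (j + sz (l x))) (fun x => by simp) (fun x j t a _ ha ht => ?_)
    (M := fun x => 4 * ((l x).length + sz (l x)) + 1) (by fun_prop)
    fun x j t hj ht => sz_lt_pow ?_).congr fun x => List.sum_eq_foldl.symm
  · have : a < 2 ^ (j + sz (l x)) := (Nat.lt_size_self a).trans_le
      (Nat.pow_le_pow_right (by norm_num) (by have := (size_le_sz a).trans (sz_mem ha); omega))
    rw [add_right_comm, pow_succ]; omega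
  · exact ht.trans (Nat.pow_lt_pow_right (by norm_num) (by omega))

@[fun_prop] lemma In.fsum {n : α → ℕ} {g : α → ℕ → ℕ} (hn : In polyB n) (hd : Dom polyB n)
    (hg : In polyB fun p : α × ℕ => g p.1 p.2) :
    In polyB fun a => ∑ i ∈ Finset.range (n a), g a i :=
  (In.mapP hg (hn.rangeP hd)).lsum.congr fun _ => rfl

@[fun_prop] lemma In.fprod {n : α → ℕ} {g : α → ℕ → ℕ} (hn : In polyB n) (hd : Dom polyB n)
    (hg : In polyB fun p : α × ℕ => g p.1 p.2) :
    In polyB fun a => ∏ i ∈ Finset.range (n a), g a i :=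
  (In.mapP hg (hn.rangeP hd)).lprod.congr fun _ => rfl

@[fun_prop] lemma In.pow {f k : α → ℕ} (hf : In polyB f) (hk : In polyB k) (hd : Dom polyB k) :
    In polyB fun a => f a ^ k a :=
  (In.fprod (g := fun a _ => f a) hk hd (by fun_prop)).congr fun _ => by simp

/-- unary numbers -/
structure Un where
  n : ℕ

instance : Cd Un := ⟨fun u => cd (List.replicate u.n ())⟩

lemma sz_un (u : Un) : sz u = 2 * u.n + 1 := by
  change sz (List.replicate u.n ()) = _
  rw [sz_list]; simp [sz_unit]; omega

@[fun_prop] lemma In.unval {u : α → Un} (h : In B u) : In B fun a => (u a).n :=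
  (In.length (l := fun a => List.replicate (u a).n ()) (h.of_cd fun _ => rfl)).congr
    fun _ => by simp

@[fun_prop] lemma Dom.unval {u : α → Un} (h : In B u) : Dom B fun a => (u a).n :=
  (Dom.sz h).mono' fun a => by rw [sz_un]; omega

@[fun_prop] lemma In.unmk {n : α → ℕ} (h : In B n) (hd : Dom B n) : In B fun a => Un.mk (n a) :=
  (h.un hd).of_cd fun _ => rfl

lemma pow_le_two_pow (e : ℕ) : ∃ C : ℕ, ∀ k : ℕ, k ^ e ≤ C * 2 ^ k := by
  obtain ⟨C, _, hC⟩ := Asymptotics.bound_of_isBigO_nat_atTop
    (isLittleO_pow_const_const_pow_of_one_lt (R := ℝ) e (r := 2) (by norm_num)).isBigO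
  refine ⟨⌈C⌉₊, fun k => ?_⟩
  have := hC (x := k) (by positivity)
  simp only [norm_pow, Real.norm_natCast, Real.norm_ofNat] at this
  have h2 : (k : ℝ) ^ e ≤ ⌈C⌉₊ * 2 ^ k := this.trans (by gcongr; exact Nat.le_ceil C)
  exact_mod_cast h2

lemma two_pow_size_le (n : ℕ) : 2 ^ n.size ≤ 2 * (n + 1) := by
  rcases Nat.eq_zero_or_pos n.size with h | h
  · rw [h]; omega
  · have := Nat.lt_size.1 (show n.size - 1 < n.size by omega)
    rw [show n.size = n.size - 1 + 1 by omega, pow_succ]; omega

lemma polylog (e : ℕ) : ∃ C, ∀ n : ℕ, (sz n + 1) ^ e ≤ C * (n + 1) := by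
  obtain ⟨C, hC⟩ := pow_le_two_pow e
  refine ⟨4 ^ e * C * 4, fun n => ?_⟩
  have h1 := sz_nat_le n
  have h2 := hC (n.size + 1)
  have h3 := two_pow_size_le n
  calc (sz n + 1) ^ e ≤ (4 * (n.size + 1)) ^ e := Nat.pow_le_pow_left (by omega) _
    _ = 4 ^ e * (n.size + 1) ^ e := mul_pow _ _ _
    _ ≤ 4 ^ e * (C * (4 * (n + 1))) := Nat.mul_le_mul_left _ (h2.trans
        (Nat.mul_le_mul_left _ (by rw [pow_succ]; omega)))
    _ = _ := by ring

/-- polynomial functions of numbers whose values are affordable -/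
lemma In.ofNum {g : ℕ × ℕ → β} {m n : α → ℕ} (hg : In polyB g) (hm : In B m) (hn : In B n)
    (dm : Dom B m) (dn : Dom B n) : In B fun a => g (m a, n a) := by
  obtain ⟨e, he⟩ := hg.tm
  obtain ⟨C, hC⟩ := polylog e
  refine he.comp_in (hm.pair hn) ((((dm.add dn).add (Dom.const 1)).cmul (9 ^ e * C)).mono'
    fun a => ?_)
  have h1 := sz_le_of_le (a := m a) (b := m a + n a) (by omega)
  have h2 := sz_le_of_le (a := n a) (b := m a + n a) (by omega)
  calc (sz (m a, n a) + 1) ^ e ≤ (9 * (sz (m a + n a) + 1)) ^ e :=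
        Nat.pow_le_pow_left (by have := sz_pos (m a + n a); rw [sz_pair]; omega) _
    _ ≤ _ := by rw [mul_pow, mul_assoc]; exact Nat.mul_le_mul_left _ (hC _)

lemma In.replicateC {k : α → ℕ} {b : α → β} (hk : In B k) (hb : In B b)
    (hd : Dom B fun a => k a * sz (b a)) : In B fun x => List.replicate (k x) (b x) := by
  have hd' : Dom B k := hd.mono' fun a => Nat.le_mul_of_pos_right _ (sz_pos _)
  refine (In.mapC (B' := linB) (g := fun p : β × Unit => p.1) (by fun_prop) hb (hk.un hd')
    fun e => (hd.cmul 3).mono' fun x => ?_).congr fun x => by simp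
  have := sz_pos (b x)
  simp only [linB, sz_unit, List.map_replicate, List.sum_replicate, smul_eq_mul]
  nlinarith

@[fun_prop] lemma In.replicateP {k : α → ℕ} {b : α → β} (hk : In polyB k) (hb : In polyB b)
    (hd : Dom polyB k) : In polyB fun x => List.replicate (k x) (b x) :=
  In.replicateC hk hb (hd.mul (Dom.sz hb))

def tab {ε : Type} (N : ℕ) (f : ℕ → ε) : List ε := (List.range N).map f

def cyc (k n : ℕ) : List Bool :=
  (List.replicate (n / k + 1) (List.replicate (k - 1) false ++ [true])).flatten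

def chunks {ε : Type} (k : ℕ) (l : List ε) : List (List ε) := grp ((cyc k l.length).zip l)

lemma In.chunks {k : α → ℕ} {l : α → List β} (hk : In B k) (hd : Dom B k) (hl : In B l) :
    In B fun x => chunks (k x) (l x) := by
  have h1 : In B fun x => (l x).length / k x + 1 :=
    In.ofNum (g := fun p => p.1 / p.2 + 1) (by fun_prop) hl.length hk (Dom.length hl) hd
  have h2 : In B fun x => List.replicate (k x - 1) false ++ [true] :=
    (In.replicate false (by fun_prop) hd.sub).append (In.const _)
  have h3 := In.replicateC h1 h2 (((((Dom.length hl).add hd).add (Dom.const 1)).cmul 9).mono'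
    fun x => by
      have h4 := sz_bits (List.replicate (k x - 1) false ++ [true])
      have h5 := Nat.div_mul_le_self (l x).length (k x)
      simp only [List.length_append, List.length_replicate, List.length_singleton] at h4
      rcases Nat.eq_zero_or_pos (k x) with h | h
      · simp only [h, Nat.div_zero] at h4 ⊢; omega
      · have := Nat.div_le_self (l x).length (k x)
        calc _ ≤ ((l x).length / k x + 1) * (4 * k x + 1) := Nat.mul_le_mul_left _ (by omega)
          _ ≤ _ := by nlinarith)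
  unfold P338.chunks cyc
  fun_prop

lemma grp_block {ε : Type} (c : List ε) (hc : c ≠ []) (r : List (Bool × ε)) :
    grp ((List.replicate (c.length - 1) false ++ [true]).zip c ++ r) = c :: grp r := by
  induction c with
  | nil => exact absurd rfl hc
  | cons a c ih =>
    cases c with
    | nil => rfl
    | cons b c =>
      have := ih (by simp)
      simp only [List.length_cons, Nat.add_sub_cancel, List.replicate_succ, List.cons_append,
        List.zip_cons_cons, grp] at this ⊢
      rw [this]; rfl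

lemma chunks_flatten {ε : Type} {k : ℕ} (hk : 0 < k) (L : List (List ε))
    (h : ∀ c ∈ L, c.length = k) : chunks k L.flatten = L := by
  have key : ∀ m, L.length ≤ m → grp ((List.replicate m
      (List.replicate (k - 1) false ++ [true])).flatten.zip L.flatten) = L := by
    induction L with
    | nil => intro m _; simp [grp]
    | cons c L ih =>
      intro m hm
      obtain ⟨m, rfl⟩ : ∃ m', m = m' + 1 := ⟨m - 1, by simp at hm; omega⟩
      have hc := h c (by simp)
      rw [List.replicate_succ, List.flatten_cons, List.flatten_cons,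
        List.zip_append (by simp; omega), ← hc, grp_block c (by rintro rfl; simp at hc; omega), hc,
        ih (fun c hc => h c (List.mem_cons_of_mem _ hc)) m (by simp at hm; omega)]
  refine key _ ?_
  have : L.flatten.length = L.length * k := by
    rw [List.length_flatten, List.map_congr_left h]; simp
  rw [this, Nat.mul_div_cancel _ hk]; omega

lemma tab_length {ε : Type} (N : ℕ) (f : ℕ → ε) : (tab N f).length = N := by simp [tab]

lemma tab_congr {ε : Type} {N : ℕ} {f g : ℕ → ε} (h : ∀ z < N, f z = g z) : tab N f = tab N g :=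
  List.map_congr_left fun z hz => h z (List.mem_range.1 hz)

lemma mem_tab {ε : Type} {N : ℕ} {f : ℕ → ε} {a : ε} : a ∈ tab N f ↔ ∃ z < N, f z = a := by
  simp [tab]

lemma tab_getD {ε : Type} {N z : ℕ} (f : ℕ → ε) (d : ε) (h : z < N) : (tab N f).getD z d = f z := by
  simp [tab, List.getD_eq_getElem?_getD, h]

lemma eq_tab {ε : Type} (l : List ε) (d : ε) : l = tab l.length fun z => l.getD z d := by
  refine List.ext_getElem (by simp [tab]) fun i h1 h2 => ?_
  simp [tab, List.getD_eq_getElem?_getD, h1]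

lemma tab_succ {ε : Type} (N : ℕ) (f : ℕ → ε) : tab (N + 1) f = f 0 :: tab N fun z => f (z + 1) := by
  simp [tab, List.range_succ_eq_map, Function.comp_def]

lemma tab_add {ε : Type} (M N : ℕ) (f : ℕ → ε) :
    tab (M + N) f = tab M f ++ tab N fun z => f (M + z) := by
  simp [tab, List.range_add, Function.comp_def]

lemma tab_map {ε ε' : Type} (N : ℕ) (f : ℕ → ε) (g : ε → ε') :
    (tab N f).map g = tab N fun z => g (f z) := by simp [tab, Function.comp_def]

lemma tab_zipWith {ε ε' ε'' : Type} (N : ℕ) (f : ℕ → ε) (g : ℕ → ε') (h : ε → ε' → ε'') :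
    List.zipWith h (tab N f) (tab N g) = tab N fun z => h (f z) (g z) := by
  simp [tab, List.zipWith_map]

lemma tab_zip {ε ε' : Type} (N : ℕ) (f : ℕ → ε) (g : ℕ → ε') :
    (tab N f).zip (tab N g) = tab N fun z => (f z, g z) := tab_zipWith N f g _

lemma tab_flatten {ε : Type} (n k : ℕ) (f : ℕ → ε) :
    (tab n fun i => tab k fun j => f (i * k + j)).flatten = tab (n * k) f := by
  induction n with
  | zero => simp [tab]
  | succ n ih => rw [tab_add, List.flatten_append, ih, add_mul, one_mul, tab_add]; simp [tab]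

lemma chunks_tab {ε : Type} {k : ℕ} (hk : 0 < k) (n : ℕ) (f : ℕ → ε) :
    chunks k (tab (n * k) f) = tab n fun i => tab k fun j => f (i * k + j) := by
  rw [← tab_flatten, chunks_flatten hk]
  intro c hc
  obtain ⟨z, _, rfl⟩ := mem_tab.1 hc
  exact tab_length _ _

lemma tab_reverse {ε : Type} (N : ℕ) (f : ℕ → ε) :
    (tab N f).reverse = tab N fun z => f (N - 1 - z) := by
  refine List.ext_getElem (by simp [tab]) fun i h1 h2 => ?_
  simp [tab]

end Vale.Agent.P338
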