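import Vale.Agent.P338.Mach

/-! Tree values, their encodings on stacks, and the basic moving routines. -/

namespace Vale.Agent.P338

open Function

inductive V
  | nil
  | cons (a b : V)

def V.enc : V → List Sy
  | .nil => [some false]
  | .cons a b => some true :: (a.enc ++ b.enc)

def V.size : V → ℕ
  | .nil => 1
  | .cons a b => a.size + b.size + 1

lemma V.enc_length (v : V) : v.enc.length = v.size := by
  induction v with
  | nil => rfl
  | cons a b iha ihb => simp [V.enc, V.size, iha, ihb]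

lemma V.enc_some (v : V) : ∀ s ∈ v.enc, s ≠ none := by
  induction v with
  | nil => simp [V.enc]
  | cons a b iha ihb =>
    simp only [V.enc, List.mem_cons, List.mem_append]
    rintro s (rfl | h | h)
    · simp
    · exact iha s h
    · exact ihb s h

def Le (ρ p : L) (S S' : St) (b : ℕ) : Prop := ∃ t ≤ b, Ev ρ p S S' t

variable {ρ : L}

lemma Le.mono {p S S' b b'} (h : Le ρ p S S' b) (hb : b ≤ b') : Le ρ p S S' b' :=
  let ⟨t, ht, e⟩ := h; ⟨t, ht.trans hb, e⟩

lemma Le.seq {p q S S' S'' m n} (h : Le ρ p S S' m) (h' : Le ρ q S' S'' n) :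
    Le ρ (.seq p q) S S'' (m + n + 1) :=
  let ⟨t, ht, e⟩ := h; let ⟨t', ht', e'⟩ := h'; ⟨t + t' + 1, by omega, e.seq e'⟩

lemma Le.dat {d S S'} (h : S.act d = S') : Le ρ (.dat d) S S' 1 := ⟨1, le_rfl, h ▸ Ev.dat ρ d S⟩

lemma Le.test1 {r c p q S S' m} (hc : c (S.top r) = true) (h : Le ρ p S S' m) :
    Le ρ (.test r c p q) S S' (m + 1) :=
  let ⟨t, ht, e⟩ := h; ⟨t + 1, by omega, e.test1 hc⟩

lemma Le.test0 {r c p q S S' m} (hc : c (S.top r) = false) (h : Le ρ q S S' m) :
    Le ρ (.test r c p q) S S' (m + 1) :=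
  let ⟨t, ht, e⟩ := h; ⟨t + 1, by omega, e.test0 hc⟩

lemma Le.stop {r c p S} (hc : c (S.top r) = false) : Le ρ (.loop r c p) S S 1 :=
  ⟨1, le_rfl, Ev.stop hc⟩

lemma Le.go {r c p S S' S'' m n} (hc : c (S.top r) = true) (h : Le ρ p S S' m)
    (h' : Le ρ (.loop r c p) S' S'' n) : Le ρ (.loop r c p) S S'' (m + n + 1) :=
  let ⟨t, ht, e⟩ := h; let ⟨t', ht', e'⟩ := h'; ⟨t + t' + 1, by omega, Ev.go hc e e'⟩

lemma Le.cast {p S1 S2 S1' S2' b} (h : Le ρ p S1 S2 b) (h1 : S1 = S1') (h2 : S2 = S2') :
    Le ρ p S1' S2' b := h1 ▸ h2 ▸ h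

lemma Ev.grow {p S S' t} (h : Ev ρ p S S' t) (r : Fin 7) :
    (S'.reg r).length ≤ (S.reg r).length + t := by
  induction h with
  | dat ρ d S =>
    rcases d with _ | ⟨r', s⟩ | ⟨_ | r'⟩ | b <;> simp only [St.act] <;> try omega
    · by_cases e : r = r'
      · subst e; simp
      · simp [e]
    · by_cases e : r = r'
      · subst e; simp only [update_self, List.length_tail]; omega
      · simp [e]
  | seq _ _ ih1 ih2 => omega
  | test1 _ _ ih => omega
  | test0 _ _ ih => omega
  | stop _ => omega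
  | go _ _ _ ih1 ih2 => omega
  | fix _ ih => omega
  | call _ ih => omega

def St.pre (S : St) (ts : List (Fin 7)) (w : List Sy) : St :=
  ⟨S.inp, S.out, fun t => if t ∈ ts then w ++ S.reg t else S.reg t⟩

lemma St.eq {S S' : St} (h1 : S.inp = S'.inp) (h2 : S.out = S'.out) (h3 : ∀ t, S.reg t = S'.reg t) :
    S = S' := by
  cases S; cases S'; simp only at h1 h2 h3; subst h1 h2; congr 1; funext t; exact h3 t

def pushs : List (Fin 7) → Sy → L
  | [], _ => .dat .nop
  | t :: ts, s => .seq (.dat (.push t s)) (pushs ts s)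

lemma pushs_le (ts : List (Fin 7)) (h : ts.Nodup) (s : Sy) (S : St) :
    Le ρ (pushs ts s) S (S.pre ts [s]) (2 * ts.length + 1) := by
  induction ts generalizing S with
  | nil => exact Le.dat (St.eq rfl rfl fun t => by simp [St.act, St.pre])
  | cons t ts ih =>
    rw [List.nodup_cons] at h
    refine Le.mono (b := 1 + (2 * ts.length + 1) + 1) ?_ (by simp; omega)
    refine ((Le.dat rfl).seq (ih h.2 _)).cast rfl (St.eq rfl rfl fun u => ?_)
    by_cases e : u = t
    · subst e; simp [St.act, St.pre, h.1]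
    · simp [St.act, St.pre, e]

def isT : Option Sy → Bool := fun x => x == some (some true)
def noM : Option Sy → Bool := fun x => x != some none

def mvBody (r : Fin 7) (ts : List (Fin 7)) : L :=
  .test (some r) isT
    (.seq (.dat (.pop (some r))) (.seq (pushs ts (some true)) (.dat (.push 2 (some true)))))
    (.seq (.dat (.pop (some r))) (.seq (pushs ts (some false)) (.dat (.pop (some 2)))))

lemma mv_loop {r : Fin 7} {ts : List (Fin 7)} (h : ts.Nodup) (hr : r ≠ 2) (h2 : 2 ∉ ts)
    (hrt : r ∉ ts) (v : V) : ∀ (S S' : St) (n : ℕ),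
    Le ρ (.loop (some 2) noM (mvBody r ts)) (S.pre ts v.enc.reverse) S' n →
    Le ρ (.loop (some 2) noM (mvBody r ts)) ((S.pre [r] v.enc).pre [2] [some true]) S'
      (n + (2 * ts.length + 8) * v.size) := by
  induction v with
  | nil =>
    intro S S' n hn
    refine (Le.go (by simp [St.top, St.pre, noM]) (Le.test0 (by simp [St.top, St.pre, isT, hr, V.enc])
      ((Le.dat rfl).seq ((pushs_le ts h _ _).seq (Le.dat ?_)))) hn).mono (by simp [V.size]; omega)
    refine St.eq rfl rfl fun u => ?_
    by_cases e : u = 2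
    · subst e; simp [St.act, St.pre, h2, hr.symm]
    · by_cases e' : u = r
      · subst e'; simp [St.act, St.pre, hrt, e, V.enc]
      · simp [St.act, St.pre, e, e', V.enc]
  | cons a b iha ihb =>
    intro S S' n hn
    have h1 := ihb ((S.pre ts [some true]).pre ts a.enc.reverse) S' n
      (hn.cast (St.eq rfl rfl fun u => by
        by_cases e : u ∈ ts <;> simp [St.pre, e, V.enc]) rfl)
    have h3 := iha (((S.pre ts [some true]).pre [r] b.enc).pre [2] [some true]) S' _
      (h1.cast (St.eq rfl rfl fun u => by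
        by_cases e : u = 2
        · subst e; simp [St.pre, h2, hr.symm]
        · by_cases e' : u = r
          · subst e'; simp [St.pre, hrt, e]
          · simp [St.pre, e, e']) rfl)
    refine (Le.go (by simp [St.top, St.pre, noM]) (Le.test1 (by simp [St.top, St.pre, isT, hr, V.enc])
      ((Le.dat rfl).seq ((pushs_le ts h _ _).seq (Le.dat ?_)))) h3).mono
        (by simp only [V.size]; nlinarith)
    refine St.eq rfl rfl fun u => ?_
    by_cases e : u = 2
    · subst e; simp [St.act, St.pre, h2, hr.symm]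
    · by_cases e' : u = r
      · subst e'; simp [St.act, St.pre, hrt, e, V.enc]
      · simp [St.act, St.pre, e, e']

def mvT (r : Fin 7) (ts : List (Fin 7)) : L :=
  .seq (.dat (.push 2 none)) (.seq (.dat (.push 2 (some true)))
    (.seq (.loop (some 2) noM (mvBody r ts)) (.dat (.pop (some 2)))))

lemma mvT_le {r : Fin 7} {ts : List (Fin 7)} (h : ts.Nodup) (hr : r ≠ 2) (h2 : 2 ∉ ts)
    (hrt : r ∉ ts) (v : V) (S : St) :
    Le ρ (mvT r ts) (S.pre [r] v.enc) (S.pre ts v.enc.reverse)
      ((2 * ts.length + 8) * v.size + 7) := by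
  have h1 := mv_loop (ρ := ρ) h hr h2 hrt v (S.pre [2] [none]) _ 1
    (Le.stop (by simp [St.top, St.pre, noM, h2]))
  refine ((Le.dat rfl).seq ((Le.dat ?_).seq (h1.seq (Le.dat ?_)))).mono (by omega)
  · refine St.eq rfl rfl fun u => ?_
    by_cases e : u = 2
    · subst e; simp [St.act, St.pre, hr.symm]
    · simp [St.act, St.pre, e]
  · refine St.eq rfl rfl fun u => ?_
    by_cases e : u = 2
    · subst e; simp [St.act, St.pre, h2]
    · simp [St.act, St.pre, e]

def pourBody (ts : List (Fin 7)) : L :=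
  .test (some 1) isT (.seq (.dat (.pop (some 1))) (pushs ts (some true)))
    (.seq (.dat (.pop (some 1))) (pushs ts (some false)))

def pour (ts : List (Fin 7)) : L :=
  .seq (.loop (some 1) noM (pourBody ts)) (.dat (.pop (some 1)))

lemma pour_loop {ts : List (Fin 7)} (h : ts.Nodup) (h1 : 1 ∉ ts) (w : List Sy)
    (hw : ∀ s ∈ w, s ≠ none) : ∀ (S : St),
    Le ρ (.loop (some 1) noM (pourBody ts)) (S.pre [1] (w ++ [none]))
      ((S.pre ts w.reverse).pre [1] [none]) ((2 * ts.length + 5) * w.length + 1) := by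
  induction w with
  | nil =>
    intro S
    exact (Le.stop (by simp [St.top, St.pre, noM])).cast rfl
      (St.eq rfl rfl fun u => by simp [St.pre])
  | cons s w ih =>
    intro S
    have h3 := ih (fun x hx => hw x (List.mem_cons_of_mem _ hx)) (S.pre ts [s])
    have e1 : (((S.pre [1] (s :: w ++ [none])).act (.pop (some 1))).pre ts [s]) =
        (S.pre ts [s]).pre [1] (w ++ [none]) := St.eq rfl rfl fun u => by
      by_cases e : u = 1
      · subst e; simp [St.act, St.pre, h1]
      · simp [St.act, St.pre, e]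
    have e2 : ((S.pre ts [s]).pre ts w.reverse).pre [1] [none] =
        (S.pre ts (s :: w).reverse).pre [1] [none] := St.eq rfl rfl fun u => by
      by_cases e : u ∈ ts <;> simp [St.pre, e]
    rcases s with _ | _ | _
    · exact absurd rfl (hw none (by simp))
    · exact (Le.go (by simp [St.top, St.pre, noM]) (Le.test0 (by simp [St.top, St.pre, isT])
        ((Le.dat rfl).seq ((pushs_le ts h _ _).cast rfl e1))) (h3.cast rfl e2)).mono
        (by simp only [List.length_cons]; nlinarith)
    · exact (Le.go (by simp [St.top, St.pre, noM]) (Le.test1 (by simp [St.top, St.pre, isT])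
        ((Le.dat rfl).seq ((pushs_le ts h _ _).cast rfl e1))) (h3.cast rfl e2)).mono
        (by simp only [List.length_cons]; nlinarith)

lemma pour_le {ts : List (Fin 7)} (h : ts.Nodup) (h1 : 1 ∉ ts) (w : List Sy)
    (hw : ∀ s ∈ w, s ≠ none) (S : St) :
    Le ρ (pour ts) (S.pre [1] (w ++ [none])) (S.pre ts w.reverse)
      ((2 * ts.length + 5) * w.length + 3) := by
  refine (pour_loop h h1 w hw S).seq (n := 1) (Le.dat (St.eq rfl rfl fun u => ?_))
  by_cases e : u = 1
  · subst e; simp [St.act, St.pre, h1]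
  · simp [St.act, St.pre, e]

def xfer (r : Fin 7) (ts : List (Fin 7)) : L :=
  .seq (.dat (.push 1 none)) (.seq (mvT r [1]) (pour ts))

lemma xfer_le {r : Fin 7} {ts : List (Fin 7)} (h : ts.Nodup) (hr : r ≠ 2) (hr1 : r ≠ 1)
    (h1 : 1 ∉ ts) (hl : ts.length ≤ 2) (v : V) (S : St) :
    Le ρ (xfer r ts) (S.pre [r] v.enc) (S.pre ts v.enc) (19 * v.size + 13) := by
  have a := mvT_le (ρ := ρ) (r := r) (ts := [1]) (by simp) hr (by decide) (by simp [hr1]) v
    (S.pre [1] [none])
  have b := pour_le (ρ := ρ) h h1 v.enc.reverse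
    (fun s hs => v.enc_some s (List.mem_reverse.1 hs)) S
  rw [List.reverse_reverse, List.length_reverse, V.enc_length] at b
  refine ((Le.dat ?_).seq (a.seq (b.cast ?_ rfl))).mono
    (by simp only [List.length_singleton]; nlinarith)
  · refine St.eq rfl rfl fun u => ?_
    by_cases e : u = 1
    · subst e; simp [St.act, St.pre, hr1.symm]
    · simp [St.act, St.pre, e]
  · refine St.eq rfl rfl fun u => ?_
    by_cases e : u = 1 <;> simp [St.pre, e]

/-- explicit states -/
def mk (i : List Sy) (o : List Bool) (a t c u x y z : List Sy) : St := ⟨i, o, ![a, t, c, u, x, y, z]⟩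

lemma mk_eta (S : St) : S = mk S.inp S.out (S.reg 0) (S.reg 1) (S.reg 2) (S.reg 3) (S.reg 4)
    (S.reg 5) (S.reg 6) := St.eq rfl rfl fun t => by fin_cases t <;> rfl

section
variable {i : List Sy} {o : List Bool} {a t c u x y z : List Sy} (v : V)

lemma x03 : Le ρ (xfer 0 [3]) (mk i o (v.enc ++ a) t c u x y z) (mk i o a t c (v.enc ++ u) x y z)
    (19 * v.size + 13) :=
  (xfer_le (by decide) (by decide) (by decide) (by decide) (by decide) v (mk i o a t c u x y z)).cast
    (St.eq rfl rfl fun r => by fin_cases r <;> rfl) (St.eq rfl rfl fun r => by fin_cases r <;> rfl)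
lemma x0 : Le ρ (xfer 0 []) (mk i o (v.enc ++ a) t c u x y z) (mk i o a t c u x y z)
    (19 * v.size + 13) :=
  (xfer_le (by decide) (by decide) (by decide) (by decide) (by decide) v (mk i o a t c u x y z)).cast
    (St.eq rfl rfl fun r => by fin_cases r <;> rfl) (St.eq rfl rfl fun r => by fin_cases r <;> rfl)
lemma x30 : Le ρ (xfer 3 [0]) (mk i o a t c (v.enc ++ u) x y z) (mk i o (v.enc ++ a) t c u x y z)
    (19 * v.size + 13) :=
  (xfer_le (by decide) (by decide) (by decide) (by decide) (by decide) v (mk i o a t c u x y z)).cast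
    (St.eq rfl rfl fun r => by fin_cases r <;> rfl) (St.eq rfl rfl fun r => by fin_cases r <;> rfl)
lemma x003 : Le ρ (xfer 0 [0, 3]) (mk i o (v.enc ++ a) t c u x y z)
    (mk i o (v.enc ++ a) t c (v.enc ++ u) x y z) (19 * v.size + 13) :=
  (xfer_le (by decide) (by decide) (by decide) (by decide) (by decide) v (mk i o a t c u x y z)).cast
    (St.eq rfl rfl fun r => by fin_cases r <;> rfl) (St.eq rfl rfl fun r => by fin_cases r <;> rfl)
lemma x04 : Le ρ (xfer 0 [4]) (mk i o (v.enc ++ a) t c u x y z) (mk i o a t c u (v.enc ++ x) y z)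
    (19 * v.size + 13) :=
  (xfer_le (by decide) (by decide) (by decide) (by decide) (by decide) v (mk i o a t c u x y z)).cast
    (St.eq rfl rfl fun r => by fin_cases r <;> rfl) (St.eq rfl rfl fun r => by fin_cases r <;> rfl)
lemma x05 : Le ρ (xfer 0 [5]) (mk i o (v.enc ++ a) t c u x y z) (mk i o a t c u x (v.enc ++ y) z)
    (19 * v.size + 13) :=
  (xfer_le (by decide) (by decide) (by decide) (by decide) (by decide) v (mk i o a t c u x y z)).cast
    (St.eq rfl rfl fun r => by fin_cases r <;> rfl) (St.eq rfl rfl fun r => by fin_cases r <;> rfl)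
lemma x06 : Le ρ (xfer 0 [6]) (mk i o (v.enc ++ a) t c u x y z) (mk i o a t c u x y (v.enc ++ z))
    (19 * v.size + 13) :=
  (xfer_le (by decide) (by decide) (by decide) (by decide) (by decide) v (mk i o a t c u x y z)).cast
    (St.eq rfl rfl fun r => by fin_cases r <;> rfl) (St.eq rfl rfl fun r => by fin_cases r <;> rfl)
lemma x40 : Le ρ (xfer 4 [0]) (mk i o a t c u (v.enc ++ x) y z) (mk i o (v.enc ++ a) t c u x y z)
    (19 * v.size + 13) :=
  (xfer_le (by decide) (by decide) (by decide) (by decide) (by decide) v (mk i o a t c u x y z)).cast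
    (St.eq rfl rfl fun r => by fin_cases r <;> rfl) (St.eq rfl rfl fun r => by fin_cases r <;> rfl)
lemma x50 : Le ρ (xfer 5 [0]) (mk i o a t c u x (v.enc ++ y) z) (mk i o (v.enc ++ a) t c u x y z)
    (19 * v.size + 13) :=
  (xfer_le (by decide) (by decide) (by decide) (by decide) (by decide) v (mk i o a t c u x y z)).cast
    (St.eq rfl rfl fun r => by fin_cases r <;> rfl) (St.eq rfl rfl fun r => by fin_cases r <;> rfl)
lemma x5 : Le ρ (xfer 5 []) (mk i o a t c u x (v.enc ++ y) z) (mk i o a t c u x y z)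
    (19 * v.size + 13) :=
  (xfer_le (by decide) (by decide) (by decide) (by decide) (by decide) v (mk i o a t c u x y z)).cast
    (St.eq rfl rfl fun r => by fin_cases r <;> rfl) (St.eq rfl rfl fun r => by fin_cases r <;> rfl)
lemma x60 : Le ρ (xfer 6 [0]) (mk i o a t c u x y (v.enc ++ z)) (mk i o (v.enc ++ a) t c u x y z)
    (19 * v.size + 13) :=
  (xfer_le (by decide) (by decide) (by decide) (by decide) (by decide) v (mk i o a t c u x y z)).cast
    (St.eq rfl rfl fun r => by fin_cases r <;> rfl) (St.eq rfl rfl fun r => by fin_cases r <;> rfl)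

variable (s : Sy)
lemma push0 : Le ρ (.dat (.push 0 s)) (mk i o a t c u x y z) (mk i o (s :: a) t c u x y z) 1 :=
  Le.dat (St.eq rfl rfl fun r => by fin_cases r <;> rfl)
lemma push1 : Le ρ (.dat (.push 1 s)) (mk i o a t c u x y z) (mk i o a (s :: t) c u x y z) 1 :=
  Le.dat (St.eq rfl rfl fun r => by fin_cases r <;> rfl)
lemma push6 : Le ρ (.dat (.push 6 s)) (mk i o a t c u x y z) (mk i o a t c u x y (s :: z)) 1 :=
  Le.dat (St.eq rfl rfl fun r => by fin_cases r <;> rfl)
lemma pop0 : Le ρ (.dat (.pop (some 0))) (mk i o (s :: a) t c u x y z) (mk i o a t c u x y z) 1 :=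
  Le.dat (St.eq rfl rfl fun r => by fin_cases r <;> rfl)
lemma pop1 : Le ρ (.dat (.pop (some 1))) (mk i o a (s :: t) c u x y z) (mk i o a t c u x y z) 1 :=
  Le.dat (St.eq rfl rfl fun r => by fin_cases r <;> rfl)
lemma pop4 : Le ρ (.dat (.pop (some 4))) (mk i o a t c u (s :: x) y z) (mk i o a t c u x y z) 1 :=
  Le.dat (St.eq rfl rfl fun r => by fin_cases r <;> rfl)
lemma pop5 : Le ρ (.dat (.pop (some 5))) (mk i o a t c u x (s :: y) z) (mk i o a t c u x y z) 1 :=
  Le.dat (St.eq rfl rfl fun r => by fin_cases r <;> rfl)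
end

end Vale.Agent.P338
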