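import Vale.Agent.P338.Defs

/-! A structured stack language with recursion and its compilation to multitape machines. -/

namespace Vale.Agent.P338

open Function

abbrev Sy := Option Bool

structure St where
  inp : List Sy
  out : List Bool
  reg : Fin 7 → List Sy

def St.top (S : St) : Option (Fin 7) → Option Sy
  | none => S.inp.head?
  | some r => (S.reg r).head?

inductive Dat
  | nop
  | push (r : Fin 7) (s : Sy)
  | pop (r : Option (Fin 7))
  | emit (b : Bool)

def St.act (S : St) : Dat → St
  | .nop => S
  | .push r s => ⟨S.inp, S.out, update S.reg r (s :: S.reg r)⟩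
  | .pop none => ⟨S.inp.tail, S.out, S.reg⟩
  | .pop (some r) => ⟨S.inp, S.out, update S.reg r (S.reg r).tail⟩
  | .emit b => ⟨S.inp, S.out ++ [b], S.reg⟩

inductive L
  | dat (d : Dat)
  | seq (p q : L)
  | test (r : Option (Fin 7)) (c : Option Sy → Bool) (p q : L)
  | loop (r : Option (Fin 7)) (c : Option Sy → Bool) (p : L)
  | fix (p : L)
  | call

inductive Ev : L → L → St → St → ℕ → Prop
  | dat (ρ d S) : Ev ρ (.dat d) S (S.act d) 1
  | seq {ρ p q S S' S'' m n} : Ev ρ p S S' m → Ev ρ q S' S'' n → Ev ρ (.seq p q) S S'' (m + n + 1)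
  | test1 {ρ r c p q S S' m} : c (S.top r) = true → Ev ρ p S S' m →
      Ev ρ (.test r c p q) S S' (m + 1)
  | test0 {ρ r c p q S S' m} : c (S.top r) = false → Ev ρ q S S' m →
      Ev ρ (.test r c p q) S S' (m + 1)
  | stop {ρ r c p S} : c (S.top r) = false → Ev ρ (.loop r c p) S S 1
  | go {ρ r c p S S' S'' m n} : c (S.top r) = true → Ev ρ p S S' m →
      Ev ρ (.loop r c p) S' S'' n → Ev ρ (.loop r c p) S S'' (m + n + 1)
  | fix {ρ p S S' m} : Ev p p S S' m → Ev ρ (.fix p) S S' (m + 1)
  | call {ρ S S' m} : Ev ρ ρ S S' m → Ev ρ .call S S' (m + 1)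

/-- control action: replacement items (top first, second) and data action -/
def nxt (x : L × L) (g : Option (Fin 7) → Option Sy) : Option ((L × L) × Option (L × L)) × Dat :=
  match x.1 with
  | .dat d => (none, d)
  | .seq p q => (some ((q, x.2), some (p, x.2)), .nop)
  | .test r c p q => (some ((if c (g r) then p else q, x.2), none), .nop)
  | .loop r c p => if c (g r) then (some (x, some (p, x.2)), .nop) else (none, .nop)
  | .fix p => (some ((p, p), none), .nop)
  | .call => (some ((x.2, x.2), none), .nop)

def items : Option ((L × L) × Option (L × L)) → List (L × L)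
  | none => []
  | some (a, none) => [a]
  | some (a, some b) => [b, a]

def astep : List (L × L) × St → List (L × L) × St
  | ([], S) => ([], S)
  | (x :: K, S) => (items (nxt x S.top).1 ++ K, S.act (nxt x S.top).2)

lemma ev_astep {ρ p S S' t} (h : Ev ρ p S S' t) :
    ∀ K, astep^[t] ((p, ρ) :: K, S) = (K, S') := by
  induction h with
  | dat ρ d S => intro K; rfl
  | seq _ _ ih1 ih2 =>
    intro K
    rw [iterate_succ_apply, add_comm, iterate_add_apply]
    simp only [astep, nxt, items, St.act, List.cons_append, List.nil_append]
    rw [ih1, ih2]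
  | test1 hc _ ih =>
    intro K
    rw [iterate_succ_apply]
    simp only [astep, nxt, items, St.act, List.cons_append, List.nil_append, hc, if_true]
    rw [ih]
  | test0 hc _ ih =>
    intro K
    rw [iterate_succ_apply]
    simp only [astep, nxt, items, St.act, List.cons_append, List.nil_append, hc]
    exact ih K
  | stop hc => intro K; simp [astep, nxt, items, St.act, hc]
  | go hc _ _ ih1 ih2 =>
    intro K
    rw [iterate_succ_apply, add_comm, iterate_add_apply]
    simp only [astep, nxt, items, St.act, List.cons_append, List.nil_append, hc, if_true]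
    rw [ih1, ih2]
  | fix _ ih =>
    intro K
    rw [iterate_succ_apply]
    simp only [astep, nxt, items, St.act, List.cons_append, List.nil_append]
    rw [ih]
  | call _ ih =>
    intro K
    rw [iterate_succ_apply]
    simp only [astep, nxt, items, St.act, List.cons_append, List.nil_append]
    rw [ih]

def sub : L → List L
  | .dat d => [.dat d]
  | .seq p q => .seq p q :: (sub p ++ sub q)
  | .test r c p q => .test r c p q :: (sub p ++ sub q)
  | .loop r c p => .loop r c p :: sub p
  | .fix p => .fix p :: sub p
  | .call => [.call]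

lemma self_sub (p : L) : p ∈ sub p := by cases p <;> simp [sub]

lemma sub_trans {p q : L} (h : q ∈ sub p) : sub q ⊆ sub p := by
  induction p with
  | dat d => simp only [sub, List.mem_singleton] at h; subst h; exact fun _ h => h
  | call => simp only [sub, List.mem_singleton] at h; subst h; exact fun _ h => h
  | seq a b iha ihb =>
    simp only [sub, List.mem_cons, List.mem_append] at h
    rcases h with rfl | h | h
    · exact fun _ h => h
    · exact fun x hx => by simp [sub, iha h hx]
    · exact fun x hx => by simp [sub, ihb h hx]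
  | test r c a b iha ihb =>
    simp only [sub, List.mem_cons, List.mem_append] at h
    rcases h with rfl | h | h
    · exact fun _ h => h
    · exact fun x hx => by simp [sub, iha h hx]
    · exact fun x hx => by simp [sub, ihb h hx]
  | loop r c a iha =>
    simp only [sub, List.mem_cons] at h
    rcases h with rfl | h
    · exact fun _ h => h
    · exact fun x hx => by simp [sub, iha h hx]
  | fix a iha =>
    simp only [sub, List.mem_cons] at h
    rcases h with rfl | h
    · exact fun _ h => h
    · exact fun x hx => by simp [sub, iha h hx]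

def Ok (m : L) (x : L × L) : Prop := x.1 ∈ sub m ∧ x.2 ∈ sub m

lemma nxt_ok {m : L} {x : L × L} (h : Ok m x) (g) : ∀ y ∈ items (nxt x g).1, Ok m y := by
  obtain ⟨p, ρ⟩ := x
  obtain ⟨h1, h2⟩ := h
  have hs := sub_trans h1
  cases p with
  | dat d => simp [nxt, items]
  | seq p q =>
    simp only [nxt, items, List.mem_cons, List.not_mem_nil, or_false]
    rintro y (rfl | rfl)
    · exact ⟨hs (by simp [sub, self_sub]), h2⟩
    · exact ⟨hs (by simp [sub, self_sub]), h2⟩
  | test r c p q =>
    simp only [nxt, items, List.mem_cons, List.not_mem_nil, or_false]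
    rintro y rfl
    refine ⟨hs ?_, h2⟩
    dsimp only
    split_ifs <;> simp [sub, self_sub]
  | loop r c p =>
    simp only [nxt]
    split_ifs
    · simp only [items, List.mem_cons, List.not_mem_nil, or_false]
      rintro y (rfl | rfl)
      · exact ⟨hs (by simp [sub, self_sub]), h2⟩
      · exact ⟨h1, h2⟩
    · simp [items]
  | fix p =>
    simp only [nxt, items, List.mem_cons, List.not_mem_nil, or_false]
    rintro y rfl
    exact ⟨hs (by simp [sub, self_sub]), hs (by simp [sub, self_sub])⟩
  | call =>
    simp only [nxt, items, List.mem_cons, List.not_mem_nil, or_false]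
    rintro y rfl
    exact ⟨h2, h2⟩

def Ctl (m : L) := {x : L × L // Ok m x}

instance (m : L) : Finite (Ctl m) := by
  have : {x : L × L | Ok m x}.Finite :=
    ((List.finite_toSet (sub m)).prod (List.finite_toSet (sub m))).subset fun x hx => hx
  exact this

instance : Finite Letter :=
  Finite.of_surjective (fun x : Option (Option Bool) => match x with
    | none => Letter.blank | some none => .sep | some (some b) => .bit b)
    (fun l => by cases l with
      | blank => exact ⟨none, rfl⟩
      | sep => exact ⟨some none, rfl⟩
      | bit b => exact ⟨some (some b), rfl⟩)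

open Classical in
noncomputable def mkC (m : L) (x : L × L) : Ctl m :=
  if h : Ok m x then ⟨x, h⟩ else ⟨(m, m), self_sub m, self_sub m⟩

lemma mkC_val {m : L} {x : L × L} (h : Ok m x) : (mkC m x).1 = x := by simp [mkC, h]

def toL : Sy → Letter
  | none => .sep
  | some b => .bit b

def ofG {C : Type} : Letter ⊕ C → Option Sy
  | .inl .sep => some none
  | .inl (.bit b) => some (some b)
  | _ => none

lemma ofG_toL {C : Type} (s : Sy) : ofG (Sum.inl (toL s) : Letter ⊕ C) = some s := by
  cases s <;> rfl

def tp : Option (Fin 7) → Fin 10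
  | none => 0
  | some r => ⟨r + 3, by omega⟩

abbrev QS (m : L) := Fin 3 ⊕ (Option (Fin 7 × Sy) × Option (Ctl m))

def pend : Dat → Option (Fin 7 × Sy)
  | .push r s => some (r, s)
  | _ => none

def datMove {C : Type} (d : Dat) (g : Fin 10 → Letter ⊕ C) (j : Fin 10) : (Letter ⊕ C) × Move :=
  match d with
  | .nop => (g j, .stay)
  | .push r _ => (g j, if j = tp (some r) then .right else .stay)
  | .pop none => (g j, if j = 0 ∧ (ofG (g j)).isSome then .right else .stay)
  | .pop (some r) => (g j, if j = tp (some r) then .left else .stay)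
  | .emit b => if j = 1 then (.inl (.bit b), .right) else (g j, .stay)

noncomputable def ctlMove (m : L) (o : Option ((L × L) × Option (L × L))) (c : Letter ⊕ Ctl m) :
    (Letter ⊕ Ctl m) × Move :=
  match o with
  | none => (c, .left)
  | some (a, none) => (.inr (mkC m a), .stay)
  | some (a, some _) => (.inr (mkC m a), .right)

noncomputable def ctlPend (m : L) : Option ((L × L) × Option (L × L)) → Option (Ctl m)
  | some (_, some b) => some (mkC m b)
  | _ => none

noncomputable def trans (m : L) (q : QS m) (g : Fin 10 → Letter ⊕ Ctl m) :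
    QS m × (Fin 10 → (Letter ⊕ Ctl m) × Move) :=
  match q with
  | .inl i =>
    if i = 0 then (.inr (none, some (mkC m (m, m))),
      fun j => (g j, if j = 2 then .right else .stay)) else
    match g 2 with
    | .inl _ => (.inl 2, fun j => (g j, .stay))
    | .inr c =>
      let a := nxt c.1 fun r => ofG (g (tp r))
      (.inr (pend a.2, ctlPend m a.1), fun j => if j = 2 then ctlMove m a.1 (g j) else datMove a.2 g j)
  | .inr (a, c) =>
    (.inl 1, fun j => (if j = 2 then (c.map Sum.inr).getD (g j) else
      match a with
      | some (r, s) => if j = tp (some r) then .inl (toL s) else g j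
      | none => g j, .stay))

def hlt (m : L) : QS m → Bool
  | .inl i => i = 2
  | _ => false

noncomputable def mach (m : L) : TM where
  k := 9
  Q := QS m
  Γ := Letter ⊕ Ctl m
  finQ := inferInstance
  finΓ := inferInstance
  letter := ⟨Sum.inl, Sum.inl_injective⟩
  start := .inl 0
  halting := hlt m
  out := 1
  trans := trans m

structure CC (m : L) where
  state : QS m
  tape : Fin 10 → ℕ → Letter ⊕ Ctl m
  head : Fin 10 → ℕ

noncomputable def cstep (m : L) (c : CC m) : CC m :=
  if hlt m c.state then c else
    let d := trans m c.state fun j => c.tape j (c.head j)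
    ⟨d.1, fun j => Function.update (c.tape j) (c.head j) (d.2 j).1,
      fun j => (d.2 j).2.apply (c.head j)⟩

def toCfg {m : L} (c : CC m) : Cfg (mach m) := ⟨c.state, c.tape, c.head⟩

lemma step_toCfg {m : L} (c : CC m) : (mach m).step (toCfg c) = toCfg (cstep m c) := by
  unfold TM.step cstep
  by_cases h : hlt m c.state = true
  · rw [if_pos h, if_pos (by exact h)]
  · rw [if_neg h, if_neg (by exact h)]; rfl

lemma iter_toCfg {m : L} (t : ℕ) (c : CC m) :
    (mach m).step^[t] (toCfg c) = toCfg ((cstep m)^[t] c) := by
  induction t generalizing c with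
  | zero => rfl
  | succ t ih => rw [iterate_succ_apply, iterate_succ_apply, step_toCfg, ih]

def wd (m : L) (w : List Letter) : ℕ → Letter ⊕ Ctl m := fun p => .inl (w.getD p .blank)

def Stk {α G : Type} (z : G) (f : α → G) (τ : ℕ → G) : List α → Prop
  | [] => τ 0 = z
  | a :: l => τ (l.length + 1) = f a ∧ Stk z f τ l

lemma Stk.upd {α G : Type} {z : G} {f : α → G} {τ : ℕ → G} {l : List α} (h : Stk z f τ l)
    {p : ℕ} (hp : l.length < p) (x : G) : Stk z f (update τ p x) l := by
  induction l with
  | nil => simp only [Stk] at *; rw [update_of_ne (by simp at hp; omega)]; exact h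
  | cons a l ih =>
    simp only [List.length_cons] at hp
    exact ⟨by rw [update_of_ne (by omega)]; exact h.1, ih h.2 (by omega)⟩

structure Sim (m : L) (w : List Letter) (K : List (L × L)) (S : St) (c : CC m) : Prop where
  st : c.state = .inl 1
  i1 : c.tape 0 = wd m w
  i2 : S.inp.map toL = w.drop (c.head 0)
  o1 : c.tape 1 = wd m (S.out.map .bit)
  o2 : c.head 1 = S.out.length
  k0 : ∀ x ∈ K, Ok m x
  k1 : Stk (.inl .blank) (fun x => .inr (mkC m x)) (c.tape 2) K
  k2 : c.head 2 = K.length
  r1 : ∀ r, Stk (.inl .blank) (fun s => .inl (toL s)) (c.tape (tp (some r))) (S.reg r)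
  r2 : ∀ r, c.head (tp (some r)) = (S.reg r).length

lemma tp_ne0 (r : Fin 7) : tp (some r) ≠ 0 := fun h => by
  have := congrArg Fin.val h
  change r.val + 3 = 0 at this
  omega
lemma tp_ne1 (r : Fin 7) : tp (some r) ≠ 1 := fun h => by
  have := congrArg Fin.val h
  change r.val + 3 = 1 at this
  omega
lemma tp_ne2 (r : Fin 7) : tp (some r) ≠ 2 := fun h => by
  have := congrArg Fin.val h
  change r.val + 3 = 2 at this
  omega
lemma tp_inj {r r' : Fin 7} : tp (some r) = tp (some r') ↔ r = r' := by simp [tp, Fin.ext_iff]

lemma Sim.top {m w K S c} (h : Sim m w K S c) (r : Option (Fin 7)) :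
    ofG (c.tape (tp r) (c.head (tp r))) = S.top r := by
  cases r with
  | none =>
    change ofG (c.tape 0 (c.head 0)) = S.inp.head?
    rw [h.i1]
    have := h.i2
    change ofG (Sum.inl (w.getD (c.head 0) .blank)) = _
    rw [List.getD_eq_getElem?_getD, ← List.head?_drop, ← this]
    cases S.inp with
    | nil => rfl
    | cons a l => exact ofG_toL a
  | some r =>
    have h1 := h.r1 r
    rw [h.r2 r]
    change _ = (S.reg r).head?
    cases e : S.reg r with
    | nil => rw [e] at h1; simp only [Stk] at h1; simp only [List.length_nil, h1]; rfl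
    | cons a l => rw [e] at h1; simp only [List.length_cons, h1.1]; exact ofG_toL a

lemma word_snoc (m : L) (l : List Letter) (a : Letter) :
    update (wd m l) l.length (.inl a) = wd m (l ++ [a]) := by
  funext p
  by_cases hp : p = l.length
  · subst hp; simp [wd]
  · rw [update_of_ne hp]
    simp only [wd, List.getD_eq_getElem?_getD]
    congr 2
    rcases lt_or_gt_of_ne hp with h | h
    · rw [List.getElem?_append_left h]
    · rw [List.getElem?_eq_none (by omega), List.getElem?_eq_none (by simp; omega)]

lemma Sim.step {m w x K S c} (h : Sim m w (x :: K) S c) :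
    Sim m w (astep (x :: K, S)).1 (astep (x :: K, S)).2 ((cstep m)^[2] c) := by
  have hx : Ok m x := h.k0 x (by simp)
  have e2 : c.tape 2 (c.head 2) = .inr (mkC m x) := by rw [h.k2]; exact h.k1.1
  have eg : (fun r => ofG (c.tape (tp r) (c.head (tp r)))) = S.top := funext h.top
  have hK : Stk (.inl .blank) (fun x => (.inr (mkC m x) : Letter ⊕ Ctl m)) (c.tape 2) K := h.k1.2
  have s1 : cstep m c = ⟨.inr (pend (nxt x S.top).2, ctlPend m (nxt x S.top).1),
      fun j => update (c.tape j) (c.head j) (if j = 2 then ctlMove m (nxt x S.top).1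
        (c.tape j (c.head j)) else datMove (nxt x S.top).2 (fun j => c.tape j (c.head j)) j).1,
      fun j => (if j = 2 then ctlMove m (nxt x S.top).1
        (c.tape j (c.head j)) else datMove (nxt x S.top).2 (fun j => c.tape j (c.head j)) j).2.apply
          (c.head j)⟩ := by
    unfold cstep
    rw [h.st, if_neg (by simp [hlt])]
    simp only [trans, e2, mkC_val hx, eg]
    rfl
  have hok := nxt_ok hx S.top
  rw [iterate_succ_apply, iterate_one, s1]
  simp only [astep]
  generalize nxt x S.top = a at *
  obtain ⟨o, d⟩ := a
  unfold cstep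
  rw [if_neg (by simp [hlt])]
  have t0 := h.top none
  refine ⟨rfl, ?_, ?_, ?_, ?_, ?_, ?_, ?_, fun r => ?_, fun r => ?_⟩
  · have := h.i1
    rcases d with _ | ⟨r, s⟩ | ⟨_ | r⟩ | b <;>
      simp [trans, datMove, pend, (tp_ne0 _).symm] <;> exact this
  · have := h.i2
    rcases d with _ | ⟨r, s⟩ | ⟨_ | r⟩ | b <;>
      simp only [trans, datMove, pend, (tp_ne0 _).symm, St.act, Move.apply, if_false,
        Fin.reduceEq] <;> try exact this
    change ofG (c.tape 0 (c.head 0)) = S.inp.head? at t0
    rw [t0]
    cases e : S.inp with
    | nil => rw [e] at this; simpa [Move.apply] using this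
    | cons a l =>
      rw [e] at this
      simp only [true_and, List.head?_cons, Option.isSome_some, if_true, List.tail_cons]
      rw [← List.tail_drop, ← this]; rfl
  · have := h.o1
    rcases d with _ | ⟨r, s⟩ | ⟨_ | r⟩ | b <;>
      simp only [trans, datMove, pend, (tp_ne1 _).symm, St.act, Move.apply, if_false,
        Fin.reduceEq, update_eq_self, false_and, if_true] <;> try exact this
    rw [List.map_append, List.map_singleton, ← word_snoc, ← this, h.o2, List.length_map]
  · have := h.o2
    rcases d with _ | ⟨r, s⟩ | ⟨_ | r⟩ | b <;>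
      simp [trans, datMove, (tp_ne1 _).symm, St.act, Move.apply] <;> exact this
  · intro y hy
    rcases List.mem_append.1 hy with hy | hy
    · exact hok y hy
    · exact h.k0 y (List.mem_cons_of_mem _ hy)
  · have k2 := h.k2
    simp only [List.length_cons] at k2
    rcases o with _ | ⟨a, _ | b⟩
    · simpa [trans, ctlMove, ctlPend, items] using hK
    · simp only [trans, ctlMove, ctlPend, items, if_true, Move.apply, Option.map_none,
        Option.getD_none, update_eq_self, List.cons_append, List.nil_append]
      exact ⟨by rw [k2, update_self], hK.upd (by omega) _⟩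
    · simp only [trans, ctlMove, ctlPend, items, if_true, Move.apply, Option.map_some,
        Option.getD_some, List.cons_append, List.nil_append]
      refine ⟨by rw [k2, List.length_cons, update_self], Stk.upd ?_ (by simp [k2]) _⟩
      exact ⟨by rw [k2, update_self], hK.upd (by omega) _⟩
  · have k2 := h.k2
    rcases o with _ | ⟨a, _ | b⟩ <;> simp [trans, ctlMove, items, Move.apply, k2]
  · have r1 := h.r1 r
    have r2 := h.r2 r
    rcases d with _ | ⟨r', s⟩ | ⟨_ | r'⟩ | b <;>
      simp only [trans, datMove, pend, tp_ne0, tp_ne1, tp_ne2, St.act, Move.apply, if_false,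
        update_eq_self, false_and, tp_inj] <;> try exact r1
    · by_cases e : r = r'
      · subst e
        simp only [if_true, update_self]
        exact ⟨by rw [r2, update_self], r1.upd (by omega) _⟩
      · simp only [e, if_false, update_eq_self, update_of_ne e]; exact r1
    · by_cases e : r = r'
      · subst e
        rw [update_self]
        cases e : S.reg r with
        | nil => rw [e] at r1; exact r1
        | cons a l => rw [e] at r1; exact r1.2
      · rw [update_of_ne e]; exact r1
  · have r2 := h.r2 r
    rcases d with _ | ⟨r', s⟩ | ⟨_ | r'⟩ | b <;>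
      simp only [trans, datMove, pend, tp_ne0, tp_ne1, tp_ne2, St.act, Move.apply, if_false,
        false_and, tp_inj] <;> try exact r2
    · by_cases e : r = r'
      · subst e; simp [r2]
      · simp [e, r2]
    · by_cases e : r = r'
      · subst e; simp [r2]
      · simp [e, r2]

lemma Sim.steps {m w} (t : ℕ) : ∀ {K S c}, Sim m w K S c → ∀ S', astep^[t] (K, S) = ([], S') →
    ∃ u ≤ 2 * t, Sim m w [] S' ((cstep m)^[u] c) := by
  induction t with
  | zero =>
    intro K S c h S' e
    simp only [iterate_zero, id, Prod.mk.injEq] at e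
    obtain ⟨rfl, rfl⟩ := e
    exact ⟨0, le_rfl, h⟩
  | succ t ih =>
    intro K S c h S' e
    rw [iterate_succ_apply] at e
    cases K with
    | nil =>
      obtain ⟨u, hu, hs⟩ := ih h S' e
      exact ⟨u, by omega, hs⟩
    | cons x K =>
      obtain ⟨u, hu, hs⟩ := ih h.step S' e
      exact ⟨u + 2, by omega, by rw [iterate_add_apply]; exact hs⟩

theorem compile (m : L) (inp : List Sy) (S' : St) (t : ℕ)
    (h : Ev m m ⟨inp, [], fun _ => []⟩ S' t) :
    ∃ u ≤ 2 * t + 3, (mach m).halting ((mach m).run (inp.map toL) u).state = true ∧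
      ((mach m).run (inp.map toL) u).tape (mach m).out = (mach m).word (S'.out.map .bit) := by
  let c0 : CC m := ⟨.inl 0, fun j => if j = 0 then wd m (inp.map toL) else wd m [], fun _ => 0⟩
  have hr : ∀ u, (mach m).run (inp.map toL) u = toCfg ((cstep m)^[u] c0) := fun u =>
    iter_toCfg u c0
  have h0 : Sim m (inp.map toL) [(m, m)] ⟨inp, [], fun _ => []⟩ ((cstep m)^[2] c0) := by
    have e : (cstep m)^[2] c0 = ⟨.inl 1,
        fun j => if j = 2 then update (wd m []) 1 (.inr (mkC m (m, m))) else
          if j = 0 then wd m (inp.map toL) else wd m [],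
        fun j => if j = 2 then 1 else 0⟩ := by
      rw [iterate_succ_apply, iterate_one]
      unfold cstep
      simp only [c0, hlt, trans, Fin.reduceEq, decide_false, Bool.false_eq_true, if_false, if_true,
        update_eq_self, Option.map_some, Option.getD_some]
      congr 1
      · funext j
        by_cases e : j = 2
        · subst e; simp [Move.apply]
        · simp [e]
      · funext j
        by_cases e : j = 2 <;> simp [e, Move.apply]
    rw [e]
    refine ⟨rfl, rfl, rfl, rfl, rfl, ?_, ⟨rfl, rfl⟩, rfl, fun r => ?_, fun r => ?_⟩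
    · simp only [List.mem_singleton]; rintro x rfl; exact ⟨self_sub m, self_sub m⟩
    · simp only [tp_ne2, tp_ne0, if_false]; rfl
    · simp [tp_ne2]
  obtain ⟨u, hu, hs⟩ := h0.steps t S' (ev_astep h [])
  refine ⟨u + 2 + 1, by omega, ?_⟩
  rw [hr, iterate_succ_apply', iterate_add_apply]
  generalize (cstep m)^[u] ((cstep m)^[2] c0) = c at hs
  have e2 : c.tape 2 (c.head 2) = .inl .blank := by rw [hs.k2]; exact hs.k1
  change hlt m (cstep m c).state = true ∧ (cstep m c).tape 1 = wd m _
  unfold cstep
  rw [hs.st, if_neg (by simp [hlt])]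
  simp only [trans, e2]
  exact ⟨rfl, by simpa using hs.o1⟩

end Vale.Agent.P338
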