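import Vale.Agent.P338.Core

/-! Choice of parameters. -/

namespace Vale.Agent.P338

open Filter Cd Finset Function

set_option linter.unusedSectionVars false
set_option linter.unusedVariables false

def Gr {γ : Type} (u f : γ → ℕ) (x : ℝ) : Prop :=
  ∀ y > x, ∃ C : ℝ, 0 ≤ C ∧ ∀ c, (f c : ℝ) ≤ C * (u c : ℝ) ^ y

section
variable {γ : Type} {u f f' : γ → ℕ} {x x' : ℝ} (hu : ∀ c, (1 : ℝ) ≤ u c)

lemma Gr.mul (h : Gr u f x) (h' : Gr u f' x') (hu : ∀ c, (1 : ℝ) ≤ u c) :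
    Gr u (fun c => f c * f' c) (x + x') := fun y hy => by
  obtain ⟨C, a, b⟩ := h (x + (y - x - x') / 2) (by linarith)
  obtain ⟨C', a', b'⟩ := h' (x' + (y - x - x') / 2) (by linarith)
  refine ⟨C * C', by positivity, fun c => ?_⟩
  have := hu c
  rw [show y = x + (y - x - x') / 2 + (x' + (y - x - x') / 2) by ring, Real.rpow_add (by linarith), Nat.cast_mul,
    mul_mul_mul_comm]
  exact mul_le_mul (b c) (b' c) (by positivity) (by positivity)

lemma Gr.add (h : Gr u f x) (h' : Gr u f' x) : Gr u (fun c => f c + f' c) x := fun y hy => by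
  obtain ⟨C, a, b⟩ := h y hy
  obtain ⟨C', a', b'⟩ := h' y hy
  exact ⟨C + C', by positivity, fun c => by have := b c; have := b' c; push_cast; linarith⟩

lemma Gr.le (h : Gr u f x) (e : ∀ c, f' c ≤ f c) : Gr u f' x := fun y hy =>
  (h y hy).imp fun C h => ⟨h.1, fun c => (Nat.cast_le.2 (e c)).trans (h.2 c)⟩

lemma Gr.up (h : Gr u f x) (e : x ≤ x') : Gr u f x' := fun y hy => h y (e.trans_lt hy)

include hu

lemma Gr.const (k : ℕ) : Gr u (fun _ => k) 0 := fun y hy =>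
  ⟨k, by positivity, fun c => le_mul_of_one_le_right (by positivity) (Real.one_le_rpow (hu c) hy.le)⟩

lemma Gr.self : Gr u u 1 := fun y hy =>
  ⟨1, zero_le_one, fun c => by rw [one_mul]; exact Real.self_le_rpow_of_one_le (hu c) hy.le⟩

lemma Gr.pow (h : Gr u f 0) (e : ℕ) : Gr u (fun c => f c ^ e) 0 := by
  induction e with
  | zero => exact Gr.const hu 1
  | succ e ih => simpa only [add_zero, pow_succ] using ih.mul h hu

lemma Gr.pw (h : Gr u f x) (hx : 0 ≤ x) {a : ℝ} (ha : 0 < a) : Gr u (fun c => pw a (f c)) (a * x) :=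
  fun y hy => by
    have l : x < y / a := by rwa [lt_div_iff₀ ha, mul_comm]
    obtain ⟨C, b, e⟩ := h _ l
    refine ⟨2 * (C + 1) ^ a, by positivity, fun c => (pw_le ha.le _).trans ?_⟩
    have := hu c
    have := Real.one_le_rpow (hu c) (hx.trans l.le)
    rw [mul_assoc, ← div_mul_cancel₀ y ha.ne', Real.rpow_mul (by linarith),
      ← Real.mul_rpow (by positivity) (by positivity)]
    gcongr
    have := e c; linarith

omit hu in
lemma Gr.log {κ : γ → ℕ} : Gr (fun c => 2 ^ κ c) κ 0 := fun y hy => by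
  have l := Real.log_pos one_lt_two
  refine ⟨1 / (y * Real.log 2), by positivity, fun c => ?_⟩
  have := Real.add_one_le_exp (Real.log 2 * (κ c * y))
  push_cast
  rw [← Real.rpow_natCast, ← Real.rpow_mul zero_le_two, Real.rpow_def_of_pos two_pos, one_div, inv_mul_eq_div,
    le_div_iff₀ (by positivity)]
  linarith

end

def pg (n : ℕ) : ℕ := n.size.size
def pκ (n : ℕ) : ℕ := pg n / 3
def pd (n : ℕ) : ℕ := 2 ^ pκ n
def pρ (n : ℕ) : ℕ := n.size - pg n * pg n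
def pσ (n : ℕ) : ℕ := (pρ n + 3 - (pd n + pd n)) / (pd n + pd n + 1 + pg n)
def pp (n : ℕ) : ℕ := pρ n + 2 - (pd n + pd n) - (pd n + pd n + 1) * pσ n
def pb (n : ℕ) : ℕ := 2 ^ (pg n * pg n)

lemma par {n : ℕ} (h : 33 ≤ pg n) : 100 * (pκ n + 1) ≤ pd n ∧ pg n ≤ 3 * pκ n + 2 ∧ n.size < 2 ^ pg n ∧
    pd n ^ 3 ≤ 2 * n.size ∧ pρ n + pg n * pg n = n.size ∧ 5 * ((pκ n + 1) * pd n) ≤ pσ n ∧
    pg n * pσ n ≤ pp n + 1 ∧ pρ n + 3 = (pd n + pd n) * pσ n + (pσ n + (pd n + pd n) + pp n + 1) ∧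
    pσ n ≤ 3 * (pd n * pd n) ∧ pσ n + (pd n + pd n) + pp n + 1 ≤ 20 * (pκ n + 1) * (pd n * pd n) ∧
    800 * (pρ n + 3) ≤ pb n := by
  have a1 : 100 * (pκ n + 1) ≤ pd n := by
    obtain ⟨t, ht⟩ := Nat.exists_eq_add_of_le (show 11 ≤ pκ n by unfold pκ; omega)
    have := t.lt_two_pow_self
    rw [pd, ht, pow_add]; omega
  have a2 : pg n ≤ 3 * pκ n + 2 ∧ 3 * pκ n ≤ pg n := by unfold pκ; omega
  have a3 : n.size < 2 ^ pg n := Nat.lt_size_self _
  have a4 : pd n ^ 3 ≤ 2 * n.size := by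
    have : 2 ^ (pg n - 1) ≤ n.size := Nat.lt_size.1 (by unfold pg at *; omega)
    calc _ ≤ 2 ^ (pg n - 1 + 1) := by rw [pd, ← pow_mul]; exact Nat.pow_le_pow_right two_pos (by omega)
      _ ≤ _ := by rw [pow_succ]; omega
  have a5 : n.size < 4 * pd n ^ 3 := a3.trans_le (by
    rw [pd, ← pow_mul, show 4 = 2 ^ 2 by rfl, ← pow_add]; exact Nat.pow_le_pow_right two_pos (by omega))
  have a6 : 800 * (n.size + 3) ≤ pb n := by
    have : 2 ^ (pg n + 12) ≤ pb n := Nat.pow_le_pow_right two_pos (by nlinarith)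
    rw [pow_add] at this; omega
  have b1 := Nat.div_add_mod (pρ n + 3 - (pd n + pd n)) (pd n + pd n + 1 + pg n)
  have b2 := Nat.mod_lt (pρ n + 3 - (pd n + pd n)) (show 0 < pd n + pd n + 1 + pg n by omega)
  have b3 : 5 * ((pκ n + 1) * pd n) ≤ pσ n ∧ pg n * pg n + 2 * pd n ≤ n.size := by
    rw [pσ, Nat.le_div_iff_mul_le (by omega), pρ]
    generalize pd n = d, pκ n = κ, pg n = g, n.size = m at *
    have c1 : g * g ≤ d * d := Nat.mul_le_mul (by omega) (by omega)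
    have c2 : 5 * ((κ + 1) * d) * (d + d + 1 + g) ≤ 5 * ((κ + 1) * d) * (3 * d) := Nat.mul_le_mul_left _ (by omega)
    have c3 : 100 * (κ + 1) * (d * d) ≤ d * (d * d) := Nat.mul_le_mul_right _ a1
    have c4 : d ≤ d * d := Nat.le_mul_self _
    have : 5 * ((κ + 1) * d) * (d + d + 1 + g) + g * g + 2 * d ≤ m := by nlinarith
    omega
  rw [← pσ] at b1
  have b4 : pρ n + pg n * pg n = n.size := by unfold pρ; omega
  have b5 : pp n = pρ n + 2 - (pd n + pd n) - (pd n + pd n + 1) * pσ n := rfl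
  generalize pd n = d, pκ n = κ, pg n = g, n.size = m, pσ n = s, pρ n = ρ, pp n = p, pb n = b,
    (pρ n + 3 - (pd n + pd n)) % (pd n + pd n + 1 + pg n) = t at *
  have c0 : 0 < g * s := Nat.mul_pos (by omega) (by nlinarith)
  have c1 : (d + d + 1 + g) * s = (d + d) * s + s + g * s := by ring
  have c2 : (d + d + 1) * s = (d + d) * s + s := by ring
  have c3 : s ≤ 3 * (d * d) := by
    by_contra c
    have : (d + d) * (3 * (d * d)) ≤ (d + d) * s := Nat.mul_le_mul_left _ (by omega)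
    have : 1 ≤ d ^ 3 := Nat.one_le_pow _ _ (by omega)
    have : (d + d) * (3 * (d * d)) = 6 * d ^ 3 := by ring
    omega
  refine ⟨a1, a2.1, a3, a4, b4, b3.1, by omega, by omega, c3, ?_, by omega⟩
  have c4 : (g + 1) * s ≤ 3 * (κ + 1) * (3 * (d * d)) := Nat.mul_le_mul (by omega) c3
  have c5 : d ≤ (κ + 1) * (d * d) := by nlinarith
  have : s + (d + d) + p + 1 ≤ (g + 1) * s + 5 * d := by rw [add_mul]; omega
  nlinarith

lemma poly_par : In polyB pb ∧ In polyB pp ∧ In polyB pd ∧ In polyB pσ ∧ In polyB pκ ∧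
    In polyB fun n => 2 * 2 ^ (pρ n + 1) := by
  have g : In polyB pg := In.id.size.size
  have dg : Dom polyB pg := Dom.size In.id.size
  have κ : In polyB pκ := g.div (In.const 3)
  have d : In polyB pd := κ.pow2 dg.div
  have ρ : In polyB pρ := In.id.size.sub (g.mul g)
  have dρ : Dom polyB pρ := (Dom.size In.id).sub
  have s : In polyB pσ := ((ρ.add (In.const 3)).sub (d.add d)).div (((d.add d).add (In.const 1)).add g)
  exact ⟨(g.mul g).pow2 (dg.mul dg), ((ρ.add (In.const 2)).sub (d.add d)).sub (((d.add d).add (In.const 1)).mul s),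
    d, s, κ, (In.const 2).mul ((ρ.add (In.const 1)).pow2 (dρ.add (Dom.const 1)))⟩

noncomputable def pμ (a : ℝ) (e n : ℕ) : ℕ := pσ n * ((pκ n + 1) * pw a (pd n) + 1) +
  ((sz (10 * pb n) + 1) ^ e + 1) * pw (5 / 4) (pσ n + (pd n + pd n) + pp n + 1) +
  (pd n + pd n) * (pw a (pσ n) + (sz (10 * pb n) + 1) ^ e + 1)

lemma sz_pb (n : ℕ) (h : pg n ≤ 3 * pκ n + 2) : sz (10 * pb n) + 1 ≤ 100 * (pκ n + 1) ^ 2 := by
  have a : 10 * pb n < 2 ^ (pg n * pg n + 4) := by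
    have := Nat.two_pow_pos (pg n * pg n); rw [pb, pow_add]; omega
  have := sz_lt_pow a
  have := Nat.mul_self_le_mul_self h
  generalize sz (10 * pb n) = x at *
  nlinarith

lemma mu_le {a : ℝ} (a0 : 0 < a) (a1 : a < 1) (e : ℕ) : ∃ δ C : ℝ, 0 < δ ∧ δ < 1 ∧ 0 ≤ C ∧ ∀ n, 33 ≤ pg n →
    ((n + 1) * (pμ a e n + 1) : ℕ) ≤ C * n * Real.log n ^ (1 - δ) := by
  have hu : ∀ c : {n // 33 ≤ pg n}, (1 : ℝ) ≤ pd c.1 := fun c => by exact_mod_cast Nat.one_le_two_pow
  have k := Gr.const hu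
  have κ : Gr (fun c : {n // 33 ≤ pg n} => pd c.1) (fun c => pκ c.1 + 1) 0 := Gr.log.add (k 1)
  have d := Gr.self hu
  have s := (((k 3).mul (d.mul d hu) hu).le fun c => (par c.2).2.2.2.2.2.2.2.2.1).up (x' := 2) (by norm_num)
  have ν0 := ((k 100).mul (κ.pow hu 2) hu).up (add_zero _).le
  have ν1 : Gr (fun c : {n // 33 ≤ pg n} => pd c.1) (fun c => sz (10 * pb c.1) + 1) 0 :=
    ν0.le fun c => sz_pb c.1 (par c.2).2.1
  have ν := ν1.pow hu e
  have r := ((((k 20).mul κ hu).mul (d.mul d hu) hu).le fun c => (par c.2).2.2.2.2.2.2.2.2.2.1).up (x' := 2)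
    (by norm_num)
  obtain ⟨x, x1, x2, x3⟩ : ∃ x : ℝ, 2 + a ≤ x ∧ 5 / 2 ≤ x ∧ x < 3 :=
    ⟨max (2 + a) (5 / 2), le_max_left _ _, le_max_right _ _, max_lt (by linarith) (by norm_num)⟩
  have m : Gr (fun c : {n // 33 ≤ pg n} => pd c.1) (fun c => pμ a e c.1 + 1) x :=
    ((((s.mul ((κ.mul (d.pw hu zero_le_one a0) hu).add ((k 1).up (by linarith))) hu).up (by linarith)).add
      (((ν.add (k 1)).mul (r.pw hu zero_le_two (a := 5 / 4) (by norm_num)) hu).up (by linarith))).add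
      (((d.add d).mul (((s.pw hu zero_le_two a0).add (ν.up (by linarith))).add ((k 1).up (by linarith))) hu).up
        (by linarith))).add ((k 1).up (by linarith))
  obtain ⟨C, c0, hC⟩ := m ((x + 3) / 2) (by linarith)
  refine ⟨1 - (x + 3) / 6, 2 * C * 8 ^ ((x + 3) / 6), by linarith, by linarith, by positivity, fun n hn => ?_⟩
  obtain ⟨b1, -, -, b2, -⟩ := par hn
  have b3 : 4 ≤ n.size := by have : 2 ^ 3 ≤ pd n ^ 3 := Nat.pow_le_pow_left (by omega) _; omega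
  have b4 : 2 ^ (n.size - 1) ≤ n := Nat.lt_size.1 (by omega)
  have b5 : 1 ≤ n := le_trans Nat.one_le_two_pow b4
  have b6 : (pd n : ℝ) ^ (3 : ℝ) ≤ 8 * Real.log n := by
    have := Real.log_le_log (by positivity) (show (2 : ℝ) ^ (n.size - 1) ≤ n by exact_mod_cast b4)
    have l := Real.log_two_gt_d9
    have c : (4 : ℝ) ≤ n.size := by exact_mod_cast b3
    have c' : (pd n : ℝ) ^ 3 ≤ 2 * n.size := by exact_mod_cast b2
    rw [Real.log_pow, Nat.cast_sub (by omega)] at this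
    rw [Real.rpow_ofNat]
    push_cast at this
    nlinarith
  have b7 := Real.rpow_le_rpow (by positivity) b6 (show 0 ≤ (x + 3) / 6 by linarith)
  rw [← Real.rpow_mul (by positivity), Real.mul_rpow (by norm_num) (Real.log_natCast_nonneg _),
    show 3 * ((x + 3) / 6) = (x + 3) / 2 by ring] at b7
  have b8 : ((n + 1 : ℕ) : ℝ) ≤ 2 * n := by exact_mod_cast (by omega : n + 1 ≤ 2 * n)
  rw [Nat.cast_mul, sub_sub_cancel]
  calc _ ≤ (2 * n : ℝ) * (C * (8 ^ ((x + 3) / 6) * Real.log n ^ ((x + 3) / 6))) :=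
        mul_le_mul b8 ((hC ⟨n, hn⟩).trans (by gcongr)) (by positivity) (by positivity)
    _ = _ := by ring

lemma par2 {n : ℕ} (h : 33 ≤ pg n) : pκ n * pd n < pσ n ∧ (pκ n + 1) * pd n ≤ pσ n ∧
    2 * ((pd n + pd n) * (pd n + pd n)) * (pd n + pd n).factorial ≤ 2 ^ pσ n ∧
    sz n + 2 ^ pσ n + 10 * pb n + 1 ≤ 2 ^ (2 * pσ n) ∧ pσ n ≤ 2 ^ pg n := by
  obtain ⟨a1, a2, a3, -, a5, a6, -, a8, -⟩ := par h
  have d0 : 0 < pd n := by omega
  have e : pd n + pd n = 2 ^ (pκ n + 1) := by rw [pow_succ, pd]; omega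
  have b1 : pg n * pg n + 6 ≤ pσ n := by
    have := Nat.mul_self_le_mul_self a2
    have := Nat.mul_le_mul_left (pκ n + 1) a1
    nlinarith
  refine ⟨by nlinarith, by omega, ?_, ?_, ?_⟩
  · refine (Nat.mul_le_mul_left _ (Nat.factorial_le_pow _)).trans ?_
    rw [e, ← pow_mul, ← pow_add, ← pow_succ', ← pow_add, ← e]
    exact Nat.pow_le_pow_right two_pos (by nlinarith)
  · have c1 := sz_nat_le n
    have c2 : 2 ^ pg n ≤ pb n := Nat.pow_le_pow_right two_pos (Nat.le_mul_self _)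
    have c3 := Nat.pow_le_pow_right two_pos b1
    have c4 : 2 ^ 1 ≤ 2 ^ pσ n := Nat.pow_le_pow_right two_pos (by omega)
    rw [pow_add, ← pb] at c3
    rw [two_mul, pow_add]
    nlinarith
  · have : 2 * 3 ≤ (pd n + pd n) * pσ n := Nat.mul_le_mul (by omega) (by omega)
    omega

lemma env_le {n : ℕ} (h : 33 ≤ pg n) (e μ u : ℕ) : (μ + 1) * (2 * 2 ^ (pρ n + 1) * (10 * pb n + 2 + (n.size + 1) ^ e)) ≤
    8 * (12 + 2 ^ (e * e)) * ((n + 1) * (μ + 1) + u) := by
  obtain ⟨-, -, b3, -, b5, -⟩ := par h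
  have b6 := two_pow_size_le n
  have b7 : (n.size + 1) ^ e ≤ 2 ^ (e * e) * pb n := by
    refine (Nat.pow_le_pow_left b3 _).trans ?_
    rw [← pow_mul, pb, ← pow_add]
    exact Nat.pow_le_pow_right two_pos (by rcases le_total e (pg n) with l | l <;> nlinarith)
  have b8 : 1 ≤ pb n := Nat.one_le_two_pow
  rw [← b5, pow_add, ← pb] at b6
  rw [pow_succ]
  generalize (n.size + 1) ^ e = y, 2 ^ (e * e) = z, pb n = b, 2 ^ pρ n = x at *
  calc _ ≤ (μ + 1) * (4 * (x * b) * (12 + z)) := Nat.mul_le_mul_left _ (by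
        nlinarith [Nat.mul_le_mul_left x b7, Nat.mul_le_mul_left x b8])
    _ ≤ (μ + 1) * (4 * (2 * (n + 1)) * (12 + z)) := by gcongr
    _ ≤ _ := by nlinarith [Nat.zero_le ((12 + z) * u)]

abbrev In2 := {p : List Bool × List Bool // p.2.length = p.1.length}

theorem mulTm : ∃ (δ C : ℝ) (T : ℕ → ℕ), 0 < δ ∧ δ < 1 ∧ 0 ≤ C ∧
    (∀ n, 2 ≤ n → (T n : ℝ) ≤ C * n * Real.log n ^ (1 - δ)) ∧
    Tm (fun p : In2 => T p.1.1.length) fun p => bv p.1.1 * bv p.1.2 := by
  obtain ⟨K, a, a0, a1, h⟩ := core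
  obtain ⟨e, sm⟩ := sm1
  obtain ⟨δ, C, d0, d1, c0, hC⟩ := mu_le a0 a1 e
  obtain ⟨p1, p2, p3, p4, p5, p6⟩ := poly_par
  have v := In.id.val (B := polyB) (α := {n // K + 33 ≤ pg n})
  have G : ∀ c : {n // K + 33 ≤ pg n}, 33 ≤ pg c.1 := fun c => by have := c.2; omega
  let w : Wd {n // K + 33 ≤ pg n} := Wd.base (fun c => 2 * 2 ^ (pρ c.1 + 1)) (fun c => c.1.size)
    (fun _ => by positivity) (p6.comp v) (Dom.size v) ⟨4, 1, fun c => by
      have := sz_nat_le c.1; rw [sz_sub, pow_one]; omega⟩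
  obtain ⟨k, hk⟩ : ∃ k : {n // K + 33 ≤ pg n} → ℕ, ∀ c, k c = 10 * pb c.1 := ⟨_, fun _ => rfl⟩
  have pk : In polyB k := (((In.const 10).mul p1).comp v).congr fun c => (hk c).symm
  obtain ⟨f, hf, H⟩ := h _ w (fun c => pμ a e c.1) k (fun c => pb c.1) (fun c => pρ c.1) (fun c => pp c.1)
    (fun c => pd c.1) (fun c => pσ c.1) (fun c => pκ c.1) _ (5 / 4) sm (by norm_num) pk (p1.comp v) (p2.comp v)
    (p3.comp v) (p4.comp v) (p5.comp v) (fun c => by
      obtain ⟨b1, -, -, -, -, -, b7, b8, -, -, b9⟩ := par (G c)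
      obtain ⟨c1, c2, c3, -⟩ := par2 (G c)
      have := Nat.mul_le_mul_right (pσ c.1) c.2
      have := Nat.mul_le_mul_left K c2
      exact ⟨rfl, b8, by omega, le_rfl, c1, by nlinarith, by nlinarith, by nlinarith, c3, b9, (hk c).ge⟩)
    (fun e => ⟨2 ^ (2 * 2 ^ (2 * e) * e), fun c => by
      obtain ⟨-, -, -, -, -, -, b7, -⟩ := par (G c)
      obtain ⟨-, -, -, c4, c5⟩ := par2 (G c)
      rw [sz_sub, hk, ← pow_add]
      refine (Nat.pow_le_pow_left c4 e).trans ?_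
      rw [← pow_mul]
      refine Nat.pow_le_pow_right two_pos ?_
      rcases le_total (pg c.1) (2 * e) with l | l
      · have := Nat.mul_le_mul_right e (c5.trans (Nat.pow_le_pow_right two_pos l))
        nlinarith
      · have := Nat.mul_le_mul_right (pσ c.1) l
        nlinarith [Nat.zero_le (2 * 2 ^ (2 * e) * e)]⟩) ⟨1, fun c => by rw [hk, pμ]; omega⟩
  let T : ℕ → ℕ := fun n => if K + 33 ≤ pg n then (n + 1) * (pμ a e n + 1) else 0
  let B : Bd In2 := ⟨fun _ p => T p.1.1.length⟩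
  have l : In B fun p => p.1.1.length := In.id.val.fst.length
  have E : Env (w.zp k) (fun c => pμ a e c.1) (B.sub fun p => K + 33 ≤ pg p.1.1.length)
      fun p => ⟨p.1.1.1.length, p.2⟩ := ⟨In.mk _ (l.sub' _), fun e' => Eventually.of_forall fun _ =>
    ⟨8 * (12 + 2 ^ (e' * e')), fun p => by
      simp only [Wd.U, w, hk, B, Bd.sub, T, if_pos p.2, zero_mul, add_zero]
      exact env_le (G ⟨_, p.2⟩) _ _ _⟩⟩
  have x := (In.id.val.fst.bv (B := B)).sub' fun p => K + 33 ≤ pg p.1.1.length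
  have y := (In.id.val.snd.bv (B := B)).sub' fun p => K + 33 ≤ pg p.1.1.length
  have fast := viaPoly E pk (p1.comp v) (fun _ => rfl) (fun c => ⟨Nat.two_pow_pos _, by
      have := (par (G c)).2.2.2.2.2.2.2.2.2.2
      rw [← pow_add, ← pow_add, hk]; exact Nat.pow_le_pow_right two_pos (by omega)⟩) hf H x y fun p => by
    have : 2 ^ p.1.1.1.length ≤ (2 ^ pb p.1.1.1.length) ^ 2 ^ pρ p.1.1.1.length := by
      rw [← pow_mul, pb, ← pow_add, add_comm (_ * _), (par (G ⟨_, p.2⟩)).2.2.2.2.1]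
      exact Nat.pow_le_pow_right two_pos (Nat.lt_size_self _).le
    exact ⟨(bv_lt _).trans_le this, (p.1.2 ▸ bv_lt _ : _ < 2 ^ p.1.1.1.length).trans_le this⟩
  obtain ⟨e', sl⟩ := ((In.id.val.val.fst.bv (B := polyB)
    (α := {p : In2 // ¬ K + 33 ≤ pg p.1.1.length})).mul In.id.val.val.snd.bv).tm
  have slow := sl.in (B := B.sub fun p => ¬ K + 33 ≤ pg p.1.1.length)
    ((Dom.const ((8 * 2 ^ 2 ^ (K + 33) + 4) ^ e')).mono' fun p => Nat.pow_le_pow_left (by
      have c1 : p.1.1.1.length.size < 2 ^ (K + 33) := Nat.size_le.1 (by have := p.2; unfold pg at this; omega)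
      have c2 := Nat.size_le.1 c1.le
      have c3 := sz_bits p.1.1.1
      have c4 := sz_bits p.1.1.2
      have c5 := p.1.2
      rw [sz_sub, sz_sub, sz_prod]; omega) _)
  obtain ⟨_, hT⟩ := (In.dite (Dec.le (In.const (K + 33)) l.size.size) fast slow).tm
  refine ⟨δ, C, T, d0, d1, c0, fun n hn => ?_, hT.mono ⟨1, fun p => by simp [B]⟩ fun p => by simp⟩
  simp only [T]
  split_ifs with g
  · exact hC n (by omega)
  · have := Real.log_natCast_nonneg n
    push_cast; positivity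

end Vale.Agent.P338
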