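import Vale.Agent.P338.Tr

/-! Products in negacyclic rings. -/

namespace Vale.Agent.P338

open Filter Cd Finset Function

set_option linter.unusedSectionVars false
set_option linter.unusedVariables false

lemma sum_zmod {M : Type} [AddCommMonoid M] (n : ℕ) [NeZero n] (f : ℕ → M) :
    ∑ v : ZMod n, f v.val = ∑ t ∈ range n, f t :=
  sum_nbij' (fun v => v.val) (fun t => t) (fun v _ => mem_range.2 v.val_lt) (by simp) (by simp)
    (fun t ht => ZMod.val_cast_of_lt (mem_range.1 ht)) fun _ _ => rfl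

section
variable {B : Type} [CommRing B] {s e : ℕ}

lemma opT1 (l : B) (M) (G : ℕ → B) (j : ℕ) : opT 1 s e l M G j =
    l * ∑ v, M ((dgL 1 s e).get j 0) v * G (setF j (2 ^ e) (2 ^ s) v.val) := by
  rw [opT, opM_smul, show (fun _ => M) = _ from (update_eq_const_of_subsingleton (0 : Fin 1) M 1).symm,
    opM_single]
  simp only [dgL_upd, Fin.val_zero, zero_mul, add_zero]

lemma opT1_had {u : ℕ} (h : u < s) (l : B) (G : ℕ → B) (j : ℕ) : opT 1 s 0 l (Hm B s u) G j =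
    l * ((-1) ^ fld j (2 ^ u) 2 * G j + G (j ^^^ 2 ^ u)) := by
  have e : ((dgL 1 s 0).get j 0).val = fld j (2 ^ 0) (2 ^ s) := by simp [dgL_val]
  rw [opT1, Hm_sum, flp_val h, e, setF_xor h, setF_self, bt,
    fld_fld _ (by rw [← pow_succ']; exact pow_dvd_pow _ h), pow_zero (2 : ℕ), one_mul, zero_add]

lemma fwd1 (y : B) (ε ρ : ℕ) (G : ℕ → B) (j : ℕ) : opT 1 s 0 (1 ^ s) (MF y s ε ρ 0) G j =
    lft s (AddMonoidHom.id B) (y ^ fE s ε ρ 0 (j % 2 ^ s)) (fb s G (j / 2 ^ s)) := by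
  rw [opT1, lft_fb, one_pow, one_mul, ← sum_zmod]
  exact sum_congr rfl fun v _ => by simp [MF_zero, dgL_val, fld, setF, mul_comm, Nat.mod_one]

lemma ev_mul {y : B} (h : y ^ 2 ^ s = -1) (a b : Rg B s) : lft s (AddMonoidHom.id B) y (a * b) =
    lft s (AddMonoidHom.id B) y a * lft s (AddMonoidHom.id B) y b := by
  rw [← sum_cf a, ← sum_cf b]
  exact lft_mul le_rfl _ _ fun _ _ _ _ => lft_mono' _ h _ _

lemma neg_conv {y t : B} {ε ρ R : ℕ} (hy : y ^ R = -1) (hρ : ρ * 2 ^ s = 2 * R) (hε : ε * 2 ^ s = R)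
    (hR : 0 < R) (ht : 2 * t = 1) (n : ℕ) (G : ℕ → B) : opT 1 s 0 (t ^ s) (MB y s ε ρ R s)
      (stk (n * 2 ^ s) (opT 1 s 0 (1 ^ s) (MF y s ε ρ 0) G)) = ub s (stk n (fb s G)) := by
  have : stk (n * 2 ^ s) (opT 1 s 0 (1 ^ s) (MF y s ε ρ 0) G) =
      opT 1 s 0 (1 ^ s) (MF y s ε ρ 0) (ub s (stk n (fb s G))) := funext fun j => by
    have e : ∀ b, j % (n * 2 ^ s) + b * (n * 2 ^ s) = (j / 2 ^ s % n + b * n) * 2 ^ s + j % 2 ^ s :=
      fun b => by rw [mul_comm n, Nat.mod_mul]; ring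
    have p := Nat.mod_lt j (Nat.two_pow_pos s)
    rw [stk, fwd1, fwd1, fwd1, fb_ub, stk, ev_mul (by rw [fE_pow hy hρ, hε, hy]), e, e, lex_div p,
      lex_div p, lex_mod p, lex_mod p]
  funext j
  rw [this, fft_inv hy hρ hR, mul_one, pow_one, mul_comm t, ht, one_pow, one_mul]
end

variable {γ : Type} [Cd γ] {w : Wd γ} {μ k r : γ → ℕ} {ν : ℕ → ℕ}

lemma Fw.fft1 (fw : Fw w r) {s ε ρ : γ → ℕ} (ps : In polyB s) (pε : In polyB ε) (pρ : In polyB ρ)
    (hρ : ∀ c, ρ c * 2 ^ s c = 2 * 2 ^ r c) (hd : ∀ c, 2 ^ (r c + s c) ∣ w.N c)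
    (hμ : ∃ C, ∀ c, s c * (0 + 1) ≤ C * (μ c + 1)) :
    OpR w k r μ (fun c => opT 1 (s c) 0 (1 ^ s c) (MF (Yg _ _) (s c) (ε c) (ρ c) 0)) ∧
    OpR w k r μ (fun c => opT 1 (s c) 0 (algebraMap _ _ (hf (k c)) ^ s c)
      (MB (Yg _ _) (s c) (ε c) (ρ c) (2 ^ r c) (s c))) := by
  have v1 := In.id.val.fst (B := polyB) (α := {p : γ × ℕ // p.2 < s p.1})
  have h := (fw.pull _ v1).had (k := fun p => k p.1.1) (μ := fun _ => 0) In.id.val.snd
    fun p => (pow_dvd_pow _ (by have := p.2; omega)).trans (hd p.1.1)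
  have f := fun l => fft (k := k) (l := l) fw (In.const 1) ps (In.const 0) (Dom.const 1)
    ((w.domE hd).mono' fun _ => by omega) (Dom.const 0) pε pρ hρ hμ
  exact ⟨(f _ (h.congr fun p G j => by rw [opT1_had p.2, one_mul])).1,
    (f _ (h.half.congr fun p G j => by rw [opT1_had p.2])).2⟩

lemma two_hfR (k r : ℕ) : 2 * algebraMap _ (Rg (Zp k) r) (hf k) = 1 := by
  have := (congrArg (algebraMap _ (Rg (Zp k) r)) (two_hf k)).trans (map_one _)
  rwa [map_mul, map_ofNat] at this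

structure C3 where
  N : ℕ
  n : ℕ
  r : ℕ
  k : ℕ
  pos : 0 < n
  h : N = 2 * (n * 2 ^ r)

instance : Cd C3 := ⟨fun c => cd (c.N, c.n, c.r)⟩

lemma C3.tup : In polyB fun c : C3 => (c.N, c.n, c.r) := In.id.of_cd fun _ => rfl

lemma C3.facts (c : C3) : 0 < c.N ∧ c.n ≤ c.N ∧ c.r ≤ c.N.size ∧ c.r ≤ c.N ∧ 2 ^ c.r ∣ c.N := by
  have := c.pos
  have := c.r.lt_two_pow_self
  have h : 2 ^ c.r ≤ c.N := by rw [c.h]; nlinarith
  exact ⟨by omega, by rw [c.h]; nlinarith, le_size_of_pow le_rfl h, by omega, ⟨2 * c.n, by rw [c.h]; ring⟩⟩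

@[reducible] def w3 : Wd C3 := Wd.base C3.N (fun c => c.N.size + c.r) (fun c => c.facts.1) C3.tup.fst
  ((Dom.size C3.tup.fst).add ((Dom.size C3.tup.fst).mono' fun c => c.facts.2.2.1)) ⟨20, 1, fun c => by
    have a1 := sz_le_size (le_refl c.N)
    have a2 := sz_le_size c.facts.2.1
    have a3 := sz_le_size c.facts.2.2.2.1
    change sz (c.N, c.n, c.r) ≤ _
    simp only [sz_pair, pow_one]; omega⟩

noncomputable def nm (c : C3) (F : ℕ → Zp c.k) : ℕ → Zp c.k := ub c.r (stk c.n (fb c.r F))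

lemma neg_step (P : C3 → Prop) (hP : ∀ c, P c → 4 ≤ c.r) (ν : C3 → ℕ) (hν : ∀ c c', c.k = c'.k → ν c = ν c')
    {μ : C3 → ℕ} (hμ : ∀ c, c.r ≤ μ c) :
    OA (fun x : Ar (w3.zp C3.k) => (⟨x.1, nm x.1 x.2⟩ : Ar (w3.zp C3.k))) ((w3.res P).zp fun c => c.1.k)
      (fun c => μ c.1) (fun κ c => ⨆ (x : Ar (w3.zp C3.k)) (_ : (w3.zp C3.k).Sub ν C3.r 2 1 2 2 1 c.1 x.1), κ x)
      fun c => nm c.1 := by
  have t := C3.tup.comp (In.id.val (B := polyB) (p := P))
  have tN : In polyB fun c : {c // P c} => c.1.N := t.fst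
  have tr : In polyB fun c : {c // P c} => c.1.r := t.snd.snd
  have pN := (In.const 2).mul tN
  have hp : ∀ c : {c // P c}, 0 < 2 * c.1.N := fun c => by have := c.1.facts; omega
  have p2 := tr.div (In.const 2)
  have p1 := tr.sub p2
  have dr : Dom polyB fun c : {c // P c} => c.1.r := (w3.res P).domE fun c => c.1.facts.2.2.2.2
  have e : ∀ c : {c // P c}, 2 * c.1.N = 2 * (c.1.n * 2 ^ (c.1.r - c.1.r / 2) * 2 ^ (c.1.r / 2 + 1)) :=
    fun c => by
      rw [c.1.h, mul_assoc c.1.n, ← pow_add, show c.1.r - c.1.r / 2 + (c.1.r / 2 + 1) = c.1.r + 1 by omega]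
      ring
  have pε := ((p2.add (In.const 1)).sub p1).pow2 (dr.div.add (Dom.const 1)).sub
  have fw : Fw ((w3.res P).rsz _ pN hp) fun c => c.1.r / 2 + 1 :=
    ⟨p2.add (In.const 1), fun c => by dsimp only; rw [e]; exact (dvd_mul_left _ _).mul_left _⟩
  obtain ⟨f1, f2⟩ := fw.fft1 (k := fun c => c.1.k) (μ := fun c => μ c.1) p1 pε ((In.const 2).mul pε)
    (fun c => by rw [mul_assoc, ← pow_add, Nat.sub_add_cancel (by omega)])
    (fun c => by
      dsimp only; rw [e, mul_assoc c.1.n, add_comm, pow_add]; exact (dvd_mul_left _ _).mul_left _)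
    ⟨1, fun c => by have := hμ c.1; omega⟩
  let g : {c // P c} → C3 := fun c => ⟨2 * c.1.N, c.1.n * 2 ^ (c.1.r - c.1.r / 2), c.1.r / 2 + 1, c.1.k,
    by have := c.1.pos; positivity, e c⟩
  have pg : In polyB g := (pN.pair ((t.snd.fst.mul (p1.pow2 dr.sub)).pair (p2.add (In.const 1)))).of_cd
    fun _ => rfl
  have h1 := OA.call (w := w3.zp C3.k) (w' := ((w3.res P).rsz _ pN hp).zp fun c => c.1.k) (f := nm)
    (μ' := fun c => μ c.1) pg (fun _ => rfl) (fun _ x => x) (fun _ _ => rfl) (f' := fun c => nm (g c))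
    (fun c F z _ => rfl) (S := fun κ c => ⨆ (x : Ar (w3.zp C3.k))
      (_ : (w3.zp C3.k).Sub ν C3.r 2 1 2 2 1 c.1 x.1), κ x) fun κ c F => by
      have := hP _ c.2
      refine le_iSup₂_of_le _ ⟨by simp only [g]; omega, by simp only [g]; omega, by simp [g], rfl, ?_,
        (hν (g c) c.1 rfl).le⟩ le_rfl
      have : (2 * c.1.N).size ≤ c.1.N.size + 1 := Nat.size_le.2 (by
        have := c.1.N.lt_size_self; omega)
      simp only [g]; omega
  have d2 : ∀ c : {c // P c}, 2 ^ (c.1.r / 2) ∣ c.1.N := fun c =>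
    (pow_dvd_pow _ (by omega)).trans c.1.facts.2.2.2.2
  refine (OA.sand (w := (w3.res P).zp fun c => c.1.k) ((OA.pre f1 h1).post f2) 2 (fun _ => le_rfl)
    (Tz.padF tN p2 dr.div d2 (fun c => c.1.facts.1) 2 fun _ => le_rfl)
    (Tz.recF tN p2 dr.div d2 (fun c => c.1.facts.1) 2 (fun _ => le_rfl) tr
      fun c => c.1.facts.2.2.2.2)).congr (fun _ _ => le_rfl) fun c F z _ => ?_
  simp only [nm, g, fb_ub]
  rw [neg_conv Yg_pow (by rw [mul_assoc, ← pow_add, Nat.sub_add_cancel (by omega)])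
    (by rw [← pow_add, Nat.sub_add_cancel (by omega)]) (by positivity)
    (two_hfR _ _), rec_stk (by omega)]

lemma Fw.stk0 (fw : Fw w r) (h : SM ν) (hν : ∃ C, ∀ c, ν (k c) ≤ C * (μ c + 1)) (K : ℕ)
    (hK : ∀ c, r c ≤ K) {n : γ → ℕ} (pn : In polyB n) (hn : ∀ c, w.N c = 2 * (n c * 2 ^ r c)) :
    OpR w k r μ fun c => stk (n c) :=
  fw.mul0 h hν (2 ^ K) (fun c => Nat.pow_le_pow_right two_pos (hK c)) (fw.half pn hn two_pos)
    (fw.half pn hn one_lt_two)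

theorem negC (h : SM ν) {a : ℝ} (ha : 1 < a) :
    Op (w3.zp C3.k) (fun c => (ν c.k + 1) * pw a c.r) nm := by
  obtain ⟨b0, fx⟩ := Op.fix (a := a) (n := 2) (W := 1) (m := 2) (by linarith) 2 two_pos (by
    simpa using Real.rpow_lt_rpow_of_exponent_lt one_lt_two ha)
  refine fx _ (w3.zp C3.k) (fun c => ν c.k) C3.r 1 _ (fun _ => rfl) ?_
  have t := C3.tup
  obtain ⟨P, hP⟩ : ∃ P : C3 → Prop, ∀ c, P c ↔ b0 ≤ c.r ∧ 4 ≤ c.r := ⟨_, fun _ => Iff.rfl⟩
  classical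
  have u := t.comp (In.id.val (B := polyB) (p := fun c => ¬ P c))
  have h0 : Op ((w3.res fun c => ¬ P c).zp fun c => c.1.k) (fun c => (ν c.1.k + 1) * pw a c.1.r)
      fun c => nm c.1 := Fw.stk0 (w := w3.res _) (r := fun c => c.1.r)
    ⟨u.snd.snd, fun c => c.1.facts.2.2.2.2⟩ h ⟨1, fun c => by
      have := pw_pos a c.1.r; nlinarith⟩ (b0 + 4) (fun c => by have := c.2; rw [hP] at this; omega)
      u.snd.fst fun c => c.1.h
  have h1 := neg_step P (fun c h => ((hP c).1 h).2) (fun c => ν c.k) (fun _ _ e => by rw [e])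
    (μ := fun c => (ν c.k + 1) * pw a c.r) fun c => by have := le_pw ha.le c.r; nlinarith
  refine (OA.dite (w := w3.zp C3.k) (p := P) (f := fun c => nm c.1) (g := fun c => nm c.1)
    (Dec.of (In.dec ((Dec.le (In.const b0) t.snd.snd).and' (Dec.le (In.const 4) t.snd.snd))) (by simp [hP]))
    h1 h0).congr (fun κ c => ?_) fun c F z _ => by split_ifs <;> rfl
  by_cases h : P c
  · simp [h, ((hP c).1 h).1]
  · simp [h]

theorem negMul (h : SM ν) {a : ℝ} (ha : 1 < a) {n : γ → ℕ} (pn : In polyB n) (pr : In polyB r)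
    (hn : ∀ c, w.N c = 2 * (n c * 2 ^ r c)) :
    OpR w k r (fun c => (ν (k c) + 1) * pw a (r c)) fun c => stk (n c) :=
  Op.transfer (w' := w.zp k) (negC h ha) (g := fun c => ⟨w.N c, n c, r c, k c, by
    have := w.pos c; rw [hn] at this; exact Nat.pos_of_mul_pos_right (Nat.pos_of_mul_pos_left this), hn c⟩)
    ((w.poly.pair (pn.pair pr)).of_cd fun _ => rfl) 1
    (fun c => ⟨by simp, rfl, by simp, Nat.zero_le _, le_rfl⟩) (fun c x => x)
    (fun c x => rfl) fun c F z _ => rfl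

end Vale.Agent.P338
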