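import Mathlib

/-! Symbolic networks with matrix frames. -/

namespace Vale.Agent.P338

open Matrix Finset Function

set_option linter.unusedSectionVars false

section rank
variable {F μ ν : Type} [Field F] [Fintype μ] [DecidableEq μ] [Fintype ν] [DecidableEq ν]

lemma rank_fact (M : Matrix μ μ F) :
    ∃ (X : Matrix μ (Fin M.rank) F) (Y : Matrix (Fin M.rank) μ F), M = X * Y := by
  let b := Module.finBasisOfFinrankEq F (LinearMap.range M.mulVecLin) (n := M.rank) rfl
  refine ⟨Matrix.of fun p i => (b i).1 p,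
    Matrix.of fun i q => b.repr ⟨M.mulVecLin (Pi.single q 1), _, rfl⟩ i, ?_⟩
  ext p q
  have := congrArg (fun v => v.1 p) (b.sum_repr ⟨M.mulVecLin (Pi.single q 1), _, rfl⟩)
  simp only [AddSubmonoidClass.coe_finsetSum, Finset.sum_apply, SetLike.val_smul, Pi.smul_apply,
    smul_eq_mul, mulVecLin_apply, mulVec_single_one, col_apply] at this
  rw [Matrix.mul_apply, ← this]
  refine sum_congr rfl fun i _ => ?_
  simp only [of_apply, mulVecLin_apply, mulVec_single_one]
  exact mul_comm _ _

lemma rank_kron (A : Matrix μ μ F) (B : Matrix ν ν F) :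
    (kroneckerMap (· * ·) A B).rank ≤ A.rank * B.rank := by
  obtain ⟨X, Y, e⟩ := rank_fact A
  obtain ⟨X', Y', e'⟩ := rank_fact B
  have : kroneckerMap (· * ·) A B = kroneckerMap (· * ·) X X' * kroneckerMap (· * ·) Y Y' := by
    rw [← mul_kronecker_mul, ← e, ← e']
  rw [this]
  exact (rank_mul_le_left _ _).trans ((rank_le_card_width _).trans (by simp))

def Lq {R : Type} [Ring R] (P Q : R) : Prop := P * P = P ∧ P * Q = P ∧ Q * P = P

lemma Lq.rank {P Q : Matrix μ μ F} (h : Lq P Q) : (Q - P).rank + P.rank ≤ Q.rank := by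
  unfold Matrix.rank
  rw [← Submodule.finrank_sup_add_finrank_inf_eq]
  have h1 : LinearMap.range (Q - P).mulVecLin ⊓ LinearMap.range P.mulVecLin = ⊥ := by
    rw [eq_bot_iff]
    rintro x ⟨⟨u, hu⟩, v, hv⟩
    simp only [mulVecLin_apply] at hu hv
    have a : P *ᵥ x = x := by rw [← hv, mulVec_mulVec, h.1]
    have b : P *ᵥ x = 0 := by rw [← hu, mulVec_mulVec, mul_sub, h.1, h.2.1, sub_self, zero_mulVec]
    rw [Submodule.mem_bot, ← a, b]
  rw [h1, finrank_bot, add_zero]
  refine Submodule.finrank_mono (sup_le ?_ ?_)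
  · rintro _ ⟨u, rfl⟩
    exact ⟨(1 - P) *ᵥ u, by simp only [mulVecLin_apply, mulVec_mulVec, mul_sub, mul_one, h.2.2]⟩
  · rintro _ ⟨u, rfl⟩
    exact ⟨P *ᵥ u, by simp only [mulVecLin_apply, mulVec_mulVec, h.2.2]⟩

end rank

inductive Reach {ι μ R M : Type} (A : Type) [DecidableEq ι] [Ring A] [AddCommGroup M] [Module A M]
    [CommRing R] (f : ι → Matrix μ μ R) (v : ι → M) : ℕ → (ι → Matrix μ μ R) → (ι → M) → Prop
  | refl : Reach A f v 0 f v
  | gate {n g w} (a b : ι) (c : A) : Reach A f v n g w → g a = g b →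
      Reach A f v n g (update w a (w a + c • w b))
  | step {n g w} (a : ι) (x y : μ → R) : Reach A f v n g w →
      Reach A f v (n + 1) (update g a (g a + vecMulVec x y)) w

section reach
variable {ι κ μ R M A : Type} [DecidableEq ι] [DecidableEq κ] [Ring A] [AddCommGroup M]
  [Module A M] [CommRing R]

lemma Reach.trans {f g h : ι → Matrix μ μ R} {u v w : ι → M} {m n : ℕ} (h1 : Reach A f u m g v)
    (h2 : Reach A g v n h w) : Reach A f u (m + n) h w := by
  induction h2 with
  | refl => exact h1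
  | gate a b c _ e ih => exact ih.gate a b c e
  | step a x y _ ih => exact ih.step a x y

lemma Reach.cast {f g g' : ι → Matrix μ μ R} {u v v' : ι → M} {m : ℕ} (h : Reach A f u m g v)
    (e1 : g = g') (e2 : v = v') : Reach A f u m g' v' := e1 ▸ e2 ▸ h

lemma Reach.lin {I : Type} [Fintype I] (f : ι → Matrix μ μ R) (v : ι → M) (tg sr : I → ι)
    (co : I → A) (h1 : ∀ i, f (tg i) = f (sr i)) (h2 : ∀ i j, tg i ≠ sr j) :
    Reach A f v 0 f fun a => v a + ∑ i, if tg i = a then co i • v (sr i) else 0 := by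
  classical
  suffices ∀ t : Finset I, Reach A f v 0 f
    fun a => v a + ∑ i ∈ t, if tg i = a then co i • v (sr i) else 0 from this univ
  intro t
  induction t using Finset.induction_on with
  | empty => simpa using Reach.refl
  | insert i t hi ih =>
    refine (ih.gate (tg i) (sr i) (co i) (h1 i)).cast rfl (funext fun a => ?_)
    rw [sum_insert hi]
    by_cases h : a = tg i
    · subst h; simp [h2]; abel
    · simp [update_of_ne h, Ne.symm h]

lemma Reach.emb (J : κ → ι) (hJ : Injective J) {f g : κ → Matrix μ μ R} {u v : κ → M} {n : ℕ}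
    (h : Reach A f u n g v) (f' : ι → Matrix μ μ R) (u' : ι → M) (hf : ∀ k, f' (J k) = f k)
    (hu : ∀ k, u' (J k) = u k) : Reach A f' u' n (extend J g f') (extend J v u') := by
  have key : ∀ {β : Type} (g : κ → β) (f' : ι → β) (a : κ) (x : β),
      update (extend J g f') (J a) x = extend J (update g a x) f' := by
    intro β g f' a x
    funext i
    by_cases hi : ∃ k, J k = i
    · obtain ⟨k, rfl⟩ := hi
      by_cases hk : k = a
      · subst hk; simp [hJ.extend_apply]
      · rw [update_of_ne (hJ.ne hk), hJ.extend_apply, hJ.extend_apply, update_of_ne hk]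
    · rw [update_of_ne (fun h => hi ⟨a, h.symm⟩), extend_apply' _ _ _ hi, extend_apply' _ _ _ hi]
  have base : ∀ {β : Type} (g : κ → β) (f' : ι → β), (∀ k, f' (J k) = g k) → f' = extend J g f' := by
    intro β g f' h
    funext i
    by_cases hi : ∃ k, J k = i
    · obtain ⟨k, rfl⟩ := hi; rw [hJ.extend_apply, h]
    · rw [extend_apply' _ _ _ hi]
  induction h with
  | refl => exact Reach.refl.cast (base _ _ hf) (base _ _ hu)
  | gate a b c _ e ih =>
    refine (ih.gate (J a) (J b) c (by rw [hJ.extend_apply, hJ.extend_apply, e])).cast rfl ?_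
    rw [hJ.extend_apply, hJ.extend_apply, key]
  | step a x y _ ih =>
    refine (ih.step (J a) x y).cast ?_ rfl
    rw [hJ.extend_apply, key]

lemma Reach.mapFr {μ' R' : Type} [CommRing R'] (φ : Matrix μ μ R → Matrix μ' μ' R')
    (hφ : ∀ x y, ∃ x' y', ∀ F, φ (F + vecMulVec x y) = φ F + vecMulVec x' y')
    {f g : ι → Matrix μ μ R} {u v : ι → M} {n : ℕ} (h : Reach A f u n g v) :
    Reach A (fun a => φ (f a)) u n (fun a => φ (g a)) v := by
  induction h with
  | refl => exact Reach.refl
  | gate a b c _ e ih => exact ih.gate a b c (by rw [e])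
  | step a x y _ ih =>
    obtain ⟨x', y', e⟩ := hφ x y
    refine (ih.step a x' y').cast (funext fun i => ?_) rfl
    by_cases hi : i = a
    · subst hi; simp [e]
    · simp [update_of_ne hi]

lemma clear_den {τ : Type} [Finite τ] (x : τ → ℚ) : ∃ d : ℕ, 0 < d ∧ ∃ z : τ → ℤ,
    ∀ i, (z i : ℚ) = d * x i := by
  classical
  have := Fintype.ofFinite τ
  refine ⟨∏ i, (x i).den, prod_pos fun i _ => (x i).den_pos,
    fun i => (∏ j ∈ univ.erase i, ((x j).den : ℤ)) * (x i).num, fun i => ?_⟩
  rw [← mul_prod_erase univ _ (mem_univ i)]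
  push_cast
  rw [mul_comm ((x i).den : ℚ), mul_assoc, Rat.den_mul_eq_num]

lemma Reach.int [Finite μ] {f g : ι → Matrix μ μ ℚ} {u v : ι → M} {n : ℕ} (h : Reach A f u n g v) :
    ∃ D : ℕ, 0 < D ∧ ∀ (E : ℕ) (f' : ι → Matrix μ μ ℤ),
      (∀ a i j, (f' a i j : ℚ) = (D * E) ^ 2 * f a i j) →
      ∃ g' : ι → Matrix μ μ ℤ, (∀ a i j, (g' a i j : ℚ) = (D * E) ^ 2 * g a i j) ∧
        Reach A f' u n g' v := by
  induction h with
  | refl => exact ⟨1, one_pos, fun E f' h => ⟨f', h, Reach.refl⟩⟩
  | gate a b c _ e ih =>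
    obtain ⟨D, hD, ih⟩ := ih
    refine ⟨D, hD, fun E f' h => ?_⟩
    obtain ⟨g', h1, h2⟩ := ih E f' h
    refine ⟨g', h1, h2.gate a b c ?_⟩
    ext i j
    exact Int.cast_injective (α := ℚ) (by rw [h1, h1, e])
  | step a x y _ ih =>
    obtain ⟨D, hD, ih⟩ := ih
    obtain ⟨d, hd, z, hz⟩ := clear_den (Sum.elim x y)
    refine ⟨D * d, by positivity, fun E f' h => ?_⟩
    obtain ⟨g', h1, h2⟩ := ih (d * E) f' fun a i j => by rw [h]; push_cast; ring
    refine ⟨_, fun b i j => ?_, h2.step a (fun i => D * E * z (.inl i)) fun i => D * E * z (.inr i)⟩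
    by_cases hb : b = a
    · subst hb
      simp only [update_self, Matrix.add_apply, vecMulVec_apply]
      push_cast
      rw [h1, hz, hz]; simp only [Sum.elim_inl, Sum.elim_inr]; push_cast; ring
    · rw [update_of_ne hb, update_of_ne hb, h1]; push_cast; ring

end reach

section go
variable {ι κ μ F M A : Type} [DecidableEq ι] [Fintype ι] [DecidableEq κ] [Fintype κ] [Ring A]
  [AddCommGroup M] [Module A M] [Field F] [Fintype μ] [DecidableEq μ]

lemma Reach.move (f : ι → Matrix μ μ F) (v : ι → M) (a : ι) (D : Matrix μ μ F) :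
    Reach A f v D.rank (update f a (f a + D)) v := by
  obtain ⟨X, Y, e⟩ := rank_fact D
  suffices ∀ t : Finset (Fin D.rank), Reach A f v t.card
      (update f a (f a + ∑ i ∈ t, vecMulVec (fun p => X p i) (Y i))) v by
    have := this univ
    rw [card_univ, Fintype.card_fin] at this
    refine this.cast ?_ rfl
    congr 2
    ext p q
    conv_rhs => rw [e]
    simp [Matrix.sum_apply, vecMulVec_apply, Matrix.mul_apply]
  intro t
  induction t using Finset.induction_on with
  | empty => simpa using Reach.refl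
  | insert i t hi ih =>
    rw [card_insert_of_notMem hi, sum_insert hi]
    refine (ih.step a (fun p => X p i) (Y i)).cast ?_ rfl
    simp only [update_self, update_idem]; congr 1; abel

lemma Reach.moveAll (f g : ι → Matrix μ μ F) (v : ι → M) :
    Reach A f v (∑ a, (g a - f a).rank) g v := by
  suffices ∀ t : Finset ι, Reach A f v (∑ a ∈ t, (g a - f a).rank)
      (fun a => if a ∈ t then g a else f a) v by simpa using this univ
  intro t
  induction t using Finset.induction_on with
  | empty => simpa using Reach.refl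
  | insert i t hi ih =>
    rw [sum_insert hi, add_comm]
    refine (ih.trans (Reach.move _ v i (g i - f i))).cast (funext fun a => ?_) rfl
    by_cases h : a = i
    · subst h; simp [hi]
    · simp [h]

noncomputable def pot (ω : ι → Bool) (f : ι → Matrix μ μ F) : ℕ :=
  ∑ a, if ω a then (f a).rank else 0

variable (A) in
def Go (ω : ι → Bool) (f : ι → Matrix μ μ F) (u : ι → M) (L : ℕ) (g : ι → Matrix μ μ F)
    (v : ι → M) : Prop := ∃ n, Reach A f u n g v ∧ n + pot ω f ≤ pot ω g + L

variable {ω : ι → Bool} {f g h : ι → Matrix μ μ F} {u v w : ι → M} {L L' : ℕ}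

lemma Go.trans (h1 : Go A ω f u L g v) (h2 : Go A ω g v L' h w) : Go A ω f u (L + L') h w :=
  let ⟨n, a, b⟩ := h1; let ⟨n', a', b'⟩ := h2; ⟨n + n', a.trans a', by omega⟩

lemma Go.mono (h1 : Go A ω f u L g v) (h2 : L ≤ L') : Go A ω f u L' g v :=
  let ⟨n, a, b⟩ := h1; ⟨n, a, by omega⟩

lemma Go.lin {I : Type} [Fintype I] (tg sr : I → ι) (co : I → A) (h1 : ∀ i, f (tg i) = f (sr i))
    (h2 : ∀ i j, tg i ≠ sr j)
    (e : ∀ a, u a + ∑ i, (if tg i = a then co i • u (sr i) else 0) = v a) : Go A ω f u 0 f v :=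
  ⟨0, (Reach.lin f u tg sr co h1 h2).cast rfl (funext e), by omega⟩

lemma Go.move (l : ι → ℕ) (h : ∀ a, if ω a then Lq (f a) (g a) ∧ l a = 0 else
    (g a - f a).rank ≤ l a) : Go A ω f u (∑ a, l a) g u := by
  refine ⟨_, Reach.moveAll f g u, ?_⟩
  unfold pot
  rw [← sum_add_distrib, ← sum_add_distrib]
  refine sum_le_sum fun a _ => ?_
  have := h a
  split_ifs at this ⊢
  · have := this.1.rank; omega
  · omega

lemma Go.move0 (h : ∀ a, if ω a then Lq (f a) (g a) else g a = f a) : Go A ω f u 0 g u := by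
  have := Go.move (A := A) (ω := ω) (f := f) (g := g) (u := u) (fun _ => 0) fun a => by
    have := h a
    split_ifs at this ⊢
    · exact ⟨this, rfl⟩
    · simp [this]
  simpa using this

lemma Go.par {G : Type} [Fintype G] (J : G × κ → ι) (hJ : Injective J) (ω' : κ → Bool)
    (hω : ∀ p, ω (J p) = ω' p.2) (f1 g1 : G → κ → Matrix μ μ F) (u1 v1 : G → κ → M)
    (hloc : ∀ x, Go A ω' (f1 x) (u1 x) L (g1 x) (v1 x))
    (hf : ∀ p, f (J p) = f1 p.1 p.2) (hu : ∀ p, u (J p) = u1 p.1 p.2)
    (hg : ∀ p, g (J p) = g1 p.1 p.2) (hv : ∀ p, v (J p) = v1 p.1 p.2)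
    (ho : ∀ a, (∃ p, J p = a) ∨ (g a = f a ∧ v a = u a)) :
    Go A ω f u (Fintype.card G * L) g v := by
  classical
  have key : ∀ t : Finset G, Go A ω f u (t.card * L)
      (fun a => if ∃ p : G × κ, p.1 ∈ t ∧ J p = a then g a else f a)
      (fun a => if ∃ p : G × κ, p.1 ∈ t ∧ J p = a then v a else u a) := by
    intro t
    induction t using Finset.induction_on with
    | empty => exact ⟨0, by simpa using Reach.refl, by simp⟩
    | insert x t hx ih =>
      obtain ⟨n, r, b⟩ := hloc x
      have hJx : Injective fun k => J (x, k) := fun k k' e => (Prod.ext_iff.1 (hJ e)).2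
      have n1 : ∀ k, ¬ ∃ p : G × κ, p.1 ∈ t ∧ J p = J (x, k) := fun k ⟨p, h1, h2⟩ =>
        hx (by rw [hJ h2] at h1; exact h1)
      have ex : ∀ {β : Type} (g1 : κ → β) (g f : ι → β), (∀ k, g (J (x, k)) = g1 k) →
          extend (fun k => J (x, k)) g1
            (fun a => if ∃ p : G × κ, p.1 ∈ t ∧ J p = a then g a else f a) =
          fun a => if ∃ p : G × κ, p.1 ∈ insert x t ∧ J p = a then g a else f a := by
        intro β g1 g f e
        funext a
        by_cases ha : ∃ k, J (x, k) = a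
        · obtain ⟨k, rfl⟩ := ha
          rw [hJx.extend_apply, if_pos ⟨(x, k), by simp, rfl⟩, e]
        · rw [extend_apply' _ _ _ ha]
          refine if_congr ⟨fun ⟨p, h1, h2⟩ => ⟨p, by simp [h1], h2⟩, fun ⟨p, h1, h2⟩ => ⟨p, ?_, h2⟩⟩
            rfl rfl
          rcases mem_insert.1 h1 with h | h
          · exact absurd ⟨p.2, by rw [← h]; exact h2⟩ ha
          · exact h
      rw [card_insert_of_notMem hx, add_mul, one_mul]
      refine ih.trans ⟨n, (r.emb _ hJx _ _ (fun k => by rw [if_neg (n1 k), hf])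
        fun k => by rw [if_neg (n1 k), hu]).cast (ex _ _ _ fun k => hg _) (ex _ _ _ fun k => hv _), ?_⟩
      rw [← ex (g1 x) g f fun k => hg _]
      generalize hF : (fun a => if ∃ p : G × κ, p.1 ∈ t ∧ J p = a then g a else f a) = F0
      have hF0 : ∀ k, F0 (J (x, k)) = f1 x k := fun k => by rw [← hF]; simp only [if_neg (n1 k), hf]
      unfold pot at b ⊢
      rw [← sum_add_sum_compl (univ.map ⟨_, hJx⟩), ← sum_add_sum_compl (univ.map ⟨_, hJx⟩)
        (fun a => if ω a then (extend (fun k => J (x, k)) (g1 x) F0 a).rank else 0), sum_map, sum_map]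
      simp only [Embedding.coeFn_mk, hω, hF0, hJx.extend_apply]
      rw [sum_congr rfl (g := fun a => if ω a then (F0 a).rank else 0)
        (f := fun a => if ω a then (extend (fun k => J (x, k)) (g1 x) F0 a).rank else 0)
        fun a ha => by rw [extend_apply' _ _ _ fun ⟨k, hk⟩ => by simp [← hk] at ha]]
      omega
  obtain ⟨n, r, b⟩ := key univ
  have e1 : (fun a => if ∃ p : G × κ, p.1 ∈ univ ∧ J p = a then g a else f a) = g :=
    funext fun a => by rcases ho a with h | h <;> simp [h]
  have e2 : (fun a => if ∃ p : G × κ, p.1 ∈ univ ∧ J p = a then v a else u a) = v :=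
    funext fun a => by rcases ho a with h | h <;> simp [h]
  rw [e1] at r b
  rw [e2] at r
  exact ⟨n, r, b⟩

end go

end Vale.Agent.P338
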