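import Vale.Agent.P338.Net

/-! The three-shear network. -/

namespace Vale.Agent.P338

open Matrix Finset Function Sum

set_option linter.unusedSectionVars false

structure Fam (F A H S J : Type) [Field F] [Ring A] [Fintype H] [Fintype J] where
  u : S → H → F
  v : S → H → F
  orth : S → S → Prop
  L : J → S → A
  R : S → J → A
  h1 : ∀ T, u T ⬝ᵥ v T = 1
  h0 : ∀ T U, orth T U → u T ⬝ᵥ v U = 0 ∧ u U ⬝ᵥ v T = 0
  k1 : ∀ T, ∑ j, R T j * L j T = 1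
  k0 : ∀ T U, T ≠ U → ¬ orth T U → ∑ j, R T j * L j U = 0

def q4 {a b c d β : Type} (x : a → β) (y : b → β) (z : c → β) (t : d → β) : a ⊕ b ⊕ c ⊕ d → β :=
  Sum.elim x (Sum.elim y (Sum.elim z t))

section lq
variable {R : Type} [Ring R] {P Q : R}
lemma Lq.zero : Lq 0 P := ⟨by simp, by simp, by simp⟩
lemma Lq.one (h : P * P = P) : Lq P 1 := ⟨h, by simp, by simp⟩
lemma Lq.refl (h : P * P = P) : Lq P P := ⟨h, h, h⟩
lemma idem_sub (h : P * P = P) : (1 - P) * (1 - P) = 1 - P := by noncomm_ring [h]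
lemma Lq.orth (h : P * P = P) (h1 : P * Q = 0) (h2 : Q * P = 0) : Lq P (1 - Q) :=
  ⟨h, by noncomm_ring [h1], by noncomm_ring [h2]⟩
end lq

namespace Fam
variable {F A H S J M μ : Type} [Field F] [Ring A] [Fintype H] [DecidableEq H] [Fintype J]
  [DecidableEq J] [Fintype S] [DecidableEq S] [AddCommGroup M] [Module A M] [Fintype μ]
  [DecidableEq μ] (𝓕 : Fam F A H S J)

def P (T : S) : Matrix H H F := vecMulVec (𝓕.v T) (𝓕.u T)

def Pr := {p : S × S // 𝓕.orth p.1 p.2}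

noncomputable instance : Fintype 𝓕.Pr := by unfold Pr; exact Fintype.ofFinite _
instance : DecidableEq 𝓕.Pr := by unfold Pr; infer_instance

def K (π : 𝓕.Pr) : A := ∑ j, 𝓕.R π.1.1 j * 𝓕.L j π.1.2

lemma PP (T : S) : 𝓕.P T * 𝓕.P T = 𝓕.P T := by simp [P, vecMulVec_mul_vecMulVec, 𝓕.h1]

lemma orth1 (π : 𝓕.Pr) : Lq (𝓕.P π.1.1) (1 - 𝓕.P π.1.2) :=
  Lq.orth (𝓕.PP _) (by simp [P, vecMulVec_mul_vecMulVec, (𝓕.h0 _ _ π.2).1])
    (by simp [P, vecMulVec_mul_vecMulVec, (𝓕.h0 _ _ π.2).2])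

lemma orth2 (π : 𝓕.Pr) : Lq (𝓕.P π.1.2) (1 - 𝓕.P π.1.1) :=
  Lq.orth (𝓕.PP _) (by simp [P, vecMulVec_mul_vecMulVec, (𝓕.h0 _ _ π.2).2])
    (by simp [P, vecMulVec_mul_vecMulVec, (𝓕.h0 _ _ π.2).1])

def cen (x : S → M) (j : J) : M := ∑ U, 𝓕.L j U • x U

lemma central (x : S → M) (T : S) : ∑ j, 𝓕.R T j • 𝓕.cen x j =
    x T + ∑ π : 𝓕.Pr, if π.1.1 = T then 𝓕.K π • x π.1.2 else 0 := by
  classical
  have e := Finset.sum_subtype_eq_sum_filter (s := univ) (p := fun p : S × S => 𝓕.orth p.1 p.2)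
    fun p => if p.1 = T then (∑ j, 𝓕.R p.1 j * 𝓕.L j p.2) • x p.2 else 0
  rw [subtype_univ] at e
  have e' : (∑ π : 𝓕.Pr, if π.1.1 = T then 𝓕.K π • x π.1.2 else 0) = _ :=
    (Fintype.sum_equiv (ι := 𝓕.Pr) (κ := {p : S × S // 𝓕.orth p.1 p.2})
      ⟨id, id, fun _ => rfl, fun _ => rfl⟩ _ _ fun _ => rfl).trans e
  rw [e', sum_filter, Fintype.sum_prod_type, sum_eq_single T (fun b _ hb => by simp [hb]) (by simp)]
  simp only [cen, smul_sum, smul_smul, if_true]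
  rw [sum_comm, ← sum_ite_eq_of_mem univ T x (mem_univ _), ← sum_add_distrib]
  refine sum_congr rfl fun U _ => ?_
  rw [← sum_smul]
  by_cases h : T = U
  · subst h
    have : ¬ 𝓕.orth T T := fun h => by simpa [𝓕.h1] using (𝓕.h0 _ _ h).1
    simp [this, 𝓕.k1]
  · by_cases h' : 𝓕.orth T U
    · simp [h, h']
    · simp [h, h', 𝓕.k0 _ _ h h']

def ω : S ⊕ S ⊕ 𝓕.Pr ⊕ J → Bool := q4 (fun _ => true) (fun _ => true) (fun _ => true) fun _ => false

variable (φ : Matrix H H F → Matrix μ μ F) (hφ : ∀ P Q, Lq P Q → Lq (φ P) (φ Q)) (r : ℕ)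
include hφ

lemma fwd (hr : (φ 1 - φ 0).rank ≤ r) (x y : S → M) (z : 𝓕.Pr → M) :
    Go A 𝓕.ω (q4 (fun _ => φ 0) (fun T => φ (𝓕.P T)) (fun _ => φ 0) fun _ => φ 0) (q4 x y z 0)
      (Fintype.card J * r) (q4 (fun T => φ (1 - 𝓕.P T)) (fun _ => φ 1) (fun _ => φ 1) fun _ => φ 1)
      (q4 x (y + x) z (𝓕.cen x)) := by
  have PP := 𝓕.PP
  have QQ := fun T => idem_sub (𝓕.PP T)
  refine Go.mono ((((((((
    (Go.lin (v := q4 x y (fun π => z π + 𝓕.K π • x π.1.2) 0) (fun π : 𝓕.Pr => inr (inr (inl π)))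
      (fun π => inl π.1.2) 𝓕.K (fun _ => rfl) (by simp) ?_).trans
    (Go.lin (v := q4 x y (fun π => z π + 𝓕.K π • x π.1.2) (𝓕.cen x))
      (fun p : J × S => inr (inr (inr p.1))) (fun p => inl p.2) (fun p => 𝓕.L p.1 p.2)
      (fun _ => rfl) (by simp) ?_)).trans
    (Go.move0 (g := q4 (fun _ => φ 0) (fun T => φ (𝓕.P T)) (fun π => φ (𝓕.P π.1.1)) fun _ => φ 0)
      ?_)).trans
    (Go.lin (v := q4 x (fun T => y T - ∑ π, if π.1.1 = T then z π + 𝓕.K π • x π.1.2 else 0)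
      (fun π => z π + 𝓕.K π • x π.1.2) (𝓕.cen x)) (fun π : 𝓕.Pr => inr (inl π.1.1))
      (fun π => inr (inr (inl π))) (fun _ => -1) (fun _ => rfl) (by simp) ?_)).trans
    (Go.move0 (g := q4 (fun T => φ (1 - 𝓕.P T)) (fun T => φ (𝓕.P T))
      (fun π => φ (1 - 𝓕.P π.1.2)) fun _ => φ 0) ?_)).trans
    (Go.lin (v := q4 x (fun T => y T - ∑ π, if π.1.1 = T then z π + 𝓕.K π • x π.1.2 else 0)
      z (𝓕.cen x)) (fun π : 𝓕.Pr => inr (inr (inl π)))
      (fun π => inl π.1.2) (fun π => -𝓕.K π) (fun _ => rfl) (by simp) ?_)).trans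
    (Go.move (g := q4 (fun T => φ (1 - 𝓕.P T)) (fun _ => φ 1) (fun _ => φ 1) fun _ => φ 1)
      (q4 0 0 0 fun _ => r) ?_)).trans
    (Go.lin (v := q4 x (fun T => y T - ∑ π, if π.1.1 = T then 𝓕.K π • x π.1.2 else 0)
      z (𝓕.cen x)) (fun π : 𝓕.Pr => inr (inl π.1.1))
      (fun π => inr (inr (inl π))) (fun _ => 1) (fun _ => rfl) (by simp) ?_)).trans
    (Go.lin (fun p : S × J => inr (inl p.1)) (fun p => inr (inr (inr p.2)))
      (fun p => 𝓕.R p.1 p.2) (fun _ => rfl) (by simp) ?_)) (by simp [q4])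
  · rintro (a | a | a | a) <;> simp [q4]
  · rintro (a | a | a | a) <;> simp [q4, cen, Fintype.sum_prod_type]
  · rintro (a | a | a | a) <;> simp [q4, ω, hφ, Lq.zero, Lq.refl, PP]
  · rintro (a | a | a | a) <;> simp [q4, sub_eq_add_neg, ← sum_neg_distrib, neg_ite, add_comm]
  · rintro (a | a | a | a) <;> simp [q4, ω, hφ, Lq.zero, Lq.refl, PP, orth1]
  · rintro (a | a | a | a) <;> simp [q4]
  · rintro (a | a | a | a) <;> simp [q4, ω, hφ, Lq.one, Lq.refl, PP, QQ, hr]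
  · rintro (a | a | a | a) <;> simp [q4]
    rw [sub_add, ← sum_sub_distrib]
    congr 2; funext π; split_ifs <;> simp
  · rintro (a | a | a | a) <;> simp [q4, Fintype.sum_prod_type, central]

lemma bwd (hr : (φ 0 - φ 1).rank ≤ r) (x y : S → M) (z : 𝓕.Pr → M) :
    Go A 𝓕.ω (q4 (fun _ => φ 0) (fun T => φ (𝓕.P T)) (fun _ => φ 0) fun _ => φ 1) (q4 x y z 0)
      (Fintype.card J * r) (q4 (fun T => φ (1 - 𝓕.P T)) (fun _ => φ 1) (fun _ => φ 1) fun _ => φ 0)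
      (q4 (x - y) y z (𝓕.cen y)) := by
  have PP := 𝓕.PP
  have QQ := fun T => idem_sub (𝓕.PP T)
  refine Go.mono ((((((((((
    (Go.lin (v := q4 (fun T => x T - ∑ π, if π.1.1 = T then z π else 0) y z 0)
      (fun π : 𝓕.Pr => inl π.1.1) (fun π => inr (inr (inl π))) (fun _ => -1) (fun _ => rfl)
      (by simp) ?_).trans
    (Go.move0 (g := q4 (fun _ => φ 0) (fun T => φ (𝓕.P T)) (fun π => φ (𝓕.P π.1.2)) fun _ => φ 1)
      ?_)).trans
    (Go.lin (v := q4 (fun T => x T - ∑ π, if π.1.1 = T then z π else 0) y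
      (fun π => z π + 𝓕.K π • y π.1.2) 0) (fun π : 𝓕.Pr => inr (inr (inl π)))
      (fun π => inr (inl π.1.2)) 𝓕.K (fun _ => rfl) (by simp) ?_)).trans
    (Go.move0 (g := q4 (fun _ => φ 0) (fun _ => φ 1) (fun π => φ (𝓕.P π.1.2)) fun _ => φ 1)
      ?_)).trans
    (Go.lin (v := q4 (fun T => x T - ∑ π, if π.1.1 = T then z π else 0) y
      (fun π => z π + 𝓕.K π • y π.1.2) (𝓕.cen y))
      (fun p : J × S => inr (inr (inr p.1))) (fun p => inr (inl p.2)) (fun p => 𝓕.L p.1 p.2)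
      (fun _ => rfl) (by simp) ?_)).trans
    (Go.move (g := q4 (fun _ => φ 0) (fun _ => φ 1) (fun π => φ (𝓕.P π.1.2)) fun _ => φ 0)
      (q4 0 0 0 fun _ => r) ?_)).trans
    (Go.lin (v := q4 (fun T => x T - y T - ∑ π, if π.1.1 = T then z π + 𝓕.K π • y π.1.2 else 0) y
      (fun π => z π + 𝓕.K π • y π.1.2) (𝓕.cen y))
      (fun p : S × J => inl p.1) (fun p => inr (inr (inr p.2)))
      (fun p => -𝓕.R p.1 p.2) (fun _ => rfl) (by simp) ?_)).trans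
    (Go.move0 (g := q4 (fun T => φ (1 - 𝓕.P T)) (fun _ => φ 1) (fun π => φ (1 - 𝓕.P π.1.1))
      fun _ => φ 0) ?_)).trans
    (Go.lin (v := q4 (x - y) y (fun π => z π + 𝓕.K π • y π.1.2) (𝓕.cen y))
      (fun π : 𝓕.Pr => inl π.1.1) (fun π => inr (inr (inl π))) (fun _ => 1) (fun _ => rfl)
      (by simp) ?_)).trans
    (Go.move0 (g := q4 (fun T => φ (1 - 𝓕.P T)) (fun _ => φ 1) (fun _ => φ 1) fun _ => φ 0) ?_)).trans
    (Go.lin (fun π : 𝓕.Pr => inr (inr (inl π))) (fun π => inr (inl π.1.2)) (fun π => -𝓕.K π)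
      (fun _ => rfl) (by simp) ?_)) (by simp [q4])
  · rintro (a | a | a | a) <;> simp [q4, sub_eq_add_neg, ← sum_neg_distrib, neg_ite]
  · rintro (a | a | a | a) <;> simp [q4, ω, hφ, Lq.zero, Lq.refl, PP]
  · rintro (a | a | a | a) <;> simp [q4]
  · rintro (a | a | a | a) <;> simp [q4, ω, hφ, Lq.refl, Lq.one, PP]
  · rintro (a | a | a | a) <;> simp [q4, cen, Fintype.sum_prod_type]
  · rintro (a | a | a | a) <;> simp [q4, ω, hφ, Lq.refl, PP, hr]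
  · rintro (a | a | a | a) <;> simp [q4, Fintype.sum_prod_type, central]
    rw [sum_congr rfl (g := fun π => (if π.1.1 = a then z π else 0) +
      if π.1.1 = a then 𝓕.K π • y π.1.2 else 0) (f := fun π : 𝓕.Pr =>
        if π.1.1 = a then z π + 𝓕.K π • y π.1.2 else 0) fun π _ => by split_ifs <;> simp,
      sum_add_distrib]
    abel
  · rintro (a | a | a | a) <;> simp [q4, ω, hφ, Lq.zero, Lq.refl, orth2]
  · rintro (a | a | a | a) <;> simp [q4]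
  · rintro (a | a | a | a) <;> simp [q4, ω, hφ, Lq.one, Lq.refl, QQ]
  · rintro (a | a | a | a) <;> simp [q4]

end Fam

end Vale.Agent.P338
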