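import Vale.Agent.P338.Via

/-! Polynomial time approximation of roots of unity. -/

namespace Vale.Agent.P338

open Filter Cd Finset Function

set_option linter.unusedSectionVars false
set_option linter.unusedVariables false

variable {α δ : Type} [Cd α] [Cd δ] {B : Bd α}

instance : Cd ℤ := ⟨fun z => cd (z.toNat, (-z).toNat)⟩

section
variable {f g : α → ℤ}

lemma In.ipos (h : In B f) : In B fun a => (f a).toNat :=
  (h.of_cd (g := fun a => ((f a).toNat, (-f a).toNat)) fun _ => rfl).fst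

lemma In.inegp (h : In B f) : In B fun a => (-f a).toNat :=
  (h.of_cd (g := fun a => ((f a).toNat, (-f a).toNat)) fun _ => rfl).snd

lemma In.int {a b : α → ℕ} (ha : In B a) (hb : In B b) (e : ∀ x, f x = a x - b x) : In B f :=
  ((ha.sub hb).pair (hb.sub ha)).of_cd fun x => by
    have := e x
    rw [show a x - b x = (f x).toNat by omega, show b x - a x = (-f x).toNat by omega]; rfl

lemma In.inat {a : α → ℕ} (ha : In B a) : In B fun x => (a x : ℤ) := ha.int (In.const 0) (by simp)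

lemma In.ineg (h : In B f) : In B fun a => -f a := h.inegp.int h.ipos fun _ => by omega

lemma In.iadd (h : In B f) (h' : In B g) : In B fun a => f a + g a :=
  (h.ipos.add h'.ipos).int (h.inegp.add h'.inegp) fun _ => by omega

lemma In.iabs (h : In B f) : In B fun a => (f a).natAbs := (h.ipos.add h.inegp).congr fun _ => by omega

lemma In.imul (h : In polyB f) (h' : In polyB g) : In polyB fun a => f a * g a :=
  ((h.ipos.mul h'.ipos).add (h.inegp.mul h'.inegp)).int ((h.ipos.mul h'.inegp).add (h.inegp.mul h'.ipos))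
    fun a => by
      conv_lhs => rw [← Int.toNat_sub_toNat_neg (f a), ← Int.toNat_sub_toNat_neg (g a)]
      push_cast; ring

lemma In.itdiv {m : α → ℕ} (h : In polyB f) (hm : In polyB m) : In polyB fun a => (f a).tdiv (m a) :=
  (h.ipos.div hm).int (h.inegp.div hm) fun a => by
    obtain ⟨n, e | e⟩ := (f a).eq_nat_or_neg <;> simp [e, Int.tdiv_eq_ediv_of_nonneg]

lemma In.isum {n : α → ℕ} {g : α → ℕ → ℤ} (hn : In polyB n) (hd : Dom polyB n)
    (hg : In polyB fun p : α × Un => g p.1 p.2.n) : In polyB fun a => ∑ i ∈ Finset.range (n a), g a i :=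
  (In.usum (g := fun a i => (g a i).toNat) hn hd hg.ipos).int
    (In.usum (g := fun a i => (-g a i).toNat) hn hd hg.inegp) fun a => by
      simp only [Nat.cast_sum, ← sum_sub_distrib, Int.toNat_sub_toNat_neg]

lemma In.sgn {j : α → ℕ} (h : In polyB j) : In polyB fun a => (-1 : ℤ) ^ j a :=
  (In.ite (Dec.eq (h.mod (In.const 2)) (In.const 0)) (In.const 1) (In.const (-1))).congr fun a => by
    simp [neg_one_pow_eq_ite, Nat.even_iff]
end

lemma tdiv_err (z : ℤ) (m : ℕ) : |((z.tdiv m : ℤ) : ℝ) - z / m| ≤ 1 := by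
  rcases Nat.eq_zero_or_pos m with rfl | h
  · simp
  have h1 := Int.mul_tdiv_add_tmod z m
  have h2 := Int.tmod_lt_of_pos z (b := m) (by omega)
  have h3 := Int.lt_tmod_of_pos z (b := m) (by omega)
  have h4 : (0 : ℝ) < m := by exact_mod_cast h
  rify at h1 h2 h3
  rw [abs_le, sub_le_iff_le_add, le_sub_comm, ← sub_le_iff_le_add', div_le_iff₀ h4, le_div_iff₀ h4]
  constructor <;> linarith

def Ap (g : δ → ℝ) : Prop := ∃ f : δ → ℕ → ℤ, In polyB (fun p : δ × Un => f p.1 p.2.n) ∧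
  ∀ x p, |(f x p : ℝ) - 2 ^ p * g x| ≤ 2

variable {g g' : δ → ℝ}

lemma Ap.congr (h : Ap g) (e : ∀ x, g x = g' x) : Ap g' := funext e ▸ h

lemma Ap.comp (h : Ap g) {φ : α → δ} (hφ : In polyB φ) : Ap fun x => g (φ x) :=
  let ⟨f, a, b⟩ := h
  ⟨fun x => f (φ x), a.comp (f := fun p : α × Un => (φ p.1, p.2)) (by fun_prop), fun _ => b _⟩

lemma Ap.boost {t : δ → ℕ} (ht : In polyB t) (dt : Dom polyB t) {f : δ → ℕ → ℤ}
    (hf : In polyB fun p : δ × Un => f p.1 p.2.n) (h : ∀ x p, |(f x p : ℝ) - 2 ^ p * g x| ≤ (p + 1) * 2 ^ t x) :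
    Ap g := by
  have u1 := In.id.snd.unval (B := polyB) (α := δ × Un)
  have u2 := Dom.unval (In.id.snd (B := polyB) (α := δ × Un))
  have a := (u1.add ((In.const 2).mul (ht.comp In.id.fst))).add (In.const 3)
  have b := (u2.add ((dt.comp In.id.fst).cmul 2)).add (Dom.const 3)
  have d := hf.comp (In.id.fst.pair ((u1.add a).unmk (u2.add b)))
  refine ⟨fun x p => (f x (p + (p + 2 * t x + 3))).tdiv (2 ^ (p + 2 * t x + 3) : ℕ),
    d.itdiv (a.pow2 b), fun x p => (abs_sub_le _ _ _).trans (le_of_le_of_eq (add_le_add (tdiv_err _ _) ?_)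
      one_add_one_eq_two)⟩
  have e : ((p + t x + 2 : ℕ) : ℝ) ≤ 2 ^ (p + t x + 2) := by exact_mod_cast Nat.lt_two_pow_self.le
  have := h x (p + (p + 2 * t x + 3))
  rw [pow_add] at this
  push_cast at *
  rw [div_sub' (by positivity), abs_div, div_le_one (by positivity), abs_of_pos (a := 2 ^ _) (by positivity),
    mul_left_comm, ← mul_assoc]
  refine this.trans ?_
  calc _ = ((p : ℝ) + t x + 2) * (2 * 2 ^ t x) := by ring
    _ ≤ 2 ^ (p + t x + 2) * (2 * 2 ^ t x) := by gcongr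
    _ = _ := by ring

lemma p_two : In polyB fun p : δ × Un => ((2 ^ p.2.n : ℕ) : ℤ) :=
  (In.id.snd.unval.pow2 (Dom.unval In.id.snd)).inat

lemma Ap.rat {n : δ → ℤ} {m : δ → ℕ} (hn : In polyB n) (hm : In polyB m) : Ap fun x => n x / m x :=
  ⟨fun x p => ((2 ^ p : ℕ) * n x).tdiv (m x), (p_two.imul (hn.comp In.id.fst)).itdiv (hm.comp In.id.fst),
    fun x p => by
      have := tdiv_err ((2 ^ p : ℕ) * n x) (m x)
      push_cast at this ⊢
      rw [← mul_div_assoc]; linarith⟩

lemma Ap.add (h : Ap g) (h' : Ap g') : Ap fun x => g x + g' x :=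
  let ⟨f, a, b⟩ := h; let ⟨f', a', b'⟩ := h'
  .boost (In.const 2) (Dom.const 2) (f := fun x p => f x p + f' x p) (a.iadd a') fun x p => by
    have := b x p; have := b' x p; have : (0 : ℝ) ≤ p := by positivity
    rw [abs_le] at *; push_cast; constructor <;> nlinarith

lemma Ap.scale (h : Ap g) {n : δ → ℤ} {m : δ → ℕ} (hn : In polyB n) (hm : In polyB m) :
    Ap fun x => g x * n x / m x :=
  let ⟨f, a, b⟩ := h
  .boost (hn.iabs.size.add (In.const 2)) ((Dom.size hn.iabs).add (Dom.const 2))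
    (f := fun x p => (f x p * n x).tdiv (m x)) ((a.imul (hn.comp In.id.fst)).itdiv (hm.comp In.id.fst))
    fun x p => by
      have h1 : |(n x : ℝ)| ≤ 2 ^ (n x).natAbs.size := by
        rw [← Int.cast_abs, ← Nat.cast_natAbs]; exact_mod_cast (Nat.lt_size_self _).le
      have h2 : |((f x p * n x : ℤ) : ℝ) / m x - 2 ^ p * (g x * n x / m x)| ≤ 2 * 2 ^ (n x).natAbs.size := by
        rw [show ((f x p * n x : ℤ) : ℝ) / m x - 2 ^ p * (g x * n x / m x) =
          (f x p - 2 ^ p * g x) * n x / m x by push_cast; ring, abs_div, abs_mul, Nat.abs_cast]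
        refine le_trans ?_ (mul_le_mul (b x p) h1 (by positivity) (by positivity))
        rcases Nat.eq_zero_or_pos (m x) with e | e
        · rw [e, Nat.cast_zero, div_zero]; positivity
        · exact div_le_self (by positivity) (by exact_mod_cast e)
      have h3 : (1 : ℝ) ≤ 2 ^ (n x).natAbs.size := one_le_pow₀ one_le_two
      refine (abs_sub_le _ _ _).trans ((add_le_add (tdiv_err _ _) h2).trans ?_)
      rw [pow_add]; nlinarith [Nat.cast_nonneg (α := ℝ) p]

lemma ap_sum {a : δ → ℕ → ℝ} {f : δ × Un → ℕ → ℤ}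
    (b : ∀ x p, |(f x p : ℝ) - 2 ^ p * a x.1 x.2.n| ≤ 2) (x : δ) (p n : ℕ) :
    |((∑ j ∈ range n, f (x, ⟨j⟩) p : ℤ) : ℝ) - 2 ^ p * ∑ j ∈ range n, a x j| ≤ n * 2 := by
  rw [Int.cast_sum, mul_sum, ← sum_sub_distrib]
  exact (abs_sum_le_sum_abs _ _).trans ((sum_le_card_nsmul _ _ 2 fun j _ => b (x, ⟨j⟩) p).trans (by simp))

lemma ap_sumP {f : δ × Un → ℕ → ℤ} (a : In polyB fun p : (δ × Un) × Un => f p.1 p.2.n) {n : δ × Un → ℕ}
    (hn : In polyB n) (dn : Dom polyB n) :
    In polyB fun p : δ × Un => ∑ j ∈ range (n p), f (p.1, ⟨j⟩) p.2.n :=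
  In.isum (g := fun (p : δ × Un) j => f (p.1, ⟨j⟩) p.2.n) hn dn
    (a.comp (f := fun q : (δ × Un) × Un => ((q.1.1, q.2), q.1.2)) (by fun_prop))

lemma Ap.sum {n : δ → ℕ} (hn : In polyB n) (dn : Dom polyB n) {a : δ → ℕ → ℝ}
    (h : Ap fun q : δ × Un => a q.1 q.2.n) : Ap fun x => ∑ j ∈ range (n x), a x j :=
  let ⟨f, a, b⟩ := h
  .boost (hn.add (In.const 1)) (dn.add (Dom.const 1)) (f := fun x p => ∑ j ∈ range (n x), f (x, ⟨j⟩) p)
    (ap_sumP a (hn.comp In.id.fst) (dn.comp In.id.fst)) fun x p => (ap_sum b x p _).trans (by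
      have : (n x : ℝ) ≤ 2 ^ n x := by exact_mod_cast Nat.lt_two_pow_self.le
      rw [pow_succ]; nlinarith [mul_nonneg (Nat.cast_nonneg (α := ℝ) p) (pow_pos two_pos (n x)).le])

lemma Ap.series {a : δ → ℕ → ℝ} (h : Ap fun q : δ × Un => a q.1 q.2.n) (c : ℕ)
    (hb : ∀ x j, ‖a x j‖ ≤ 2 ^ c * (1 / 2) ^ j) (hs : ∀ x, HasSum (a x) (g x)) : Ap g :=
  let ⟨f, a', b⟩ := h
  .boost (In.const (c + 1)) (Dom.const _) (f := fun x p => ∑ j ∈ range p, f (x, ⟨j⟩) p)
    (ap_sumP a' In.id.snd.unval (Dom.unval In.id.snd)) fun x p => by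
      have h1 := norm_sub_le_of_geometric_bound_of_hasSum (by norm_num) (hb x) (hs x) p
      have h2 : |2 ^ p * ∑ j ∈ range p, a x j - 2 ^ p * g x| ≤ 2 ^ (c + 1) := by
        rw [← mul_sub, abs_mul, abs_of_pos (by positivity)]
        refine (mul_le_mul_of_nonneg_left h1 (by positivity)).trans (le_of_eq ?_)
        rw [one_div_pow]; field_simp; ring
      have h3 : (2 : ℝ) ≤ 2 ^ (c + 1) := le_self_pow₀ one_le_two (by omega)
      refine (abs_sub_le _ _ _).trans ((add_le_add (ap_sum b x p p) h2).trans ?_)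
      nlinarith [Nat.cast_nonneg (α := ℝ) p]

lemma Ap.ite {q : δ → Prop} [DecidablePred q] (hq : Dec polyB q) (h : Ap g) (h' : Ap g') :
    Ap fun x => if q x then g x else g' x :=
  let ⟨f, a, b⟩ := h; let ⟨f', a', b'⟩ := h'
  ⟨fun x p => if q x then f x p else f' x p, In.ite (hq.comp In.id.fst) a a', fun x p => by
    dsimp only; split_ifs; exacts [b x p, b' x p]⟩

lemma ap_arctan {m : ℕ} (hm : 2 ≤ m) : Ap fun _ : δ => Real.arctan (m : ℝ)⁻¹ := by
  have u1 := In.id.snd.unval (B := polyB) (α := δ × Un)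
  have u2 := Dom.unval (In.id.snd (B := polyB) (α := δ × Un))
  have a := ((In.const 2).mul u1).add (In.const 1)
  have h : (m : ℝ)⁻¹ ≤ 1 / 2 := by rw [one_div]; exact inv_anti₀ two_pos (by exact_mod_cast hm)
  refine Ap.series ((Ap.rat u1.sgn (((In.const m).pow a ((u2.cmul 2).add (Dom.const 1))).mul a)).congr
    fun q => by push_cast; rw [inv_pow]; field_simp) 0 (fun _ j => ?_) fun _ => Real.hasSum_arctan
      (by rw [Real.norm_of_nonneg (by positivity)]; linarith)
  rw [norm_div, norm_mul, norm_pow, norm_neg, norm_one, one_pow, one_mul, pow_zero, one_mul,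
    Real.norm_of_nonneg (by positivity), Real.norm_natCast]
  exact (div_le_self (by positivity) (by exact_mod_cast Nat.le_add_left _ _)).trans
    ((pow_le_pow_left₀ (by positivity) h _).trans (pow_le_pow_of_le_one (by norm_num) (by norm_num) (by omega)))

lemma ap_pi : Ap fun _ : δ => Real.pi :=
  (((ap_arctan le_rfl).add (ap_arctan (m := 3) (by omega))).scale (In.const 4) (In.const 1)).congr fun _ => by
    simp [Real.arctan_inv_2_add_arctan_inv_3]

lemma ap_cosD : Ap fun y : {y : ℤ × Un // |(y.1 : ℝ) / 2 ^ y.2.n| ≤ 10} => Real.cos (y.1.1 / 2 ^ y.1.2.n) := by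
  obtain ⟨c, hc⟩ := pow_unbounded_of_one_lt (Real.exp 20) (one_lt_two (α := ℝ))
  have u := In.id (B := polyB) (α := {y : ℤ × Un // |(y.1 : ℝ) / 2 ^ y.2.n| ≤ 10} × Un)
  have a := (In.const 2).mul u.snd.unval
  have d := (Dom.unval u.snd).cmul 2
  have b := In.fprod (g := fun _ i => i + 1) a d (In.id.snd.add (In.const 1))
  refine Ap.series ((Ap.rat (u.snd.unval.sgn.imul (u.fst.val.fst.iabs.pow a d).inat)
    (((u.fst.val.snd.unval.pow2 (Dom.unval u.fst.val.snd)).pow a d).mul b)).congr fun q => ?_) c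
    (fun y j => ?_) fun _ => Real.hasSum_cos _
  · rw [prod_range_add_one_eq_factorial, Int.natCast_pow, Int.natCast_natAbs, pow_mul, sq_abs, ← pow_mul, div_pow]
    push_cast; field_simp
  · have := Real.pow_div_factorial_le_exp 20 (by norm_num) (2 * j)
    rw [norm_div, norm_mul, norm_pow, norm_neg, norm_one, one_pow, one_mul, norm_pow, Real.norm_natCast]
    calc _ ≤ (20 * (1 / 2)) ^ (2 * j) / ((2 * j).factorial : ℝ) := by
          gcongr; exact y.2.trans (by norm_num)
      _ = 20 ^ (2 * j) / ((2 * j).factorial : ℝ) * (1 / 2) ^ (2 * j) := by rw [mul_pow]; ring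
      _ ≤ _ := mul_le_mul (this.trans hc.le) (pow_le_pow_of_le_one (by norm_num) (by norm_num) (by omega))
          (by positivity) (by positivity)

lemma Ap.cos (h : Ap g) (hb : ∀ x, |g x| ≤ 8) : Ap fun x => Real.cos (g x) := by
  obtain ⟨f, a, b⟩ := h
  obtain ⟨f', a', b'⟩ := ap_cosD
  have e : ∀ x p, |(f x p : ℝ) / 2 ^ p - g x| ≤ 2 / 2 ^ p := fun x p => by
    rw [div_sub' (by positivity), abs_div, abs_of_pos (a := 2 ^ p) (by positivity)]
    gcongr; exact b x p
  have l : ∀ x p, |(f x p : ℝ) / 2 ^ p| ≤ 10 := fun x p => by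
    have := div_le_self (a := (2 : ℝ)) two_pos.le (one_le_pow₀ (n := p) one_le_two)
    have := e x p; have := hb x; rw [abs_le] at *; constructor <;> linarith
  have a1 : In polyB fun p : δ × Un => ((⟨(f p.1 p.2.n, p.2), l p.1 p.2.n⟩ :
      {y : ℤ × Un // |(y.1 : ℝ) / 2 ^ y.2.n| ≤ 10}), p.2) :=
    ((a.pair In.id.snd).pair In.id.snd).of_cd fun _ => rfl
  have a2 := a'.comp a1
  refine Ap.boost (In.const 2) (Dom.const 2) (f := fun x p => f' ⟨(f x p, ⟨p⟩), l x p⟩ p) a2 fun x p => ?_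
  have h1 : |2 ^ p * Real.cos (f x p / 2 ^ p) - 2 ^ p * Real.cos (g x)| ≤ 2 := by
    rw [← mul_sub, abs_mul, abs_of_pos (by positivity), mul_comm, ← le_div_iff₀ (by positivity)]
    exact (Real.abs_cos_sub_cos_le _ _).trans (e x p)
  refine (abs_sub_le _ _ _).trans ((add_le_add (b' _ p) h1).trans ?_)
  nlinarith [Nat.cast_nonneg (α := ℝ) p]

lemma ap_cos {n : δ → ℤ} {m : δ → ℕ} (hn : In polyB n) (hm : In polyB m) (h : ∀ x, 0 < m x) :
    Ap fun x => Real.cos (2 * Real.pi * (n x / m x)) := by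
  have a := (In.const 2).imul (hn.iadd (hm.inat.imul (hn.itdiv hm)).ineg)
  have e : ∀ x, (0 : ℝ) < m x := fun x => by exact_mod_cast h x
  refine ((ap_pi.scale a hm).cos fun x => ?_).congr fun x => ?_
  · have h1 := tdiv_err (n x) (m x)
    have := e x
    rw [show Real.pi * ((2 * (n x + -(m x * (n x).tdiv (m x))) : ℤ) : ℝ) / m x =
      -(2 * Real.pi) * ((n x).tdiv (m x) - n x / m x) by push_cast; field_simp; ring, abs_mul, abs_neg,
      abs_of_pos (by positivity)]
    nlinarith [Real.pi_le_four, Real.pi_pos]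
  · have := e x
    rw [← Real.cos_sub_int_mul_two_pi (2 * _ * _) ((n x).tdiv (m x))]
    congr 1; push_cast; field_simp; ring

noncomputable def ee (t : ℝ) : ℂ := Complex.exp (↑(2 * Real.pi * t) * Complex.I)

lemma ee_add (s t : ℝ) : ee (s + t) = ee s * ee t := by
  rw [ee, ee, ee, ← Complex.exp_add]; congr 1; push_cast; ring

lemma ee_int (n : ℤ) : ee n = 1 := by
  rw [ee, ← Complex.exp_int_mul_two_pi_mul_I n]; congr 1; push_cast; ring

lemma ee_zero : ee 0 = 1 := by simpa using ee_int 0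

lemma norm_ee (t : ℝ) : ‖ee t‖ = 1 := Complex.norm_exp_ofReal_mul_I _

lemma ee_pow (t : ℝ) (n : ℕ) : ee t ^ n = ee (n * t) := by
  rw [ee, ee, ← Complex.exp_nat_mul]; congr 1; push_cast; ring

lemma ee_congr {s t : ℝ} (n : ℤ) (h : s = t + n) : ee s = ee t := by rw [h, ee_add, ee_int, mul_one]

lemma sum_ee (a : ℤ) {n : ℕ} (hn : 0 < n) :
    ∑ m ∈ range n, ee (m * (a / n)) = if (n : ℤ) ∣ a then n else 0 := by
  have h : (n : ℝ) ≠ 0 := by positivity
  simp only [← ee_pow]
  split_ifs with e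
  · obtain ⟨b, rfl⟩ := e
    simp [mul_div_cancel_left₀ _ h, ee_int]
  · have : ee (a / n) ≠ 1 := fun h1 => by
      obtain ⟨b, hb⟩ := Complex.exp_eq_one_iff.1 h1
      have := congrArg Complex.im hb
      simp at this
      refine e ⟨b, ?_⟩
      rify
      field_simp at this
      linarith
    rw [geom_sum_eq this, ee_pow, mul_div_cancel₀ _ h, ee_int]; simp

def Cp (κ : δ → ℂ) : Prop := Ap (fun x => (κ x).re) ∧ Ap fun x => (κ x).im

variable {κ κ' : δ → ℂ}

lemma Cp.congr (h : Cp κ) (e : ∀ x, κ x = κ' x) : Cp κ' := funext e ▸ h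

lemma Cp.comp (h : Cp κ) {φ : α → δ} (hφ : In polyB φ) : Cp fun x => κ (φ x) := ⟨h.1.comp hφ, h.2.comp hφ⟩

lemma Cp.ee {n : δ → ℤ} {m : δ → ℕ} (hn : In polyB n) (hm : In polyB m) (h : ∀ x, 0 < m x) :
    Cp fun x => ee (n x / m x) :=
  ⟨(ap_cos hn hm h).congr fun x => (Complex.exp_ofReal_mul_I_re _).symm,
    (ap_cos (((In.const 4).imul hn).iadd hm.inat.ineg) ((In.const 4).mul hm) fun x => by
      have := h x; omega).congr fun x => by
        have : (0 : ℝ) < m x := by exact_mod_cast h x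
        refine Eq.trans ?_ (Complex.exp_ofReal_mul_I_im _).symm
        rw [← Real.cos_sub_pi_div_two]
        congr 1; push_cast; field_simp; ring⟩

lemma Cp.scale (h : Cp κ) {n : δ → ℤ} {m : δ → ℕ} (hn : In polyB n) (hm : In polyB m) :
    Cp fun x => κ x * n x / m x :=
  ⟨(h.1.scale hn hm).congr fun x => by simp, (h.2.scale hn hm).congr fun x => by simp⟩

lemma Cp.sum {n : δ → ℕ} (hn : In polyB n) (dn : Dom polyB n) {a : δ → ℕ → ℂ}
    (h : Cp fun q : δ × Un => a q.1 q.2.n) : Cp fun x => ∑ j ∈ range (n x), a x j :=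
  ⟨(Ap.sum hn dn (a := fun x j => (a x j).re) h.1).congr fun x => by simp,
    (Ap.sum hn dn (a := fun x j => (a x j).im) h.2).congr fun x => by simp⟩

lemma Cp.ite {q : δ → Prop} [DecidablePred q] (hq : Dec polyB q) (h : Cp κ) (h' : Cp κ') :
    Cp fun x => if q x then κ x else κ' x :=
  ⟨(h.1.ite hq h'.1).congr fun x => (apply_ite _ _ _ _).symm, (h.2.ite hq h'.2).congr fun x =>
    (apply_ite _ _ _ _).symm⟩

lemma Cp.rat {n : δ → ℤ} {m : δ → ℕ} (hn : In polyB n) (hm : In polyB m) : Cp fun x => n x / m x :=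
  ⟨(Ap.rat hn hm).congr fun x => by simp, (Ap.rat (In.const 0) hm).congr fun x => by simp⟩

end Vale.Agent.P338
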