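import Vale.Agent.P338.Env

/-! Elementary passes. -/

namespace Vale.Agent.P338

open Filter Cd

set_option linter.unusedSectionVars false

variable {α β γ δ ε : Type} [Cd α] [Cd β] [Cd γ] [Cd δ] [Cd ε] {B : Bd α}
  {w : Wd γ} {μ : γ → ℕ} {c : α → γ}

lemma Env.gathL (E : Env w μ B c) {M N : γ → ℕ} (hM : In polyB M) (hN : In polyB N)
    (hM' : ∀ c, M c ≤ w.N c) (hN' : ∀ c, N c ≤ w.N c) {F : α → ℕ → List Bool}
    (hF : In B fun x => tab (M (c x)) (F x)) {z0 : α → List Bool} (hz : In B z0)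
    (hz' : ∀ x, (z0 x).length ≤ w.ℓ (c x)) {kin kout : γ → ℕ → ℕ}
    (hi : In polyB fun p : γ × ℕ => kin p.1 p.2) (ho : In polyB fun p : γ × ℕ => kout p.1 p.2)
    (k : ℕ) : In B fun x => gath (kin (c x)) (kout (c x)) (N (c x)) (z0 x) (tab (M (c x)) (F x)) k :=
  E.big.gath E.inc hM hN (fun _ => hM' _) (fun _ => hN' _) hF (fun _ => tab_length _ _) hz
    (E.dl.mono' fun x => Nat.mul_le_mul_left _ (by
      have := sz_bits (z0 x); have := hz' x; omega)) hi ho k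

lemma In.hd {F : ∀ x, ℕ → w.V (c x)} (hF : In B fun x => w.arr (c x) (F x)) :
    In B fun x => w.enc (c x) (F x 0) :=
  (In.getD' hF (In.const 0) (In.const [])).congr fun _ => tab_getD _ _ (w.pos _)

lemma Pm.of_gath {σ kin kout : γ → ℕ → ℕ} (hi : In polyB fun p : γ × ℕ => kin p.1 p.2)
    (ho : In polyB fun p : γ × ℕ => kout p.1 p.2) (k : ℕ)
    (h : ∀ c (z0 : List Bool) F, gath (kin c) (kout c) (w.N c) z0 (tab (w.N c) F) k =
      tab (w.N c) fun z => F (σ c z)) : Pm w μ σ :=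
  fun _ _ _ _ E _ hF => (E.gathL w.poly w.poly (fun _ => le_rfl) (fun _ => le_rfl) hF hF.hd
    (fun _ => (w.len _ _).le) hi ho k).congr fun _ => h _ _ _

/-- monotone partial selections -/
lemma Env.selL (E : Env w μ B c) {M N : γ → ℕ} (hM : In polyB M) (hN : In polyB N)
    (hM' : ∀ c, M c ≤ w.N c) (hN' : ∀ c, N c ≤ w.N c) {F : α → ℕ → List Bool}
    (hF : In B fun x => tab (M (c x)) (F x)) {z0 : α → List Bool} (hz : In B z0)
    (hz' : ∀ x, (z0 x).length ≤ w.ℓ (c x)) {p q : γ → ℕ → Prop} [∀ c z, Decidable (p c z)]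
    (hp : Dec polyB fun r : γ × ℕ => p r.1 r.2) (hq : Dec polyB fun r : γ × ℕ => q r.1 r.2)
    (src : γ → ℕ → ℕ) (h1 : ∀ c z z', p c z → p c z' → z < z' → src c z < src c z')
    (h2 : ∀ c, ∀ z < N c, p c z → src c z < M c ∧ q c (src c z))
    (h3 : ∀ c, ∀ y < M c, q c y → ∃ z < N c, p c z ∧ src c z = y) :
    In B fun x => tab (N (c x)) fun z => if p (c x) z then F x (src (c x) z) else z0 x := by
  classical
  refine (E.gathL hM hN hM' hN' hF hz hz' (kin := fun c y => if q c y then 0 else 1)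
    (kout := fun c z => if p c z then 0 else 1) (by fun_prop) (by fun_prop) 1).congr fun x => ?_
  rw [gath_spec _ _ (src (c x)) _ _ _ _ _ (fun z _ z' _ a1 a2 a3 => h1 _ _ _
    (by by_contra h; simp [h] at a1) (by by_contra h; simp [h] at a2; simp [a2] at a1) a3)
    (fun z hz a1 => by
      have a2 : p (c x) z := by by_contra h; simp [h] at a1
      have := h2 _ z hz a2
      simp [this, a2])
    fun y hy a1 => by
      obtain ⟨z, b1, b2, b3⟩ := h3 _ y hy (by by_contra h; simp [h] at a1)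
      exact ⟨z, b1, by simp [b2], b3⟩]
  exact tab_congr fun z _ => by by_cases h : p (c x) z <;> simp [h]

lemma Env.sel (E : Env w μ B c) {p : γ → ℕ → Prop} [∀ c z, Decidable (p c z)]
    (hp : Dec polyB fun r : γ × ℕ => p r.1 r.2) {F G : ∀ x, ℕ → w.V (c x)}
    (hF : In B fun x => w.arr (c x) (F x)) (hG : In B fun x => w.arr (c x) (G x)) :
    In B fun x => w.arr (c x) fun z => if p (c x) z then F x z else G x z := by
  have h1 := E.big.tab E.inc w.poly (fun _ => le_rfl) (In.dec hp)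
  refine (In.zipWith (g := fun (b : Bool) (q : List Bool × List Bool) => bif b then q.1 else q.2)
    (by fun_prop) h1 (hF.zip hG)).congr fun x => ?_
  unfold Wd.arr
  rw [tab_zip, tab_zipWith]
  exact tab_congr fun z _ => by by_cases h : p (c x) z <;> simp [h]

lemma In.zipA {g : List Bool → List Bool → List Bool}
    (hg : In linB fun p : List Bool × List Bool => g p.1 p.2) {h : ∀ c, w.V c → w.V c → w.V c}
    (e : ∀ c a b, g (w.enc c a) (w.enc c b) = w.enc c (h c a b)) {F G : ∀ x, ℕ → w.V (c x)}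
    (hF : In B fun x => w.arr (c x) (F x)) (hG : In B fun x => w.arr (c x) (G x)) :
    In B fun x => w.arr (c x) fun z => h _ (F x z) (G x z) :=
  (In.zipWith hg hF hG).congr fun x => by
    unfold Wd.arr; rw [tab_zipWith]; exact tab_congr fun z _ => e _ _ _

lemma In.mapA {g : List Bool → List Bool} (hg : In linB g) {h : ∀ c, w.V c → w.V c}
    (e : ∀ c a, g (w.enc c a) = w.enc c (h c a)) {F : ∀ x, ℕ → w.V (c x)}
    (hF : In B fun x => w.arr (c x) (F x)) : In B fun x => w.arr (c x) fun z => h _ (F x z) :=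
  (In.map hg hF).congr fun x => by
    unfold Wd.arr; rw [tab_map]; exact tab_congr fun z _ => e _ _

structure Fd (w : Wd γ) (s Q : γ → ℕ) : Prop where
  ps : In polyB s
  pQ : In polyB Q
  dvd : ∀ c, Q c * s c ∣ w.N c

variable {s Q : γ → ℕ}

lemma Fd.hs (h : Fd w s Q) (c : γ) : 0 < s c :=
  Nat.pos_of_mul_pos_left (Nat.pos_of_dvd_of_pos (h.dvd c) (w.pos c))

lemma Fd.hQ (h : Fd w s Q) (c : γ) : 0 < Q c :=
  Nat.pos_of_mul_pos_right (Nat.pos_of_dvd_of_pos (h.dvd c) (w.pos c))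

lemma Fd.axis (h : Fd w s Q) (k : ℕ) {ki ko σ : γ → ℕ → ℕ → ℕ}
    (hi : In polyB fun p : γ × ℕ × ℕ => ki p.1 p.2.1 p.2.2)
    (ho : In polyB fun p : γ × ℕ × ℕ => ko p.1 p.2.1 p.2.2)
    (h1 : ∀ c a, ∀ x < Q c, ∀ x' < Q c, ko c a x = ko c a x' → x < x' → σ c a x < σ c a x')
    (h2 : ∀ c a, ∀ x < Q c, ko c a x < k ∧ σ c a x < Q c ∧ ki c a (σ c a x) = ko c a x)
    (h3 : ∀ c a, ∀ y < Q c, ∃ x < Q c, σ c a x = y) :
    Pm w μ fun c z => setF z (s c) (Q c) (σ c (z / (Q c * s c)) (fld z (s c) (Q c))) := by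
  have := h.ps
  have := h.pQ
  have a : In polyB fun p : γ × ℕ => (p.1, p.2 / (Q p.1 * s p.1), fld p.2 (s p.1) (Q p.1)) := by
    fun_prop
  have b1 := hi.comp a
  have b2 := ho.comp a
  exact Pm.of_gath (kin := fun c y => ki c (y / (Q c * s c)) (fld y (s c) (Q c)))
    (kout := fun c y => ko c (y / (Q c * s c)) (fld y (s c) (Q c))) b1 b2 k fun c z0 F =>
    axis_bij k (ki c) (ko c) (σ c) z0 F (h.hs c) (h.hQ c) (h.dvd c) (h1 c) (h2 c) (h3 c)

lemma Fd.rotN (h : Fd w s Q) {f : γ → ℕ → ℕ} (hf : In polyB fun p : γ × ℕ => f p.1 p.2) :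
    Pm w μ fun c z => setF z (s c) (Q c) ((fld z (s c) (Q c) + f c (z / (Q c * s c))) % Q c) := by
  have := h.ps
  have := h.pQ
  have a : In polyB fun p : γ × ℕ => f p.1 (p.2 / (Q p.1 * s p.1)) :=
    hf.comp (f := fun p : γ × ℕ => (p.1, p.2 / (Q p.1 * s p.1))) (by fun_prop)
  refine Pm.of_gath (kin := fun c y => if f c (y / (Q c * s c)) % Q c ≤ fld y (s c) (Q c) then 0 else 1)
    (kout := fun c y => if fld y (s c) (Q c) + f c (y / (Q c * s c)) % Q c < Q c then 0 else 1)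
    (by fun_prop) (by fun_prop) 2 fun c z0 F => ?_
  have := rot_spec (f c) z0 F (h.hs c) (h.hQ c) (h.dvd c)
  rwa [rot, tab_length] at this

lemma Fd.revN (h : Fd w s Q) :
    Pm w μ fun c z => setF z (s c) (Q c) (Q c - 1 - fld z (s c) (Q c)) := by
  intro α _ B c E F hF
  have := h.ps
  have := h.pQ
  have d1 : ∀ c, Q c * s c ≤ w.N c := fun c => Nat.le_of_dvd (w.pos c) (h.dvd c)
  exact (In.revC (E.small h.ps) (E.big.self.mono' fun x => le_trans
    (Nat.le_mul_of_pos_left _ (h.hQ _)) (d1 _)) (In.revC (E.small (g := fun c => Q c * s c)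
      (by fun_prop)) (E.big.self.mono' fun x => d1 _) hF)).congr fun x =>
        rev_spec _ (h.hs _) (h.hQ _) (h.dvd _)

lemma Pm.swg (c1 c2 : ℕ) {M : γ → ℕ} (hM : In polyB M) (hs : In polyB s)
    (hd : ∀ c, c1 * (M c * (c2 * s c)) ∣ w.N c) : Pm w μ fun c z => sw5 c1 c2 (M c) (s c) z := by
  refine Pm.of_gath (kin := fun c y => fld y (M c * (c2 * s c)) c1 * c2 + fld y (s c) c2)
    (kout := fun c z => fld z (s c) c1 * c2 + fld z (M c * (c1 * s c)) c2)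
    (by fun_prop) (by fun_prop) (c1 * c2) fun c z0 F => ?_
  have h0 := Nat.pos_of_dvd_of_pos (hd c) (w.pos c)
  have h1 := Nat.pos_of_mul_pos_left h0
  have h2 := Nat.pos_of_mul_pos_left h1
  have := swg_spec z0 F (Nat.pos_of_mul_pos_right h0) (Nat.pos_of_mul_pos_right h2)
    (Nat.pos_of_mul_pos_right h1) (Nat.pos_of_mul_pos_left h2) (hd c)
  rwa [P338.swg, tab_length] at this

def swp (s1 s2 Q z : ℕ) : ℕ := setF (setF z s1 Q (fld z s2 Q)) s2 Q (fld z s1 Q)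

lemma sw5_eq {Q M s : ℕ} (hQ : 0 < Q) (hM : 0 < M) (hs : 0 < s) (z : ℕ) :
    sw5 Q Q M s z = swp (M * (Q * s)) s Q z := by
  have h0 : 0 < M * (Q * s) := by positivity
  rw [← e5_self (swp (M * (Q * s)) s Q z) Q M Q s, sw5, swp,
    setF_div_outer hs (fld_lt _ _ hQ) ⟨M * Q, by ring⟩, setF_div h0 (fld_lt _ _ hQ),
    fld_setF_outer hs (fld_lt _ _ hQ) (dvd_mul_left _ _), fld_setF h0 (fld_lt _ _ hQ),
    fld_setF_outer hs (fld_lt _ _ hQ) dvd_rfl, fld_setF_inner h0 dvd_rfl,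
    fld_setF hs (fld_lt _ _ hQ), setF_mod hs, setF_mod_inner h0 ⟨M * Q, by ring⟩]

lemma Pm.swp (k : ℕ) {s1 s2 : γ → ℕ} (h1 : In polyB s1) (h2 : In polyB s2)
    (hd : ∀ c, k * s2 c ∣ s1 c) (hd' : ∀ c, k * s1 c ∣ w.N c) :
    Pm w μ fun c z => swp (s1 c) (s2 c) k z := by
  refine (Pm.swg k k (M := fun c => s1 c / (k * s2 c)) (by fun_prop) h2 fun c => ?_).congr
    fun c z _ => ?_
  · rw [Nat.div_mul_cancel (hd c)]; exact hd' c
  · have h0 := Nat.pos_of_dvd_of_pos (hd' c) (w.pos c)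
    have h1 := Nat.pos_of_dvd_of_pos (hd c) (Nat.pos_of_mul_pos_left h0)
    rw [sw5_eq (Nat.pos_of_mul_pos_right h0) (Nat.div_pos (Nat.le_of_dvd
      (Nat.pos_of_mul_pos_left h0) (hd c)) h1) (Nat.pos_of_mul_pos_left h1),
      Nat.div_mul_cancel (hd c)]

lemma xor_eq_setF (z p : ℕ) : z ^^^ 2 ^ p = setF z (2 ^ p) 2 (2 - 1 - fld z (2 ^ p) 2) := by
  have h0 : 0 < 2 ^ p := by positivity
  have h1 : 2 - 1 - fld z (2 ^ p) 2 < 2 := by omega
  refine fld_ext (s := 2 ^ p) (Q := 2) ?_ ?_ ?_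
  · rw [setF_div h0 h1, ← pow_succ', Nat.xor_div_two_pow, Nat.div_eq_of_lt
      (Nat.pow_lt_pow_right (by norm_num) (by omega)), Nat.xor_zero]
  · rw [fld_setF h0 h1, fld, fld, Nat.xor_div_two_pow, Nat.div_self h0]
    generalize z / 2 ^ p = y
    have := Nat.xor_mod_two_eq (m := y) (n := 1)
    omega
  · rw [setF_mod h0, Nat.xor_mod_two_pow, Nat.mod_self, Nat.xor_zero]

lemma Pm.flip {p : γ → ℕ} (hp : In polyB p) (hd : Dom polyB p) (h : ∀ c, 2 ^ (p c + 1) ∣ w.N c) :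
    Pm w μ fun c z => z ^^^ 2 ^ p c :=
  (Fd.revN (s := fun c => 2 ^ p c) (Q := fun _ => 2) ⟨by fun_prop, by fun_prop,
    fun c => by rw [← pow_succ']; exact h c⟩).congr fun c z _ => (xor_eq_setF _ _).symm

/-! modular maps on one axis -/

def axm (s Q : ℕ) (g : ℕ → ZMod Q → ZMod Q) (z : ℕ) : ℕ :=
  setF z s Q (g (z / (Q * s)) (fld z s Q)).val

def Ax (w : Wd γ) (s Q : γ → ℕ) (g : ∀ c, ℕ → ZMod (Q c) → ZMod (Q c)) : Prop :=
  Pm w (fun _ => 0) fun c => axm (s c) (Q c) (g c)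

lemma Fd.ax_comp (h : Fd w s Q) {g g'} (h1 : Ax w s Q g) (h2 : Ax w s Q g') :
    Ax w s Q fun c a x => g c a (g' c a x) :=
  (Pm.comp h1 h2).congr fun c z _ => by
    have : NeZero (Q c) := ⟨(h.hQ c).ne'⟩
    unfold axm
    rw [setF_setF (h.hs c) (ZMod.val_lt _), setF_div (h.hs c) (ZMod.val_lt _),
      fld_setF (h.hs c) (ZMod.val_lt _), ZMod.natCast_zmod_val]

lemma Ax.congr {g g'} (h : Ax w s Q g) (e : ∀ c a x, g c a x = g' c a x) : Ax w s Q g' :=
  Pm.congr h fun c z _ => by unfold axm; rw [e]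

lemma Fd.ax (h : Fd w s Q) {g : ∀ c, ℕ → ZMod (Q c) → ZMod (Q c)} {σ : γ → ℕ → ℕ → ℕ}
    (h1 : Pm w (fun _ => 0) fun c z =>
      setF z (s c) (Q c) (σ c (z / (Q c * s c)) (fld z (s c) (Q c))))
    (e : ∀ c a, ∀ x < Q c, σ c a x < Q c ∧ (σ c a x : ZMod (Q c)) = g c a x) : Ax w s Q g :=
  h1.congr fun c z _ => by
    have := e c (z / (Q c * s c)) _ (fld_lt z (s c) (h.hQ c))
    rw [axm, ← this.2, ZMod.val_natCast, Nat.mod_eq_of_lt this.1]

/-- residues computed in polynomial time -/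
def Zc (Q : δ → ℕ) (g : ∀ c, ZMod (Q c)) : Prop :=
  ∃ f : δ → ℕ, In polyB f ∧ ∀ c, 0 < Q c → (f c : ZMod (Q c)) = g c

section
variable {R : δ → ℕ} {g g' : ∀ c, ZMod (R c)}

lemma Zc.nat {f : δ → ℕ} (h : In polyB f) : Zc R fun c => f c := ⟨f, h, fun _ _ => rfl⟩

lemma Zc.add (h : Zc R g) (h' : Zc R g') : Zc R fun c => g c + g' c :=
  let ⟨f, a, b⟩ := h; let ⟨f', a', b'⟩ := h'
  ⟨fun c => f c + f' c, a.add a', fun c hc => by rw [Nat.cast_add, b c hc, b' c hc]⟩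

lemma Zc.mul (h : Zc R g) (h' : Zc R g') : Zc R fun c => g c * g' c :=
  let ⟨f, a, b⟩ := h; let ⟨f', a', b'⟩ := h'
  ⟨fun c => f c * f' c, a.mul a', fun c hc => by rw [Nat.cast_mul, b c hc, b' c hc]⟩

lemma Zc.congr (h : Zc R g) (e : ∀ c, 0 < R c → g c = g' c) : Zc R g' :=
  let ⟨f, a, b⟩ := h; ⟨f, a, fun c hc => by rw [b c hc, e c hc]⟩

lemma Zc.neg (hR : In polyB R) (h : Zc R g) : Zc R fun c => -g c :=
  ((Zc.nat (f := fun c => R c - 1) (by fun_prop)).mul h).congr fun c hc => by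
    rw [Nat.cast_pred hc, ZMod.natCast_self]; ring

lemma Zc.int (hR : In polyB R) (a : ℤ) : Zc R fun _ => a := by
  obtain ⟨n, rfl | rfl⟩ := a.eq_nat_or_neg
  · exact (Zc.nat (In.const n)).congr fun _ _ => by simp
  · exact ((Zc.nat (In.const n)).neg hR).congr fun _ _ => by simp

lemma Zc.sum {ι : Type} (t : Finset ι) {G : ι → ∀ c, ZMod (R c)} (h : ∀ i ∈ t, Zc R (G i)) :
    Zc R fun c => ∑ i ∈ t, G i c := by
  classical
  induction t using Finset.induction_on with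
  | empty => exact (Zc.nat (In.const 0)).congr fun _ _ => by simp
  | insert a t ha ih =>
    exact ((h a (by simp)).add (ih fun i hi => h i (by simp [hi]))).congr fun _ _ => by
      rw [Finset.sum_insert ha]
end

def kk (k Q y : ℕ) : ℕ := ∑ j ∈ Finset.range k, if (y + j * Q) % k = 0 then j else 0

@[fun_prop] lemma In.kk (k : ℕ) {Q y : α → ℕ} (hQ : In polyB Q) (hy : In polyB y) :
    In polyB fun a => kk k (Q a) (y a) := by unfold P338.kk; fun_prop

lemma kk_eq {k Q y j : ℕ} (h : k.Coprime Q) (hj : j < k) (hd : k ∣ y + j * Q) : kk k Q y = j := by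
  rw [kk, Finset.sum_eq_single j (fun i hi hij => if_neg fun h0 => hij ?_) (by simp [hj]),
    if_pos (Nat.mod_eq_zero_of_dvd hd)]
  have h1 : y + i * Q ≡ y + j * Q [MOD k] := by
    rw [Nat.ModEq, h0, Nat.mod_eq_zero_of_dvd hd]
  exact Nat.ModEq.eq_of_lt_of_lt (Nat.ModEq.cancel_right_of_coprime h
    (Nat.ModEq.add_left_cancel' _ h1)) (Finset.mem_range.1 hi) hj

lemma kk_spec {k Q : ℕ} (hk : 0 < k) (h : k.Coprime Q) (y : ℕ) :
    kk k Q y < k ∧ k ∣ y + kk k Q y * Q := by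
  have : NeZero k := ⟨hk.ne'⟩
  have h1 : k ∣ y + (-(y : ZMod k) * (Q : ZMod k)⁻¹).val * Q := by
    rw [← ZMod.natCast_eq_zero_iff]
    push_cast
    rw [ZMod.natCast_zmod_val, mul_assoc, mul_comm _ (Q : ZMod k), ZMod.coe_mul_inv_eq_one _ h.symm]
    ring
  rw [kk_eq h (ZMod.val_lt _) h1]
  exact ⟨ZMod.val_lt _, h1⟩

def dvc (k Q y : ℕ) : ℕ := (y + kk k Q y * Q) / k

lemma dvc_mul {k Q : ℕ} (hk : 0 < k) (h : k.Coprime Q) (y : ℕ) :
    k * dvc k Q y = y + kk k Q y * Q := Nat.mul_div_cancel' (kk_spec hk h y).2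

lemma dvc_cast {k Q : ℕ} (hk : 0 < k) (h : k.Coprime Q) (y : ℕ) :
    (dvc k Q y : ZMod Q) = (k : ZMod Q)⁻¹ * y := by
  have := congrArg (Nat.cast : ℕ → ZMod Q) (dvc_mul hk h y)
  push_cast at this
  rw [ZMod.natCast_self, mul_zero, add_zero] at this
  rw [← this, ← mul_assoc, mul_comm _ (k : ZMod Q), ZMod.coe_mul_inv_eq_one _ h, one_mul]

lemma mul_dvc {k Q x : ℕ} (hk : 0 < k) (h : k.Coprime Q) (hx : x < Q) :
    k * x / Q < k ∧ kk k Q (k * x % Q) = k * x / Q ∧ dvc k Q (k * x % Q) = x := by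
  have h1 : k * x / Q < k := by rw [Nat.div_lt_iff_lt_mul (by omega)]; nlinarith
  have h2 := kk_eq (y := k * x % Q) h h1 (by rw [Nat.mod_add_div']; exact dvd_mul_right _ _)
  exact ⟨h1, h2, by rw [dvc, h2, Nat.mod_add_div', Nat.mul_div_cancel_left _ hk]⟩

lemma dvc_mul' {k Q y : ℕ} (hk : 0 < k) (h : k.Coprime Q) (hy : y < Q) :
    dvc k Q y < Q ∧ k * dvc k Q y / Q = kk k Q y ∧ k * dvc k Q y % Q = y := by
  have h1 := dvc_mul hk h y
  have h2 := (kk_spec hk h y).1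
  refine ⟨lt_of_mul_lt_mul_left (a := k) (by nlinarith) (by omega), ?_, ?_⟩
  · rw [h1, add_comm, lex_div hy]
  · rw [h1, add_comm, lex_mod hy]

lemma Fd.rot (h : Fd w s Q) {g : ∀ p : γ × ℕ, ZMod (Q p.1)} (hg : Zc (fun p : γ × ℕ => Q p.1) g) :
    Ax w s Q fun c a x => x + g (c, a) :=
  let ⟨f, a, b⟩ := hg
  h.ax (σ := fun c a x => (x + f (c, a)) % Q c) (h.rotN (f := fun c a => f (c, a)) a)
    fun c a x _ => ⟨Nat.mod_lt _ (h.hQ c), by rw [← b (c, a) (h.hQ c)]; simp⟩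

lemma Fd.neg (h : Fd w s Q) : Ax w s Q fun _ _ x => -x := by
  have h1 : Ax w s Q fun _ _ x => -1 - x := h.ax (σ := fun c _ x => Q c - 1 - x) h.revN
    fun c a x hx => ⟨by omega, by
      rw [Nat.cast_sub (by omega), Nat.cast_pred (by omega), ZMod.natCast_self]; ring⟩
  exact (h.ax_comp h1 (h.rot (Zc.int (h.pQ.comp In.id.fst) (-1)))).congr fun c a x => by simp

lemma Fd.mulc (h : Fd w s Q) {k : ℕ} (hk : 0 < k) (hc : ∀ c, k.Coprime (Q c)) :
    Ax w s Q fun _ _ x => k * x := by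
  have := h.pQ
  have b1 : In polyB fun p : γ × ℕ × ℕ => kk k (Q p.1) p.2.2 := by fun_prop
  have b2 : In polyB fun p : γ × ℕ × ℕ => k * p.2.2 / Q p.1 := by fun_prop
  refine h.ax (σ := fun c _ x => k * x % Q c) (h.axis k (ki := fun c _ y => kk k (Q c) y)
    (ko := fun c _ x => k * x / Q c) (σ := fun c _ x => k * x % Q c) b1 b2
    (fun c a x _ x' _ e hlt => ?_)
    (fun c a x hx => ?_) fun c a y hy => ?_) fun c a x _ => ⟨Nat.mod_lt _ (h.hQ c), by simp⟩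
  · have h1 := Nat.div_add_mod (k * x) (Q c)
    have h2 := Nat.div_add_mod (k * x') (Q c)
    rw [e] at h1
    nlinarith
  · have := mul_dvc hk (hc c) hx
    exact ⟨this.1, Nat.mod_lt _ (h.hQ c), this.2.1⟩
  · have := dvc_mul' hk (hc c) hy
    exact ⟨_, this.1, this.2.2⟩

lemma Fd.divc (h : Fd w s Q) {k : ℕ} (hk : 0 < k) (hc : ∀ c, k.Coprime (Q c)) :
    Ax w s Q fun c _ x => (k : ZMod (Q c))⁻¹ * x := by
  have := h.pQ
  have b1 : In polyB fun p : γ × ℕ × ℕ => kk k (Q p.1) p.2.2 := by fun_prop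
  have b2 : In polyB fun p : γ × ℕ × ℕ => k * p.2.2 / Q p.1 := by fun_prop
  refine h.ax (σ := fun c _ x => dvc k (Q c) x) (h.axis k (ko := fun c _ y => kk k (Q c) y)
    (ki := fun c _ x => k * x / Q c) (σ := fun c _ x => dvc k (Q c) x) b2 b1
    (fun c a x _ x' _ e hlt => ?_)
    (fun c a x hx => ?_) fun c a y hy => ?_) fun c a x hx =>
      ⟨(dvc_mul' hk (hc c) hx).1, dvc_cast hk (hc c) x⟩
  · have h1 := dvc_mul hk (hc c) x
    have h2 := dvc_mul hk (hc c) x'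
    rw [e] at h1
    exact lt_of_mul_lt_mul_left (a := k) (by omega) (by omega)
  · have := dvc_mul' hk (hc c) hx
    exact ⟨(kk_spec hk (hc c) x).1, this.1, this.2.1⟩
  · exact ⟨_, Nat.mod_lt _ (h.hQ c), (mul_dvc hk (hc c) hy).2.2⟩

lemma inv_neg_nat {n Q : ℕ} (h : n.Coprime Q) : ((-n : ℤ) : ZMod Q)⁻¹ = -(n : ZMod Q)⁻¹ :=
  ZMod.inv_eq_of_mul_eq_one _ _ _ (by simp [ZMod.coe_mul_inv_eq_one _ h])

lemma Fd.zmul (h : Fd w s Q) {a : ℤ} (ha : a ≠ 0) (hc : ∀ c, a.natAbs.Coprime (Q c)) :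
    Ax w s Q fun _ _ x => a * x := by
  obtain ⟨n, rfl | rfl⟩ := a.eq_nat_or_neg
  · exact (h.mulc (k := n) (by omega) (by simpa using hc)).congr fun _ _ _ => by simp
  · exact (h.ax_comp h.neg (h.mulc (k := n) (by omega) (by simpa using hc))).congr
      fun _ _ _ => by simp

lemma Fd.zdiv (h : Fd w s Q) {a : ℤ} (ha : a ≠ 0) (hc : ∀ c, a.natAbs.Coprime (Q c)) :
    Ax w s Q fun c _ x => (a : ZMod (Q c))⁻¹ * x := by
  obtain ⟨n, rfl | rfl⟩ := a.eq_nat_or_neg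
  · exact (h.divc (k := n) (by omega) (by simpa using hc)).congr fun _ _ _ => by simp
  · exact (h.ax_comp h.neg (h.divc (k := n) (by omega) (by simpa using hc))).congr
      fun c _ _ => by rw [inv_neg_nat (by simpa using hc c)]; ring

lemma Zc.inv {R : δ → ℕ} (hR : In polyB R) {a : ℤ} (ha : a ≠ 0) (hc : ∀ c, a.natAbs.Coprime (R c)) :
    Zc R fun c => (a : ZMod (R c))⁻¹ := by
  have key : ∀ n : ℕ, 0 < n → (∀ c, n.Coprime (R c)) → Zc R fun c => (n : ZMod (R c))⁻¹ :=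
    fun n hn hc => ⟨fun c => dvc n (R c) 1, by unfold dvc; fun_prop, fun c _ => by
      rw [dvc_cast hn (hc c)]; simp⟩
  obtain ⟨n, rfl | rfl⟩ := a.eq_nat_or_neg
  · exact (key n (by omega) (by simpa using hc)).congr fun _ _ => by simp
  · exact ((key n (by omega) (by simpa using hc)).neg hR).congr
      fun c _ => by rw [inv_neg_nat (by simpa using hc c)]

lemma zinv_mul {a : ℤ} {Q : ℕ} (h : a.natAbs.Coprime Q) : (a : ZMod Q)⁻¹ * a = 1 := by
  obtain ⟨n, rfl | rfl⟩ := a.eq_nat_or_neg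
  · rw [mul_comm]; simpa using ZMod.coe_mul_inv_eq_one n (by simpa using h)
  · rw [inv_neg_nat (by simpa using h), mul_comm]
    simpa using ZMod.coe_mul_inv_eq_one n (by simpa using h)

end Vale.Agent.P338
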