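import Vale.Agent.P338.White

/-! Index permutations between the two layouts. -/

namespace Vale.Agent.P338

open Filter Cd Finset Function Complex Matrix

set_option linter.unusedSectionVars false
set_option linter.unusedVariables false

def Lens.act {ι : Type} (L : Lens ι) (H : ι → ι) (z : ℕ) : ℕ := L.set z (H (L.get z))

lemma Lens.act_act {ι : Type} (L : Lens ι) (H H' : ι → ι) (z : ℕ) :
    L.act H (L.act H' z) = L.act (fun x => H (H' x)) z := by simp only [Lens.act, L.gs, L.ss]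

lemma Lens.act_id {ι : Type} (L : Lens ι) (z : ℕ) : L.act (fun x => x) z = z := L.sg z

def Lens.rev {κ : Type} {D : ℕ} (L : Lens (Fin D → κ)) : Lens (Fin D → κ) where
  get z i := L.get z i.rev
  set z y := L.set z fun i => y i.rev
  gs z y := by simp only [L.gs, Fin.rev_rev]
  ss z y y' := L.ss _ _ _
  sg z := by simp only [Fin.rev_rev, L.sg]

lemma opM_rev {B κ : Type} [CommRing B] [Fintype κ] [DecidableEq κ] {D : ℕ} (L : Lens (Fin D → κ))
    (M : Fin D → Matrix κ κ B) (v : ℕ → B) : opM L (tens fun a => M a.rev) v = opM L.rev (tens M) v :=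
  funext fun z => by
    rw [opM, opM, ← (Fin.revPerm.arrowCongr (Equiv.refl κ)).sum_comp]
    refine sum_congr rfl fun y _ => congrArg₂ _ ?_ rfl
    simp only [tens, of_apply, Lens.rev]
    rw [← Equiv.prod_comp Fin.revPerm]
    simp

lemma dgL_up (D s e r z : ℕ) : (dgL D s (e + r)).get z = (dgL D s e).get (z / 2 ^ r) ∧
    ∀ y, (dgL D s (e + r)).set z y = (dgL D s e).set (z / 2 ^ r) y * 2 ^ r + z % 2 ^ r :=
  ⟨funext fun i => by simp only [dgL, dg, pow_add]; rw [mul_right_comm, fld_wire],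
    fun y => by simp only [dgL, pow_add, setF_wire]⟩

lemma dgL_ext {D s e z z' : ℕ} (h1 : z / 2 ^ (e + D * s) = z' / 2 ^ (e + D * s))
    (h2 : ∀ a < D, fld z (2 ^ (e + a * s)) (2 ^ s) = fld z' (2 ^ (e + a * s)) (2 ^ s))
    (h3 : z % 2 ^ e = z' % 2 ^ e) : z = z' := by
  refine fld_ext (s := 2 ^ e) (Q := (2 ^ s) ^ D) (by rwa [← pow_mul, ← pow_add, add_comm, mul_comm]) ?_ h3
  rw [fld_pow, fld_pow]
  exact sum_congr rfl fun a _ => by rw [← pow_mul, ← pow_add, mul_comm s, h2 a a.2]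

lemma dgL_set {D s e : ℕ} (z : ℕ) (y) : (∀ t, e + D * s ≤ t → (dgL D s e).set z y / 2 ^ t = z / 2 ^ t) ∧
    (∀ t ≤ e, (dgL D s e).set z y % 2 ^ t = z % 2 ^ t) ∧
    (∀ t u, e + D * s ≤ t → fld ((dgL D s e).set z y) (2 ^ t) u = fld z (2 ^ t) u) ∧
    (∀ t u, t + u ≤ e → fld ((dgL D s e).set z y) (2 ^ t) (2 ^ u) = fld z (2 ^ t) (2 ^ u)) ∧
    ∀ a : Fin D, fld ((dgL D s e).set z y) (2 ^ (e + a * s)) (2 ^ s) = (y a).val := by
  have a := (und_spec (Nat.two_pow_pos s) y).1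
  have b : ∀ t, e + D * s ≤ t → (2 ^ s) ^ D * 2 ^ e ∣ 2 ^ t := fun t h => by
    rw [← pow_mul, ← pow_add]; exact pow_dvd_pow _ (by linarith)
  exact ⟨fun t h => setF_div_outer (by positivity) a (b t h), fun t h => setF_mod_inner (by positivity)
    (pow_dvd_pow _ h), fun t u h => fld_setF_outer (by positivity) a (b t h), fun t u h =>
    fld_setF_inner (by positivity) (by rw [← pow_add]; exact pow_dvd_pow _ (by omega)),
    fun a => by rw [← dgL_val, Lens.gs]⟩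

lemma swp_act {D s e : ℕ} (a b : Fin D) (z : ℕ) : swp (2 ^ (e + a * s)) (2 ^ (e + b * s)) (2 ^ s) z =
    (dgL D s e).act (fun x => x ∘ Equiv.swap b a) z := by
  rw [swp, ← dgL_val, ← dgL_val, ← dgL_upd, ← dgL_upd, Lens.gs, Lens.ss, Lens.act, Equiv.comp_swap_eq_update]

def Rv (D s e : ℕ) : ℕ → ℕ := (dgL (D + 1) s e).act fun x i => x i.rev

lemma Rv_Rv (D s e z : ℕ) : Rv D s e (Rv D s e z) = z := by
  simp only [Rv, Lens.act_act, Fin.rev_rev, Lens.act_id]

lemma Rv_fld {D s e a : ℕ} (h : a ≤ D) (z : ℕ) :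
    fld (Rv D s e z) (2 ^ (e + a * s)) (2 ^ s) = fld z (2 ^ (e + (D - a) * s)) (2 ^ s) :=
  ((dgL_set z _).2.2.2.2 ⟨a, by omega⟩).trans ((dgL_val _ _).trans (by simp))

lemma Rv_get (D s e z : ℕ) : (dgL D s e).rev.get (Rv D s e z) = (dgL D s (e + s)).get z := funext fun i =>
  ZMod.val_injective _ (by
    rw [Lens.rev, dgL_val, dgL_val, Rv_fld (by omega), Fin.val_rev, show D - (D - (i + 1)) = i + 1 by omega]
    congr 2; ring)

lemma Rv_set (D s e z : ℕ) (y) :
    Rv D s e ((dgL D s (e + s)).set z y) = (dgL D s e).rev.set (Rv D s e z) y := by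
  obtain ⟨a1, a2, -, a4, a5⟩ := dgL_set (e := e + s) z y
  obtain ⟨b1, b2, b3, -, b5⟩ := dgL_set (e := e) (Rv D s e z) fun i => y i.rev
  refine dgL_ext (D := D + 1) (s := s) (e := e) ?_ (fun a ha => ?_) ?_
  · exact ((dgL_set _ _).1 _ le_rfl).trans ((a1 _ (by linarith)).trans
      ((b1 _ (by nlinarith)).trans ((dgL_set _ _).1 _ le_rfl)).symm)
  · rw [Rv_fld (by omega)]
    rcases (Nat.le_of_lt_succ ha).eq_or_lt with rfl | h
    · rw [a4 _ _ (by simp)]; exact ((b3 _ _ le_rfl).trans (Rv_fld le_rfl _)).symm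
    · refine .trans ?_ ((a5 (Fin.rev ⟨a, h⟩)).trans (b5 ⟨a, h⟩).symm)
      rw [Fin.val_rev, show D - a = D - (a + 1) + 1 by omega]
      congr 2; ring
  · exact ((dgL_set _ _).2.1 _ le_rfl).trans ((a2 _ (by omega)).trans
      ((b2 _ le_rfl).trans ((dgL_set _ _).2.1 _ le_rfl)).symm)

section
variable {s1 s2 Q : ℕ} (h2 : 0 < s2) (hQ : 0 < Q) (h1 : 0 < s1) (hd : Q * s2 ∣ s1)
include h2 hQ

lemma setF_hi {N : ℕ} (h : Q * s2 ∣ N) (J u x : ℕ) : setF (J * N + u) s2 Q x = J * N + setF u s2 Q x ∧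
    fld (J * N + u) s2 Q = fld u s2 Q := by
  obtain ⟨m, rfl⟩ := h
  have a : J * (Q * s2 * m) + u = u + s2 * (Q * (J * m)) := by ring
  constructor
  · rw [setF, setF, div_mul', div_mul', a, Nat.add_mul_div_left _ _ h2, Nat.add_mul_div_left _ _ hQ,
      Nat.add_mul_mod_self_left]; ring
  · rw [fld, fld, a, Nat.add_mul_div_left _ _ h2, Nat.add_mul_mod_self_left]

include h1 hd

lemma swp_hi {N : ℕ} (h : Q * s1 ∣ N) (J u : ℕ) : swp s1 s2 Q (J * N + u) = J * N + swp s1 s2 Q u := by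
  have h' := hd.trans ((dvd_mul_left _ _).trans h)
  rw [swp, swp, (setF_hi h2 hQ h' _ _ 0).2, (setF_hi h1 hQ h _ _ 0).2, (setF_hi h1 hQ h _ _ _).1,
    (setF_hi h2 hQ h' _ _ _).1]

lemma swp_swp (z : ℕ) : swp s1 s2 Q (swp s1 s2 Q z) = z := by
  have m := (Nat.div_mul_cancel hd).dvd
  refine ext5 hd ?_ ?_ ?_ ?_ ?_ <;> simp only [swp_div h2 hQ h1 hd dvd_rfl, swp_fld1 h2 hQ h1 hd,
    swp_fld2 h2 hQ, swp_mid h2 hQ h1 dvd_rfl m, swp_mod h2 h1 hd dvd_rfl]

lemma swp_set (z : ℕ) {x : ℕ} (hx : x < Q) :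
    swp s1 s2 Q (setF z s2 Q x) = setF (swp s1 s2 Q z) s1 Q x := by
  have m := (Nat.div_mul_cancel hd).dvd
  refine ext5 hd ?_ ?_ ?_ ?_ ?_ <;> simp only [swp_div h2 hQ h1 hd dvd_rfl, swp_fld1 h2 hQ h1 hd,
    swp_fld2 h2 hQ, swp_mid h2 hQ h1 dvd_rfl m, swp_mod h2 h1 hd dvd_rfl, setF_div h1 hx, fld_setF h1 hx,
    fld_setF h2 hx, setF_div_outer h2 hx (hd.trans (dvd_mul_left _ _)), fld_setF_outer h2 hx dvd_rfl,
    fld_setF_inner h1 m, fld_setF_outer h2 hx hd, fld_setF_inner h1 hd, setF_mod h2,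
    setF_mod_inner h1 ((dvd_mul_left _ _).trans hd)]

end

def sg (P p : ℕ) : ℕ → ℕ := swp (2 ^ P) (2 ^ p) 2

section
variable {P p : ℕ} (h : p < P)
include h

lemma sg_dvd : 2 * 2 ^ p ∣ 2 ^ P := by rw [← pow_succ']; exact pow_dvd_pow _ h

lemma sg_sg (z : ℕ) : sg P p (sg P p z) = z :=
  swp_swp (by positivity) two_pos (by positivity) (sg_dvd h) z

lemma sg_bt (z : ℕ) : (bt P (sg P p z) = bt p z ∧ sg P p (z ^^^ 2 ^ p) = sg P p z ^^^ 2 ^ P) ∧
    bt p (sg P p z) = bt P z ∧ sg P p (z ^^^ 2 ^ P) = sg P p z ^^^ 2 ^ p := by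
  have a : ∀ z, sg P p (z ^^^ 2 ^ p) = sg P p z ^^^ 2 ^ P := fun z => by
    rw [xor_eq_setF, xor_eq_setF, sg, swp_set (by positivity) two_pos (by positivity) (sg_dvd h) _ (by omega),
      swp_fld1 (by positivity) two_pos (by positivity) (sg_dvd h)]
  refine ⟨⟨swp_fld1 (by positivity) two_pos (by positivity) (sg_dvd h), a z⟩,
    swp_fld2 (by positivity) two_pos, ?_⟩
  rw [← sg_sg h (_ ^^^ 2 ^ p), a, sg_sg h]

lemma sg_up (D s z : ℕ) : (dgL D s (P + 1)).get (sg P p z) = (dgL D s (P + 1)).get z ∧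
    ∀ y, sg P p ((dgL D s (P + 1)).set z y) = (dgL D s (P + 1)).set (sg P p z) y := by
  have e := (pow_succ' 2 P).symm.dvd
  have a := swp_div (z := z) (by positivity) two_pos (by positivity) (sg_dvd h) e
  have b := fun J u => swp_hi (by positivity) two_pos (by positivity) (sg_dvd h) e J u
  have c := b (z / 2 ^ (P + 1)) (z % 2 ^ (P + 1))
  rw [Nat.div_add_mod'] at c
  rw [← zero_add (P + 1)]
  simp only [dgL_up, sg, a, b, true_and]
  intro y
  rw [c, lex_mod (swp_lt (by positivity) two_pos (by positivity) (sg_dvd h) e (Nat.mod_lt _ (by positivity)))]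

end

variable {γ : Type} [Cd γ] {w : Wd γ} {μ μ' k p ψ T D s e : γ → ℕ} {ν : ℕ → ℕ}

lemma NOp.act {H : ∀ c, (Fin (D c) → ZMod (2 ^ s c)) → Fin (D c) → ZMod (2 ^ s c)}
    (h : Pm (w.zp k) μ fun c => (dgL (D c) (s c) (e c + (p c + 1))).act (H c)) : NOp w k μ ψ p p (fun _ => 1)
      fun c v z => v ((dgL (D c) (s c) (e c + (p c + 1))).act (H c) z) :=
  NOp.pm h fun c z => by simp only [Lens.act, dgL_up, bt_up, xor_up, xor_up', true_and]

theorem revP : ∃ (K : ℕ) (a : ℝ), 0 < a ∧ a < 1 ∧ ∀ (γ : Type) [Cd γ] (w : Wd γ) (μ D s e : γ → ℕ),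
    In polyB D → In polyB s → In polyB e → (∀ c, K * s c ≤ e c ∧ 2 ^ (e c + (D c + 1) * s c) ∣ w.N c) →
    (∃ C, ∀ c, D c * (pw a (s c) + 1) ≤ C * (μ c + 1)) → Pm w μ fun c => Rv (D c) (s c) (e c) := by
  obtain ⟨K, a, a0, a1, h⟩ := swapQ
  refine ⟨K, a, a0, a1, fun γ _ w μ D s e pD ps pe H ⟨C, hμ⟩ => ?_⟩
  have v := In.id.val (B := polyB) (α := {p : γ × ℕ // p.2 < (D p.1 + 1) / 2})
  have d := (w.domE fun c => (H c).2).comp v.fst
  have p1 := ((pe.comp v.fst).add (((pD.comp v.fst).sub v.snd).mul (ps.comp v.fst))).pow2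
    (d.mono' fun x => Nat.add_le_add_left (Nat.mul_le_mul_right _ (by omega)) _)
  have p2 := ((pe.comp v.fst).add (v.snd.mul (ps.comp v.fst))).pow2
    (d.mono' fun x => Nat.add_le_add_left (Nat.mul_le_mul_right _ (by have := x.2; omega)) _)
  have ds := d.mono' (s := fun x => s x.1.1) fun x => by nlinarith
  have h1 := h _ (w.ext fun c => (D c + 1) / 2) _ _ _ _ p1 p2 ((ps.comp v.fst).pow2 ds) (ps.comp v.fst) ds
    (fun _ => le_rfl) (fun x => by
      rw [← pow_add]; exact pow_dvd_pow _ (by have := x.2; nlinarith [show x.1.2 + 1 ≤ D x.1.1 - x.1.2 by omega]))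
    (fun x => by
      rw [← pow_add]; exact (pow_dvd_pow _ (by nlinarith [Nat.sub_le (D x.1.1) x.1.2])).trans (H x.1.1).2)
    fun x => pow_dvd_pow _ (by have := (H x.1.1).1; omega)
  refine (Pm.loop (μ' := fun c => pw a (s c)) ((pD.add (In.const 1)).div (In.const 2))
    ⟨C, fun c => le_trans (Nat.mul_le_mul_right _ (by omega)) (hμ c)⟩
    (σ := fun c j => swp (2 ^ (e c + (D c - j) * s c)) (2 ^ (e c + j * s c)) (2 ^ s c))
    (τ := fun c j => (dgL (D c + 1) (s c) (e c)).act fun x i => x (if i < j ∨ D c - j < i then i.rev else i)) h1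
    (fun c z => ?_) fun c j hj z => ?_).congr fun c z _ => ?_
  · refine .trans (congrFun (congrArg _ (funext fun x => funext fun i => ?_)) z) (Lens.act_id _ _)
    rw [if_neg (by omega)]
  · rw [swp_act (⟨D c - j, by omega⟩ : Fin (D c + 1)) ⟨j, by omega⟩, Lens.act_act]
    refine congrFun (congrArg _ (funext fun x => funext fun i => congrArg x (Fin.ext ?_))) z
    simp only [Equiv.swap_apply_def, Fin.ext_iff, apply_ite Fin.val, Fin.val_rev]
    split_ifs <;> omega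
  · refine congrFun (congrArg _ (funext fun x => funext fun i => congrArg x (Fin.ext ?_))) z
    simp only [apply_ite Fin.val, Fin.val_rev]
    split_ifs <;> omega

def rq (q g x : ℕ) : ℕ := if x < q then (x + g) % q else x

lemma rq_eq {q g : ℕ} (h : g < q) (x : ℕ) :
    rq q g x = if x < q then if x + g < q then x + g else x + g - q else x := by
  unfold rq
  split_ifs with a b
  · exact Nat.mod_eq_of_lt b
  · rw [Nat.mod_eq_sub_mod (by omega), Nat.mod_eq_of_lt (by omega)]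
  · rfl

lemma Fd.rotq {s Q q : γ → ℕ} (h : Fd w s Q) {g : γ → ℕ → ℕ} (pq : In polyB q)
    (pg : In polyB fun p : γ × ℕ => g p.1 p.2) (hq : ∀ c, q c ≤ Q c) (hg : ∀ c a, g c a < q c) :
    Pm w μ fun c z => setF z (s c) (Q c) (rq (q c) (g c (z / (Q c * s c))) (P338.fld z (s c) (Q c))) := by
  have q' := pq.comp (In.id.fst (α := γ × ℕ × ℕ))
  have g' := pg.comp (In.id.fst.pair (In.id.snd.fst (α := γ × ℕ × ℕ)))
  have x := In.id.snd.snd (B := polyB) (α := γ × ℕ × ℕ)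
  have i1 := In.ite (Dec.lt x q') (In.ite (Dec.le g' x) (In.const 0) (In.const 1)) (In.const 2)
  have i2 := In.ite (Dec.lt x q') (In.ite (Dec.lt (x.add g') q') (In.const 0) (In.const 1)) (In.const 2)
  refine h.axis 3 (σ := fun c a x => rq (q c) (g c a) x)
    (ki := fun c a y => if y < q c then if g c a ≤ y then 0 else 1 else 2)
    (ko := fun c a x => if x < q c then if x + g c a < q c then 0 else 1 else 2) i1 i2
    (fun c a x _ x' _ => ?_) (fun c a x _ => ?_) fun c a y _ =>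
      ⟨if y < q c then if g c a ≤ y then y - g c a else y + q c - g c a else y, ?_⟩ <;>
    have := hg c a <;> have := hq c <;> simp only [rq_eq (hg c a)] <;> split_ifs <;> intros <;>
    first | contradiction | omega

def mS {D s : ℕ} (q : ℕ → ℕ) (x : Fin D → ZMod (2 ^ s)) (i : ℕ) : ℕ :=
  ∑ a : Fin D, if (a : ℕ) < i then (x a).val * ∏ b ∈ range a, q b else 0

def Rf {D s : ℕ} (q : ℕ → ℕ) (G : ℕ → ℕ → ℕ) (j : ℕ) (x : Fin D → ZMod (2 ^ s)) (i : Fin D) : ZMod (2 ^ s) :=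
  if (i : ℕ) = j then (rq (q j) (G j (mS q x j)) (x i).val : ℕ) else x i

lemma mS_Rf {D s : ℕ} (q : ℕ → ℕ) (G : ℕ → ℕ → ℕ) {i j : ℕ} (h : i ≤ j) (x : Fin D → ZMod (2 ^ s)) :
    mS q (Rf q G j x) i = mS q x i :=
  sum_congr rfl fun a _ => by split_ifs with b <;> [rw [Rf, if_neg (by omega)]; rfl]

lemma rot_eq {D s e j : ℕ} (hj : j < D) (q : ℕ → ℕ) (G : ℕ → ℕ → ℕ) (hq : q j ≤ 2 ^ s) (hG : ∀ a, G j a < q j)
    (z : ℕ) : setF z (2 ^ (e + (D - (j + 1)) * s)) (2 ^ s) (rq (q j) (G j (∑ a ∈ range D, if a < j then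
      fld (z / (2 ^ s * 2 ^ (e + (D - (j + 1)) * s)) * (2 ^ s * 2 ^ (e + (D - (j + 1)) * s)))
        (2 ^ (e + (D - (a + 1)) * s)) (2 ^ s) * ∏ b ∈ range a, q b else 0))
      (fld z (2 ^ (e + (D - (j + 1)) * s)) (2 ^ s))) = (dgL D s e).rev.act (Rf q G j) z := by
  have a : (fun i => Rf q G j ((dgL D s e).rev.get z) (Fin.rev i)) = update ((dgL D s e).get z) (Fin.rev ⟨j, hj⟩)
      (rq (q j) (G j (mS q ((dgL D s e).rev.get z) j)) (fld z (2 ^ (e + (D - (j + 1)) * s)) (2 ^ s)) : ℕ) :=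
    funext fun i => by
      rw [Rf, update_apply]
      simp only [Lens.rev, Fin.rev_rev, dgL_val, Fin.ext_iff, Fin.val_rev]
      split_ifs with b c
      · rw [c]
      all_goals first | rfl | omega
  refine .trans ?_ ((congrArg _ a).trans (dgL_upd _ _ _)).symm
  rw [ZMod.val_cast_of_lt (by
    have := fld_lt z (2 ^ (e + (D - (j + 1)) * s)) (Nat.two_pow_pos s)
    rw [rq_eq (hG _)]; have := hG (mS q ((dgL D s e).rev.get z) j); split_ifs <;> omega), mS,
    ← Fin.sum_univ_eq_sum_range]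
  congr 3
  refine sum_congr rfl fun b _ => ?_
  split_ifs with h
  · rw [fld_trunc (by positivity) (by
      rw [← pow_add]; exact pow_dvd_pow _ (by nlinarith [show D - (j + 1) + 1 ≤ D - (b + 1) by omega]))]
    exact congrArg (· * _) (dgL_val _ (Fin.rev b)).symm
  · rfl

section
variable (pD : In polyB D) (ps : In polyB s) (pe : In polyB e) (dD : Dom polyB D)
  (dv : ∀ c, 2 ^ (e c + D c * s c) ∣ w.N c)
  {q : γ → ℕ → ℕ} (pq : In polyB fun x : γ × ℕ => q x.1 x.2) (hq : ∀ c a, 0 < q c a ∧ q c a ≤ 2 ^ s c)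
include pD ps pe dD dv pq hq

lemma rotL {G : γ → ℕ → ℕ → ℕ} (pG : In polyB fun x : {x : γ × ℕ // x.2 < D x.1} × ℕ => G x.1.1.1 x.1.1.2 x.2)
    (hG : ∀ c j a, G c j a < q c j) : Pm (w.ext D) (fun _ => 0) fun x =>
      (dgL (D x.1.1) (s x.1.1) (e x.1.1)).rev.act (Rf (q x.1.1) (G x.1.1) x.1.2) := by
  have v := In.id.val (B := polyB) (α := {p : γ × ℕ // p.2 < D p.1})
  have d0 := w.domE dv
  have pw : In polyB fun x : γ × ℕ => 2 ^ (e x.1 + (D x.1 - (x.2 + 1)) * s x.1) :=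
    ((pe.comp In.id.fst).add (((pD.comp In.id.fst).sub (In.id.snd.add (In.const 1))).mul (ps.comp In.id.fst))).pow2
      ((d0.comp In.id.fst).mono' fun x => by nlinarith [Nat.sub_le (D x.1) (x.2 + 1)])
  have pτ := (ps.comp v.fst).pow2 ((d0.comp v.fst).mono' fun x => by have := x.2; nlinarith)
  have fd : Fd (w.ext D) (fun x => 2 ^ (e x.1.1 + (D x.1.1 - (x.1.2 + 1)) * s x.1.1)) fun x => 2 ^ s x.1.1 :=
    ⟨pw.comp v, pτ, fun x => by
      rw [← pow_add]; exact (pow_dvd_pow _ (by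
        have := x.2; nlinarith [show D x.1.1 - (x.1.2 + 1) + 1 ≤ D x.1.1 by omega])).trans (dv x.1.1)⟩
  have u := In.id.fst.fst (B := polyB) (α := ({p : γ × ℕ // p.2 < D p.1} × ℕ) × Un)
  have a := In.id.snd.unval (B := polyB) (α := ({p : γ × ℕ // p.2 < D p.1} × ℕ) × Un)
  have t := In.id.fst.fst.fst.val.fst.pair
    (In.id.snd (B := polyB) (α := (({p : γ × ℕ // p.2 < D p.1} × ℕ) × Un) × ℕ))
  have t' := pq.comp t
  have da := Dom.unval (B := polyB) (In.id.snd (α := ({p : γ × ℕ // p.2 < D p.1} × ℕ) × Un))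
  have f0 := In.fprod (g := fun (y : ({p : γ × ℕ // p.2 < D p.1} × ℕ) × Un) b => q y.1.1.1.1 b) a da t'
  have f1 := In.ite (Dec.lt a u.val.snd) (((In.id.fst.snd.mul ((pτ.comp u).mul (pw.comp u.val))).fld
    (pw.comp (u.val.fst.pair a)) (pτ.comp u)).mul f0) (In.const 0)
  have u' := In.id.fst (B := polyB) (α := {p : γ × ℕ // p.2 < D p.1} × ℕ)
  have d1 := dD.comp u'.val.fst
  have f2 := In.usum (g := fun (y : {p : γ × ℕ // p.2 < D p.1} × ℕ) a => if a < y.1.1.2 then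
    fld (y.2 * (2 ^ s y.1.1.1 * 2 ^ (e y.1.1.1 + (D y.1.1.1 - (y.1.1.2 + 1)) * s y.1.1.1)))
      (2 ^ (e y.1.1.1 + (D y.1.1.1 - (a + 1)) * s y.1.1.1)) (2 ^ s y.1.1.1) * ∏ b ∈ range a, q y.1.1.1 b else 0)
    (pD.comp u'.val.fst) d1 f1
  have f3 := pG.comp (u'.pair f2)
  have f4 := fd.rotq (μ := fun _ => 0) (g := fun x y => G x.1.1 x.1.2 (∑ a ∈ range (D x.1.1), if a < x.1.2 then
    fld (y * (2 ^ s x.1.1 * 2 ^ (e x.1.1 + (D x.1.1 - (x.1.2 + 1)) * s x.1.1)))
      (2 ^ (e x.1.1 + (D x.1.1 - (a + 1)) * s x.1.1)) (2 ^ s x.1.1) * ∏ b ∈ range a, q x.1.1 b else 0))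
    (pq.comp v) f3 (fun x => (hq _ _).2) fun x a => hG _ _ _
  exact f4.congr fun x z _ => rot_eq x.2 _ _ (hq _ _).2 (hG _ _) z

lemma rotP (hμ : ∃ C, ∀ c, D c * (0 + 1) ≤ C * (μ c + 1)) {cc : γ → ℕ → ℕ}
    (pc : In polyB fun x : {x : γ × ℕ // x.2 < D x.1} => cc x.1.1 x.1.2) :
    ∃ H H' : ∀ c, (Fin (D c) → ZMod (2 ^ s c)) → Fin (D c) → ZMod (2 ^ s c),
      Pm w μ (fun c => (dgL (D c) (s c) (e c)).rev.act (H c)) ∧
      Pm w μ (fun c => (dgL (D c) (s c) (e c)).rev.act (H' c)) ∧ (∀ c x, H c (H' c x) = x) ∧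
      (∀ c x, H' c (H c x) = x) ∧
      ∀ c x i, H' c x i = (rq (q c i) (cc c i * mS (q c) x i % q c i) (x i).val : ℕ) := by
  have q' := pq.comp (In.id.fst.val (α := {p : γ × ℕ // p.2 < D p.1} × ℕ))
  have g1 := ((pc.comp In.id.fst).mul In.id.snd).mod q'
  have g2 := (q'.sub g1).mod q'
  have r1 := rotL pD ps pe dD dv pq hq (G := fun c j a => cc c j * a % q c j) g1 fun c j a => Nat.mod_lt _ (hq c j).1
  have r2 := rotL pD ps pe dD dv pq hq (G := fun c j a => (q c j - cc c j * a % q c j) % q c j) g2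
    fun c j a => Nat.mod_lt _ (hq c j).1
  let U : ∀ c, ℕ → (Fin (D c) → ZMod (2 ^ s c)) → Fin (D c) → ZMod (2 ^ s c) := fun c j x i =>
    if (i : ℕ) < j then (rq (q c i) (cc c i * mS (q c) x i % q c i) (x i).val : ℕ) else x i
  let V : ∀ c, ℕ → (Fin (D c) → ZMod (2 ^ s c)) → Fin (D c) → ZMod (2 ^ s c) := fun c j => Nat.rec (fun x => x)
    (fun j f x => f (Rf (q c) (fun j a => (q c j - cc c j * a % q c j) % q c j) (D c - 1 - j) x)) j
  have hU : ∀ c j x, U c (j + 1) x = U c j (Rf (q c) (fun j a => cc c j * a % q c j) j x) := fun c j x =>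
    funext fun i => by
      simp only [U]
      rcases lt_trichotomy (i : ℕ) j with h | h | h
      · rw [if_pos h, if_pos (by omega), mS_Rf _ _ h.le, Rf, if_neg h.ne]
      · rw [if_pos (by omega), if_neg (by omega), Rf, if_pos h, h]
      · rw [if_neg (by omega), if_neg (by omega), Rf, if_neg h.ne']
  have hR : ∀ c j (x : Fin (D c) → ZMod (2 ^ s c)), Rf (q c) (fun j a => cc c j * a % q c j) j
      (Rf (q c) (fun j a => (q c j - cc c j * a % q c j) % q c j) j x) = x := fun c j x => funext fun i => by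
    rw [Rf, mS_Rf _ _ le_rfl, Rf]
    split_ifs with h
    · have a := (x i).val_lt
      have b := hq c j
      have l := Nat.mod_lt (cc c j * mS (q c) x j) b.1
      generalize cc c j * mS (q c) x j % q c j = g at l ⊢
      have l' := Nat.mod_lt (q c j - g) b.1
      have : g = 0 ∧ (q c j - g) % q c j = 0 ∨ 0 < g ∧ (q c j - g) % q c j = q c j - g := by
        rcases Nat.eq_zero_or_pos g with rfl | h
        · simp
        · exact .inr ⟨h, Nat.mod_eq_of_lt (by omega)⟩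
      rw [ZMod.val_cast_of_lt (by rw [rq_eq l']; split_ifs <;> omega), rq_eq l, rq_eq l']
      refine .trans (congrArg _ ?_) (ZMod.natCast_zmod_val _)
      split_ifs <;> omega
    · rfl
  have hV : ∀ c, ∀ j ≤ D c, ∀ x, U c (D c) (V c j x) = U c (D c - j) x := fun c j => by
    induction j with
    | zero => exact fun _ _ => rfl
    | succ j ih =>
      intro h x
      refine (ih (by omega) _).trans ?_
      rw [show D c - j = D c - 1 - j + 1 by omega, hU, hR, show D c - (j + 1) = D c - 1 - j by omega]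
  have h1 : ∀ c, RightInverse (V c (D c)) (U c (D c)) := fun c x => (hV c _ le_rfl x).trans (by simp [U])
  refine ⟨fun c => V c (D c), fun c => U c (D c), Pm.loop pD hμ (τ := fun c j =>
    (dgL (D c) (s c) (e c)).rev.act (V c j)) (σ := fun c j => (dgL (D c) (s c) (e c)).rev.act (Rf (q c)
      (fun j a => (q c j - cc c j * a % q c j) % q c j) (D c - 1 - j))) (Op.rev (w := w) (μ := fun _ => 0) pD
        (g := fun c j F z => F ((dgL (D c) (s c) (e c)).rev.act (Rf (q c)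
          (fun j a => (q c j - cc c j * a % q c j) % q c j) j) z)) r2) (fun c z => Lens.act_id _ _)
      fun c j _ z => (Lens.act_act _ _ _ _).symm, Pm.loop pD hμ (τ := fun c j =>
    (dgL (D c) (s c) (e c)).rev.act (U c j)) (σ := fun c j => (dgL (D c) (s c) (e c)).rev.act (Rf (q c)
      (fun j a => cc c j * a % q c j) j)) r1 (fun c z => Lens.act_id _ _) fun c j _ z => by
        rw [Lens.act_act]; exact congrFun (congrArg _ (funext (hU c j))) z,
    fun c => (h1 c).leftInverse_of_card_le le_rfl, h1, fun c x i => if_pos i.2⟩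

end

end Vale.Agent.P338
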