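import Vale.Agent.P338.Mac

/-! Primitive routines on tree values. -/

namespace Vale.Agent.P338

def Rn (ρ P : L) (v w : V) (n : ℕ) : Prop :=
  ∀ i o a t c u x y z, Le ρ P (mk i o (v.enc ++ a) t c u x y z) (mk i o (w.enc ++ a) t c u x y z) n

variable {ρ : L}

lemma Rn.mono {P v w n n'} (h : Rn ρ P v w n) (hn : n ≤ n') : Rn ρ P v w n' :=
  fun i o a t c u x y z => (h i o a t c u x y z).mono hn

lemma Rn.size {P v w n} (h : Rn ρ P v w n) : w.size ≤ v.size + n := by
  obtain ⟨t, ht, e⟩ := h [] [] [] [] [] [] [] [] []
  have := e.grow 0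
  change (w.enc ++ []).length ≤ (v.enc ++ []).length + t at this
  simp only [List.append_nil, V.enc_length] at this
  omega

lemma Rn.seq {P Q v w w' m n} (h : Rn ρ P v w m) (h' : Rn ρ Q w w' n) :
    Rn ρ (.seq P Q) v w' (m + n + 1) :=
  fun i o a t c u x y z => (h i o a t c u x y z).seq (h' i o a t c u x y z)

lemma rn_id (v : V) : Rn ρ (.dat .nop) v v 1 := fun _ _ _ _ _ _ _ _ _ => Le.dat rfl

def pFst : L := .seq (.dat (.pop (some 0))) (.seq (xfer 0 [3]) (.seq (xfer 0 []) (xfer 3 [0])))

lemma rn_fst (a b : V) : Rn ρ pFst (.cons a b) a (60 * (V.cons a b).size) := by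
  intro i o r t c u x y z
  simp only [V.enc, List.cons_append, List.append_assoc]
  refine Le.mono ((pop0 _).seq ((x03 a).seq ((x0 b).seq (x30 a)))) ?_
  have : 0 < b.size := by cases b <;> simp [V.size]
  simp only [V.size]; omega

def pSnd : L := .seq (.dat (.pop (some 0))) (xfer 0 [])

lemma rn_snd (a b : V) : Rn ρ pSnd (.cons a b) b (60 * (V.cons a b).size) := by
  intro i o r t c u x y z
  simp only [V.enc, List.cons_append, List.append_assoc]
  refine Le.mono ((pop0 _).seq (x0 a)) ?_
  simp only [V.size]; omega

def pPair (P Q : L) : L :=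
  .seq (xfer 0 [0, 3]) (.seq Q (.seq (xfer 3 [0]) (.seq P (.dat (.push 0 (some true))))))

lemma rn_pair {P Q v a b m n} (h : Rn ρ P v a m) (h' : Rn ρ Q v b n) :
    Rn ρ (pPair P Q) v (.cons a b) (m + n + 38 * v.size + 31) := by
  intro i o r t c u x y z
  simp only [V.enc, List.cons_append, List.append_assoc]
  refine Le.mono ((x003 v).seq ((h' ..).seq ((x30 v).seq ((h ..).seq (push0 _))))) ?_
  omega

def pNil : L := .seq (xfer 0 []) (.dat (.push 0 (some false)))

lemma rn_nil (v : V) : Rn ρ pNil v .nil (19 * v.size + 15) := by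
  intro i o r t c u x y z
  exact Le.mono ((x0 v).seq (push0 _)) (by omega)

lemma rn_case1 {P Q a b w n} (h : Rn ρ P (.cons a b) w n) :
    Rn ρ (.test (some 0) isT P Q) (.cons a b) w (n + 1) :=
  fun i o r t c u x y z => Le.test1 rfl (h i o r t c u x y z)

lemma rn_case0 {P Q w n} (h : Rn ρ Q .nil w n) :
    Rn ρ (.test (some 0) isT P Q) .nil w (n + 1) :=
  fun i o r t c u x y z => Le.test0 rfl (h i o r t c u x y z)

def V.ofList : List V → V
  | [] => .nil
  | a :: l => .cons a (V.ofList l)

def V.bit (b : Bool) : V := if b then .cons .nil .nil else .nil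

def rawBody : L :=
  .test (some 1) isT
    (.seq (.dat (.pop (some 1))) (.seq (.dat (.push 0 (some false))) (.seq (.dat (.push 0 (some false)))
      (.seq (.dat (.push 0 (some true))) (.dat (.push 0 (some true)))))))
    (.seq (.dat (.pop (some 1))) (.seq (.dat (.push 0 (some false))) (.dat (.push 0 (some true)))))

lemma raw_loop (w : List Bool) : ∀ (acc : List Bool) i o a t c u x y z,
    Le ρ (.loop (some 1) noM rawBody)
      (mk i o ((V.ofList (acc.map V.bit)).enc ++ a) (w.map some ++ none :: t) c u x y z)
      (mk i o ((V.ofList ((w.reverse ++ acc).map V.bit)).enc ++ a) (none :: t) c u x y z)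
      (11 * w.length + 1) := by
  induction w with
  | nil => intro acc i o a t c u x y z; exact Le.stop rfl
  | cons b w ih =>
    intro acc i o a t c u x y z
    have := ih (b :: acc) i o a t c u x y z
    rw [List.reverse_cons, List.append_assoc, List.singleton_append]
    cases b
    · exact Le.mono (Le.go rfl (Le.test0 rfl ((pop1 _).seq ((push0 _).seq (push0 _)))) this)
        (by simp only [List.length_cons]; omega)
    · exact Le.mono (Le.go rfl (Le.test1 rfl ((pop1 _).seq ((push0 _).seq ((push0 _).seq
        ((push0 _).seq (push0 _)))))) this) (by simp only [List.length_cons]; omega)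

def V.bits : V → List Bool
  | .nil => [false]
  | .cons a b => true :: (a.bits ++ b.bits)

lemma V.enc_eq (v : V) : v.enc = v.bits.map some := by
  induction v with
  | nil => rfl
  | cons a b iha ihb => simp [V.enc, V.bits, iha, ihb]

lemma V.bits_length (v : V) : v.bits.length = v.size := by
  rw [← v.enc_length, V.enc_eq, List.length_map]

def pRaw : L := .seq (.dat (.push 1 none)) (.seq (mvT 0 [1]) (.seq (.dat (.push 0 (some false)))
  (.seq (.loop (some 1) noM rawBody) (.dat (.pop (some 1))))))

lemma rn_raw (v : V) : Rn ρ pRaw v (V.ofList (v.bits.map V.bit)) (21 * v.size + 20) := by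
  intro i o a t c u x y z
  have h1 : Le ρ (mvT 0 [1]) (mk i o (v.enc ++ a) (none :: t) c u x y z)
      (mk i o a (v.bits.reverse.map some ++ none :: t) c u x y z) (10 * v.size + 7) :=
    (mvT_le (by decide) (by decide) (by decide) (by decide) v (mk i o a (none :: t) c u x y z)).cast
      (St.eq rfl rfl fun r => by fin_cases r <;> rfl)
      (St.eq rfl rfl fun r => by
        rw [List.map_reverse, ← V.enc_eq]; fin_cases r <;> rfl)
  have h2 := raw_loop (ρ := ρ) v.bits.reverse [] i o a t c u x y z
  rw [List.reverse_reverse, List.append_nil, List.length_reverse, V.bits_length] at h2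
  exact Le.mono ((push1 _).seq (h1.seq ((push0 _).seq (h2.seq (pop1 _))))) (by omega)

def unrawBody : L :=
  .seq (.dat (.pop (some 0))) (.test (some 0) isT
    (.seq (.dat (.pop (some 0))) (.seq (.dat (.pop (some 0))) (.seq (.dat (.pop (some 0)))
      (.dat (.push 1 (some true))))))
    (.seq (.dat (.pop (some 0))) (.dat (.push 1 (some false)))))

lemma unraw_loop (w : List Bool) : ∀ i o a t c u x y z,
    Le ρ (.loop (some 0) isT unrawBody)
      (mk i o ((V.ofList (w.map V.bit)).enc ++ a) t c u x y z)
      (mk i o (some false :: a) (w.reverse.map some ++ t) c u x y z) (11 * w.length + 1) := by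
  induction w with
  | nil => intro i o a t c u x y z; exact Le.stop rfl
  | cons b w ih =>
    intro i o a t c u x y z
    have := ih i o a (some b :: t) c u x y z
    rw [List.reverse_cons, List.map_append, List.append_assoc]
    cases b
    · exact Le.mono (Le.go rfl ((pop0 _).seq (Le.test0 rfl ((pop0 _).seq (push1 _)))) this)
        (by simp only [List.length_cons]; omega)
    · exact Le.mono (Le.go rfl ((pop0 _).seq (Le.test1 rfl ((pop0 _).seq ((pop0 _).seq
        ((pop0 _).seq (push1 _)))))) this) (by simp only [List.length_cons]; omega)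

def pUnraw : L := .seq (.dat (.push 1 none)) (.seq (.loop (some 0) isT unrawBody)
  (.seq (.dat (.pop (some 0))) (pour [0])))

lemma rn_unraw (v : V) : Rn ρ pUnraw (V.ofList (v.bits.map V.bit)) v (18 * v.size + 20) := by
  intro i o a t c u x y z
  have h1 := unraw_loop (ρ := ρ) v.bits i o a (none :: t) c u x y z
  have h2 : Le ρ (pour [0]) (mk i o a (v.bits.reverse.map some ++ none :: t) c u x y z)
      (mk i o (v.enc ++ a) t c u x y z) (7 * v.size + 3) := by
    have := pour_le (ρ := ρ) (ts := [0]) (by decide) (by decide) v.enc.reverse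
      (fun s hs => v.enc_some s (List.mem_reverse.1 hs)) (mk i o a t c u x y z)
    rw [List.reverse_reverse, List.length_reverse, V.enc_length] at this
    refine this.cast (St.eq rfl rfl fun r => ?_) (St.eq rfl rfl fun r => by fin_cases r <;> rfl)
    rw [List.map_reverse, ← V.enc_eq]
    fin_cases r <;> simp [St.pre, mk]
  rw [V.bits_length] at h1
  exact Le.mono ((push1 _).seq (h1.seq ((pop0 _).seq h2))) (by omega)

def emitBody : L := .seq (.dat (.pop (some 0))) (.seq (xfer 0 [6]) (.dat (.push 6 (some true))))

lemma emit_loop (ys : List V) : ∀ (acc : List V) i o a t c u x y z,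
    Le ρ (.loop (some 0) isT emitBody)
      (mk i o ((V.ofList ys).enc ++ a) t c u x y ((V.ofList acc).enc ++ z))
      (mk i o (some false :: a) t c u x y ((V.ofList (ys.reverse ++ acc)).enc ++ z))
      (19 * (V.ofList ys).size) := by
  induction ys with
  | nil => intro acc i o a t c u x y z; exact (Le.stop rfl).mono (by simp [V.ofList, V.size])
  | cons b w ih =>
    intro acc i o a t c u x y z
    have := ih (b :: acc) i o a t c u x y z
    rw [List.reverse_cons, List.append_assoc, List.singleton_append]
    simp only [V.ofList, V.enc, List.cons_append, List.append_assoc] at this ⊢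
    exact Le.mono (Le.go rfl ((pop0 _).seq ((x06 b).seq (push6 _))) this)
        (by simp only [V.size]; omega)

inductive Steps (ρ P : L) : V → List V → V → List V → ℕ → Prop
  | nil (s) : Steps ρ P s [] s [] 0
  | cons {s x s' ys k l s'' zs n} : Rn ρ P (.cons s x) (.cons s' (V.ofList ys)) k →
      Steps ρ P s' l s'' zs n → Steps ρ P s (x :: l) s'' (ys ++ zs)
        (k + 60 * ((V.cons s x).size + (V.cons s' (V.ofList ys)).size) + n)

def scanBody (P : L) : L :=
  .seq (.dat (.pop (some 4))) (.seq (xfer 0 [3]) (.seq (xfer 4 [0]) (.seq (xfer 3 [0])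
    (.seq (.dat (.push 0 (some true))) (.seq P (.seq (.dat (.pop (some 0))) (.seq (xfer 0 [3])
      (.seq (.loop (some 0) isT emitBody) (.seq (.dat (.pop (some 0))) (xfer 3 [0]))))))))))

lemma V.size_pos (v : V) : 0 < v.size := by cases v <;> simp [V.size]

lemma scan_loop {P s l s' zs n} (h : Steps ρ P s l s' zs n) :
    ∀ (acc : List V) i o a t c u x y z,
    Le ρ (.loop (some 4) isT (scanBody P))
      (mk i o (s.enc ++ a) t c u ((V.ofList l).enc ++ x) y ((V.ofList acc).enc ++ z))
      (mk i o (s'.enc ++ a) t c u (some false :: x) y ((V.ofList (zs.reverse ++ acc)).enc ++ z))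
      (n + 1) := by
  induction h with
  | nil s => intro acc i o a t c u x y z; exact Le.stop rfl
  | @cons s e s' ys k l s'' zs n h1 _ ih =>
    intro acc i o a t c u x y z
    have h2 := ih (ys.reverse ++ acc) i o a t c u x y z
    have h3 := h1 i o a t c u ((V.ofList l).enc ++ x) y ((V.ofList acc).enc ++ z)
    rw [List.reverse_append, List.append_assoc]
    simp only [V.ofList, V.enc, List.cons_append, List.append_assoc] at h3 ⊢
    refine Le.mono (Le.go rfl ((pop4 _).seq ((x03 s).seq ((x40 e).seq ((x30 s).seq ((push0 _).seq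
      (h3.seq ((pop0 _).seq ((x03 s').seq ((emit_loop ys acc ..).seq ((pop0 _).seq (x30 s')))))))))))
      h2) ?_
    have := s.size_pos
    have := s'.size_pos
    simp only [V.size]; omega

def pScan (P : L) : L :=
  .seq (.dat (.pop (some 0))) (.seq (xfer 0 [3]) (.seq (xfer 0 [4]) (.seq (xfer 3 [0])
    (.seq (.dat (.push 6 (some false))) (.seq (.loop (some 4) isT (scanBody P))
      (.seq (.dat (.pop (some 4))) (.seq (xfer 0 [3]) (.seq (xfer 6 [0]) (.seq (xfer 3 [0])
        (.dat (.push 0 (some true))))))))))))

lemma rn_scan {P s l s' zs n} (h : Steps ρ P s l s' zs n) :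
    Rn ρ (pScan P) (.cons s (V.ofList l)) (.cons s' (V.ofList zs.reverse))
      (n + 60 * ((V.cons s (V.ofList l)).size + (V.cons s' (V.ofList zs.reverse)).size)) := by
  intro i o a t c u x y z
  have h2 := scan_loop h [] i o a t c u x y z
  rw [List.append_nil] at h2
  simp only [V.enc, List.cons_append, List.append_assoc]
  refine Le.mono ((pop0 _).seq ((x03 s).seq ((x04 _).seq ((x30 s).seq ((push6 _).seq
    (h2.seq ((pop4 _).seq ((x03 s').seq ((x60 _).seq ((x30 s').seq (push0 _))))))))))) ?_
  have := s.size_pos
  have := s'.size_pos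
  simp only [V.size]; omega

def V.opt : Option V → V
  | none => .nil
  | some a => .cons a .nil

def pick {α β : Type} : List (Bool × α) → List β → List (α × Option β)
  | [], _ => []
  | (false, a) :: l, m => (a, none) :: pick l m
  | (true, a) :: l, m => (a, m.head?) :: pick l m.tail

def pickBody : L :=
  .seq (.dat (.pop (some 4))) (.seq (.dat (.pop (some 4))) (.seq (.test (some 4) isT
    (.seq (.dat (.pop (some 4))) (.seq (.dat (.pop (some 4))) (.seq (.dat (.pop (some 4)))
      (.test (some 5) isT (.seq (.dat (.pop (some 5))) (.seq (.dat (.push 0 (some false)))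
        (.seq (xfer 5 [0]) (.dat (.push 0 (some true)))))) (.dat (.push 0 (some false)))))))
    (.seq (.dat (.pop (some 4))) (.dat (.push 0 (some false)))))
    (.seq (xfer 4 [0]) (.seq (.dat (.push 0 (some true))) (.seq (xfer 0 [6])
      (.dat (.push 6 (some true))))))))

def pk1 (p : Bool × V) : V := .cons (V.bit p.1) p.2
def pk2 (p : V × Option V) : V := .cons p.1 (V.opt p.2)

lemma pick_loop (l : List (Bool × V)) : ∀ (m acc : List V) i o a t c u x y z, ∃ m' : List V,
    (V.ofList m').size ≤ (V.ofList m).size ∧
    Le ρ (.loop (some 4) isT pickBody)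
      (mk i o a t c u ((V.ofList (l.map pk1)).enc ++ x) ((V.ofList m).enc ++ y)
        ((V.ofList acc).enc ++ z))
      (mk i o a t c u (some false :: x) ((V.ofList m').enc ++ y)
        ((V.ofList (((pick l m).map pk2).reverse ++ acc)).enc ++ z))
      (60 * ((V.ofList (l.map pk1)).size + (V.ofList m).size)) := by
  induction l with
  | nil =>
    intro m acc i o a t c u x y z
    exact ⟨m, le_rfl, (Le.stop rfl).mono (by simp [V.ofList, V.size]; omega)⟩
  | cons p l ih =>
    intro m acc i o a t c u x y z
    obtain ⟨b, e⟩ := p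
    have he := e.size_pos
    cases b
    · obtain ⟨m', h1, h2⟩ := ih m (pk2 (e, none) :: acc) i o a t c u x y z
      refine ⟨m', h1, ?_⟩
      have h6 := x06 (ρ := ρ) (i := i) (o := o) (a := a) (t := t) (c := c) (u := u)
        (x := (V.ofList (l.map pk1)).enc ++ x) (y := (V.ofList m).enc ++ y)
        (z := (V.ofList acc).enc ++ z) (pk2 (e, none))
      simp only [pick, List.map_cons, List.reverse_cons, List.append_assoc,
        V.ofList, V.enc, pk1, pk2, V.bit, V.opt, List.cons_append, Bool.false_eq_true, if_false,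
        List.nil_append] at h2 h6 ⊢
      refine Le.mono (Le.go rfl ((pop4 _).seq ((pop4 _).seq ((Le.test0 rfl ((pop4 _).seq
        (push0 _))).seq ((x40 e).seq ((push0 _).seq (h6.seq (push6 _))))))) h2) ?_
      simp only [V.size]; omega
    · cases m with
      | nil =>
        obtain ⟨m', h1, h2⟩ := ih [] (pk2 (e, none) :: acc) i o a t c u x y z
        refine ⟨m', h1, ?_⟩
        have h6 := x06 (ρ := ρ) (i := i) (o := o) (a := a) (t := t) (c := c) (u := u)
          (x := (V.ofList (l.map pk1)).enc ++ x) (y := (V.ofList []).enc ++ y)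
          (z := (V.ofList acc).enc ++ z) (pk2 (e, none))
        simp only [pick, List.map_cons, List.reverse_cons, List.append_assoc,
          V.ofList, V.enc, pk1, pk2, V.bit, V.opt, List.cons_append, if_true,
          List.nil_append, List.head?_nil, List.tail_nil] at h2 h6 ⊢
        refine Le.mono (Le.go rfl ((pop4 _).seq ((pop4 _).seq ((Le.test1 rfl ((pop4 _).seq
          ((pop4 _).seq ((pop4 _).seq (Le.test0 rfl (push0 _)))))).seq ((x40 e).seq ((push0 _).seq
          (h6.seq (push6 _))))))) h2) ?_
        simp only [V.size]; omega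
      | cons g m =>
        obtain ⟨m', h1, h2⟩ := ih m (pk2 (e, some g) :: acc) i o a t c u x y z
        refine ⟨m', h1.trans (by simp only [V.ofList, V.size]; omega), ?_⟩
        have h6 := x06 (ρ := ρ) (i := i) (o := o) (a := a) (t := t) (c := c) (u := u)
          (x := (V.ofList (l.map pk1)).enc ++ x) (y := (V.ofList m).enc ++ y)
          (z := (V.ofList acc).enc ++ z) (pk2 (e, some g))
        simp only [pick, List.map_cons, List.reverse_cons, List.append_assoc,
          V.ofList, V.enc, pk1, pk2, V.bit, V.opt, List.cons_append, if_true,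
          List.nil_append, List.head?_cons, List.tail_cons] at h2 h6 ⊢
        refine Le.mono (Le.go rfl ((pop4 _).seq ((pop4 _).seq ((Le.test1 rfl ((pop4 _).seq
          ((pop4 _).seq ((pop4 _).seq (Le.test1 rfl ((pop5 _).seq ((push0 _).seq ((x50 g).seq
          (push0 _))))))))).seq ((x40 e).seq ((push0 _).seq (h6.seq (push6 _))))))) h2) ?_
        simp only [V.size]; omega

def pPick : L :=
  .seq (.dat (.pop (some 0))) (.seq (xfer 0 [4]) (.seq (xfer 0 [5])
    (.seq (.dat (.push 6 (some false))) (.seq (.loop (some 4) isT pickBody)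
      (.seq (.dat (.pop (some 4))) (.seq (xfer 5 []) (xfer 6 [0])))))))

lemma rn_pick (l : List (Bool × V)) (m : List V) :
    Rn ρ pPick (.cons (V.ofList (l.map pk1)) (V.ofList m))
      (V.ofList ((pick l m).map pk2).reverse)
      (100 * ((V.cons (V.ofList (l.map pk1)) (V.ofList m)).size +
        (V.ofList ((pick l m).map pk2).reverse).size)) := by
  intro i o a t c u x y z
  obtain ⟨m', h1, h2⟩ := pick_loop (ρ := ρ) l m [] i o a t c u x y z
  rw [List.append_nil] at h2
  simp only [V.enc, List.cons_append, List.append_assoc]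
  refine Le.mono ((pop0 _).seq ((x04 _).seq ((x05 _).seq ((push6 _).seq
    (h2.seq ((pop4 _).seq ((x5 _).seq (x60 _)))))))) ?_
  simp only [V.size]; omega

lemma rn_fix {P v w n} (h : Rn P P v w n) : Rn ρ (.fix P) v w (n + 1) :=
  fun i o a t c u x y z => let ⟨k, hk, e⟩ := h i o a t c u x y z; ⟨k + 1, by omega, e.fix⟩

lemma rn_call {P v w n} (h : Rn P P v w n) : Rn P .call v w (n + 1) :=
  fun i o a t c u x y z => let ⟨k, hk, e⟩ := h i o a t c u x y z; ⟨k + 1, by omega, e.call⟩

end Vale.Agent.P338
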