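import Vale.Agent.P338.Exec

/-! Recursion with power-law bounds. -/

namespace Vale.Agent.P338

open Filter Cd Topology

noncomputable def pw (a : ℝ) (b : ℕ) : ℕ := ⌈((b : ℝ) + 1) ^ a⌉₊

lemma pw_pos (a : ℝ) (b : ℕ) : 0 < pw a b := Nat.ceil_pos.2 (by positivity)

lemma pw_mono {a a' : ℝ} (h0 : 0 ≤ a') (h : a ≤ a') {b b' : ℕ} (hb : b ≤ b') : pw a b ≤ pw a' b' :=
  Nat.ceil_mono ((Real.rpow_le_rpow_of_exponent_le (by simp) h).trans
    (Real.rpow_le_rpow (by positivity) (by simpa using hb) h0))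

lemma pw_le {a : ℝ} (h0 : 0 ≤ a) (b : ℕ) : (pw a b : ℝ) ≤ 2 * ((b : ℝ) + 1) ^ a := by
  have h1 : 1 ≤ ((b : ℝ) + 1) ^ a := Real.one_le_rpow (by simp) h0
  have := Nat.ceil_lt_add_one (a := ((b : ℝ) + 1) ^ a) (by positivity)
  unfold pw; linarith

lemma pw_mul {a : ℝ} (h0 : 0 ≤ a) (h1 : a ≤ 1) (b k : ℕ) : pw a (b * k) ≤ (k + 1) * pw a b := by
  refine Nat.ceil_le.2 ?_
  have h2 : ((k : ℝ) + 1) ^ a ≤ k + 1 := by
    simpa using Real.rpow_le_rpow_of_exponent_le (x := (k : ℝ) + 1) (by simp) h1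
  calc (((b * k : ℕ) : ℝ) + 1) ^ a ≤ ((k + 1) * (b + 1)) ^ a :=
        Real.rpow_le_rpow (by positivity) (by push_cast; nlinarith) h0
    _ = (k + 1) ^ a * (b + 1) ^ a := Real.mul_rpow (by positivity) (by positivity)
    _ ≤ (k + 1) * pw a b := by gcongr; exact Nat.le_ceil _
    _ = _ := by simp

lemma le_pw {a : ℝ} (h1 : 1 ≤ a) (b : ℕ) : b + 1 ≤ pw a b := by
  have := pw_mono (a := 1) (by linarith) h1 (le_refl b)
  rwa [pw, Real.rpow_one, ← Nat.cast_succ, Nat.ceil_natCast] at this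

lemma pw_rec {a : ℝ} (ha : 0 < a) {n W m : ℕ} (c0 : ℕ) (hm : 0 < m) (h : (n : ℝ) < W * m ^ a) :
    ∃ D b0 : ℕ, ∀ b ≥ b0, ∀ b', m * b' ≤ b + c0 → D * n * pw a b' + W * pw a b ≤ D * W * pw a b := by
  have hm' : (0 : ℝ) < m ^ a := by positivity
  have t1 : Tendsto (fun b : ℕ => (b : ℝ) + 1) atTop atTop :=
    tendsto_natCast_atTop_atTop.atTop_add tendsto_const_nhds
  have t2 : Tendsto (fun b : ℕ => (1 + (c0 + m) / ((b : ℝ) + 1)) ^ a) atTop (𝓝 1) := by
    have := ((tendsto_const_nhds (x := (1 : ℝ))).add (t1.const_div_atTop (c0 + m))).rpow_const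
      (p := a) (Or.inr ha.le)
    simpa using this
  have t3 : Tendsto (fun b : ℕ => 1 / ((b : ℝ) + 1) ^ a) atTop (𝓝 0) :=
    ((tendsto_rpow_atTop ha).comp t1).const_div_atTop 1
  have t4 := ((t2.div_const ((m : ℝ) ^ a)).add t3).const_mul (n : ℝ)
  have h1 : (n : ℝ) * (1 / m ^ a + 0) < W := by
    rw [add_zero, mul_one_div, div_lt_iff₀ hm']; exact h
  obtain ⟨x, hx1, hx2⟩ := exists_between h1
  obtain ⟨b0, hb0⟩ := eventually_atTop.1 (t4.eventually_lt_const hx1)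
  obtain ⟨D, hD⟩ := exists_nat_ge (W / (W - x))
  rw [div_le_iff₀ (by linarith)] at hD
  refine ⟨D, b0, fun b hb b' hb' => ?_⟩
  have h2 := (hb0 b hb).le
  have p : (0 : ℝ) < ((b : ℝ) + 1) ^ a := by positivity
  have h3 : (pw a b' : ℝ) ≤ ((1 + (c0 + m) / ((b : ℝ) + 1)) ^ a / m ^ a + 1 / (b + 1) ^ a) *
      (b + 1) ^ a := by
    rw [add_mul, one_div_mul_cancel p.ne', div_mul_eq_mul_div,
      ← Real.mul_rpow (by positivity) (by positivity), ← Real.div_rpow (by positivity) (by positivity)]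
    refine (Nat.ceil_lt_add_one (by positivity)).le.trans ?_
    gcongr
    have : (m : ℝ) * b' ≤ b + c0 := by exact_mod_cast hb'
    rw [le_div_iff₀ (by positivity), add_mul (1 : ℝ), div_mul_cancel₀ _ (by positivity)]
    nlinarith
  have h4 : ((b : ℝ) + 1) ^ a ≤ pw a b := Nat.le_ceil _
  have h5 : (n : ℝ) * pw a b' ≤ x * pw a b := by
    have hx : 0 ≤ x := le_trans (by positivity) hx1.le
    calc _ ≤ _ := mul_le_mul_of_nonneg_left h3 (by positivity)
      _ ≤ x * (b + 1) ^ a := by rw [← mul_assoc]; gcongr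
      _ ≤ _ := by gcongr
  have : (D : ℝ) * n * pw a b' + W * pw a b ≤ D * W * pw a b := by
    have := mul_le_mul_of_nonneg_left h5 (Nat.cast_nonneg D)
    have := mul_le_mul_of_nonneg_right hD (Nat.cast_nonneg (pw a b))
    nlinarith
  exact_mod_cast this

lemma exists_exp {n W m : ℕ} (hm : 2 ≤ m) (h : n < W * m) :
    ∃ a : ℝ, 0 < a ∧ a < 1 ∧ (n : ℝ) < W * m ^ a := by
  have c : ContinuousAt (fun a : ℝ => (W : ℝ) * m ^ a) 1 :=
    continuousAt_const.mul (Real.continuousAt_const_rpow (by positivity))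
  have h1 : (n : ℝ) < (fun a : ℝ => (W : ℝ) * m ^ a) 1 := by simpa using (by exact_mod_cast h)
  obtain ⟨a, h2, h3⟩ := (((c.eventually (lt_mem_nhds h1)).filter_mono nhdsWithin_le_nhds).and
    (Ioo_mem_nhdsLT (show (0 : ℝ) < 1 by norm_num))).exists
  exact ⟨a, h3.1, h3.2, h2⟩

def Wd.Sub {γ : Type} [Cd γ] (w : Wd γ) (ν b : γ → ℕ) (n W m c0 r : ℕ) (c c' : γ) : Prop :=
  m * b c' ≤ b c + c0 ∧ b c' < b c ∧ r * W * w.N c' ≤ n * w.N c ∧ w.ℓ c' = w.ℓ c ∧
    w.lg c' ≤ w.lg c ∧ ν c' ≤ ν c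

theorem Op.fix {a : ℝ} (ha : 0 < a) {n W m : ℕ} (c0 : ℕ) (hm : 0 < m) (h : (n : ℝ) < W * m ^ a) :
    ∃ b0 : ℕ, ∀ (γ : Type) [Cd γ] (w : Wd γ) (ν b : γ → ℕ) (r : ℕ)
      (f : ∀ c, (ℕ → w.V c) → ℕ → w.V c), (∀ c, w.Y c = 0) →
      OA (fun x : Ar w => (⟨x.1, f x.1 x.2⟩ : Ar w)) w (fun c => (ν c + 1) * pw a (b c))
        (fun κ c => if b0 ≤ b c then r • ⨆ (x : Ar w) (_ : w.Sub ν b n W m c0 r c x.1), κ x else 0)
        f → Op w (fun c => (ν c + 1) * pw a (b c)) f := by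
  obtain ⟨D, b0, hD⟩ := pw_rec ha c0 hm h
  have hW : 0 < W := by
    rcases Nat.eq_zero_or_pos W with rfl | h'
    · simp at h; exact absurd h (by simp)
    · exact h'
  refine ⟨b0, fun γ _ w ν b r f hY hf => ?_⟩
  obtain ⟨e0, C0, h0⟩ := w.sz_ar
  obtain ⟨e, hf, he⟩ := (hf.and (eventually_ge_atTop e0)).exists
  refine Op.of_tm (e := e) ((hf.fix (fun x => b x.1) (fun x => (ν x.1 + 1) * pw a (b x.1) * w.U e x.1)
    fun c => ⟨(D + 1) * (c * (2 + C0) + 1), fun x => ?_⟩).mono ⟨1, fun x => by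
      simp only [Wd.bd]; nlinarith⟩ fun _ => rfl)
  have p1 := pw_pos a (b x.1)
  have p2 : 0 < w.U e x.1 := by have := w.arr_le e x.1 x.2; omega
  have p3 := (h0 x).trans (Nat.mul_le_mul_left _ (w.U_mono he _))
  have p4 : c * ((w.bx (fun c => (ν c + 1) * pw a (b c)) Ar.c).b e x + sz x) + 1 ≤
      (c * (2 + C0) + 1) * ((ν x.1 + 1) * pw a (b x.1) * w.U e x.1) := by
    simp only [Wd.bx]
    have : 0 < (ν x.1 + 1) * pw a (b x.1) := by positivity
    generalize (ν x.1 + 1) * pw a (b x.1) = M at *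
    have a1 : w.U e x.1 ≤ M * w.U e x.1 := Nat.le_mul_of_pos_left _ this
    have a2 : (M + 1) * w.U e x.1 + sz x ≤ (2 + C0) * (M * w.U e x.1) := by
      nlinarith [Nat.mul_le_mul_left C0 a1]
    nlinarith [Nat.mul_le_mul_left c a2]
  generalize c * ((w.bx (fun c => (ν c + 1) * pw a (b c)) Ar.c).b e x + sz x) + 1 = T at *
  generalize c * (2 + C0) + 1 = c' at *
  dsimp only
  split_ifs with hb
  · have key : ⨆ (y : Ar w) (_ : w.Sub ν b n W m c0 r x.1 y.1), (if b y.1 < b x.1 then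
        (((D + 1) * c' * ((ν y.1 + 1) * pw a (b y.1) * w.U e y.1) : ℕ) : ℕ∞) else ⊤) ≤
        ((((D + 1) * c' * ((ν x.1 + 1) * pw a (b x.1) * w.U e x.1) - T) / r : ℕ) : ℕ∞) ∨ r = 0 := by
      rcases Nat.eq_zero_or_pos r with hr | hr
      · exact Or.inr hr
      refine Or.inl (iSup₂_le fun y ⟨s1, s2, s3, s4, s5, s6⟩ => ?_)
      rw [if_pos s2, Nat.cast_le, Nat.le_div_iff_mul_le hr]
      refine Nat.le_sub_of_add_le (Nat.le_of_mul_le_mul_left ?_ hW)
      have q1 := hD _ hb _ s1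
      have q2 : r * W * w.U e y.1 ≤ n * w.U e x.1 := by
        simp only [Wd.U, hY, zero_mul, add_zero, s4, ← mul_assoc]; gcongr
      have q3 : n * pw a (b y.1) ≤ W * pw a (b x.1) := by
        rcases Nat.eq_zero_or_pos D with rfl | hD0
        · simp at q1; omega
        · refine Nat.le_of_mul_le_mul_left ?_ hD0; nlinarith
      calc _ ≤ (D + 1) * c' * ((ν x.1 + 1) * pw a (b y.1)) * (r * W * w.U e y.1) + W * T := by
            rw [mul_add W]
            refine Nat.add_le_add_right (le_trans (le_of_eq (b := (D + 1) * c' * ((ν y.1 + 1) *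
              pw a (b y.1)) * (r * W * w.U e y.1)) (by ring)) (by gcongr)) _
        _ ≤ (D + 1) * c' * ((ν x.1 + 1) * pw a (b y.1)) * (n * w.U e x.1) +
            W * (c' * ((ν x.1 + 1) * pw a (b x.1) * w.U e x.1)) := by gcongr
        _ = c' * (ν x.1 + 1) * w.U e x.1 * (D * n * pw a (b y.1) + W * pw a (b x.1) +
            n * pw a (b y.1)) := by ring
        _ ≤ c' * (ν x.1 + 1) * w.U e x.1 * (D * W * pw a (b x.1) + W * pw a (b x.1)) := by gcongr
        _ = _ := by ring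
    have p5 : T ≤ (D + 1) * c' * ((ν x.1 + 1) * pw a (b x.1) * w.U e x.1) := by nlinarith
    rcases key with key | rfl
    · refine (add_le_add le_rfl (nsmul_le_nsmul_right key r)).trans ?_
      rw [nsmul_eq_mul, ← Nat.cast_mul, ← Nat.cast_add, Nat.cast_le]
      have := Nat.mul_div_le ((D + 1) * c' * ((ν x.1 + 1) * pw a (b x.1) * w.U e x.1) - T) r
      omega
    · simpa using (by exact_mod_cast p5)
  · rw [add_zero, Nat.cast_le]; nlinarith

end Vale.Agent.P338
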