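import Vale.Agent.P338.Ops

/-! Scalars modulo `2^l - 1`. -/

namespace Vale.Agent.P338

open Filter Cd

set_option linter.unusedSectionVars false

variable {α β γ : Type} [Cd α] [Cd β] [Cd γ] {B : Bd α}

def bitl (n v : ℕ) : List Bool := tab n v.testBit

lemma bitl_length (n v : ℕ) : (bitl n v).length = n := tab_length _ _

lemma bv_bitl (n v : ℕ) : bv (bitl n v) = v % 2 ^ n := by
  induction n generalizing v with
  | zero => simp [bitl, tab, bv, Nat.mod_one]
  | succ n ih =>
    rw [bitl, tab_succ, bv, pow_succ', Nat.mod_mul]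
    simp only [Nat.testBit_succ]
    rw [← ih, Nat.testBit_zero, bitl]
    rcases Nat.mod_two_eq_zero_or_one v with h | h <;> simp [h]

lemma bv_inj {l m : List Bool} (h : l.length = m.length) (e : bv l = bv m) : l = m := by
  induction l generalizing m with
  | nil => cases m <;> simp_all
  | cons a l ih => cases m with
    | nil => simp at h
    | cons b m =>
      simp only [bv] at e
      have : a = b := by cases a <;> cases b <;> simp at e ⊢ <;> omega
      subst this
      rw [ih (by simpa using h) (by omega)]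

lemma eq_bitl {l : List Bool} {n v : ℕ} (h : l.length = n) (e : bv l = v % 2 ^ n) : l = bitl n v :=
  bv_inj (by rw [h, bitl_length]) (by rw [e, bv_bitl])

def ofN (u : List Bool) (n : ℕ) : List Bool := (n.bits ++ u.map fun _ => false).take u.length

@[fun_prop] lemma In.ofN {u : α → List Bool} {n : α → ℕ} (hu : In B u) (hn : In B n) :
    In B fun a => ofN (u a) (n a) := by unfold P338.ofN; fun_prop

lemma ofN_eq (u : List Bool) (n : ℕ) : ofN u n = bitl u.length n :=
  eq_bitl (by simp [ofN]) (by rw [ofN, (bv_take_drop _ _).1, bv_pad, bv_bits])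

lemma In.bitl {n v : α → ℕ} (hn : In B n) (hd : Dom B n) (hv : In B v) :
    In B fun a => bitl (n a) (v a) :=
  ((In.replicate false hn hd).ofN hv).congr fun a => by rw [ofN_eq, List.length_replicate]

@[fun_prop] lemma In.bitlP {n v : α → ℕ} (hn : In polyB n) (hd : Dom polyB n) (hv : In polyB v) :
    In polyB fun a => P338.bitl (n a) (v a) := hn.bitl hd hv

def pz (k : ℕ) : ℕ := 2 ^ (k + 2) - 1

abbrev Zp (k : ℕ) := ZMod (pz k)

lemma pz_succ (k : ℕ) : pz k + 1 = 2 ^ (k + 2) := Nat.sub_add_cancel Nat.one_le_two_pow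

lemma pz_eq (k : ℕ) : pz k + 1 = 4 * 2 ^ k := by rw [pz_succ]; ring

instance (k : ℕ) : Fact (1 < pz k) := ⟨by have := pz_eq k; have := Nat.one_le_two_pow (n := k); omega⟩

instance (k : ℕ) : NeZero (pz k) := ⟨by have := pz_eq k; omega⟩

lemma two_pow_zp (k : ℕ) : (2 : Zp k) ^ (k + 2) = 1 := by
  have := congrArg (Nat.cast : ℕ → Zp k) (pz_succ k)
  simpa using this.symm

def enc (k : ℕ) (a : Zp k) : List Bool := bitl (k + 2) a.val

lemma enc_length (k : ℕ) (a : Zp k) : (enc k a).length = k + 2 := bitl_length _ _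

lemma bv_enc (k : ℕ) (a : Zp k) : bv (enc k a) = a.val := by
  rw [enc, bv_bitl, Nat.mod_eq_of_lt]
  have := a.val_lt; have := pz_succ k; omega

lemma eq_enc {k : ℕ} {l : List Bool} (h : l.length = k + 2) (h2 : bv l < pz k) :
    l = enc k (bv l) :=
  bv_inj (by rw [h, enc_length]) (by rw [bv_enc, ZMod.val_natCast, Nat.mod_eq_of_lt h2])

lemma enc_nat (k n : ℕ) : enc k n = bitl (k + 2) (n % pz k) := by rw [enc, ZMod.val_natCast]

def canon (l : List Bool) : List Bool :=
  if bv (l.map not) = 0 then l.map fun _ => false else l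

@[fun_prop] lemma In.canon {l : α → List Bool} (h : In B l) : In B fun a => canon (l a) := by
  unfold P338.canon; fun_prop

lemma canon_eq {k : ℕ} {l : List Bool} (h : l.length = k + 2) {a : Zp k} (e : (bv l : Zp k) = a) :
    canon l = enc k a := by
  have h1 := bv_not l
  rw [h, ← pz_succ] at h1
  unfold canon
  split_ifs with h0
  · have h2 := bv_pad [] l
    rw [List.nil_append] at h2
    rw [eq_enc (k := k) (l := l.map fun _ => false) (by simpa) (by rw [h2]; exact NeZero.pos _), h2,
      ← e, show bv l = pz k by omega]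
    simp [bv]
  · rw [← e]; exact eq_enc h (by omega)

def sadd (x y : List Bool) : List Bool := canon (adc (adc false x y).1 (adc false x y).2 []).2

@[fun_prop] lemma In.sadd {x y : α → List Bool} (hx : In B x) (hy : In B y) :
    In B fun a => sadd (x a) (y a) := by unfold P338.sadd; fun_prop

lemma sadd_enc (k : ℕ) (a b : Zp k) : sadd (enc k a) (enc k b) = enc k (a + b) := by
  have h1 := adc_val false (enc k a) (enc k b) (by simp [enc_length])
  have h2 := adc_val (adc false (enc k a) (enc k b)).1 (adc false (enc k a) (enc k b)).2 [] (by simp)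
  refine canon_eq (by simp [adc_length, enc_length]) ?_
  have := a.val_lt
  have := b.val_lt
  rw [adc_length, enc_length, ← pz_succ] at h2
  rw [enc_length, ← pz_succ, bv_enc, bv_enc] at h1
  have h3 := bv_lt (adc false (enc k a) (enc k b)).2
  rw [adc_length, enc_length, ← pz_succ] at h3
  generalize adc false (enc k a) (enc k b) = r at *
  obtain ⟨c, r⟩ := r
  generalize adc c r [] = r' at *
  obtain ⟨c', r'⟩ := r'
  have h4 : bv r' + pz k * c.toNat = a.val + b.val := by
    cases c <;> cases c' <;> simp [bv] at * <;> omega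
  have := congrArg (Nat.cast : ℕ → Zp k) h4
  simpa using this

def sneg (x : List Bool) : List Bool := canon (x.map not)

@[fun_prop] lemma In.sneg {x : α → List Bool} (hx : In B x) : In B fun a => sneg (x a) := by
  unfold P338.sneg; fun_prop

lemma sneg_enc (k : ℕ) (a : Zp k) : sneg (enc k a) = enc k (-a) := by
  refine canon_eq (by simp [enc_length]) ?_
  have h := bv_not (enc k a)
  rw [enc_length, ← pz_succ, bv_enc, add_left_inj] at h
  have := congrArg (Nat.cast : ℕ → Zp k) h
  simp only [Nat.cast_add, ZMod.natCast_zmod_val, ZMod.natCast_self] at this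
  exact eq_neg_of_add_eq_zero_left this

def hf (k : ℕ) : Zp k := 2 ^ (k + 1)

lemma two_hf (k : ℕ) : 2 * hf k = 1 := by rw [hf, ← pow_succ', two_pow_zp]

def shalf (x : List Bool) : List Bool := canon (x.tail ++ x.head?.toList)

@[fun_prop] lemma In.shalf {x : α → List Bool} (hx : In B x) : In B fun a => shalf (x a) := by
  unfold P338.shalf; fun_prop

lemma shalf_enc (k : ℕ) (a : Zp k) : shalf (enc k a) = enc k (hf k * a) := by
  have h1 := bv_enc k a
  have h2 := enc_length k a
  generalize enc k a = x at *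
  cases x with
  | nil => simp at h2
  | cons b x =>
    refine canon_eq (by simpa using h2) ?_
    rw [← ZMod.natCast_zmod_val a, ← h1]
    simp only [List.length_cons, add_left_inj] at h2
    simp only [List.tail_cons, List.head?_cons, Option.toList_some, bv_append, bv, h2]
    push_cast
    have := two_hf k
    unfold hf at *
    linear_combination (-(bv x : Zp k)) * this

def shr (p : ℕ) (x : List Bool) : List Bool := ofN x (bv (x.drop p))

lemma shr_enc (k p : ℕ) (a : Zp k) : shr p (enc k a) = enc k (a.val / 2 ^ p : ℕ) := by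
  rw [shr, ofN_eq, (bv_take_drop _ _).2, bv_enc, enc_length, enc_nat, Nat.mod_eq_of_lt
    ((Nat.div_le_self _ _).trans_lt a.val_lt)]

def strunc (p : ℕ) (x : List Bool) : List Bool :=
  if bv x ≤ bv (sneg x) then shr p x else sneg (shr p (sneg x))

@[fun_prop] lemma In.strunc {p : α → ℕ} {x : α → List Bool} (hp : In B p) (hx : In B x) :
    In B fun a => strunc (p a) (x a) := by unfold P338.strunc shr; fun_prop

def tr (k p : ℕ) (a : Zp k) : Zp k :=
  if a.val ≤ (-a).val then (a.val / 2 ^ p : ℕ) else -((-a).val / 2 ^ p : ℕ)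

lemma strunc_enc (k p : ℕ) (a : Zp k) : strunc p (enc k a) = enc k (tr k p a) := by
  unfold strunc tr
  rw [sneg_enc, bv_enc, bv_enc]
  split_ifs
  · exact shr_enc _ _ _
  · rw [shr_enc, sneg_enc]

lemma tr_int (k p : ℕ) (W : ℤ) (h : |W| < 2 * 2 ^ k) : tr k p W = (W.tdiv (2 ^ p) : ℤ) := by
  have e := pz_eq k
  have key : ∀ n : ℕ, n < 2 * 2 ^ k → (n : Zp k).val = n ∧ (0 < n → (-n : Zp k).val = pz k - n) :=
    fun n hn => by
      have h1 : (n : Zp k).val = n := by rw [ZMod.val_natCast, Nat.mod_eq_of_lt (by omega)]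
      refine ⟨h1, fun h0 => ?_⟩
      rw [ZMod.neg_val, if_neg (fun h => by rw [h] at h1; simp at h1; omega), h1]
  obtain ⟨n, rfl | rfl⟩ := W.eq_nat_or_neg
  · have := key n (by simpa using (by exact_mod_cast h))
    rw [tr, Int.cast_natCast, this.1, if_pos, Int.tdiv_eq_ediv_of_nonneg (by omega)]
    · norm_cast
    · rcases Nat.eq_zero_or_pos n with rfl | h0
      · simp
      · have : n < 2 * 2 ^ k := by simpa using (by exact_mod_cast h)
        rw [(key n this).2 h0]; omega
  · have hn : n < 2 * 2 ^ k := by rw [abs_neg] at h; simpa using (by exact_mod_cast h)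
    have := key n hn
    rcases Nat.eq_zero_or_pos n with rfl | h0
    · simp [tr]
    rw [tr, Int.cast_neg, Int.cast_natCast, neg_neg, this.1, this.2 h0, if_neg (by omega),
      Int.neg_tdiv, Int.tdiv_eq_ediv_of_nonneg (by omega), Int.cast_neg]
    congr 1; norm_cast

def smul0 (x y : List Bool) : List Bool := ofN x (bv x * bv y % (2 ^ x.length - 1))

lemma poly_smul0 : In polyB fun p : List Bool × List Bool => smul0 p.1 p.2 := by
  unfold smul0; fun_prop

lemma smul0_enc (k : ℕ) (a b : Zp k) : smul0 (enc k a) (enc k b) = enc k (a * b) := by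
  rw [smul0, ofN_eq, enc_length, bv_enc, bv_enc, enc, ZMod.val_mul]; rfl

abbrev A2 := Localization.Away (2 : ℤ)

noncomputable instance (k : ℕ) : Algebra A2 (Zp k) :=
  (IsLocalization.Away.lift (2 : ℤ) (g := Int.castRingHom (Zp k))
    (IsUnit.of_mul_eq_one (hf k) (by simpa using two_hf k))).toAlgebra

lemma a2_int (k : ℕ) (n : ℤ) : algebraMap A2 (Zp k) (algebraMap ℤ A2 n) = n :=
  IsLocalization.Away.lift_eq _ _ _

lemma a2_impl (c : A2) : ∃ f : List Bool → List Bool, In linB f ∧
    ∀ k a, f (enc k a) = enc k (c • a) := by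
  obtain ⟨n, z, h⟩ := IsLocalization.Away.surj (2 : ℤ) c
  have h1 : ∀ z : ℤ, ∃ f : List Bool → List Bool, In linB f ∧
      ∀ k (a : Zp k), f (enc k a) = enc k (z * a) := by
    intro z
    induction z using Int.induction_on with
    | zero => exact ⟨fun x => sadd x (sneg x), by fun_prop, fun k a => by simp [sneg_enc, sadd_enc]⟩
    | succ i ih =>
      obtain ⟨f, h1, h2⟩ := ih
      exact ⟨fun x => sadd (f x) x, by fun_prop, fun k a => by simp [h2, sadd_enc, add_mul]⟩
    | pred i ih =>
      obtain ⟨f, h1, h2⟩ := ih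
      exact ⟨fun x => sadd (f x) (sneg x), by fun_prop, fun k a => by
        simp [h2, sadd_enc, sneg_enc, sub_eq_add_neg, add_mul]⟩
  have h2 : ∀ n : ℕ, ∃ f : List Bool → List Bool, In linB f ∧
      ∀ k (a : Zp k), f (enc k a) = enc k (hf k ^ n * a) := by
    intro n
    induction n with
    | zero => exact ⟨fun x => x, In.id, fun k a => by simp⟩
    | succ i ih =>
      obtain ⟨f, h1, h2⟩ := ih
      exact ⟨fun x => shalf (f x), by fun_prop, fun k a => by
        simp only [h2, shalf_enc, pow_succ', mul_assoc]⟩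
  obtain ⟨f, a1, a2⟩ := h1 z
  obtain ⟨g, b1, b2⟩ := h2 n
  refine ⟨fun x => g (f x), b1.lin a1, fun k a => ?_⟩
  have := congrArg (algebraMap A2 (Zp k)) h
  rw [map_mul, map_pow, a2_int, a2_int] at this
  dsimp only
  rw [a2, b2, Algebra.smul_def, ← this, ← mul_assoc, mul_left_comm, ← mul_pow, mul_comm (hf k)]
  simp [two_hf]

lemma a2_gate (c : A2) : ∃ G : List Bool → List Bool → List Bool,
    (In linB fun p : List Bool × List Bool => G p.1 p.2) ∧
    ∀ k a b, G (enc k a) (enc k b) = enc k (a + c • b) :=
  let ⟨f, h1, h2⟩ := a2_impl c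
  ⟨fun x y => sadd x (f y), by fun_prop, fun k a b => by simp only [h2, sadd_enc]⟩

def enc2 (l : ℕ) (f : ℕ → ZMod 2) : List Bool := tab l fun i => decide (f i = 1)

def val2 (x : List Bool) (i : ℕ) : ZMod 2 := if x.getD i false then 1 else 0

lemma enc2_val2 {x : List Bool} {l : ℕ} (h : x.length = l) : enc2 l (val2 x) = x := by
  conv_rhs => rw [eq_tab x false, h]
  exact tab_congr fun i _ => by unfold val2; cases x.getD i false <;> simp

lemma z2_gate (c : ZMod 2) : ∃ G : List Bool → List Bool → List Bool,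
    (In linB fun p : List Bool × List Bool => G p.1 p.2) ∧
    ∀ k a b, G (enc2 k a) (enc2 k b) = enc2 k (a + c • b) := by
  have : c = 0 ∨ c = 1 := by revert c; decide
  rcases this with rfl | rfl
  · exact ⟨fun x _ => x, by fun_prop, by simp⟩
  · refine ⟨List.zipWith xor, by fun_prop, fun k a b => ?_⟩
    rw [enc2, enc2, tab_zipWith]
    refine tab_congr fun i _ => ?_
    simp only [one_smul, Pi.add_apply]
    generalize a i = x; generalize b i = y; revert x y; decide

end Vale.Agent.P338
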