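import Vale.Agent.P338.Dig

/-! Fast exchange of two axes. -/

namespace Vale.Agent.P338

open Filter Cd Function Finset Matrix

set_option linter.unusedSectionVars false

variable {γ Ω Ω' : Type} [Cd γ] [Cd Ω] [Cd Ω'] {w : Wd γ} {μ : γ → ℕ} {φ : Ω → Ω'}

structure Blk (w : Wd γ) (m : ℕ) (Q s1 s2 : γ → ℕ) : Prop where
  pQ : In polyB Q
  p1 : In polyB s1
  p2 : In polyB s2
  d2 : ∀ c, Q c ^ m * s2 c ∣ s1 c
  d1 : ∀ c, Q c ^ m * s1 c ∣ w.N c
  hQ : ∀ c, 0 < Q c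

variable {m : ℕ} {Q s1 s2 : γ → ℕ}

def PA (w : Wd γ) (m : ℕ) (Q s1 s2 : γ → ℕ) (H : ∀ c, UV m (Q c) → UV m (Q c)) : Prop :=
  ∃ σ, Pm w (fun _ => 0) σ ∧ ∀ c, Act m (Q c) (s1 c) (s2 c) (σ c) (H c)

lemma PA.comp {H H'} (h : PA w m Q s1 s2 H) (h' : PA w m Q s1 s2 H') :
    PA w m Q s1 s2 fun c t => H c (H' c t) :=
  let ⟨_, a, b⟩ := h; let ⟨_, a', b'⟩ := h'; ⟨_, a.comp a', fun c => (b c).comp (b' c)⟩

lemma PA.congr {H H'} (h : PA w m Q s1 s2 H) (e : ∀ c t, H c t = H' c t) : PA w m Q s1 s2 H' :=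
  let ⟨_, a, b⟩ := h; ⟨_, a, fun c => (b c).congr (e c)⟩

lemma PA.id : PA w m Q s1 s2 fun _ t => t := ⟨_, Pm.id, fun _ _ => ⟨rfl, rfl, rfl, rfl⟩⟩

lemma fld_trunc {t s Q : ℕ} (ht : 0 < t) (h : t ∣ s) (z : ℕ) : fld (z / t * t) s Q = fld z s Q := by
  obtain ⟨u, rfl⟩ := h
  unfold fld; rw [← Nat.div_div_eq_div_mul, Nat.mul_div_cancel _ ht, Nat.div_div_eq_div_mul]

lemma Zc.comp {δ : Type} [Cd δ] {R : δ → ℕ} {g : ∀ c, ZMod (R c)} (h : Zc R g) {f : γ → δ}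
    (hf : In polyB f) : Zc (fun c => R (f c)) fun c => g (f c) :=
  let ⟨_, a, b⟩ := h; ⟨_, a.comp hf, fun c => b (f c)⟩

namespace Blk
variable (h : Blk w m Q s1 s2)
include h

lemma h1 (c : γ) : 0 < s1 c := Nat.pos_of_mul_pos_left (Nat.pos_of_dvd_of_pos (h.d1 c) (w.pos c))
lemma h2 (c : γ) : 0 < s2 c := Nat.pos_of_mul_pos_left (Nat.pos_of_dvd_of_pos (h.d2 c) (h.h1 c))

lemma fU (i : Fin m) : Fd w (fun c => s1 c * Q c ^ (i : ℕ)) Q :=
  ⟨h.p1.mul (h.pQ.pow (In.const _) (Dom.const _)), h.pQ, fun c => (dvd_pow_blk i _).trans (h.d1 c)⟩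

lemma fV (i : Fin m) : Fd w (fun c => s2 c * Q c ^ (i : ℕ)) Q :=
  ⟨h.p2.mul (h.pQ.pow (In.const _) (Dom.const _)), h.pQ, fun c =>
    (dvd_pow_blk i _).trans ((h.d2 c).trans ((dvd_mul_left _ _).trans (h.d1 c)))⟩

lemma axV (j : Fin m) {g} (hg : Ax w (fun c => s2 c * Q c ^ (j : ℕ)) Q g)
    {G : ∀ c, UV m (Q c) → ZMod (Q c)} (e : ∀ c z, g c (z / (Q c * (s2 c * Q c ^ (j : ℕ))))
      (dg m (Q c) (s2 c) z j) = G c (dg m (Q c) (s1 c) z, dg m (Q c) (s2 c) z)) :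
    PA w m Q s1 s2 fun c t => (t.1, update t.2 j (G c t)) :=
  ⟨_, hg, fun c => have : NeZero (Q c) := ⟨(h.hQ c).ne'⟩
    act_V (h.hQ c) (h.h1 c) (h.d2 c) (dvd_mul_right _ _) (dvd_pow_blk j _)
      (fun _ => ZMod.val_lt _) fun z => by rw [dg_set (h.h2 c) (h.hQ c), ← e]; rfl⟩

lemma axU (j : Fin m) {g} (hg : Ax w (fun c => s1 c * Q c ^ (j : ℕ)) Q g)
    {G : ∀ c, UV m (Q c) → ZMod (Q c)} (e : ∀ c z, g c (z / (Q c * (s1 c * Q c ^ (j : ℕ))))
      (dg m (Q c) (s1 c) z j) = G c (dg m (Q c) (s1 c) z, dg m (Q c) (s2 c) z)) :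
    PA w m Q s1 s2 fun c t => (update t.1 j (G c t), t.2) :=
  ⟨_, hg, fun c => have : NeZero (Q c) := ⟨(h.hQ c).ne'⟩
    act_U (h.hQ c) (h.h1 c) (h.d2 c) (dvd_mul_right _ _) (dvd_pow_blk j _)
      (fun _ => ZMod.val_lt _) fun z => by rw [dg_set (h.h1 c) (h.hQ c), ← e]; rfl⟩

lemma zdg {s t : γ → ℕ} (hs : In polyB s) (ht : In polyB t) (i : Fin m) :
    Zc (fun p : γ × ℕ => Q p.1) fun p => dg m (Q p.1) (s p.1) (p.2 * t p.1) i := by
  have := h.pQ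
  have : In polyB fun c => Q c ^ (i : ℕ) := h.pQ.pow (In.const _) (Dom.const _)
  exact Zc.nat (f := fun p : γ × ℕ => fld (p.2 * t p.1) (s p.1 * Q p.1 ^ (i : ℕ)) (Q p.1)) (by fun_prop)

lemma rotV (j i : Fin m) (a : ℤ) (cv : Fin m → ℤ) (h0 : ∀ k ≤ j, cv k = 0) :
    PA w m Q s1 s2 fun _ t => (t.1, update t.2 j (t.2 j + (a * t.1 i + ∑ k, cv k * t.2 k))) := by
  have p := (h.fV j).pQ.mul (h.fV j).ps
  have q := h.pQ.comp (In.id.fst (β := γ) (γ := ℕ))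
  refine h.axV j ((h.fV j).rot (((Zc.int q a).mul (h.zdg h.p1 p i)).add
    (Zc.sum univ fun k _ => (Zc.int q (cv k)).mul (h.zdg h.p2 p k)))) fun c z => ?_
  have p0 := Nat.mul_pos (h.hQ c) ((h.fV j).hs c)
  simp only [dg]
  rw [fld_trunc p0 ((dvd_pow_blk j _).trans ((h.d2 c).mul_right _))]
  refine congrArg _ (congrArg _ (sum_congr rfl fun k _ => ?_))
  rcases le_or_gt k j with hk | hk
  · simp [h0 k hk]
  · rw [fld_trunc p0]; rw [mul_comm _ (Q c ^ (k : ℕ))]; exact dvd_pow_blk (⟨j, hk⟩ : Fin k) _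

lemma rotU {i i0 : Fin m} (hi : i < i0) {r : ∀ c, ZMod (Q c)} (hr : Zc Q r) :
    PA w m Q s1 s2 fun c t => (update t.1 i (t.1 i + r c * t.1 i0), t.2) := by
  have p := (h.fU i).pQ.mul (h.fU i).ps
  refine h.axU i ((h.fU i).rot ((hr.comp In.id.fst).mul (h.zdg h.p1 p i0))) fun c z => ?_
  simp only [dg]
  rw [fld_trunc (Nat.mul_pos (h.hQ c) ((h.fU i).hs c))]
  rw [mul_comm _ (Q c ^ (i0 : ℕ))]; exact dvd_pow_blk (⟨i, hi⟩ : Fin i0) _

lemma mulV (j : Fin m) {a : ℤ} (ha : a ≠ 0) (hc : ∀ c, a.natAbs.Coprime (Q c)) :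
    PA w m Q s1 s2 fun _ t => (t.1, update t.2 j (a * t.2 j)) :=
  h.axV j ((h.fV j).zmul ha hc) fun _ _ => rfl

lemma divV (j : Fin m) {a : ℤ} (ha : a ≠ 0) (hc : ∀ c, a.natAbs.Coprime (Q c)) :
    PA w m Q s1 s2 fun c t => (t.1, update t.2 j ((a : ZMod (Q c))⁻¹ * t.2 j)) :=
  h.axV j ((h.fV j).zdiv ha hc) fun _ _ => rfl

lemma lam (i0 : Fin m) {r : Fin m → ∀ c, ZMod (Q c)} (hr : ∀ i, Zc Q (r i)) :
    PA w m Q s1 s2 fun c t => (fun i => t.1 i + if i < i0 then r i c * t.1 i0 else 0, t.2) := by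
  suffices ∀ T : Finset (Fin m), (∀ i ∈ T, i < i0) → PA w m Q s1 s2
      fun c t => (fun i => t.1 i + if i ∈ T then r i c * t.1 i0 else 0, t.2) from
    (this (univ.filter (· < i0)) (by simp)).congr (by simp)
  intro T hT
  induction T using Finset.induction_on with
  | empty => exact PA.id.congr (by simp)
  | insert a T ha ih =>
    have h1 := hT a (by simp)
    refine ((ih fun i hi => hT i (by simp [hi])).comp (h.rotU h1 (hr a))).congr fun c t =>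
      Prod.ext (funext fun i => ?_) rfl
    by_cases e : i = a
    · subst e; simp [ha]
    · simp [e, update_of_ne h1.ne']

omit h in
lemma allV {G : ∀ c, ZMod (Q c) → ZMod (Q c) → ZMod (Q c)}
    (hG : ∀ i, PA w m Q s1 s2 fun c t => (t.1, update t.2 i (G c (t.1 i) (t.2 i)))) :
    PA w m Q s1 s2 fun c t => (t.1, fun i => G c (t.1 i) (t.2 i)) := by
  suffices ∀ T : Finset (Fin m), PA w m Q s1 s2
      fun c t => (t.1, fun i => if i ∈ T then G c (t.1 i) (t.2 i) else t.2 i) from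
    (this univ).congr (by simp)
  intro T
  induction T using Finset.induction_on with
  | empty => exact PA.id.congr (by simp)
  | insert a T ha ih =>
    refine (ih.comp (hG a)).congr fun c t => Prod.ext rfl (funext fun i => ?_)
    by_cases e : i = a
    · subst e; simp [ha]
    · simp [e]

lemma sand {S} {σ τ : γ → ℕ → ℕ} {H H1 H2 : ∀ c, UV m (Q c) → UV m (Q c)}
    (hs : OA φ w μ S fun c F z => F (σ c z))
    (a : ∀ c, Act m (Q c) (s1 c) (s2 c) (σ c) (H c)) (h1 : PA w m Q s1 s2 H1)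
    (h2 : PA w m Q s1 s2 H2)
    (b : ∀ c, Act m (Q c) (s1 c) (s2 c) (τ c) fun t => H1 c (H c (H2 c t))) :
    OA φ w μ S fun c F z => F (τ c z) :=
  let ⟨_, a1, b1⟩ := h1; let ⟨_, a2, b2⟩ := h2
  ((hs.pre a1.zero).post a2.zero).congr (fun _ _ => le_rfl) fun c F z _ => congrArg F
    (Act.ext (h.hQ c) (h.d2 c) ((b1 c).comp ((a c).comp (b2 c))) (b c) z)

lemma rank1 {S} (hs : ∀ i j : Fin m, OA φ w μ S fun c F z =>
      F (swp (s1 c * Q c ^ (i : ℕ)) (s2 c * Q c ^ (j : ℕ)) (Q c) z)) (x y : Fin m → ℤ)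
    (hx : ∀ i c, x i ≠ 0 → (x i).natAbs.Coprime (Q c))
    (hy : ∀ i c, y i ≠ 0 → (y i).natAbs.Coprime (Q c)) :
    OA φ w μ S fun c F z => F (gM (Q c) (s1 c) (s2 c) (vecMulVec x y) z) := by
  by_cases h0 : x = 0 ∨ y = 0
  · refine Op.id.oa.congr (by simp) fun c F z _ => congrArg F (Act.ext (σ := fun z => z) (h.hQ c)
      (h.d2 c) (fun _ => ⟨rfl, rfl, rfl, ?_⟩) (act_gM (h.hQ c) (h.h1 c) (h.d2 c) _) z)
    rcases h0 with rfl | rfl <;> simp
  obtain ⟨i0, hi, hi'⟩ := (univ.filter (x · ≠ 0)).exists_max_image (fun i => i)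
    (by by_contra e; exact h0 (Or.inl (funext (by simpa using e))))
  obtain ⟨j0, hj, hj'⟩ := (univ.filter (y · ≠ 0)).exists_min_image (fun i => i)
    (by by_contra e; exact h0 (Or.inr (funext (by simpa using e))))
  simp only [mem_filter, mem_univ, true_and] at hi hi' hj hj'
  have n0 : x i0 * y j0 ≠ 0 := mul_ne_zero hi hj
  have c0 : ∀ c, (x i0 * y j0).natAbs.Coprime (Q c) := fun c => by
    rw [Int.natAbs_mul]; exact (hx _ c hi).mul_left (hy _ c hj)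
  have zr : ∀ i, Zc Q fun c => (x i : ZMod (Q c)) * (x i0 : ZMod (Q c))⁻¹ := fun i =>
    (Zc.int h.pQ _).mul (Zc.inv h.pQ hi fun c => hx _ c hi)
  let cv : Fin m → ℤ := fun k => if j0 < k then x i0 * y k else 0
  have hcv : ∀ k ≤ j0, cv k = 0 := fun k hk => if_neg (not_lt.2 hk)
  refine h.sand (hs i0 j0) (fun c => act_swp (h.hQ c) (h.h1 c) (h.d2 c) i0 j0)
    ((h.lam i0 zr).comp ((h.divV j0 (neg_ne_zero.2 n0) (by simpa using c0)).comp
      (h.rotV j0 i0 (-1) cv hcv)))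
    (((h.rotV j0 i0 1 cv hcv).comp (h.mulV j0 n0 c0)).comp
      (h.lam i0 fun i => (zr i).neg h.pQ))
    fun c => (act_gM (h.hQ c) (h.h1 c) (h.d2 c) _).congr fun t => ?_
  obtain ⟨u, v⟩ := t
  have s0 : ∀ (v : Fin m → ZMod (Q c)) (a : ZMod (Q c)),
      ∑ k, (cv k : ZMod (Q c)) * update v j0 a k = ∑ k, cv k * v k := fun v a =>
    sum_congr rfl fun k _ => by
      by_cases e : k = j0
      · simp [e, hcv]
      · rw [update_of_ne e]
  have s1 : (x i0 : ZMod (Q c)) * ∑ k, y k * v k = x i0 * y j0 * v j0 + ∑ k, cv k * v k := by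
    rw [mul_sum, ← sum_ite_eq_of_mem univ j0 (fun k => (x i0 : ZMod (Q c)) * y k * v k) (mem_univ _),
      ← sum_add_distrib]
    refine sum_congr rfl fun k _ => ?_
    rcases lt_trichotomy j0 k with e | rfl | e
    · simp [cv, e, e.ne, mul_assoc]
    · simp [cv, mul_assoc]
    · have : y k = 0 := by by_contra h; exact absurd (hj' k h) (not_le.2 e)
      simp [cv, this, e.ne']
  have i1 := zinv_mul (hx _ c hi)
  have i2 := zinv_mul (a := -(x i0 * y j0)) (Q := Q c) (by simpa using c0 c)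
  simp only [update_self, update_idem, s0, lt_irrefl, if_false, add_zero]
  refine Prod.ext (funext fun i => ?_) ?_
  · have e : ((vecMulVec x y).map (Int.cast : ℤ → ZMod (Q c))).mulVec v i = x i * ∑ k, y k * v k := by
      simp [mulVec, dotProduct, vecMulVec_apply, mul_sum, mul_assoc]
    simp only [Pi.add_apply, e]
    rcases lt_trichotomy i i0 with e | rfl | e
    · simp only [e, if_true, update_of_ne e.ne]
      push_cast
      linear_combination ((x i : ZMod (Q c)) * (x i0 : ZMod (Q c))⁻¹) * s1 -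
        (x i : ZMod (Q c)) * (∑ k, y k * v k) * i1
    · simp only [lt_irrefl, if_false, update_self]; push_cast; linear_combination s1
    · have : x i = 0 := by by_contra h; exact absurd (hi' i h) (not_le.2 e)
      simp [this, update_of_ne e.ne', not_lt.2 e.le]
  · dsimp only
    conv_lhs => rw [← update_eq_self j0 v]
    congr 1
    push_cast at i2 ⊢
    linear_combination (-v j0) * i2

lemma full {S} {D : ℤ} (hD : D ≠ 0) (hc : ∀ c, D.natAbs.Coprime (Q c))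
    (hs : OA φ w μ S fun c F z => F (gM (Q c) (s1 c) (s2 c) (D • (1 : Matrix (Fin m) (Fin m) ℤ)) z)) :
    OA φ w μ S fun c F z => F (swp (s1 c) (s2 c) (Q c ^ m) z) := by
  refine h.sand hs (fun c => act_gM (h.hQ c) (h.h1 c) (h.d2 c) _)
    (allV (G := fun c a b => -(D : ZMod (Q c)) * b + a) fun i => ((h.rotV i i 1 0 (by simp)).comp
      (h.mulV i (neg_ne_zero.2 hD) (by simpa using hc))).congr (by simp))
    (allV (G := fun c a b => (D : ZMod (Q c))⁻¹ * (b - a)) fun i => ((h.divV i hD hc).comp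
      (h.rotV i i (-1) 0 (by simp))).congr (by simp [sub_eq_add_neg]))
    fun c => (act_full (h.hQ c) (h.h1 c) (h.d2 c)).congr fun t => ?_
  have i1 := zinv_mul (hc c)
  have e : ∀ v i, ((D • (1 : Matrix (Fin m) (Fin m) ℤ)).map (Int.cast : ℤ → ZMod (Q c))).mulVec v i =
      D * v i := fun v i => by
    simp only [mulVec, dotProduct, map_apply, Matrix.smul_apply, one_apply]; simp
  refine Prod.ext (funext fun i => ?_) (funext fun i => ?_) <;> simp only [Pi.add_apply, e]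
  · linear_combination (t.1 i - t.2 i) * i1
  · ring

end Blk

lemma gM_wire {m W : ℕ} (Q s1 s2 : ℕ) (M : Matrix (Fin m) (Fin m) ℤ) (z : ℕ) :
    gM Q (s1 * W) (s2 * W) M z = gM Q s1 s2 M (z / W) * W + z % W := by
  have : ∀ s, dg m Q (s * W) z = dg m Q s (z / W) := fun s => funext fun i => by
    rw [dg, dg, mul_right_comm, fld_wire]
  rw [gM, setF_wire, this, this, gM]

structure C1 (p W : ℕ) where
  N : ℕ
  ℓ : ℕ
  s1 : ℕ
  s2 : ℕ
  b : ℕ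
  pos : 0 < N
  d2 : p ^ b * s2 ∣ s1
  d1 : p ^ b * s1 ∣ N
  dW : W ^ b ∣ s2

instance (p W : ℕ) : Cd (C1 p W) := ⟨fun c => cd (c.N, c.s1, c.s2, Un.mk c.b)⟩

lemma C1.tup {p W : ℕ} : In polyB fun c : C1 p W => (c.N, c.s1, c.s2, Un.mk c.b) :=
  In.id.of_cd fun _ => rfl

lemma sz_le_size {a N : ℕ} (h : a ≤ N) : sz a ≤ 4 * N.size + 1 :=
  (sz_nat_le a).trans (by have := Nat.size_le_size h; omega)

lemma le_size_of_pow {p b N : ℕ} (hp : 2 ≤ p) (h : p ^ b ≤ N) : b ≤ N.size :=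
  (Nat.lt_size.2 ((Nat.pow_le_pow_left hp b).trans h)).le

@[reducible] def w1 (p W : ℕ) (hp : 2 ≤ p) : Wd (C1 p W) where
  N := C1.N
  ℓ := C1.ℓ
  Y _ := 0
  lg c := c.N.size
  V _ := ℕ → ZMod 2
  enc c := enc2 c.ℓ
  len _ _ := tab_length _ _
  pos := C1.pos
  poly := C1.tup.fst
  lgd := Dom.size C1.tup.fst
  szle := ⟨20, 1, fun c => by
    have h1 := Nat.le_of_dvd c.pos c.d1
    have p1 := Nat.pos_of_mul_pos_left (Nat.pos_of_dvd_of_pos c.d1 c.pos)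
    have h2 := Nat.le_of_dvd p1 c.d2
    have p0 : 0 < p ^ c.b := by positivity
    have a1 := sz_le_size (le_refl c.N)
    have a2 := sz_le_size (show c.s1 ≤ c.N by nlinarith)
    have a3 := sz_le_size (show c.s2 ≤ c.N by nlinarith)
    have a4 := le_size_of_pow hp (show p ^ c.b ≤ c.N by nlinarith)
    change sz (c.N, c.s1, c.s2, Un.mk c.b) ≤ _
    simp only [sz_pair, sz_un, pow_one]; omega⟩

section
variable {p K : ℕ} (hp : 2 ≤ p) (P : C1 p (2 ^ K) → Prop) (hP : ∀ c, P c → 0 < c.b) (m : ℕ)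

lemma C1.tb {W : ℕ} : In polyB fun c : C1 p W => c.b := C1.tup.snd.snd.snd.unval
lemma C1.db {W : ℕ} : Dom polyB fun c : C1 p W => c.b := Dom.unval C1.tup.snd.snd.snd

lemma pow_split (p b m : ℕ) : p ^ b = (p ^ (b / m)) ^ m * p ^ (b % m) := by
  rw [← pow_mul, ← pow_add, Nat.div_add_mod']

lemma blk1 : Blk ((w1 p (2 ^ K) hp).res P) m (fun c => p ^ (c.1.b / m)) (fun c => c.1.s1)
    fun c => c.1.s2 :=
  ⟨(In.const _).pow ((C1.tb.comp In.id.val).div (In.const _)) (C1.db.comp In.id.val).div,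
    C1.tup.snd.fst.comp In.id.val, C1.tup.snd.snd.fst.comp In.id.val,
    fun c => (Nat.mul_dvd_mul_right ⟨_, pow_split _ _ m⟩ _).trans c.1.d2,
    fun c => (Nat.mul_dvd_mul_right ⟨_, pow_split _ _ m⟩ _).trans c.1.d1,
    fun _ => pow_pos (by omega) _⟩

include hP
lemma dW2 (c : {c // P c}) : 2 ^ K ∣ c.1.s2 := (dvd_pow_self _ (hP _ c.2).ne').trans c.1.dW
lemma dW1 (c : {c // P c}) : 2 ^ K ∣ c.1.s1 := (dW2 P hP c).trans ((dvd_mul_left _ _).trans c.1.d2)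
lemma dW0 (c : {c // P c}) : 2 ^ K ∣ c.1.N := (dW1 P hP c).trans ((dvd_mul_left _ _).trans c.1.d1)

lemma blk2 : Blk (((w1 p (2 ^ K) hp).res P).div _ (dW0 P hP)) m (fun c => p ^ (c.1.b / m))
    (fun c => c.1.s1 / 2 ^ K) fun c => c.1.s2 / 2 ^ K :=
  have bl := blk1 hp P m
  ⟨bl.pQ, bl.p1.div (In.const _), bl.p2.div (In.const _), fun c => by
    rw [← Nat.mul_div_assoc _ (dW2 P hP c)]
    exact Nat.div_dvd_div ((dW2 P hP c).mul_left _) (bl.d2 c), fun c => by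
    rw [← Nat.mul_div_assoc _ (dW1 P hP c)]
    exact Nat.div_dvd_div ((dW1 P hP c).mul_left _) (bl.d1 c), bl.hQ⟩

lemma swap_call (hm : 2 ≤ m) (n : ℕ) (μ) (i j : Fin m) :
    OA (fun x : Ar (w1 p (2 ^ K) hp) => (⟨x.1, fun z => x.2 (swp x.1.s1 x.1.s2 (p ^ x.1.b) z)⟩ :
      Ar (w1 p (2 ^ K) hp))) (((w1 p (2 ^ K) hp).res P).div _ (dW0 P hP)) μ
      (fun κ c => ⨆ (x : Ar (w1 p (2 ^ K) hp)) (_ : (w1 p (2 ^ K) hp).Sub
        (fun _ => 0) C1.b n (2 ^ K) m 0 n c.1 x.1), κ x)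
      fun c F z => F (swp (c.1.s1 / 2 ^ K * (p ^ (c.1.b / m)) ^ (i : ℕ))
        (c.1.s2 / 2 ^ K * (p ^ (c.1.b / m)) ^ (j : ℕ)) (p ^ (c.1.b / m)) z) := by
  have bl' := blk2 hp P hP m
  have pi : ∀ i : ℕ, In polyB fun c : {c // P c} => (p ^ (c.1.b / m)) ^ i := fun i =>
    bl'.pQ.pow (In.const _) (Dom.const _)
  have lt : ∀ c : {c // P c}, c.1.b / m < c.1.b := fun c => Nat.div_lt_self (hP _ c.2) hm
  refine OA.call (w := w1 p (2 ^ K) hp) (f := fun c F z => F (swp c.s1 c.s2 (p ^ c.b) z))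
    (g := fun c => ⟨c.1.N / 2 ^ K, c.1.ℓ, c.1.s1 / 2 ^ K * (p ^ (c.1.b / m)) ^ (i : ℕ),
    c.1.s2 / 2 ^ K * (p ^ (c.1.b / m)) ^ (j : ℕ), c.1.b / m,
    (((w1 p (2 ^ K) hp).res P).div _ (dW0 P hP)).pos c,
    ((dvd_pow_blk j _).trans (bl'.d2 c)).mul_right _, (dvd_pow_blk i _).trans (bl'.d1 c),
    Dvd.dvd.mul_right (Nat.dvd_div_of_mul_dvd (by
      rw [← pow_succ']; exact (pow_dvd_pow _ (lt c)).trans c.1.dW)) _⟩)
    (((((w1 p (2 ^ K) hp).res P).div _ (dW0 P hP)).poly.pair ((bl'.p1.mul (pi i)).pair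
      ((bl'.p2.mul (pi j)).pair (((C1.tb.comp In.id.val).div (In.const _)).unmk
        (C1.db.comp In.id.val).div)))).of_cd fun _ => rfl) (fun _ => rfl) (fun _ x => x)
    (fun _ _ => rfl) (fun _ _ _ _ => rfl) fun κ c F =>
      le_iSup₂_of_le _ ⟨?_, lt c, ?_, rfl, ?_, le_rfl⟩ le_rfl
  · exact Nat.mul_div_le _ _
  · rw [mul_assoc]; exact Nat.mul_le_mul_left _ (Nat.mul_div_le _ _)
  · exact Nat.size_le_size (Nat.div_le_self _ _)
end

theorem swapP : ∃ (p K : ℕ) (hp : 2 ≤ p) (a : ℝ), 0 < a ∧ a < 1 ∧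
    Pm (w1 p (2 ^ K) hp) (fun c => (0 + 1) * pw a c.b) fun c => swp c.s1 c.s2 (p ^ c.b) := by
  obtain ⟨D, hD, hN⟩ := net1
  obtain ⟨m, K, n, T, hm, hn, ex⟩ := exec hN
  obtain ⟨p, hp1, hp2⟩ := Nat.exists_infinite_primes
    (D.natAbs + (T.map fun q => ∑ i, ((q.1 i).natAbs + (q.2 i).natAbs)).sum + 1)
  have cop : ∀ {a : ℤ} (k : ℕ), a ≠ 0 → a.natAbs < p → a.natAbs.Coprime (p ^ k) := fun k h1 h2 =>
    (Nat.coprime_of_lt_prime (by simpa using h1) h2 hp2).symm.pow_right k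
  have hp := hp2.two_le
  obtain ⟨a, a0, a1, ha⟩ := exists_exp hm hn
  obtain ⟨b0, fx⟩ := Op.fix a0 0 (by omega) ha
  refine ⟨p, K, hp, a, a0, a1, fx _ (w1 p (2 ^ K) hp) (fun _ => 0) C1.b n _ (fun _ => rfl) ?_⟩
  have t := C1.tup (p := p) (W := 2 ^ K)
  obtain ⟨P, hP⟩ : ∃ P : C1 p (2 ^ K) → Prop, ∀ c, P c ↔ b0 ≤ c.b ∧ 0 < c.b := ⟨_, fun _ => Iff.rfl⟩
  have hP' : ∀ c, P c → 0 < c.b := fun c h => ((hP c).1 h).2
  classical
  refine (OA.dite (p := P) (f := fun c F z => F (swp c.1.s1 c.1.s2 (p ^ c.1.b) z))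
    (g := fun c F z => F (swp c.1.s1 c.1.s2 (p ^ c.1.b) z))
    (S1 := fun κ c => n • ⨆ (x : Ar (w1 p (2 ^ K) hp)) (_ : (w1 p (2 ^ K) hp).Sub
      (fun _ => 0) C1.b n (2 ^ K) m 0 n c.1 x.1), κ x)
    (Dec.of (In.dec ((Dec.le (In.const b0) C1.tb).and' (Dec.lt (In.const 0) C1.tb))) (by simp [hP])) ?_
    (Pm.swpN (w := (w1 p (2 ^ K) hp).res fun c => ¬ P c) p b0 (t.snd.fst.comp In.id.val)
      (t.snd.snd.fst.comp In.id.val) (C1.tb.comp In.id.val)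
      (fun c => by have := c.2; rw [hP] at this; omega) (fun c => c.1.d2)
      fun c => c.1.d1)).congr (fun κ c => ?_) fun c F z _ => by split_ifs <;> rfl
  swap
  · by_cases h : P c
    · simp [h, ((hP c).1 h).1]
    · simp [h]
  have bl := blk1 hp P m
  have bl' := blk2 hp P hP' m
  have hx : ∀ q ∈ T, ∀ i, (q.1 i).natAbs < p ∧ (q.2 i).natAbs < p := fun q hq i => by
    have h1 := List.single_le_sum (fun _ _ => Nat.zero_le _) _ (List.mem_map_of_mem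
      (f := fun q : (Fin m → ℤ) × (Fin m → ℤ) => ∑ i, ((q.1 i).natAbs + (q.2 i).natAbs)) hq)
    have h2 := single_le_sum (f := fun i => (q.1 i).natAbs + (q.2 i).natAbs)
      (fun _ _ => Nat.zero_le _) (mem_univ i)
    omega
  have pq := bl.pQ.pow (In.const m) (Dom.const _)
  have h1 := ex _ _ _ _ ((w1 p (2 ^ K) hp).res P) (fun c => (0 + 1) * pw a c.1.b) _ (dW0 P hP')
    (fun c M => LinearMap.funLeft (ZMod 2) (ℕ → ZMod 2)
      (gM (p ^ (c.1.b / m)) (c.1.s1 / 2 ^ K) (c.1.s2 / 2 ^ K) M))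
    (fun c => LinearMap.ext fun F => funext fun z => congrArg F (Act.ext (bl'.hQ c) (bl'.d2 c)
      (act_gM (bl'.hQ c) (bl'.h1 c) (bl'.d2 c) _) (fun _ => ⟨rfl, rfl, rfl, by simp⟩) z))
    (fun c M M' => LinearMap.ext fun F => funext fun z => congrArg F (Act.ext (bl'.hQ c) (bl'.d2 c)
      (act_gM (bl'.hQ c) (bl'.h1 c) (bl'.d2 c) _) (((act_gM (bl'.hQ c) (bl'.h1 c) (bl'.d2 c) M').comp
        (act_gM (bl'.hQ c) (bl'.h1 c) (bl'.d2 c) M)).congr fun t => by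
          simp [Matrix.map_add, add_mulVec, add_assoc]) z))
    (fun t => let ⟨G, h1, h2⟩ := z2_gate t; ⟨G, h1, fun c => h2 _⟩) fun q hq =>
      bl'.rank1 (swap_call hp P hP' m hm n _) q.1 q.2 (fun i c h => cop _ h (hx q hq i).1)
        fun i c h => cop _ h (hx q hq i).2
  have h2 := bl.full hD (fun c => cop _ hD (by omega)) (h1.congr (fun _ _ => le_rfl)
    fun c F z _ => congrArg F (by
      rw [← gM_wire, Nat.div_mul_cancel (dW2 P hP' c), Nat.div_mul_cancel (dW1 P hP' c)]))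
  exact (h2.post (Pm.swpN (w := (w1 p (2 ^ K) hp).res P) p m
    (s1 := fun c => c.1.s1 * (p ^ (c.1.b / m)) ^ m)
    (s2 := fun c => c.1.s2 * (p ^ (c.1.b / m)) ^ m) (t := fun c => c.1.b % m) (bl.p1.mul pq)
    (bl.p2.mul pq) ((C1.tb.comp In.id.val).mod (In.const _)) (fun c => (Nat.mod_lt _ (by omega)).le)
    (fun c => Dvd.dvd.mul_right (Dvd.dvd.trans ⟨1, by rw [pow_split p c.1.b m]; ring⟩ c.1.d2) _)
    fun c => Dvd.dvd.trans ⟨1, by rw [pow_split p c.1.b m]; ring⟩ c.1.d1)).congr (fun _ _ => le_rfl)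
    fun c F z _ => by
      rw [pow_split p c.1.b m, swp_succ (bl.h1 c) (by rw [← pow_split]; exact c.1.d2)]

theorem swapP' : ∃ (p K : ℕ) (a : ℝ), 2 ≤ p ∧ 0 < a ∧ a < 1 ∧ ∀ (γ : Type) [Cd γ] (w : Wd γ)
    (s1 s2 b : γ → ℕ), In polyB s1 → In polyB s2 → In polyB b → Dom polyB b →
    (∀ c, p ^ b c * s2 c ∣ s1 c) → (∀ c, p ^ b c * s1 c ∣ w.N c) → (∀ c, 2 ^ (K * b c) ∣ s2 c) →
    Pm w (fun c => pw a (b c)) fun c => swp (s1 c) (s2 c) (p ^ b c) := by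
  obtain ⟨p, K, hp, a, a0, a1, h⟩ := swapP
  refine ⟨p, K, a, hp, a0, a1, fun γ _ w s1 s2 b p1 p2 pb db d2 d1 dW => ?_⟩
  exact Op.transfer h (g := fun c => ⟨w.N c, w.ℓ c, s1 c, s2 c, b c, w.pos c, d2 c, d1 c,
    pow_mul 2 K _ ▸ dW c⟩) ((w.poly.pair (p1.pair (p2.pair (pb.unmk db)))).of_cd fun _ => rfl) 1
    (fun c => ⟨by simp, rfl, by simp, Nat.zero_le _, le_rfl⟩) (fun c x => val2 (w.enc c x))
    (fun c x => enc2_val2 (w.len _ _)) fun c F z _ => enc2_val2 (w.len _ _)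

end Vale.Agent.P338
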