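import Vale.Agent.P338.Main

/-! Reading the input, writing the output, and the final bounds. -/

namespace Vale.Agent.P338

open Filter Cd

variable {ρ : L}

def isB : Option Sy → Bool := fun x => x == some (some true) || x == some (some false)

def rdBody : L :=
  .test none isT
    (.seq (.dat (.pop none)) (.seq (.dat (.push 0 (some false))) (.seq (.dat (.push 0 (some false)))
      (.seq (.dat (.push 0 (some true))) (.dat (.push 0 (some true)))))))
    (.seq (.dat (.pop none)) (.seq (.dat (.push 0 (some false))) (.dat (.push 0 (some true)))))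

lemma popI {i o a t c u x y z} (s : Sy) :
    Le ρ (.dat (.pop none)) (mk (s :: i) o a t c u x y z) (mk i o a t c u x y z) 1 := Le.dat rfl

lemma emit1 {i o a t c u x y z} (b : Bool) :
    Le ρ (.dat (.emit b)) (mk i o a t c u x y z) (mk i (o ++ [b]) a t c u x y z) 1 := Le.dat rfl

lemma rd_loop (w : List Bool) {i : List Sy} (hi : isB i.head? = false) : ∀ (acc : List Bool) o a t c u x y z,
    Le ρ (.loop none isB rdBody) (mk (w.map some ++ i) o ((V.ofList (acc.map V.bit)).enc ++ a) t c u x y z)
      (mk i o ((V.ofList ((w.reverse ++ acc).map V.bit)).enc ++ a) t c u x y z) (11 * w.length + 1) := by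
  induction w with
  | nil => intro acc o a t c u x y z; exact Le.stop hi
  | cons b w ih =>
    intro acc o a t c u x y z
    have := ih (b :: acc) o a t c u x y z
    rw [List.reverse_cons, List.append_assoc, List.singleton_append]
    cases b
    · exact Le.mono (Le.go rfl (Le.test0 rfl ((popI _).seq ((push0 _).seq (push0 _)))) this)
        (by simp only [List.length_cons]; omega)
    · exact Le.mono (Le.go rfl (Le.test1 rfl ((popI _).seq ((push0 _).seq ((push0 _).seq
        ((push0 _).seq (push0 _)))))) this) (by simp only [List.length_cons]; omega)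

def wrBody : L :=
  .seq (.dat (.pop (some 0))) (.test (some 0) isT
    (.seq (.dat (.pop (some 0))) (.seq (.dat (.pop (some 0))) (.seq (.dat (.pop (some 0))) (.dat (.emit true)))))
    (.seq (.dat (.pop (some 0))) (.dat (.emit false))))

lemma wr_loop (w : List Bool) : ∀ i o a t c u x y z,
    Le ρ (.loop (some 0) isT wrBody) (mk i o ((V.ofList (w.map V.bit)).enc ++ a) t c u x y z)
      (mk i (o ++ w) (some false :: a) t c u x y z) (11 * w.length + 1) := by
  induction w with
  | nil => intro i o a t c u x y z; rw [List.append_nil]; exact Le.stop rfl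
  | cons b w ih =>
    intro i o a t c u x y z
    have := ih i (o ++ [b]) a t c u x y z
    rw [List.append_assoc, List.singleton_append] at this
    cases b
    · exact Le.mono (Le.go rfl ((pop0 _).seq (Le.test0 rfl ((pop0 _).seq (emit1 _)))) this)
        (by simp only [List.length_cons]; omega)
    · exact Le.mono (Le.go rfl ((pop0 _).seq (Le.test1 rfl ((pop0 _).seq ((pop0 _).seq
        ((pop0 _).seq (emit1 _)))))) this) (by simp only [List.length_cons]; omega)

def prog (P : L) : L :=
  .seq (.dat (.push 0 (some false))) (.seq (.loop none isB rdBody) (.seq (.dat (.pop none))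
    (.seq (.dat (.push 0 (some false))) (.seq (.loop none isB rdBody) (.seq (.dat (.push 0 (some true)))
      (.seq P (.loop (some 0) isT wrBody)))))))

lemma prog_le {P : L} (x y z : List Bool) {n : ℕ} (h : Rn ρ P (cd (y.reverse, x.reverse)) (cd z) n) :
    Le ρ (prog P) ⟨x.map some ++ none :: y.map some, [], fun _ => []⟩ (mk [] z [some false] [] [] [] [] [] [])
      (n + 11 * (x.length + y.length + z.length) + 20) := by
  have h1 := rd_loop (ρ := ρ) x (i := none :: y.map some) rfl [] [] [] [] [] [] [] [] []
  have h2 := rd_loop (ρ := ρ) y (i := []) rfl [] [] ((V.ofList ((x.reverse ++ []).map V.bit)).enc ++ [])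
    [] [] [] [] [] []
  have h3 := h [] [] [] [] [] [] [] [] []
  have h4 := wr_loop (ρ := ρ) z [] [] [] [] [] [] [] [] []
  simp only [List.append_nil] at h1 h2 h3 h4
  have h5 : Le ρ (prog P) (mk (x.map some ++ none :: y.map some) [] [] [] [] [] [] [] []) _ _ :=
    (push0 _).seq (h1.seq ((popI _).seq ((push0 _).seq (h2.seq ((push0 _).seq (h3.seq h4))))))
  refine Le.mono (h5.cast (St.eq rfl rfl fun r => by fin_cases r <;> rfl) rfl) ?_
  omega

lemma bv_rev (x : List Bool) : bv x.reverse = val x := by
  induction x using List.reverseRecOn with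
  | nil => rfl
  | append_singleton x b ih => rw [List.reverse_concat, bv, ih, val, val, List.foldl_concat, add_comm]

lemma bitl_rev (k z : ℕ) : (bitl k z).reverse = bin k z := by
  rw [bitl, tab_reverse]
  exact List.ext_getElem (by simp [tab, bin]) fun i _ _ => by simp [tab, bin]

theorem fast : ∃ (A : TM) (δ C : ℝ), 0 < δ ∧ A.Multiplies ∧
    ∀ n : ℕ, 2 ≤ n → (A.worst n : ℝ) ≤ C * n * Real.log n ^ (1 - δ) := by
  obtain ⟨δ, C, T, d0, d1, c0, hT, h⟩ := mulTm
  let B : Bd In2 := ⟨fun _ p => T p.1.1.length⟩
  have l : In B fun p => p.1.1.length := In.id.val.fst.length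
  have d : Dom B fun p => p.1.1.length := Dom.length In.id.val.fst
  obtain ⟨_, P, c, hP⟩ := (In.bitl (l.add l) (d.add d)
    (h.in (B := B) (Eventually.of_forall fun _ => ⟨1, fun p => by simp [B]⟩))).reverse.tm
  have key : ∀ n (x y : List Bool), x.length = n → y.length = n → ∃ u ≤ 2 * (c * (T n + (8 * n + 3)) + 44 * n + 20) + 3,
      (mach (prog P)).halting ((mach (prog P)).run (input x y) u).state = true ∧
      ((mach (prog P)).run (input x y) u).tape (mach (prog P)).out =
        (mach (prog P)).word ((bin (2 * n) (val x * val y)).map .bit) := fun n x y hx hy => by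
    obtain ⟨t, ht, e⟩ := prog_le x y _ (hP (prog P) ⟨(y.reverse, x.reverse), by simp [hx, hy]⟩)
    obtain ⟨u, hu, e1, e2⟩ := compile _ _ _ _ e
    have i : (x.map some ++ none :: y.map some).map toL = input x y := by simp [input, toL, Function.comp_def]
    have s1 := sz_bits y.reverse
    have s2 := sz_bits x.reverse
    rw [i] at e1 e2
    simp only [B, sz_sub, sz_pair, List.length_reverse, bitl_length, hx, hy] at ht s1 s2
    refine ⟨u, ?_, e1, e2.trans ?_⟩
    · have := Nat.mul_le_mul_left c (show T n + (sz y.reverse + sz x.reverse + 1) ≤ T n + (8 * n + 3) by omega)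
      omega
    · simp only [mk, bitl_rev, bv_rev, List.length_reverse, hy, mul_comm (val y), two_mul]
  refine ⟨mach (prog P), δ, 2 * c * C + 2 * (22 * c + 120), d0, fun n _ x y hx hy =>
    (key n x y hx hy).imp fun u h => h.2, fun n hn => ?_⟩
  have a : (mach (prog P)).worst n ≤ 2 * (c * (T n + (8 * n + 3)) + 44 * n + 20) + 3 := ciSup_le fun p => by
    obtain ⟨u, hu, e, -⟩ := key n (List.ofFn p.1) (List.ofFn p.2) (by simp) (by simp)
    exact (Nat.sInf_le e).trans hu
  have n2 : (2 : ℝ) ≤ n := by exact_mod_cast hn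
  have b : 1 / 2 ≤ Real.log n ^ (1 - δ) := by
    have l2 := Real.log_two_gt_d9
    have l3 := Real.log_two_lt_d9
    have := Real.rpow_le_rpow_of_exponent_ge (x := Real.log 2) (by linarith) (by linarith) (show 1 - δ ≤ 1 by linarith)
    rw [Real.rpow_one] at this
    exact le_trans (by linarith) (Real.rpow_le_rpow (by linarith) (Real.log_le_log two_pos n2) (by linarith))
  have a' : ((mach (prog P)).worst n : ℝ) ≤ 2 * (c * (T n + (8 * n + 3)) + 44 * n + 20) + 3 := by exact_mod_cast a
  have c1 := mul_le_mul_of_nonneg_left (hT n hn) (Nat.cast_nonneg (α := ℝ) c)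
  have c2 := mul_le_mul_of_nonneg_left b (show (0 : ℝ) ≤ 2 * (22 * c + 120) * n by positivity)
  have c3 := mul_le_mul_of_nonneg_left n2 (Nat.cast_nonneg (α := ℝ) c)
  nlinarith

theorem no_lower : ¬ ∀ A : TM, A.Multiplies → ∃ (c : ℝ) (N : ℕ), 0 < c ∧ 2 ≤ N ∧
    ∀ n ≥ N, c * n * Real.log n ≤ A.worst n := fun h => by
  obtain ⟨A, δ, C, d0, hA, hC⟩ := fast
  obtain ⟨c, N, c0, hN, hc⟩ := h A hA
  have t : Tendsto (fun n : ℕ => Real.log n ^ δ) atTop atTop :=
    (tendsto_rpow_atTop d0).comp (Real.tendsto_log_atTop.comp tendsto_natCast_atTop_atTop)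
  obtain ⟨n, h1, h2⟩ := ((t.eventually_gt_atTop (C / c)).and (eventually_ge_atTop N)).exists
  have n2 : (2 : ℝ) ≤ n := by exact_mod_cast hN.trans h2
  have l : 0 < Real.log n := Real.log_pos (by linarith)
  have e : Real.log n = Real.log n ^ δ * Real.log n ^ (1 - δ) := by
    rw [← Real.rpow_add l]; simp
  have := (hc n h2).trans (hC n (hN.trans h2))
  rw [div_lt_iff₀ c0] at h1
  have p : 0 < n * Real.log n ^ (1 - δ) := by positivity
  have := mul_lt_mul_of_pos_right h1 p
  generalize Real.log n ^ δ = x, Real.log n ^ (1 - δ) = y at *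
  generalize Real.log n = z at *
  subst e
  nlinarith

end Vale.Agent.P338
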