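import Vale.Agent.P338.FFT

/-! Passes that change the length of an array; products of residues. -/

namespace Vale.Agent.P338

open Filter Cd Finset

set_option linter.unusedSectionVars false
set_option linter.unusedVariables false

variable {α γ Ω Ω' : Type} [Cd α] [Cd γ] [Cd Ω] [Cd Ω'] {w : Wd γ} {μ k r M N M' : γ → ℕ} {φ : Ω → Ω'}
  {S : (Ω → ℕ∞) → γ → ℕ∞} {B : Bd α} {c : α → γ}

def Tz (w : Wd γ) (μ M N : γ → ℕ) (f : ∀ c, (ℕ → w.V c) → ℕ → w.V c) : Prop :=
  ∀ (α : Type) [Cd α] (B : Bd α) (c : α → γ), Env w μ B c → ∀ F : ∀ x, ℕ → w.V (c x),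
    In B (fun x => tab (M (c x)) fun z => w.enc _ (F x z)) →
    In B fun x => tab (N (c x)) fun z => w.enc _ (f (c x) (F x) z)

lemma Tz.comp {f g} (hf : Tz w μ M M' f) (hg : Tz w μ M' N g) : Tz w μ M N fun c F => g c (f c F) :=
  fun α _ B c E F hF => hg α B c E _ (hf α B c E F hF)

lemma Tz.congr {f g} (h : Tz w μ M N f) (e : ∀ c F, ∀ z < N c, f c F z = g c F z) : Tz w μ M N g :=
  fun α _ B c E F hF => (h α B c E F hF).congr fun _ => tab_congr fun z hz => by rw [e _ _ z hz]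

lemma Tz.cast {f M' N'} (h : Tz w μ M N f) (e : ∀ c, M c = M' c) (e' : ∀ c, N c = N' c) :
    Tz w μ M' N' f := by rwa [← funext e, ← funext e']

lemma Op.tz {hN hp f} (h : Op (w.rsz N hN hp) μ f) (j : ℕ) (hj : ∀ c, N c ≤ j * w.N c) : Tz w μ N N f :=
  fun α _ B c E F hF => h α B c (E.rsz hN hp j hj) F hF

lemma Tz.add {f g} (hf : Tz (w.zp k) μ M N f) (hg : Tz (w.zp k) μ M N g) :
    Tz (w.zp k) μ M N fun c F z => f c F z + g c F z := fun α _ B c E F hF =>
  (In.zipWith (g := sadd) (by fun_prop) (hf α B c E F hF) (hg α B c E F hF)).congr fun x => by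
    rw [tab_zipWith]; exact tab_congr fun z _ => sadd_enc _ _ _

lemma In.zero0 {n k : α → ℕ} {F : ∀ x, ℕ → Zp (k x)} (hn : ∀ x, 0 < n x)
    (hF : In B fun x => tab (n x) fun z => enc _ (F x z)) : In B fun x => enc (k x) 0 :=
  have h := In.getD' hF (In.const 0) (In.const [])
  (h.sadd h.sneg).congr fun x => by rw [tab_getD _ _ (hn x), sneg_enc, sadd_enc, add_neg_cancel]

section
variable {f g : γ → ℕ → ℕ} (h : Emb M N f g) {M0 : γ → ℕ} (p0 : In polyB M0) (h0 : ∀ c, M c ≤ M0 c)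
  (j : ℕ) (h1 : ∀ c, M0 c ≤ j * w.N c) (h2 : ∀ c, N c ≤ j * w.N c)
include h p0 h0 h1 h2

lemma Tz.pad (hp : ∀ c, 0 < M0 c) :
    Tz (w.zp k) μ M0 N fun c F z => if Emb.im M f g c z then F (g c z) else 0 := fun α _ B c E F hF =>
  ((E.rsz ((In.const j).mul w.poly) (fun c => (hp c).trans_le (h1 c)) j fun _ => le_rfl).pad h p0 h0 h1 h2
    hF (In.zero0 (fun _ => hp _) hF) fun _ => (enc_length _ _).le).congr fun x =>
      tab_congr fun z _ => by dsimp only; split_ifs <;> rfl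

lemma Tz.unpad (hp : ∀ c, 0 < N c) :
    Tz (w.zp k) μ N M0 fun c F y => if y < M c then F (f c y) else 0 := fun α _ B c E F hF =>
  ((E.rsz ((In.const j).mul w.poly) (fun c => (hp c).trans_le (h2 c)) j fun _ => le_rfl).unpad h p0 h0 h1 h2
    hF (In.zero0 (fun _ => hp _) hF) fun _ => (enc_length _ _).le).congr fun x =>
      tab_congr fun z _ => by dsimp only; split_ifs <;> rfl
end

lemma OA.sand {hN hp f g h} (hg : OA φ (w.rsz N hN hp) μ S g) (j : ℕ) (hj : ∀ c, N c ≤ j * w.N c)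
    (hf : Tz w μ w.N N f) (hh : Tz w μ N w.N h) : OA φ w μ S fun c F => h c (g c (f c F)) := by
  have u : ∀ e c, (w.rsz N hN hp).U e c ≤ (j + 1) * w.U e c := fun e c => by
    have := hj c
    simp only [Wd.U, mul_add (j + 1), ← mul_assoc]
    gcongr <;> nlinarith
  have up : OX φ w μ Ar.c S fun a : Ar (w.rsz N hN hp) => (⟨a.1, g a.1 a.2⟩ : Ar (w.rsz N hN hp)) :=
    Eventually.mono hg fun e h' => h'.mono ⟨j + 1, fun x => by
      have := Nat.mul_le_mul_left (μ x.1 + 1) (u e x.1)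
      simp only [Wd.bx]; nlinarith⟩ (fun _ _ => le_rfl) fun _ => rfl
  have sm : Sm w (Ar.c : Ar (w.rsz N hN hp) → γ) :=
    let ⟨e, C, h'⟩ := (w.rsz N hN hp).sz_ar
    ⟨e, C * (j + 1), fun y => (h' y).trans (by rw [mul_assoc]; exact Nat.mul_le_mul_left _ (u _ _))⟩
  have pre : In (w.bx μ Ar.c) fun x : Ar w => (⟨x.1, f x.1 x.2⟩ : Ar (w.rsz N hN hp)) :=
    In.armk (w := w.rsz N hN hp) In.id.ar1 (hf _ _ _ (w.env μ) (fun x => x.2) In.id.ar2)
  have post : In (w.bx μ Ar.c) fun x : Ar (w.rsz N hN hp) => (⟨x.1, h x.1 x.2⟩ : Ar w) :=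
    In.armk In.id.ar1 (hh _ _ _ (w.envx μ In.id.ar1) (fun x : Ar (w.rsz N hN hp) => x.2) In.id.ar2)
  exact (post.ox.comp (up.comp pre.ox (fun _ => rfl) sm) (fun _ => rfl) sm).mono (by simp) fun _ => rfl

lemma Emb.add {a : γ → ℕ} (hM : In polyB M) (hN : In polyB N) (ha : In polyB a)
    (h : ∀ c, M c + a c ≤ N c) : Emb M N (fun c y => y + a c) fun c z => z - a c :=
  ⟨hM, hN, In.id.snd.add (ha.comp In.id.fst), In.id.snd.sub (ha.comp In.id.fst),
    fun _ _ _ _ _ => by omega, fun c _ _ => by have := h c; omega, fun _ _ _ => by omega⟩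

structure Pr where
  k : ℕ
  a : Zp k
  b : Zp k

instance : Cd Pr := ⟨fun p => cd (enc p.k p.a, enc p.k p.b)⟩

def SM (ν : ℕ → ℕ) : Prop := Tm (fun p : Pr => (p.k + 2) * ν p.k) fun p => enc p.k (p.a * p.b)

lemma sm0 : ∃ e, SM fun k => (k + 2) ^ e := by
  obtain ⟨e, h⟩ := poly_smul0.tm
  have h1 : Tm (fun _ => 0) fun p : Pr => (enc p.k p.a, enc p.k p.b) := Tm.id.of_cd fun _ => rfl
  refine ⟨e, (h.comp h1).mono ⟨10 ^ e, fun p => ?_⟩ fun p => smul0_enc _ _ _⟩
  have := sz_bits (enc p.k p.a)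
  have := sz_bits (enc p.k p.b)
  simp only [polyB, sz_pair, enc_length, zero_add] at *
  calc _ ≤ (10 * (p.k + 2)) ^ e := Nat.pow_le_pow_left (by omega) _
    _ ≤ _ := by rw [mul_pow]; gcongr; nlinarith [Nat.zero_le ((p.k + 2) ^ e)]

variable {ν : ℕ → ℕ}

lemma Op.mul (h : SM ν) (hν : ∃ C, ∀ c, ν (k c) ≤ C * (μ c + 1)) {f g} (hf : Op (w.zp k) μ f)
    (hg : Op (w.zp k) μ g) : Op (w.zp k) μ fun c F z => f c F z * g c F z := by
  intro α _ B c E F hF
  obtain ⟨C, hν⟩ := hν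
  have h1 : In B fun x => tab (w.N (c x)) fun z => (⟨k (c x), f _ (F x) z, g _ (F x) z⟩ : Pr) :=
    ((hf α B c E F hF).zip (hg α B c E F hF)).of_cd fun x => by
      simp only [Wd.arr, tab_zip]; simp only [tab, cd, List.map_map]; rfl
  have h2 : In (⟨fun _ q => 0 + (q.2.k + 2) * ν q.2.k⟩ : Bd (Unit × Pr)) fun q => enc q.2.k (q.2.a * q.2.b) :=
    Eventually.of_forall fun _ => Tm.comp h Tm.snd
  refine (In.mapC h2 (In.const ()) h1 fun e => ((E.domP (Dom.const 1)).cmul (C + 20)).mono' fun x =>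
    ?_).congr fun x => tab_map _ _ _
  refine (sum_le_mul _ _ (M := (C + 20) * ((μ (c x) + 1) * (k (c x) + 2 + 1))) fun a ha => ?_).trans
    (le_of_eq (by rw [tab_length]; ring))
  obtain ⟨z, -, rfl⟩ := mem_tab.1 ha
  have := sz_bits (enc _ (f _ (F x) z))
  have := sz_bits (enc _ (g _ (F x) z))
  have := Nat.mul_le_mul_left (k (c x) + 2) (hν (c x))
  change 0 + (k (c x) + 2) * ν (k (c x)) + 1 + (sz (enc _ (f _ (F x) z)) + sz (enc _ (g _ (F x) z)) + 1) + 1 ≤ _
  simp only [enc_length] at *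
  nlinarith [Nat.zero_le (μ (c x) * k (c x)), Nat.zero_le (C * μ (c x))]

lemma Fd.setc {s Q : γ → ℕ} (h : Fd w s Q) (K : ℕ) (hK : ∀ c, Q c ≤ K) {g : γ → ℕ → ℕ}
    (hg : In polyB fun p : γ × ℕ => g p.1 p.2) (hl : ∀ c z, g c z < Q c) :
    Pm w μ fun c z => setF z (s c) (Q c) (g c z) := by
  have q := h.pQ.comp (In.id.fst (B := polyB) (α := γ × ℕ))
  have p := ((hg.add q).sub (In.id.snd.fld (h.ps.comp In.id.fst) q)).mod q
  have key : ∀ u, Pm w μ fun c z => if (g c z + Q c - fld z (s c) (Q c)) % Q c < u then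
      setF z (s c) (Q c) (g c z) else z := fun u => by
    induction u with
    | zero => exact Pm.id.congr (by simp)
    | succ u ih =>
      refine (Op.sel (p := fun c z => (g c z + Q c - fld z (s c) (Q c)) % Q c = u) (Dec.eq p (In.const u))
        (h.rotN (f := fun _ _ => u) (In.const u)) ih).congr fun c F z _ => ?_
      have := fld_lt z (s c) (h.hQ c)
      dsimp only
      split_ifs with a b d e
      · rw [← a, Nat.add_mod_mod, Nat.add_sub_cancel' (by omega), Nat.add_mod_right,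
          Nat.mod_eq_of_lt (hl c z)]
      all_goals first | rfl | omega
  exact (key K).congr fun c z _ => if_pos ((Nat.mod_lt _ (h.hQ c)).trans_le (hK c))

lemma OpR.neg {f} (hf : OpR w k r μ f) : OpR w k r μ fun c G j => -f c G j :=
  (Op.neg hf).congr fun c F z _ => (map_neg _ _).symm

lemma OpR.ite {f g} {p : γ → Prop} [DecidablePred p] (hp : Dec polyB p) (hf : OpR w k r μ f)
    (hg : OpR w k r μ g) : OpR w k r μ fun c G j => if p c then f c G j else g c G j :=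
  (Op.ite hp hf hg).congr fun c F z _ => by by_cases h : p c <;> simp only [h, if_true, if_false]

lemma Fw.half (fw : Fw w r) {n : γ → ℕ} (pn : In polyB n) (h : ∀ c, w.N c = 2 * (n c * 2 ^ r c)) {b : ℕ}
    (hb : b < 2) : OpR w k r μ fun c G j => G (j % n c + b * n c) := by
  have := Fd.setc (w := w.zp k) (μ := μ) (s := fun c => n c * 2 ^ r c) ⟨pn.mul fw.pR, In.const 2,
    fun c => (h c).symm.dvd⟩ 2 (fun _ => le_rfl) (g := fun _ _ => b) (In.const b) fun _ _ => hb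
  refine OpR.pm (σ := fun c z => z % (n c * 2 ^ r c) + b * (n c * 2 ^ r c)) (this.congr fun c z hz => ?_)
    fun c j t ht => ?_
  · rw [setF, Nat.div_eq_of_lt (h c ▸ hz)]; ring
  · rw [mul_comm (n c), Nat.mod_mul, lex_mod ht, lex_div ht]; ring

lemma Fw.mul0 (fw : Fw w r) (h : SM ν) (hν : ∃ C, ∀ c, ν (k c) ≤ C * (μ c + 1)) (K : ℕ)
    (hK : ∀ c, 2 ^ r c ≤ K) {f g} (hf : OpR w k r μ f) (hg : OpR w k r μ g) :
    OpR w k r μ fun c G j => f c G j * g c G j := by
  have key : ∀ T, OpR w k r μ fun c G j => ∑ t ∈ range (min T (2 ^ r c)),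
      cf t (f c G j) • (Yg _ _ ^ t * g c G j) := fun T => by
    induction T with
    | zero => exact (OpR.id.add OpR.id.neg).congr (by simp)
    | succ T ih =>
      have a := Fd.setc (w := w.zp k) (μ := μ) (s := fun _ => 1) ⟨In.const _, fw.pR, by simpa using fw.dvd⟩
        K hK (g := fun c _ => T % 2 ^ r c) ((In.const T).mod (fw.pR.comp In.id.fst))
        fun c _ => Nat.mod_lt _ (by positivity)
      have b : OpR w k r μ fun c G j => cf (T % 2 ^ r c) (f c G j) • (Yg _ _ ^ T * g c G j) :=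
        (Op.mul h hν (Op.comp hf a) (hg.comp (fw.tw (x := fun _ _ => T) (In.const T)))).congr
          fun c F z _ => by
            have := Nat.mod_lt T (Nat.two_pow_pos (r c))
            simp only [ub, setF, mul_one, Nat.mod_one, add_zero, lex_div this, lex_mod this, map_smul,
              smul_eq_mul]
      refine (OpR.ite (Dec.lt (In.const T) fw.pR) (ih.add b) ih).congr fun c G j => ?_
      split_ifs with e
      · rw [min_eq_left e.le, min_eq_left e, sum_range_succ, Nat.mod_eq_of_lt e]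
      · rw [min_eq_right (by omega), min_eq_right (by omega)]
  refine (key K).congr fun c G j => ?_
  rw [min_eq_right (hK c)]
  conv_rhs => rw [← sum_cf (f c G j), sum_mul]
  simp only [smul_mul_assoc]

/-! padding and recombination of fibres -/

lemma sum_lex {M : Type} [AddCommMonoid M] (f : ℕ → M) (n m : ℕ) :
    ∑ z ∈ range (n * m), f z = ∑ j ∈ range n, ∑ t ∈ range m, f (j * m + t) := by
  induction n with
  | zero => simp
  | succ n ih => rw [add_mul, one_mul, sum_range_add, ih, sum_range_succ]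

section
variable {A C' : Type} [CommRing A] [CommRing C'] {r r1 r2 : ℕ}

lemma lft_mul {φ : A →+ C'} {y : C'} {n : ℕ} (hn : n ≤ 2 ^ r) (a b : ℕ → A)
    (h : ∀ s < n, ∀ t < n, lft r φ y ((a s * b t) • Yg A r ^ (s + t)) = φ (a s) * φ (b t) * y ^ (s + t)) :
    lft r φ y ((∑ s ∈ range n, a s • Yg A r ^ s) * ∑ t ∈ range n, b t • Yg A r ^ t) =
      lft r φ y (∑ s ∈ range n, a s • Yg A r ^ s) * lft r φ y (∑ t ∈ range n, b t • Yg A r ^ t) := by
  rw [sum_mul_sum, map_sum, map_sum, map_sum, sum_mul_sum]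
  refine sum_congr rfl fun s hs => ?_
  rw [map_sum]
  refine sum_congr rfl fun t ht => ?_
  rw [mem_range] at hs ht
  rw [smul_mul_smul_comm, ← pow_add, h s hs t ht, lft_mono _ _ _ (hs.trans_le hn),
    lft_mono _ _ _ (ht.trans_le hn)]
  ring

def padF (r : ℕ) (F : ℕ → A) (z : ℕ) : A :=
  if z % 2 ^ (r + 1) < 2 ^ r then F (z / 2 ^ (r + 1) * 2 ^ r + z % 2 ^ (r + 1)) else 0

def pk (r b : ℕ) (H : ℕ → A) (z : ℕ) : A := H (z / 2 ^ r * 2 ^ (r + 1) + (z % 2 ^ r + b * 2 ^ r))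

noncomputable def recF (r r2 : ℕ) (H : ℕ → A) : ℕ → A :=
  ub r fun J => fb r (pk r2 0 H) J + Yg A r ^ 2 ^ r2 * fb r (pk r2 1 H) J

noncomputable def LL (A : Type) [CommRing A] (r r2 : ℕ) : Rg A (r2 + 1) →+ Rg A r :=
  lft (r2 + 1) (algebraMap A (Rg A r) : A →+ Rg A r) (Yg A r)

noncomputable def Psi (A : Type) [CommRing A] (r r1 r2 : ℕ) : Rg (Rg A (r2 + 1)) r1 →+ Rg A r :=
  lft r1 (LL A r r2) (Yg A r ^ 2 ^ r2)

lemma fb_split (h : r = r1 + r2) (F : ℕ → A) (J : ℕ) : fb r F J = ∑ j ∈ range (2 ^ r1),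
    ∑ t ∈ range (2 ^ r2), F ((J * 2 ^ r1 + j) * 2 ^ r2 + t) • Yg A r ^ (j * 2 ^ r2 + t) := by
  rw [fb, show range (2 ^ r) = range (2 ^ r1 * 2 ^ r2) by rw [h, pow_add], sum_lex]
  exact sum_congr rfl fun j _ => sum_congr rfl fun t _ => by congr 2; rw [h]; ring

lemma fb_recF (h : r = r1 + r2) (H : ℕ → A) (J : ℕ) :
    fb r (recF r r2 H) J = Psi A r r1 r2 (fb r1 (fb (r2 + 1) H) J) := by
  rw [recF, fb_ub, Psi, lft_fb, fb_split h, fb_split h, mul_sum, ← sum_add_distrib]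
  refine sum_congr rfl fun j _ => ?_
  rw [LL, lft_fb, show range (2 ^ (r2 + 1)) = range (2 ^ r2 + 2 ^ r2) by rw [pow_succ, mul_two],
    sum_range_add, ← sum_add_distrib, sum_mul, mul_sum, ← sum_add_distrib]
  refine sum_congr rfl fun t ht => ?_
  rw [mem_range] at ht
  simp only [pk, lex_div ht, lex_mod ht, Algebra.smul_def,
    zero_mul, one_mul, add_comm t, AddMonoidHom.coe_coe]
  ring

lemma fb_padF (F : ℕ → A) (j : ℕ) : fb (r + 1) (padF r F) j =
    ∑ t ∈ range (2 ^ r), F (j * 2 ^ r + t) • Yg A (r + 1) ^ t := by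
  rw [fb, show range (2 ^ (r + 1)) = range (2 ^ r + 2 ^ r) by rw [pow_succ, mul_two], sum_range_add,
    sum_eq_zero (s := range (2 ^ r)) (f := fun t => padF r F (j * 2 ^ (r + 1) + (2 ^ r + t)) • _)
      fun t ht => ?_, add_zero]
  · refine sum_congr rfl fun t ht => ?_
    have : t < 2 ^ (r + 1) := by rw [mem_range] at ht; omega
    rw [padF, lex_div this, lex_mod this, if_pos (mem_range.1 ht)]
  · rw [padF, lex_mod (by rw [mem_range] at ht; omega), if_neg (by omega), zero_smul]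

lemma Psi_pad (h : r = r1 + r2) (F : ℕ → A) (J : ℕ) :
    Psi A r r1 r2 (fb r1 (fb (r2 + 1) (padF r2 F)) J) = fb r F J := by
  rw [Psi, lft_fb, fb_split h]
  refine sum_congr rfl fun j _ => ?_
  rw [fb_padF, map_sum, sum_mul]
  refine sum_congr rfl fun t ht => ?_
  rw [LL, lft_mono _ _ _ (by rw [mem_range] at ht; omega), Algebra.smul_def, AddMonoidHom.coe_coe]
  ring

lemma Psi_mul (h : r = r1 + r2) (F F' : ℕ → A) (J J' : ℕ) :
    Psi A r r1 r2 (fb r1 (fb (r2 + 1) (padF r2 F)) J * fb r1 (fb (r2 + 1) (padF r2 F')) J') =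
      fb r F J * fb r F' J' := by
  rw [← Psi_pad h, ← Psi_pad h]
  refine lft_mul le_rfl _ _ fun s _ t _ => ?_
  rw [lft_mono' _ (by rw [← pow_mul, ← pow_add, add_comm r2, ← h, Yg_pow]), fb_padF, fb_padF, LL,
    lft_mul (r := r2 + 1) (n := 2 ^ r2) (by rw [pow_succ]; omega) _ _ fun s hs t ht => by rw [lft_mono _ _ _ (by omega)]; simp]

def stk (n : ℕ) (G : ℕ → A) (j : ℕ) : A := G (j % n + 0 * n) * G (j % n + 1 * n)

lemma rec_stk (h : r = r1 + r2) (n : ℕ) (F : ℕ → A) : recF r r2 (ub (r2 + 1) (ub r1 (stk n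
    (fb r1 (fb (r2 + 1) (padF r2 F)))))) = ub r (stk n (fb r F)) := by
  rw [← ub_fb (r := r) (recF _ _ _)]
  exact congrArg _ (funext fun J => by rw [fb_recF h, fb_ub, fb_ub, stk, stk, Psi_mul h])
end

section
variable {r2 : γ → ℕ} (pM : In polyB M) (pr : In polyB r2) (dr : Dom polyB r2) (hd : ∀ c, 2 ^ r2 c ∣ M c)
  (hp : ∀ c, 0 < M c) (j : ℕ) (hj : ∀ c, 2 * M c ≤ j * w.N c)
include pM pr dr hd hp hj

omit hp hj in
lemma emb_pk {b : ℕ} (hb : b < 2) : Emb M (fun c => 2 * M c) (fun c y => y / 2 ^ r2 c * 2 ^ (r2 c + 1) +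
    (y % 2 ^ r2 c + b * 2 ^ r2 c)) fun c z => z / 2 ^ (r2 c + 1) * 2 ^ r2 c + (z % 2 ^ (r2 c + 1) - b * 2 ^ r2 c) := by
  have p := pr.pow2 dr
  have := (Emb.refl (pM.div p)).lex (Emb.add p ((pr.add (In.const 1)).pow2 (dr.add (Dom.const 1)))
    ((In.const b).mul p) fun c => by rw [pow_succ]; nlinarith [Nat.two_pow_pos (r2 c)])
  convert this using 2 with c c
  · rw [Nat.div_mul_cancel (hd c)]
  · rw [pow_succ, ← mul_assoc, Nat.div_mul_cancel (hd c), mul_comm]

lemma Tz.padF : Tz (w.zp k) μ M (fun c => 2 * M c) fun c => padF (r2 c) := by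
  have e := emb_pk pM pr dr hd two_pos
  refine (Tz.pad e pM (fun _ => le_rfl) j (fun c => by have := hj c; omega) hj hp).congr fun c F z hz => ?_
  obtain ⟨m, hm⟩ := hd c
  have p := Nat.two_pow_pos (r2 c)
  simp only [zero_mul, add_zero, Nat.sub_zero, P338.padF, Emb.im]
  refine if_congr ⟨fun h => ?_, fun h => ⟨?_, ?_⟩⟩ rfl rfl
  · rw [← h.2, lex_mod ((Nat.mod_lt _ p).trans (by omega))]; exact Nat.mod_lt _ p
  · rw [hm, mul_comm _ m]
    exact lex_bound (Nat.div_lt_of_lt_mul (by rw [hm] at hz; rw [pow_succ]; linarith)) h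
  · rw [lex_div h, lex_mod h, Nat.div_add_mod']

lemma Tz.recF (pr' : In polyB r) (hd' : ∀ c, 2 ^ r c ∣ M c) :
    Tz (w.zp k) μ (fun c => 2 * M c) M fun c => recF (r c) (r2 c) := by
  have a : ∀ b < 2, Tz (w.zp k) μ (fun c => 2 * M c) M fun c => pk (r2 c) b := fun b hb =>
    (Tz.unpad (emb_pk pM pr dr hd hb) pM (fun _ => le_rfl) j (fun c => by have := hj c; omega) hj
      fun c => by have := hp c; omega).congr fun c F z hz => if_pos hz
  have fw : Fw (w.rsz M pM hp) r := ⟨pr', hd'⟩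
  have b := Op.tz (w := w.zp k) (fw.tw (k := k) (μ := μ) (x := fun c _ => 2 ^ r2 c)
    ((pr.pow2 dr).comp In.id.fst)) j fun c => by have := hj c; dsimp only; omega
  refine ((a 0 two_pos).add ((a 1 one_lt_two).comp b)).congr fun c F z _ => ?_
  conv_lhs => rw [← ub_fb (r := r c) (pk (r2 c) 0 F)]
  exact (map_add _ _ _).symm
end

end Vale.Agent.P338
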