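import Vale.Agent.P338.Neg

/-! From polynomial products to integer products. -/

namespace Vale.Agent.P338

open Filter Cd Finset Function

set_option linter.unusedSectionVars false
set_option linter.unusedVariables false

variable {α γ : Type} [Cd α] [Cd γ] {w : Wd γ} {μ k : γ → ℕ} {B : Bd α} {c : α → γ}

def cryF (q : (List Bool × ℕ) × List Bool) : (List Bool × ℕ) × List Bool :=
  ((q.1.1, bv ((q.1.2 + bv q.2).bits.drop q.1.1.length)), ofN q.1.1 (q.1.2 + bv q.2))

lemma cry_spec (u : List Bool) (n : ℕ) (f : ℕ → List Bool) (c : ℕ) :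
    bv ((scan cryF (u, c) (tab n f)).2 ++ (scan cryF (u, c) (tab n f)).1.2.bits) =
      c + ∑ i ∈ range n, bv (f i) * (2 ^ u.length) ^ i := by
  induction n generalizing f c with
  | zero => simp [tab, scan, bv_bits]
  | succ n ih =>
    rw [tab_succ, scan, List.append_assoc, bv_append, cryF, ih, sum_range_succ', ofN_eq, bv_bitl,
      bitl_length, (bv_take_drop _ _).2, bv_bits, mul_add, ← add_assoc, Nat.mod_add_div, mul_sum]
    simp only [pow_succ, pow_zero, mul_one, mul_comm (2 ^ u.length), mul_assoc]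
    ring

lemma In.cry {u : α → List Bool} {l : α → List (List Bool)} (hu : In B u) (hl : In B l) {m : α → ℕ}
    (h : ∀ x, 0 < (u x).length ∧ (u x).length ≤ m x ∧ ∀ a ∈ l x, a.length ≤ m x)
    (hd : Dom B fun x => (l x).length * (m x + 1)) : In B fun x => P338.scan cryF (u x, 0) (l x) := by
  refine In.scan (B' := linB) (by unfold cryF; fun_prop) (hu.pair (In.const 0)) hl fun e =>
    (hd.cmul 12).mono' fun x => (scanS_le _ _ (fun _ s => s.1 = u x ∧ s.2 < 2 ^ m x)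
      (fun _ => 12 * (m x + 1)) _ 0 _ ⟨rfl, by positivity⟩ fun j s a _ ha ⟨h1, h2⟩ => ?_).trans
      (by simp [mul_left_comm])
  obtain ⟨a1, a2, a3⟩ := h x
  have a4 := (bv_lt a).trans_le (Nat.pow_le_pow_right two_pos (a3 a ha))
  have a5 := Nat.pow_le_pow_right two_pos a1
  refine ⟨⟨h1, ?_⟩, ?_⟩
  · rw [cryF, (bv_take_drop _ _).2, bv_bits, h1, Nat.div_lt_iff_lt_mul (by positivity)]
    nlinarith
  · have := sz_bits a
    have := sz_bits s.1
    have := sz_lt_pow h2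
    have := a3 a ha
    simp only [linB, sz_pair, sz_prod s, h1] at *
    omega

lemma In.chop {n b m x : α → ℕ} (hn : In B n) (hb : In B b) (hm : In B m) (hx : In B x)
    (h : ∀ a, 0 < n a ∧ 0 < b a ∧ b a ≤ m a) (hnb : In B fun a => n a * b a)
    (hd : Dom B fun a => n a * (m a + 1)) :
    In B fun a => tab (n a) fun i => P338.bitl (m a) (P338.fld (x a) ((2 ^ b a) ^ i) (2 ^ b a)) := by
  have d1 : Dom B m := hd.mono' fun a => by have := h a; nlinarith
  have h1 := In.chunks hb (d1.mono' fun a => (h a).2.2) (hnb.bitl (hd.mono' fun a =>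
    Nat.mul_le_mul_left _ (by have := h a; omega)) hx)
  have e : ∀ a, P338.chunks (b a) (P338.bitl (n a * b a) (x a)) =
      tab (n a) fun i => P338.bitl (b a) (x a / (2 ^ b a) ^ i) := fun a => by
    rw [P338.bitl, chunks_tab (h a).2.1]
    exact tab_congr fun i _ => tab_congr fun j _ => by
      rw [← pow_mul, Nat.testBit_div_two_pow, add_comm, mul_comm]
  refine (In.mapC (B' := linB) (g := fun p : List Bool × List Bool => P338.ofN p.1 (P338.bv p.2))
    (by fun_prop) (In.replicate false hm d1) h1 fun _ => (hd.cmul 8).mono' fun a => ?_).congr fun a => ?_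
  · rw [e]
    refine (sum_le_mul _ _ (M := 8 * (m a + 1)) fun l hl => ?_).trans (by rw [tab_length]; ring_nf; rfl)
    obtain ⟨i, -, rfl⟩ := mem_tab.1 hl
    have := sz_bits (List.replicate (m a) false)
    have := sz_bits (P338.bitl (b a) (x a / (2 ^ b a) ^ i))
    have := h a
    simp only [linB, bitl_length, List.length_replicate] at *
    omega
  · rw [e, tab_map]
    exact tab_congr fun i _ => by rw [ofN_eq, List.length_replicate, bv_bitl, P338.fld]

lemma cf_mul {A : Type} [CommRing A] {r n : ℕ} (hn : 2 * n ≤ 2 ^ r) (a b : ℕ → A) (z : ℕ) :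
    cf z ((∑ s ∈ range n, a s • Yg A r ^ s) * ∑ t ∈ range n, b t • Yg A r ^ t) =
      ∑ s ∈ range n, ∑ t ∈ range n, if s + t = z then a s * b t else 0 := by
  simp only [sum_mul_sum, map_sum]
  refine sum_congr rfl fun s hs => sum_congr rfl fun t ht => ?_
  rw [mem_range] at hs ht
  rw [smul_mul_smul_comm, ← pow_add, map_smul, cf_mono (by omega), smul_eq_mul, mul_ite, mul_one, mul_zero]

lemma fb_half {A : Type} [CommRing A] {r : ℕ} {F : ℕ → A} (h : ∀ z, 2 ^ r ≤ z % 2 ^ (r + 1) → F z = 0)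
    (j : ℕ) : fb (r + 1) F j = ∑ t ∈ range (2 ^ r), F (j * 2 ^ (r + 1) + t) • Yg A (r + 1) ^ t := by
  rw [fb, show range (2 ^ (r + 1)) = range (2 ^ r + 2 ^ r) by rw [pow_succ, mul_two], sum_range_add,
    sum_eq_zero (s := range (2 ^ r)) (f := fun t => F (j * 2 ^ (r + 1) + (2 ^ r + t)) • _)
      fun t ht => ?_, add_zero]
  rw [h _ (by rw [lex_mod (by rw [mem_range] at ht; omega)]; omega), zero_smul]

def cvN (n : ℕ) (a b : ℕ → ℕ) (z : ℕ) : ℕ :=
  ∑ s ∈ range n, ∑ t ∈ range n, if s + t = z then a s * b t else 0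

lemma cvN_sum (n q : ℕ) (a b : ℕ → ℕ) : ∑ z ∈ range (2 * n), cvN n a b z * q ^ z = dsum q n a * dsum q n b := by
  rw [dsum, dsum, sum_mul_sum]
  simp only [cvN, sum_mul]
  rw [sum_comm]
  refine sum_congr rfl fun s hs => ?_
  rw [sum_comm]
  refine sum_congr rfl fun t ht => ?_
  rw [mem_range] at hs ht
  simp only [ite_mul, zero_mul, sum_ite_eq, mem_range, if_pos (show s + t < 2 * n by omega)]
  ring

lemma cvN_le {n q : ℕ} {a b : ℕ → ℕ} (ha : ∀ i, a i < q) (hb : ∀ i, b i < q) (z : ℕ) :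
    cvN n a b z ≤ n * q * (n * q) := by
  refine (sum_le_card_nsmul _ _ (n * (q * q)) fun s _ => (sum_le_card_nsmul _ _ (q * q) fun t _ => ?_).trans
    (by simp)).trans (by simp; ring_nf; rfl)
  split_ifs
  · exact Nat.mul_le_mul (ha s).le (hb t).le
  · positivity

/-- `f` multiplies the two halves of an array as polynomials with small coefficients -/
def PM (k b ρ : ℕ) (f : (ℕ → Zp k) → ℕ → Zp k) : Prop :=
  ∀ x : ℕ → ℕ, (∀ z, x z < 2 ^ b) → (∀ z, 2 ^ ρ ≤ z % 2 ^ (ρ + 1) → x z = 0) → ∀ z < 2 ^ (ρ + 1),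
    f (fun z => x z) z = ub (ρ + 1) (stk 1 (fb (ρ + 1) fun z => (x z : Zp k))) z

theorem viaPoly {b ρ : γ → ℕ} (E : Env (w.zp k) μ B c) (pk : In polyB k) (pb : In polyB b)
    (hN : ∀ c, w.N c = 2 * 2 ^ (ρ c + 1))
    (hb : ∀ c, 0 < b c ∧ 2 ^ ρ c * 2 ^ b c * (2 ^ ρ c * 2 ^ b c) ≤ 2 ^ k c)
    {f} (hf : Op (w.zp k) μ f) (H : ∀ c, PM (k c) (b c) (ρ c) (f c)) {x y : α → ℕ} (hx : In B x)
    (hy : In B y) (hl : ∀ a, x a < (2 ^ b (c a)) ^ 2 ^ ρ (c a) ∧ y a < (2 ^ b (c a)) ^ 2 ^ ρ (c a)) :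
    In B fun a => x a * y a := by
  have p1 : In polyB fun c => 2 ^ (ρ c + 1) := (w.poly.div (In.const 2)).congr fun c => by
    rw [hN, Nat.mul_div_cancel_left _ two_pos]
  have b1 : ∀ c, 2 ^ b c < pz (k c) ∧ b c ≤ k c + 2 := fun c => by
    have := (hb c).2
    have := pz_eq (k c)
    have := Nat.two_pow_pos (ρ c)
    have := Nat.two_pow_pos (b c)
    have h : 2 ^ b c ≤ 2 ^ k c := by nlinarith [Nat.mul_pos ‹0 < 2 ^ ρ c› ‹0 < 2 ^ b c›]
    exact ⟨by omega, by have := (Nat.pow_le_pow_iff_right one_lt_two).1 h; omega⟩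
  have dN : Dom B fun a => 2 ^ (ρ (c a) + 1) * (k (c a) + 2 + 1) := E.dl.mono' fun a => by
    simp only [hN]; gcongr <;> omega
  have ch := fun {x : α → ℕ} (hx : In B x) => In.chop (E.small p1) (E.small pb)
    (E.small (pk.add (In.const 2))) hx (fun a => ⟨by positivity, (hb _).1, (b1 _).2⟩) (E.small (p1.mul pb)) dN
  let X : α → ℕ → ℕ := fun a z => if z < 2 ^ (ρ (c a) + 1) then fld (x a) ((2 ^ b (c a)) ^ z) (2 ^ b (c a))
    else fld (y a) ((2 ^ b (c a)) ^ (z - 2 ^ (ρ (c a) + 1))) (2 ^ b (c a))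
  have hX : ∀ a z, X a z < 2 ^ b (c a) := fun a z => by
    simp only [X]; split_ifs <;> exact fld_lt _ _ (by positivity)
  have h1 := hf _ _ _ E (fun a z => X a z) (((ch hx).append (ch hy)).congr fun a => by
    simp only [Wd.arr, hN, two_mul, tab_add, enc_nat, Nat.mod_eq_of_lt ((hX _ _).trans (b1 _).1)]
    congr 1 <;> exact tab_congr fun z hz => by simp [X, hz])
  have h2 := In.cry (In.replicate false (E.small pb) (dN.mono' fun a => by
    have := b1 (c a); nlinarith [Nat.two_pow_pos (ρ (c a) + 1)])) (In.take (E.small p1) h1)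
    (m := fun a => k (c a) + 2) (fun a => ⟨by simpa using (hb _).1, by simpa using (b1 _).2, fun l hl => by
      obtain ⟨z, -, rfl⟩ := mem_tab.1 (List.mem_of_mem_take hl); exact (enc_length _ _).le⟩)
    (dN.mono' fun a => Nat.mul_le_mul_right _ (List.length_take_le _ _))
  refine (h2.snd.append h2.fst.snd.bits).bv.congr fun a => ?_
  have z0 : ∀ {v n}, v < (2 ^ b (c a)) ^ 2 ^ ρ (c a) → 2 ^ ρ (c a) ≤ n →
      fld v ((2 ^ b (c a)) ^ n) (2 ^ b (c a)) = 0 := fun h h' => by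
    rw [fld, Nat.div_eq_of_lt (h.trans_le (Nat.pow_le_pow_right (by positivity) h')), Nat.zero_mod]
  have h0 : ∀ z, 2 ^ ρ (c a) ≤ z % 2 ^ (ρ (c a) + 1) → X a z = 0 := fun z hz => by
    simp only [X]; split_ifs with e
    · exact z0 (hl a).1 (hz.trans (Nat.mod_le _ _))
    · exact z0 (hl a).2 (hz.trans (by
        rw [Nat.mod_eq_sub_mod (not_lt.1 e)]; exact Nat.mod_le _ _))
  rw [Wd.arr, hN, two_mul, tab_add, List.take_left' (tab_length _ _), cry_spec, zero_add,
    List.length_replicate, ← Nat.mod_eq_of_lt (hl a).1, ← Nat.mod_eq_of_lt (hl a).2, ← dsum_fld, ← dsum_fld,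
    ← cvN_sum, ← pow_succ']
  refine sum_congr rfl fun z hz => ?_
  rw [mem_range] at hz
  have l := cvN_le (n := 2 ^ ρ (c a)) (fun i => fld_lt (x a) ((2 ^ b (c a)) ^ i) (Nat.two_pow_pos (b (c a))))
    (fun i => fld_lt (y a) ((2 ^ b (c a)) ^ i) (Nat.two_pow_pos (b (c a)))) z
  rw [bv_enc, H _ _ (hX a) h0 z hz, ← ZMod.val_cast_of_lt (n := pz (k (c a))) (l.trans_lt (by
    have := (hb (c a)).2; have := pz_eq (k (c a)); have := Nat.two_pow_pos (k (c a)); omega)),
    ub, stk, Nat.mod_eq_of_lt hz, Nat.mod_one, fb_half fun z h => by rw [h0 z h, Nat.cast_zero],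
    fb_half fun z h => by rw [h0 z h, Nat.cast_zero], cf_mul (by omega), cvN]
  push_cast
  congr 2
  refine sum_congr rfl fun s hs => sum_congr rfl fun t ht => ?_
  rw [mem_range] at hs ht
  simp [X, show s < 2 ^ (ρ (c a) + 1) by omega]

lemma pw_two (b : ℕ) : pw 2 b = (b + 1) ^ 2 := by
  rw [pw, Real.rpow_two, ← Nat.cast_succ, ← Nat.cast_pow, Nat.ceil_natCast]

lemma p_size : In polyB fun k : ℕ => (k + 2).size := In.size (In.id.add (In.const 2))
lemma d_size : Dom polyB fun k : ℕ => (k + 2).size := Dom.size (In.id.add (In.const 2))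

@[reducible] def w4 : Wd ℕ := Wd.base (fun k => 2 * 2 ^ ((k + 2).size + 1)) sz (fun _ => by positivity)
  ((In.const 2).mul ((p_size.add (In.const 1)).pow2 (d_size.add (Dom.const 1)))) Dom.szid
  ⟨1, 1, fun _ => by simp⟩

def B4 : Bd Pr := ⟨fun e p => (p.k + 2) * (sz p.k + 1) ^ e⟩

lemma pr_in : In B4 fun p => (enc p.k p.a, enc p.k p.b) := In.id.of_cd fun _ => rfl

lemma env4 (e0 : ℕ) : Env (w4.zp fun k => 2 * (k + 2).size + 2)
    (fun k => ((2 * (k + 2).size + 2 + 2) ^ e0 + 1) * pw 2 ((k + 2).size + 1)) B4 Pr.k := by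
  refine ⟨(pr_in.fst.length.sub (In.const 2)).congr fun p => by simp [enc_length], fun e => ?_⟩
  have d := d_size
  have d1 := ((d.cmul 2).add (Dom.const 2)).add (Dom.const 2)
  obtain ⟨e', C, h⟩ := dom_poly.1 (((((d1.pow e0).add (Dom.const 1)).mul (((d.add (Dom.const 1)).add
    (Dom.const 1)).pow 2)).add (Dom.const 1)).mul (d1.add ((Dom.szid.add (Dom.const 1)).pow e)))
  refine eventually_atTop.2 ⟨e', fun e'' he => ⟨12 * C, fun p => ?_⟩⟩
  have a1 := two_pow_size_le (p.k + 2)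
  have a2 := (h p.k).trans (Nat.mul_le_mul_left C (Nat.pow_le_pow_right (by omega) he))
  simp only [Wd.U, B4, zero_mul, add_zero, pw_two]
  rw [mul_left_comm]
  calc _ ≤ (12 * (p.k + 2)) * (C * (sz p.k + 1) ^ e'') := Nat.mul_le_mul (by omega) a2
    _ ≤ _ := by nlinarith [Nat.zero_le (12 * C * sz p)]

lemma viaNeg {ν} (h : SM ν) {a : ℝ} (ha : 1 < a) {b ρ : γ → ℕ}
    (E : Env (w.zp k) (fun c => (ν (k c) + 1) * pw a (ρ c + 1)) B c) (pk : In polyB k) (pb : In polyB b)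
    (pρ : In polyB ρ) (hN : ∀ c, w.N c = 2 * 2 ^ (ρ c + 1))
    (hb : ∀ c, 0 < b c ∧ 2 ^ ρ c * 2 ^ b c * (2 ^ ρ c * 2 ^ b c) ≤ 2 ^ k c) {x y : α → ℕ} (hx : In B x)
    (hy : In B y) (hl : ∀ a, x a < (2 ^ b (c a)) ^ 2 ^ ρ (c a) ∧ y a < (2 ^ b (c a)) ^ 2 ^ ρ (c a)) :
    In B fun a => x a * y a :=
  have h := negMul (w := w) (k := k) (n := fun _ => 1) h ha (In.const 1) (pρ.add (In.const 1))
    fun _ => by rw [hN, one_mul]
  viaPoly E pk pb hN hb h (fun _ _ _ _ _ _ => rfl) hx hy hl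

lemma mul4 : In B4 fun p => bv (enc p.k p.a) * bv (enc p.k p.b) := by
  obtain ⟨e0, h0⟩ := sm0
  have a1 := ((In.const 2).mul p_size).add (In.const 2)
  have a2 : In B4 fun p => bv (enc p.k p.a) := pr_in.fst.bv
  have a3 : In B4 fun p => bv (enc p.k p.b) := pr_in.snd.bv
  have a4 := viaNeg (w := w4) (k := fun k => 2 * (k + 2).size + 2) h0 one_lt_two (b := fun _ => 1)
    (ρ := fun k => (k + 2).size) (env4 e0) a1 (In.const 1) p_size (fun _ => rfl)
    (fun k => ⟨one_pos, le_of_eq (by ring)⟩) a2 a3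
  refine a4 fun p => ?_
  have := Nat.pow_le_pow_right two_pos (p.k + 2).lt_size_self.le
  have a := bv_lt (enc p.k p.a)
  have b := bv_lt (enc p.k p.b)
  rw [enc_length] at a b
  rw [pow_one]; omega

theorem sm1 : ∃ e, SM fun k => (sz k + 1) ^ e := by
  have i1 := pr_in.fst
  obtain ⟨e, h⟩ := ((i1.ofN mul4).canon.sadd (i1.ofN (In.dropL i1 mul4.bits).bv).canon).tm
  refine ⟨e, h.mono ⟨1, fun p => by simp [B4]⟩ fun p => ?_⟩
  have a := p.a.val_lt
  have b := p.b.val_lt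
  have := pz_succ p.k
  simp only [ofN_eq, enc_length, bv_enc, (bv_take_drop _ _).2, bv_bits]
  rw [canon_eq (bitl_length _ _) rfl, canon_eq (bitl_length _ _) rfl, sadd_enc, bv_bitl, bv_bitl,
    Nat.mod_eq_of_lt (a := _ / _) (Nat.div_lt_of_lt_mul (by nlinarith))]
  have e := congrArg (Nat.cast : ℕ → Zp p.k) (Nat.mod_add_div (p.a.val * p.b.val) (2 ^ (p.k + 2)))
  rw [Nat.cast_add, Nat.cast_mul, Nat.cast_pow, Nat.cast_ofNat, two_pow_zp, one_mul] at e
  rw [e]; simp

end Vale.Agent.P338
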