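import Vale.Agent.P338.Axes

/-! Fourier transforms of arbitrary length along all axes. -/

namespace Vale.Agent.P338

open Filter Cd Finset Function Complex Matrix

set_option linter.unusedSectionVars false
set_option linter.unusedVariables false

noncomputable def Am (s q : ℕ) (σ : ℤ) : MM s :=
  of fun x y => if x.val < q ∧ y.val < q then ee (σ * x.val * y.val / q) else 0

noncomputable def ex (s q : ℕ) (σ ε f η : ℤ) (x : ℕ) : ℂ :=
  ee ((η * (ε * σ * (x * x * 2 ^ s : ℕ) + (f * x + (x * x : ℕ)) * q) : ℤ) / (2 * q * 2 ^ s : ℕ))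

noncomputable def mf (s q : ℕ) (σ f n : ℤ) (m l : ℕ) : ℂ :=
  (∑ δ ∈ range (2 * 2 ^ s), ee ((-(σ * ((δ + -(2 ^ s : ℕ)) * (δ + -(2 ^ s : ℕ))) * (2 ^ s : ℕ) +
    ((2 * l : ℕ) + f) * (δ + -(2 ^ s : ℕ)) * q) : ℤ) / (2 * q * 2 ^ s : ℕ))) * n / (2 * m : ℕ)

noncomputable def Pq (s q : ℕ) (n : ℤ) (m : ℕ) : MM s := dgm s fun x => if x < q then (n / m : ℂ) else 0

section
variable {s q : ℕ} {σ : ℤ}

lemma Kc_apply (hs : 0 < s) (x y : ZMod (2 ^ s)) :
    Kc s σ x y = ee (σ * ((x.val : ℝ) - y.val) ^ 2 / (2 * 2 ^ s)) := by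
  obtain ⟨s, rfl⟩ : ∃ t, s = t + 1 := ⟨s - 1, by omega⟩
  obtain ⟨j, hj⟩ := (ZMod.intCast_eq_intCast_iff_dvd_sub (x.val - y.val) (x - y).val (2 ^ (s + 1))).1 (by simp)
  have : ((x - y).val : ℝ) = x.val - y.val + 2 ^ (s + 1) * j := by
    rw [← sub_eq_iff_eq_add']; exact_mod_cast hj
  refine ee_congr (σ * ((x.val - y.val) * j + 2 ^ s * j * j)) ?_
  push_cast
  rw [this]; field_simp; ring

lemma dgm_l (a : ℕ → ℂ) (M : MM s) (x y) : (dgm s a * M) x y = a x.val * M x y := diagonal_mul _ _ _ _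

lemma dgm_r (a : ℕ → ℂ) (M : MM s) (x y) : (M * dgm s a) x y = M x y * a y.val := mul_diagonal _ _ _ _

lemma KmK (hs : 0 < s) (m : ℕ → ℂ) (x y : ZMod (2 ^ s)) : (Kc s (-1) * dgm s m * Kc s 1) x y =
    ∑ l ∈ range (2 ^ s), ee (((y.val : ℝ) ^ 2 - x.val ^ 2) / (2 * 2 ^ s)) * m l *
      ee (l * ((x.val - y.val : ℤ) / (2 ^ s : ℕ))) := by
  rw [mul_apply, ← sum_zmod]
  refine sum_congr rfl fun l _ => ?_
  rw [dgm, mul_diagonal, Kc_apply hs, Kc_apply hs, mul_right_comm, mul_right_comm _ (m _), ← ee_add, ← ee_add]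
  congr 2; push_cast; field_simp; ring

lemma dgm_one : dgm s (fun _ => 1) = 1 := diagonal_one

lemma dgm_zero : dgm s (fun _ => 0) = 0 := diagonal_zero

lemma dgm_mul (a b : ℕ → ℂ) : dgm s a * dgm s b = dgm s fun x => a x * b x := diagonal_mul_diagonal _ _

lemma val_dvd {n a b : ℕ} (ha : a < n) (hb : b < n) : (n : ℤ) ∣ a - b ↔ a = b :=
  ⟨fun h => by have := Int.eq_zero_of_abs_lt_dvd h (abs_lt.2 ⟨by omega, by omega⟩); omega, fun h => by simp [h]⟩

lemma KK (hs : 0 < s) (ε f : ℤ) : dgm s (fun x => ex s q σ ε f 1 x * (1 : ℤ) / (2 ^ s : ℕ)) *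
    (Kc s (-1) * (Kc s 1 * dgm s (ex s q σ ε f (-1)))) = 1 := by
  have : Kc s (-1) * Kc s 1 = dgm s fun _ => (2 ^ s : ℕ) := by
    ext x y
    rw [← mul_one (Kc s (-1)), ← dgm_one, KmK hs]
    simp only [mul_one]
    rw [← mul_sum, sum_ee _ (by positivity), dgm, diagonal_apply]
    simp only [val_dvd x.val_lt y.val_lt, (ZMod.val_injective _).eq_iff]
    split_ifs with h <;> simp [h, ee_zero]
  rw [← mul_assoc (Kc _ _), this, dgm_mul, dgm_mul, ← dgm_one]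
  refine congrArg _ (funext fun x => ?_)
  have : ex s q σ ε f 1 x * ex s q σ ε f (-1) x = 1 := by
    rw [ex, ex, ← ee_add, ← ee_zero]; congr 1; push_cast; ring
  rw [← this]; push_cast; field_simp

noncomputable def Cf (s q : ℕ) (σ f n : ℤ) (m : ℕ) : MM s :=
  dgm s (fun x => ex s q σ 1 f 1 x * (1 : ℤ) / (2 ^ s : ℕ)) *
    (Kc s (-1) * dgm s (mf s q σ f n m) * Kc s 1) * dgm s (ex s q σ (-1) f (-1))

lemma Cf_apply (hs : 0 < s) (hq : 0 < q) (f : ℕ) (n : ℤ) (m : ℕ) (x y : ZMod (2 ^ s)) : Cf s q σ f n m x y =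
    ∑ δ ∈ range (2 * 2 ^ s), ee (σ * (x.val ^ 2 + y.val ^ 2 - (δ - 2 ^ s) ^ 2) / (2 * q)) *
      (n / (2 * m : ℕ) / (2 ^ s : ℕ)) * ∑ l ∈ range (2 ^ s), ee ((l * 2 + f : ℕ) *
        (((x.val + 2 ^ s : ℕ) - (y.val + δ : ℕ) : ℤ) / (2 ^ s * 2 : ℕ))) := by
  rw [Cf, dgm_r, dgm_l, KmK hs]
  simp only [mf, mul_sum, sum_mul, sum_div]
  rw [sum_comm]
  refine sum_congr rfl fun δ _ => sum_congr rfl fun l _ => ?_
  have e : ∀ a b c d e f g : ℝ, a + b + c + d + e = f + g → ∀ u v w : ℂ,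
      ee a * (1 : ℤ) / w * (ee b * (ee c * u / v) * ee d) * ee e = ee f * (u / v / w) * ee g :=
    fun a b c d e f g h u v w => by
      have := congrArg ee h
      simp only [ee_add] at this
      push_cast
      linear_combination (u / v / w) * this
  refine e _ _ _ _ _ _ _ ?_ _ _ _
  have : (q : ℝ) ≠ 0 := by positivity
  push_cast; field_simp; ring

lemma Cf_sum (hs : 0 < s) (hq : 0 < q) (n : ℤ) (m : ℕ) :
    Pq s q 1 1 * (Cf s q σ 0 n m + Cf s q σ 1 n m) * Pq s q 1 1 = (n / m : ℂ) • Am s q σ := by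
  ext x y
  have hx := x.val_lt
  have hy := y.val_lt
  have : (Cf s q σ 0 n m + Cf s q σ 1 n m) x y = n / m * ee (σ * x.val * y.val / q) := by
    rw [Matrix.add_apply, ← Nat.cast_zero (R := ℤ), ← Nat.cast_one (R := ℤ), Cf_apply hs hq, Cf_apply hs hq,
      ← sum_add_distrib, sum_eq_single (x.val + 2 ^ s - y.val)]
    · simp only [show y.val + (x.val + 2 ^ s - y.val) = x.val + 2 ^ s by omega, sub_self]
      rw [Nat.cast_sub (by omega), mul_comm (_ / _ : ℂ), ← mul_add, mul_assoc]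
      congr 1
      · congr 1; have : (q : ℝ) ≠ 0 := by positivity
        push_cast; field_simp; ring
      · simp [ee_zero]; field_simp; ring
    · intro δ hδ h
      have := sum_lex (fun t : ℕ => ee (t * (((x.val + 2 ^ s : ℕ) - (y.val + δ : ℕ) : ℤ) / (2 ^ s * 2 : ℕ))))
        (2 ^ s) 2
      simp only [sum_range_succ, sum_range_zero, zero_add, sum_add_distrib] at this
      rw [← mul_add, ← this, sum_ee _ (by positivity), if_neg, Nat.cast_zero, mul_zero]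
      intro h'
      have := Int.eq_zero_of_abs_lt_dvd h' (abs_lt.2 ⟨by simp at hδ; omega, by omega⟩)
      omega
    · simp; omega
  rw [Pq, dgm, mul_diagonal, diagonal_mul, this, Am]
  by_cases a : x.val < q <;> by_cases b : y.val < q <;> simp [a, b]

lemma Pq_mul (a : ℤ) (b : ℕ) (M : MM s) (x y) :
    (Pq s q a b * M) x y = (if x.val < q then (a / b : ℂ) else 0) * M x y := diagonal_mul _ _ _ _

lemma PqA : Pq s q 1 1 * Am s q σ = Am s q σ ∧ Am s q σ * Pq s q 1 1 = Am s q σ ∧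
    Pq s q 1 1 * Pq s q 1 1 = Pq s q 1 1 := by
  refine ⟨?_, ?_, (dgm_mul _ _).trans (congrArg _ (funext fun x => by split_ifs <;> simp))⟩ <;> ext x y
  · rw [Pq_mul, Am, of_apply]; split_ifs <;> simp_all
  · rw [Pq, dgm, mul_diagonal, Am, of_apply]; split_ifs <;> simp_all

lemma AA (hq : 0 < q) (h : q ≤ 2 ^ s) (hσ : σ = 1 ∨ σ = -1) :
    Am s q σ * Am s q (-σ) = (q : ℂ) • Pq s q 1 1 := by
  ext x y
  have : ∀ l : ZMod (2 ^ s), Am s q σ x l * Am s q (-σ) l y = if x.val < q ∧ y.val < q then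
      if l.val < q then ee (l.val * ((σ * (x.val - y.val) : ℤ) / q)) else 0 else 0 := fun l => by
    simp only [Am, of_apply]
    by_cases a : x.val < q <;> by_cases b : y.val < q <;> by_cases c : l.val < q <;>
      simp only [a, b, c, and_self, and_true, and_false, if_true, if_false, mul_zero, zero_mul]
    rw [← ee_add]; congr 1; push_cast; ring
  rw [mul_apply, sum_congr rfl fun l _ => this l, Matrix.smul_apply, Pq, dgm, diagonal_apply]
  by_cases a : x.val < q ∧ y.val < q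
  · simp only [a, and_self, if_true]
    rw [sum_zmod _ fun l => if l < q then ee (l * ((σ * (x.val - y.val) : ℤ) / q)) else 0, ← sum_filter,
      show (range (2 ^ s)).filter (· < q) = range q by ext; simp; omega, sum_ee _ hq]
    have : (q : ℤ) ∣ σ * (x.val - y.val) ↔ x = y := by
      rw [← (ZMod.val_injective _).eq_iff, ← val_dvd a.1 a.2]
      rcases hσ with rfl | rfl <;> simp only [one_mul, neg_mul, dvd_neg]
    simp only [this]; split_ifs <;> simp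
  · simp only [a, if_false, sum_const_zero]
    split_ifs with b c
    · exact absurd ⟨c, b ▸ c⟩ a
    all_goals simp

lemma RA (hq : 0 < q) (h : q ≤ 2 ^ s) (n : ℤ) (m : ℕ) :
    Pq s q n m * (Rm s q * Am s q (-σ)) = (n / m : ℂ) • Am s q σ := by
  ext x y
  rw [Pq_mul, mul_apply, Matrix.smul_apply]
  simp only [Rm, of_apply, ite_mul, one_mul, zero_mul, sum_ite_eq', mem_univ, if_true, Am, smul_eq_mul]
  by_cases a : x.val < q
  · by_cases b : x = 0
    · simp [b, hq]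
    · have c : x.val ≠ 0 := by rwa [Ne, ZMod.val_eq_zero]
      have e : (-x + q).val = q - x.val := by
        rw [← ZMod.val_cast_of_lt (show q - x.val < 2 ^ s by omega), Nat.cast_sub a.le]; simp; congr 1; ring
      simp only [a, b, e, if_true, if_false, true_and, show q - x.val < q by omega]
      split_ifs
      · congr 1; refine ee_congr (-σ * y.val) ?_
        have : (q : ℝ) ≠ 0 := by positivity
        rw [Nat.cast_sub a.le]; push_cast; field_simp; ring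
      · rfl
  · simp [a]

lemma white (hq : 0 < q) (h : q ≤ 2 ^ s) (hσ : σ = 1 ∨ σ = -1) (m : ℕ) :
    !![0, Pq s q (-q) m; Pq s q 1 m, 0] * (!![1, 0; 0, Rm s q] *
      (!![Pq s q 1 1, (((1 : ℤ) : ℂ) / (1 : ℕ)) • Am s q σ; 0, Pq s q 1 1] * ((!![0, 1; 1, 0] *
        (!![Pq s q 1 1, (((-1 : ℤ) : ℂ) / q) • Am s q (-σ); 0, Pq s q 1 1] * !![0, 1; 1, 0])) *
      !![Pq s q 1 1, (((1 : ℤ) : ℂ) / (1 : ℕ)) • Am s q σ; 0, Pq s q 1 1]))) =
    !![(1 / m : ℂ) • Am s q σ, 0; 0, (1 / m : ℂ) • Am s q σ] := by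
  have a := AA hq h hσ
  have b := AA (σ := -σ) hq h (by omega)
  have c : (q : ℂ) ≠ 0 := by exact_mod_cast hq.ne'
  have d : Pq s q 1 m * Am s q σ = (1 / m : ℂ) • Am s q σ := by
    ext x y; rw [Pq_mul, Matrix.smul_apply, Am, of_apply]; split_ifs <;> simp_all
  rw [neg_neg] at b
  simp only [mul_fin_two, mul_zero, zero_mul, add_zero, zero_add, one_mul, mul_one, Int.cast_one, Nat.cast_one,
    div_one, one_smul, mul_smul_comm, smul_mul_assoc, PqA.1, PqA.2.1, (PqA (σ := σ)).2.2, a, b, smul_smul, smul_zero, Int.cast_neg,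
    div_mul_cancel₀ _ c, neg_smul, neg_add_cancel, add_neg_cancel, RA hq h, d]
  congr 3; push_cast; field_simp

end

variable {γ : Type} [Cd γ] {w : Wd γ} {μ k p ψ T D s : γ → ℕ} {ν : ℕ → ℕ} {q m : γ → ℕ → ℕ} {σ : ℤ}

lemma Cq.bd {e : γ → ℕ → ℕ → ℂ} (h : Cp fun q : Rc T × ℕ × ℕ => e q.1.1.1 q.2.1 q.2.2)
    (h' : ∀ c a x, ‖e c a x‖ ≤ 1) : Cq T s e :=
  ⟨h, fun c a x => (h' c a x).trans (by exact_mod_cast Nat.one_le_two_pow)⟩

lemma Cq.zero : Cq T s fun _ _ _ => 0 :=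
  Cq.bd ((Cp.rat (In.const 0) (In.const 1)).congr fun _ => by simp) (by simp)

lemma Cq.one : Cq T s fun _ _ _ => 1 :=
  Cq.bd ((Cp.rat (In.const 1) (In.const 1)).congr fun _ => by simp) (by simp)

section
variable (W : Wc w k μ ψ p T D s ν) (pq : In polyB fun x : γ × ℕ => q x.1 x.2)
  (hq : ∀ c a, 0 < q c a ∧ q c a ≤ 2 ^ s c) (pm : In polyB fun x : γ × ℕ => m x.1 x.2) (hm : ∀ c a, 0 < m c a)
include W

lemma Wc.pτ {α : Type} [Cd α] {f : α → Rc T} (hf : In polyB f) : In polyB fun a => 2 ^ s (f a).1.1 :=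
  (W.ps.comp hf.val.fst).pow2 (Rc.dom hf fun c => by have := W.hT c; have := (s c).lt_two_pow_self; omega)

include pq hq

lemma Wc.cex (σ ε f η : ℤ) : Cq T s (fun c a => ex (s c) (q c a) σ ε f η) ∧
    Cq T s fun c a x => ex (s c) (q c a) σ ε f η x * (1 : ℤ) / (2 ^ s c : ℕ) := by
  have τ := W.pτ (In.id.fst (α := Rc T × ℕ × ℕ))
  have x := In.id.snd.snd (B := polyB) (α := Rc T × ℕ × ℕ)
  have q' := pq.comp (In.id.fst.val.fst.pair (In.id.snd.fst (α := Rc T × ℕ × ℕ)))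
  have n := (In.const η).imul (((In.const (ε * σ)).imul ((x.mul x).mul τ).inat).iadd
    ((((In.const f).imul x.inat).iadd (x.mul x).inat).imul q'.inat))
  have h := Cp.ee n (((In.const 2).mul q').mul τ) fun y => by have := (hq y.1.1.1 y.2.1).1; positivity
  have h' := h.scale (In.const 1) τ
  exact ⟨Cq.bd h fun c a x => by simp [ex, norm_ee], Cq.bd h' fun c a x => by
    simp [ex, norm_ee, inv_le_one_iff₀, one_le_pow₀]⟩

include pm hm

lemma Wc.cmf (σ f : ℤ) {n : ℤ} (hn : n = 1 ∨ n = -1) : Cq T s fun c a => mf (s c) (q c a) σ f n (m c a) := by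
  have v := In.id.fst (B := polyB) (α := (Rc T × ℕ × ℕ) × Un)
  have τ := W.pτ v.fst
  have δ := (In.id.snd.unval (B := polyB) (α := (Rc T × ℕ × ℕ) × Un)).inat.iadd τ.inat.ineg
  have q' := pq.comp (v.fst.val.fst.pair v.snd.fst)
  have n := ((((In.const σ).imul (δ.imul δ)).imul τ.inat).iadd (((((In.const 2).mul v.snd.snd).inat.iadd
    (In.const f)).imul δ).imul q'.inat)).ineg
  have h := Cp.ee n (((In.const 2).mul q').mul τ) fun y => by have := (hq y.1.1.1.1 y.1.2.1).1; positivity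
  have τ' := (In.const 2).mul (W.pτ (In.id.fst (α := Rc T × ℕ × ℕ)))
  have d := Rc.dom (In.id.fst (α := Rc T × ℕ × ℕ)) fun c => (W.hT c).2.1
  have h1 := Cp.sum (a := fun (y : Rc T × ℕ × ℕ) (δ : ℕ) => ee ((-(σ * ((δ + -(2 ^ s y.1.1.1 : ℕ)) *
    (δ + -(2 ^ s y.1.1.1 : ℕ))) * (2 ^ s y.1.1.1 : ℕ) + ((2 * y.2.2 : ℕ) + f) * (δ + -(2 ^ s y.1.1.1 : ℕ)) *
      q y.1.1.1 y.2.1) : ℤ) / (2 * q y.1.1.1 y.2.1 * 2 ^ s y.1.1.1 : ℕ))) τ' d h
  have m' := (In.const 2).mul (pm.comp (In.id.fst.val.fst.pair (In.id.snd.fst (α := Rc T × ℕ × ℕ))))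
  have h2 := h1.scale (In.const ‹ℤ›) m'
  refine ⟨h2, fun c a x => ?_⟩
  have : (1 : ℝ) ≤ m c a := by exact_mod_cast hm c a
  dsimp only [mf]
  rw [norm_div, norm_mul, div_le_iff₀ (by simp; have := hm c a; omega)]
  refine (mul_le_mul (norm_sum_le _ _) (show _ ≤ 1 by rcases hn with rfl | rfl <;> simp) (norm_nonneg _)
    (by positivity)).trans ?_
  simp only [norm_ee, sum_const, card_range, nsmul_eq_mul, Complex.norm_natCast]
  push_cast; nlinarith [pow_pos (two_pos (α := ℝ)) (s c)]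

omit hq in
lemma Wc.cP {n : γ → ℕ → ℤ} (pn : In polyB fun x : γ × ℕ => n x.1 x.2) (hn : ∀ c a, (n c a).natAbs ≤ 2 ^ s c) :
    Cq T s fun c a x => if x < q c a then (n c a / m c a : ℂ) else 0 := by
  have u := In.id.fst.val.fst.pair (In.id.snd.fst (B := polyB) (α := Rc T × ℕ × ℕ))
  have h1 := Cp.rat (pn.comp u) (pm.comp u)
  have h2 := Dec.lt In.id.snd.snd (pq.comp u)
  refine ⟨Cp.ite h2 h1 (Cq.zero (s := s)).1, fun c a x => ?_⟩
  have : (1 : ℝ) ≤ m c a := by exact_mod_cast hm c a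
  have : (‖(n c a : ℂ)‖) ≤ (2 ^ s c : ℕ) := by
    rw [Complex.norm_intCast, ← Int.cast_abs, ← Nat.cast_natAbs]; exact_mod_cast hn c a
  dsimp only
  split_ifs
  · rw [norm_div, Complex.norm_natCast]; exact (div_le_self (norm_nonneg _) ‹_›).trans this
  · simp

lemma Wc.shear (σ : ℤ) {n : ℤ} (hn : n = 1 ∨ n = -1) : Sg w k μ ψ p D s 12 fun c a =>
    !![Pq _ (q c a) 1 1, (n / m c a : ℂ) • Am _ (q c a) σ; 0, Pq _ (q c a) 1 1] := by
  have S : ∀ f, Sg w k μ ψ p D s 5 fun c a => !![1, Cf _ (q c a) σ f n (m c a); 0, 1] := fun f =>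
    ((W.pass (W.cex pq hq σ 1 f 1).2 Cq.zero Cq.zero (W.cex pq hq σ (-1) f 1).2).mul ((W.conv (-1)).mul
      ((W.pass Cq.one (W.cmf pq hq pm hm σ f hn) Cq.zero Cq.one).mul ((W.conv 1).mul
        (W.pass (W.cex pq hq σ 1 f (-1)).1 Cq.zero Cq.zero (W.cex pq hq σ (-1) f (-1)).1))))).congr fun c a => by
      simp only [mul_fin_two, mul_zero, zero_mul, add_zero, zero_add, one_mul, dgm_zero, dgm_one,
        KK (W.hT c).2.2.2.1, Cf, mul_assoc]
  have P0 := W.cP pq (m := fun _ _ => 1) (In.const 1) (by simp) (n := fun _ _ => 1) (In.const 1)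
    fun _ _ => Nat.one_le_two_pow
  have P : Sg w k μ ψ p D s 1 fun c a => !![Pq _ (q c a) 1 1, 0; 0, Pq _ (q c a) 1 1] :=
    (W.pass P0 Cq.zero Cq.zero P0).congr fun c a => by rw [dgm_zero]; rfl
  exact (P.mul ((S 1).mul ((S 0).mul P))).congr fun c a => by
    simp only [mul_fin_two, mul_zero, zero_mul, add_zero, zero_add, one_mul, (PqA (σ := σ)).2.2,
      ← Cf_sum (W.hT c).2.2.2.1 (hq c a).1, mul_assoc, add_mul]

lemma Wc.dft (hσ : σ = 1 ∨ σ = -1) : NOp w k μ ψ p p (fun c => (2 ^ (s c + 5)) ^ (D c * 40)) fun c =>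
    opM (dgL (D c) (s c) (D c + (p c + 1))) (tens fun a => (1 / m c a : ℂ) • Am (s c) (q c a) σ) := by
  have U := W.shear pq hq (m := fun _ _ => 1) (In.const 1) (by simp) σ (.inl rfl)
  have U' := W.shear pq hq pq (fun c a => (hq c a).1) (-σ) (.inr rfl)
  have S : Sg w k μ ψ p D s 1 fun c a => !![0, 1; 1, 0] :=
    (W.pass Cq.zero Cq.one Cq.one Cq.zero).congr fun c a => by rw [dgm_zero, dgm_one]
  have n1 := pq.inat.ineg
  have F : Sg w k μ ψ p D s 1 fun c a => !![0, Pq _ (q c a) (-q c a) (m c a); Pq _ (q c a) 1 (m c a), 0] :=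
    (W.pass Cq.zero (W.cP pq pm hm (n := fun c a => -q c a) n1 fun c a => by simpa using (hq c a).2)
      (W.cP pq pm hm (n := fun _ _ => 1) (In.const 1) fun _ _ => Nat.one_le_two_pow) Cq.zero).congr
      fun c a => by rw [dgm_zero]; rfl
  have H0 := F.mul ((W.rev pq).mul (U.mul ((S.mul (U'.mul S)).mul U)))
  have H := H0.congr fun c a => white (hq c a).1 (hq c a).2 hσ _
  exact (NOp.mono H ⟨1, by simp⟩ fun c => Nat.pow_le_pow_right (by positivity) (by omega)).congr fun c v =>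
    xb_diag _ v

end

theorem dft : ∃ (K : ℕ) (a : ℝ), 0 < a ∧ a < 1 ∧ ∀ (γ : Type) [Cd γ] (w : Wd γ)
    (k μ ψ p T d s κ : γ → ℕ) (ν : ℕ → ℕ) (a' : ℝ), SM ν → 1 < a' → Rich w k (fun c => p c + 1) T →
    In polyB ψ → In polyB d → In polyB s → In polyB κ →
    (∀ c, ψ c ≤ T c ∧ 2 * 2 ^ s c ≤ T c ∧ 0 < d c ∧ d c ≤ 2 ^ κ c ∧ κ c * d c < s c ∧
      K * (κ c + 1) * d c ≤ p c + 1 ∧ s c ≤ p c + 1 ∧
      2 ^ (p c + 1 + (d c + d c) + s c + (d c + d c) * s c) ∣ w.N c) →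
    (∃ C, ∀ c, s c * ((κ c + 1) * pw a (d c) + 1) + (ν (k c) + 1) * pw a' (p c + 1) +
      (d c + d c) * (ν (k c) + 1) ≤ C * (μ c + 1)) →
    Wc w k μ ψ p T (fun c => d c + d c) s ν := by
  obtain ⟨K, a, a0, a1, h⟩ := convD
  refine ⟨K, a, a0, a1, fun γ _ w k μ ψ p T d s κ ν a' sm ha R pψ pd ps pκ H ⟨C, hμ⟩ => ?_⟩
  have cv := h γ w k μ ψ p T d s (fun c => d c + d c) κ ν a' sm ha R pψ pd ps (pd.add pd) pκ
    (fun c => ⟨(H c).1, (H c).2.2⟩) ⟨C, fun c => by have := hμ c; omega⟩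
  have pD := pd.add pd
  refine ⟨R, sm, pψ, pD, ps, fun c => ?_, fun c => (pow_dvd_pow _ (by omega)).trans (H c).2.2.2.2.2.2.2,
    ⟨C, fun c => by have := hμ c; omega⟩, cv⟩
  obtain ⟨b1, b2, b3, b4, b5, -⟩ := H c
  have := (s c).lt_two_pow_self
  refine ⟨b1, b2, ?_, by omega, by omega⟩
  rcases Nat.eq_zero_or_pos (κ c) with h | h
  · rw [h] at b4; omega
  · nlinarith

end Vale.Agent.P338
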