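import Vale.Agent.P338.Emb

/-! Simultaneous controlled bit flips of the index. -/

namespace Vale.Agent.P338

open Filter Cd Finset

set_option linter.unusedSectionVars false
set_option linter.unusedVariables false

variable {γ : Type} [Cd γ] {w : Wd γ} {μ : γ → ℕ}

lemma lex3 {y Q x s : ℕ} (o : ℕ) (hy : y < Q) (hx : x < s) :
    ((o * Q + y) * s + x) / (Q * s) = o ∧ fld ((o * Q + y) * s + x) s Q = y ∧
      ∀ v, setF ((o * Q + y) * s + x) s Q v = (o * Q + v) * s + x := by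
  have : ((o * Q + y) * s + x) / (Q * s) = o := by rw [div_mul', lex_div hx, lex_div hy]
  exact ⟨this, by rw [fld, lex_div hx, lex_mod hy], fun v => by rw [setF, this, lex_mod hx]⟩

def e6 (Q M Y s a m u x : ℕ) (p : ℕ × ℕ) : ℕ := e5 a p.1 (m * Y + p.2) u x Q (M * Y) Q s

def PT (w : Wd γ) (μ Q M Y s : γ → ℕ) (H : γ → ℕ → ℕ × ℕ → ℕ × ℕ) : Prop :=
  ∃ σ, Pm w μ σ ∧ ∀ c a, ∀ m < M c, ∀ u < Q c, ∀ x < s c, ∀ p : ℕ × ℕ, p.1 < Q c → p.2 < Y c →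
    σ c (e6 (Q c) (M c) (Y c) (s c) a m u x p) = e6 (Q c) (M c) (Y c) (s c) a m u x (H c m p) ∧
      (H c m p).1 < Q c ∧ (H c m p).2 < Y c

variable {Q M Y s : γ → ℕ}

lemma PT.comp {H H'} (h : PT w μ Q M Y s H) (h' : PT w μ Q M Y s H') :
    PT w μ Q M Y s fun c m p => H c m (H' c m p) :=
  let ⟨_, a, b⟩ := h; let ⟨_, a', b'⟩ := h'
  ⟨_, a.comp a', fun c a m hm u hu x hx p h1 h2 => by
    obtain ⟨e1, e2, e3⟩ := b' c a m hm u hu x hx p h1 h2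
    rw [e1]; exact b c a m hm u hu x hx _ e2 e3⟩

section
variable (pQ : In polyB Q) (pM : In polyB M) (pY : In polyB Y) (ps : In polyB s)
  (hN : ∀ c, Q c * (M c * Y c * (Q c * s c)) ∣ w.N c) {f : γ → ℕ → ℕ → ℕ}
  (pf : In polyB fun p : γ × ℕ × ℕ => f p.1 p.2.1 p.2.2)
include pQ pM pY ps hN pf

lemma PT.rotY : PT w μ Q M Y s fun c m p => (p.1, (p.2 + f c m p.1) % Y c) := by
  have a := pf.comp (f := fun p : γ × ℕ => (p.1, p.2 % M p.1, p.2 / M p.1 % Q p.1)) (by fun_prop)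
  refine ⟨_, (Fd.rotN (s := fun c => Q c * s c) ⟨pQ.mul ps, pY, fun c => Dvd.dvd.trans
    ⟨Q c * M c, by ring⟩ (hN c)⟩ (f := fun c o => f c (o % M c) (o / M c % Q c)) a).zero,
    fun c a m hm u hu x hx p h1 h2 => ⟨?_, h1, Nat.mod_lt _ (by omega)⟩⟩
  have e : ∀ p : ℕ × ℕ, e6 (Q c) (M c) (Y c) (s c) a m u x p =
      (((a * Q c + p.1) * M c + m) * Y c + p.2) * (Q c * s c) + (u * s c + x) := fun p => by
    unfold e6 e5; ring
  obtain ⟨b1, b2, b3⟩ := lex3 ((a * Q c + p.1) * M c + m) h2 (lex_bound hu hx)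
  simp only [e, b1, b2, b3, lex_div hm, lex_mod hm, lex_mod h1]

lemma PT.rotZ (hs : Pm w μ fun c => swp (M c * Y c * (Q c * s c)) (s c) (Q c)) :
    PT w μ Q M Y s fun c m p => ((p.1 + f c m p.2) % Q c, p.2) := by
  have a := pf.comp (f := fun p : γ × ℕ => (p.1, p.2 / Y p.1 % M p.1, p.2 % Y p.1)) (by fun_prop)
  refine ⟨_, hs.comp ((Fd.rotN (s := s) ⟨ps, pQ, fun c => Dvd.dvd.trans
    ⟨Q c * M c * Y c, by ring⟩ (hN c)⟩ (f := fun c o => f c (o / Y c % M c) (o % Y c))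
      a).zero.comp hs), fun c a m hm u hu x hx p h1 h2 => ⟨?_, Nat.mod_lt _ (by omega), h2⟩⟩
  obtain ⟨b1, b2, b3⟩ := lex3 ((a * Q c + u) * (M c * Y c) + (m * Y c + p.2)) h1 hx
  have e : (a * Q c + u) * (M c * Y c) + (m * Y c + p.2) = ((a * Q c + u) * M c + m) * Y c + p.2 := by
    ring
  beta_reduce
  rw [e6, swp_e5 h1 (lex_bound hm h2) hu hx, e5, b1, b2, b3, e, lex_div h2, lex_mod h2, lex_mod hm,
    ← e]
  exact swp_e5 hu (lex_bound hm h2) (Nat.mod_lt _ (by omega)) hx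
end

lemma add_dsum {B r : ℕ} {f g k : ℕ → ℕ} (h : ∀ t < r, k t < B ∧ f t + g t = k t) :
    (dsum B r f + dsum B r g) % B ^ r = dsum B r k := by
  rw [dsum_add, dsum_congr fun t ht => (h t ht).2, Nat.mod_eq_of_lt (dsum_lt fun t ht => (h t ht).1)]

lemma sub_dsum {B r : ℕ} {f g k : ℕ → ℕ} (h : ∀ t < r, f t < B ∧ f t = k t + g t) :
    (dsum B r f + (B ^ r - dsum B r g)) % B ^ r = dsum B r k := by
  have h1 := dsum_lt fun t ht => (h t ht).1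
  rw [dsum_congr fun t ht => (h t ht).2, ← dsum_add] at h1 ⊢
  rw [add_assoc, Nat.add_sub_cancel' (by omega), Nat.add_mod_right, Nat.mod_eq_of_lt (by omega)]

lemma xor_bit {y c : ℕ} (hc : c < 2) (h : ℕ) :
    y + c * (h % 2) + 2 * c * (1 - (h + (y + c * (h % 2)) % 2) % 2) = (y ^^^ c) + c * (h % 2 + 1) := by
  obtain rfl | rfl : c = 0 ∨ c = 1 := by omega
  · simp
  · rcases Nat.even_or_odd y with e | e
    · rw [Nat.xor_one_of_even e]; have := Nat.even_iff.1 e; omega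
    · rw [Nat.xor_one_of_odd e]; have := Nat.odd_iff.1 e; omega

lemma xor_steps {B B' r : ℕ} {z y c : ℕ → ℕ} (hz : ∀ t < r, z t + 1 < B) (hy : ∀ t < r, y t + 3 < B')
    (hc : ∀ t, c t < 2) :
    let p0 := (dsum B r z, dsum B' r y)
    let p1 := (p0.1, (p0.2 + dsum B' r fun t => c t * (fld p0.1 (B ^ t) B % 2)) % B' ^ r)
    let p2 := ((p1.1 + dsum B r fun t => fld p1.2 (B' ^ t) B' % 2) % B ^ r, p1.2)
    let p3 := (p2.1, (p2.2 + dsum B' r fun t => 2 * c t * (1 - fld p2.1 (B ^ t) B % 2)) % B' ^ r)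
    let p4 := ((p3.1 + (B ^ r - dsum B r fun t => fld p3.2 (B' ^ t) B' % 2)) % B ^ r, p3.2)
    (p4.1, (p4.2 + (B' ^ r - dsum B' r fun t => c t * (fld p4.1 (B ^ t) B % 2 + 1))) % B' ^ r) =
      (dsum B r z, dsum B' r fun t => y t ^^^ c t) := by
  intro p0 p1 p2 p3 p4
  have b1 : ∀ t h, c t * (h % 2) ≤ 1 := fun t h => by
    have := hc t; have := Nat.mod_lt h two_pos; nlinarith
  have b2 : ∀ t h, 2 * c t * (1 - h) ≤ 2 := fun t h => by
    have := hc t; have := Nat.sub_le 1 h; nlinarith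
  have z0 : ∀ t < r, z t < B := fun t ht => by have := hz t ht; omega
  have y1 : ∀ t < r, y t + c t * (z t % 2) < B' := fun t ht => by
    have := b1 t (z t); have := hy t ht; omega
  have e1 : p1 = (dsum B r z, dsum B' r fun t => y t + c t * (z t % 2)) :=
    Prod.ext rfl (add_dsum fun t ht => ⟨y1 t ht, by simp only [p0]; rw [fld_dsum z0 ht]⟩)
  have z2 : ∀ t < r, z t + (y t + c t * (z t % 2)) % 2 < B := fun t ht => by have := hz t ht; omega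
  have e2 : p2 = (dsum B r fun t => z t + (y t + c t * (z t % 2)) % 2,
      dsum B' r fun t => y t + c t * (z t % 2)) := by
    simp only [p2, e1]
    exact Prod.ext (add_dsum fun t ht => ⟨z2 t ht, by rw [fld_dsum y1 ht]⟩) rfl
  have y3 : ∀ t < r, y t + c t * (z t % 2) + 2 * c t *
      (1 - (z t + (y t + c t * (z t % 2)) % 2) % 2) < B' := fun t ht => by
    have := b1 t (z t); have := hy t ht
    have := b2 t ((z t + (y t + c t * (z t % 2)) % 2) % 2); omega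
  have e3 : p3 = (dsum B r fun t => z t + (y t + c t * (z t % 2)) % 2,
      dsum B' r fun t => y t + c t * (z t % 2) + 2 * c t *
        (1 - (z t + (y t + c t * (z t % 2)) % 2) % 2)) := by
    simp only [p3, e2]
    exact Prod.ext rfl (add_dsum fun t ht => ⟨y3 t ht, by rw [fld_dsum z2 ht]⟩)
  have e4 : p4 = (dsum B r z, p3.2) := by
    simp only [p4, e3]
    exact Prod.ext (sub_dsum fun t ht => ⟨z2 t ht, by
      rw [fld_dsum y3 ht, mul_assoc 2, Nat.add_mul_mod_self_left]⟩) rfl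
  simp only [e4, e3]
  exact Prod.ext rfl (sub_dsum fun t ht => ⟨y3 t ht, by rw [fld_dsum z0 ht]; exact xor_bit (hc t) _⟩)

lemma pow_add3 {r B : ℕ} (h : r ≤ B) : (B + 3) ^ r ≤ 27 * B ^ r := by
  rcases Nat.eq_zero_or_pos B with rfl | hB
  · obtain rfl : r = 0 := by omega
    simp
  have h1 : ((B : ℝ) + 3) ≤ B * Real.exp (3 / B) := by
    have := Real.add_one_le_exp (3 / (B : ℝ))
    calc (B : ℝ) + 3 = B * (3 / B + 1) := by field_simp; ring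
      _ ≤ _ := by gcongr
  have h2 : Real.exp (3 / B) ^ r ≤ 27 := by
    rw [← Real.exp_nat_mul]
    calc _ ≤ Real.exp ((3 : ℕ) * 1) := Real.exp_le_exp.2 (by
          rw [← mul_div_assoc, div_le_iff₀ (by positivity)]
          have : (r : ℝ) ≤ B := by exact_mod_cast h
          push_cast; linarith)
      _ = Real.exp 1 ^ 3 := Real.exp_nat_mul _ _
      _ ≤ 3 ^ 3 := by gcongr; exact Real.exp_one_lt_three.le
      _ = 27 := by norm_num
  have : ((B : ℝ) + 3) ^ r ≤ 27 * B ^ r :=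
    calc _ ≤ (B * Real.exp (3 / B)) ^ r := by gcongr
      _ ≤ _ := by rw [mul_pow, mul_comm]; gcongr
  exact_mod_cast this

lemma fld_xor (a b i j : ℕ) : fld (a ^^^ b) (2 ^ i) (2 ^ j) = fld a (2 ^ i) (2 ^ j) ^^^ fld b (2 ^ i) (2 ^ j) := by
  unfold fld; rw [Nat.xor_div_two_pow, Nat.xor_mod_two_pow]

lemma dsum_xor {σ r : ℕ} {f g : ℕ → ℕ} (hf : ∀ t < r, f t < 2 ^ σ) (hg : ∀ t < r, g t < 2 ^ σ) :
    dsum (2 ^ σ) r f ^^^ dsum (2 ^ σ) r g = dsum (2 ^ σ) r fun t => f t ^^^ g t := by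
  have h1 := dsum_lt hf
  have h2 := dsum_lt hg
  rw [← pow_mul] at h1 h2
  rw [← Nat.mod_eq_of_lt (Nat.xor_lt_two_pow h1 h2), pow_mul, ← dsum_fld]
  exact dsum_congr fun t ht => by
    rw [← pow_mul, fld_xor, pow_mul, fld_dsum hf ht, fld_dsum hg ht]

lemma xor_lex {y y' x x' i : ℕ} (hx : x < 2 ^ i) (hx' : x' < 2 ^ i) :
    (y * 2 ^ i + x) ^^^ (y' * 2 ^ i + x') = (y ^^^ y') * 2 ^ i + (x ^^^ x') := by
  rw [← Nat.div_add_mod' (_ ^^^ _) (2 ^ i), Nat.xor_div_two_pow, Nat.xor_mod_two_pow, lex_div hx,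
    lex_div hx', lex_mod hx, lex_mod hx']

/-- bits `e + (k + t) σ` are added to bits `e + t σ` for all `t < r` -/
def xs (e σ k r z : ℕ) : ℕ := z ^^^ dsum (2 ^ σ) r (fun t => fld z (2 ^ (e + (k + t) * σ)) 2) * 2 ^ e

lemma Wd.domE (w : Wd γ) {t : γ → ℕ} (h : ∀ c, 2 ^ t c ∣ w.N c) : Dom polyB t :=
  (Dom.size w.poly).mono' fun c => le_size_of_pow le_rfl (Nat.le_of_dvd (w.pos c) (h c))

lemma xs_e6 {κ r σ l g a m u x z y : ℕ} (hm : m < 2 ^ ((g + r) * σ + 1)) (hu : u < 2 ^ κ)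
    (hx : x < 2 ^ l) (hy : y < (2 ^ σ) ^ (r + 1)) (hσ : 0 < σ) :
    xs (l + κ) σ (r + 1 + g) (r + 1) (e6 (2 ^ κ) (2 ^ ((g + r) * σ + 1)) ((2 ^ σ) ^ (r + 1)) (2 ^ l)
      a m u x (z, y)) = e6 (2 ^ κ) (2 ^ ((g + r) * σ + 1)) ((2 ^ σ) ^ (r + 1)) (2 ^ l) a m u x
      (z, y ^^^ dsum (2 ^ σ) (r + 1) fun t => fld m (2 ^ ((g + t) * σ)) 2) := by
  have e : ∀ y, e6 (2 ^ κ) (2 ^ ((g + r) * σ + 1)) ((2 ^ σ) ^ (r + 1)) (2 ^ l) a m u x (z, y) =
      (((a * 2 ^ κ + z) * 2 ^ ((g + r) * σ + 1) + m) * 2 ^ (σ * (r + 1)) + y) * 2 ^ (l + κ) +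
        (u * 2 ^ l + x) := fun y => by unfold e6 e5; rw [pow_mul]; ring
  have h1 : u * 2 ^ l + x < 2 ^ (l + κ) := by rw [add_comm l, pow_add]; exact lex_bound hu hx
  have h2 : ∀ t, fld m (2 ^ ((g + t) * σ)) 2 < 2 ^ σ := fun t =>
    (fld_lt _ _ two_pos).trans_le (Nat.le_self_pow hσ.ne' 2)
  have h3 := dsum_lt (r := r + 1) fun t _ => h2 t
  rw [← pow_mul] at hy h3
  rw [xs, e, e, dsum_congr (g := fun t => fld m (2 ^ ((g + t) * σ)) 2) fun t ht => ?_,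
    ← add_zero (dsum _ _ _ * _), xor_lex h1 (by positivity), Nat.xor_zero,
    ← zero_add (dsum _ _ _), ← zero_mul (2 ^ (σ * (r + 1))), xor_lex hy h3, Nat.xor_zero,
    zero_mul, zero_add]
  rw [show 2 ^ (l + κ + (r + 1 + g + t) * σ) = 2 ^ ((g + t) * σ) * 2 ^ (σ * (r + 1)) * 2 ^ (l + κ) by
    ring, fld_wire, fld_wire, lex_div h1, lex_div hy, ← one_mul (2 ^ ((g + t) * σ)),
    ← fld_fld (Q := 2 ^ ((g + r) * σ + 1)) _ (by
      rw [← pow_succ']; exact pow_dvd_pow _ (by gcongr; omega)), fld.eq_1 _ 1, Nat.div_one,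
    lex_mod hm, one_mul]

lemma xor_pt {B B' r : γ → ℕ} {ct : γ → ℕ → ℕ → ℕ} (pB : In polyB B) (pB' : In polyB B')
    (pr : In polyB r) (dr : Dom polyB r) (pM : In polyB M) (ps : In polyB s)
    (q0 : In polyB fun p : (γ × ℕ × ℕ) × Un => ct p.1.1 p.1.2.1 p.2.n) (hc : ∀ c m t, ct c m t < 2)
    (hN : ∀ c, B c ^ r c * (M c * B' c ^ r c * (B c ^ r c * s c)) ∣ w.N c)
    (sw : Pm w μ fun c => swp (M c * B' c ^ r c * (B c ^ r c * s c)) (s c) (B c ^ r c)) :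
    ∃ τ, Pm w μ τ ∧ ∀ c a, ∀ m < M c, ∀ u < B c ^ r c,
      ∀ x < s c, ∀ z y : ℕ → ℕ, (∀ t, z t + 1 < B c) → (∀ t, y t + 3 < B' c) →
      τ c (e6 (B c ^ r c) (M c) (B' c ^ r c) (s c) a m u x (dsum (B c) (r c) z, dsum (B' c) (r c) y)) =
      e6 (B c ^ r c) (M c) (B' c ^ r c) (s c) a m u x
        (dsum (B c) (r c) z, dsum (B' c) (r c) fun t => y t ^^^ ct c m t) := by
  have pQ := pB.pow pr dr
  have pY := pB'.pow pr dr
  have u1 := In.id.snd.unval (B := polyB) (α := (γ × ℕ × ℕ) × Un)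
  have u2 := Dom.unval (In.id.snd (B := polyB) (α := (γ × ℕ × ℕ) × Un))
  have u3 := In.id.fst.fst (B := polyB) (α := (γ × ℕ × ℕ) × Un)
  have q1 := (In.id.fst.snd.snd.fld ((pB.comp u3).pow u1 u2) (pB.comp u3)).mod (In.const 2)
  have q2 := (In.id.fst.snd.snd.fld ((pB'.comp u3).pow u1 u2) (pB'.comp u3)).mod (In.const 2)
  have t1 := In.id.fst (B := polyB) (β := γ) (γ := ℕ × ℕ)
  have f2 := In.dsum (g := fun (p : γ × ℕ × ℕ) t => fld p.2.2 (B' p.1 ^ t) (B' p.1) % 2)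
    (pB.comp t1) (pr.comp t1) (dr.comp t1) q2
  have fy : ∀ G : ℕ → ℕ → ℕ, (In polyB fun p : ℕ × ℕ => G p.1 p.2) → In polyB fun p : γ × ℕ × ℕ =>
      dsum (B' p.1) (r p.1) fun t => G (ct p.1 p.2.1 t) (fld p.2.2 (B p.1 ^ t) (B p.1) % 2) :=
    fun G hG => have := hG.c2 q0 q1
      In.dsum (g := fun (p : γ × ℕ × ℕ) t => G (ct p.1 p.2.1 t) (fld p.2.2 (B p.1 ^ t) (B p.1) % 2))
        (pB'.comp t1) (pr.comp t1) (dr.comp t1) this
  have s1 := PT.rotY (μ := μ) pQ pM pY ps hN (f := fun c m z => dsum (B' c) (r c) fun t =>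
    ct c m t * (fld z (B c ^ t) (B c) % 2)) (fy (fun c h => c * h) (by fun_prop))
  have s2 := PT.rotZ pQ pM pY ps hN (f := fun c m y => dsum (B c) (r c) fun t =>
    fld y (B' c ^ t) (B' c) % 2) f2 sw
  have s3 := PT.rotY (μ := μ) pQ pM pY ps hN (f := fun c m z => dsum (B' c) (r c) fun t =>
    2 * ct c m t * (1 - fld z (B c ^ t) (B c) % 2)) (fy (fun c h => 2 * c * (1 - h)) (by fun_prop))
  have s4 := PT.rotZ pQ pM pY ps hN (f := fun c m y => B c ^ r c -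
    dsum (B c) (r c) fun t => fld y (B' c ^ t) (B' c) % 2) ((pQ.comp t1).sub f2) sw
  have s5 := PT.rotY (μ := μ) pQ pM pY ps hN (f := fun c m z => B' c ^ r c -
    dsum (B' c) (r c) fun t => ct c m t * (fld z (B c ^ t) (B c) % 2 + 1))
    ((pY.comp t1).sub (fy (fun c h => c * (h + 1)) (by fun_prop)))
  obtain ⟨τ, h1, h2⟩ := s5.comp (s4.comp (s3.comp (s2.comp s1)))
  refine ⟨τ, h1, fun c a m hm u hu x hx z y hz hy => ?_⟩
  have h3 := (h2 c a m hm u hu x hx (dsum (B c) (r c) z, dsum (B' c) (r c) y)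
    (dsum_lt fun t _ => by have := hz t; omega) (dsum_lt fun t _ => by have := hy t; omega)).1
  have h4 := xor_steps (r := r c) (fun t _ => hz t) (fun t _ => hy t) (hc c m)
  dsimp only at h3 h4
  rw [h3, h4]

lemma xor_idx {κ σ r g l A : ℕ} {τ : ℕ → ℕ} (hσ : 0 < σ)
    (h : ∀ a, ∀ m < 2 ^ ((g + r) * σ + 1), ∀ u < (2 ^ κ + 3) ^ (r + 1),
      ∀ x < 2 ^ l, ∀ z y : ℕ → ℕ, (∀ t, z t + 1 < 2 ^ κ + 3) → (∀ t, y t + 3 < 2 ^ σ + 3) →
      τ (e6 ((2 ^ κ + 3) ^ (r + 1)) (2 ^ ((g + r) * σ + 1)) ((2 ^ σ + 3) ^ (r + 1)) (2 ^ l) a m u x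
        (dsum (2 ^ κ + 3) (r + 1) z, dsum (2 ^ σ + 3) (r + 1) y)) =
      e6 ((2 ^ κ + 3) ^ (r + 1)) (2 ^ ((g + r) * σ + 1)) ((2 ^ σ + 3) ^ (r + 1)) (2 ^ l) a m u x
        (dsum (2 ^ κ + 3) (r + 1) z,
          dsum (2 ^ σ + 3) (r + 1) fun t => y t ^^^ fld m (2 ^ ((g + t) * σ)) 2))
    {f : ℕ → ℕ} (hf : ∀ a, ∀ z < (2 ^ κ) ^ (r + 1), ∀ m, ∀ y < (2 ^ σ) ^ (r + 1),
      ∀ u < (2 ^ κ) ^ (r + 1), ∀ x < 2 ^ l, m < 2 ^ ((g + r) * σ + 1) →
      f (e6 ((2 ^ κ) ^ (r + 1)) (2 ^ ((g + r) * σ + 1)) ((2 ^ σ) ^ (r + 1)) (2 ^ l) a m u x (z, y)) =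
      e6 ((2 ^ κ + 3) ^ (r + 1)) (2 ^ ((g + r) * σ + 1)) ((2 ^ σ + 3) ^ (r + 1)) (2 ^ l) a m
        (dsum (2 ^ κ + 3) (r + 1) fun t => fld u ((2 ^ κ) ^ t) (2 ^ κ)) x
        (dsum (2 ^ κ + 3) (r + 1) fun t => fld z ((2 ^ κ) ^ t) (2 ^ κ),
          dsum (2 ^ σ + 3) (r + 1) fun t => fld y ((2 ^ σ) ^ t) (2 ^ σ))) {N : ℕ}
    (hN : A * (2 ^ κ) ^ (r + 1) * (2 ^ ((g + r) * σ + 1) * (2 ^ σ) ^ (r + 1)) *
      (2 ^ κ) ^ (r + 1) * 2 ^ l = N) (y : ℕ) (hy : y < N) :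
    xs (l + κ * (r + 1)) σ (r + 1 + g) (r + 1) y < N ∧
      τ (f y) = f (xs (l + κ * (r + 1)) σ (r + 1 + g) (r + 1) y) := by
  subst hN
  obtain ⟨a, ha, z, hz, b, hb, u, hu, x, hx, rfl⟩ := ex_e5 hy
  have hy := Nat.mod_lt b (show 0 < (2 ^ σ) ^ (r + 1) by positivity)
  have hm := (Nat.div_lt_iff_lt_mul (by positivity)).2 hb
  rw [← Nat.div_add_mod' b ((2 ^ σ) ^ (r + 1))]
  generalize b % (2 ^ σ) ^ (r + 1) = y at *
  generalize b / (2 ^ σ) ^ (r + 1) = m at *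
  have c3 : ∀ t, fld m (2 ^ ((g + t) * σ)) 2 < 2 ^ σ := fun t =>
    (fld_lt _ _ two_pos).trans_le (Nat.le_self_pow hσ.ne' 2)
  have hy' : y ^^^ dsum (2 ^ σ) (r + 1) (fun t => fld m (2 ^ ((g + t) * σ)) 2) < (2 ^ σ) ^ (r + 1) := by
    have := dsum_lt (r := r + 1) fun t _ => c3 t
    rw [← pow_mul] at *; exact Nat.xor_lt_two_pow hy this
  have key := xs_e6 (a := a) (z := z) (κ := κ * (r + 1)) hm (by rwa [pow_mul]) hx hy hσ
  rw [pow_mul 2 κ] at key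
  change xs _ _ _ _ (e6 _ _ _ _ a m u x (z, y)) < _ ∧ τ (f (e6 _ _ _ _ a m u x (z, y))) =
    f (xs _ _ _ _ (e6 _ _ _ _ a m u x (z, y)))
  rw [key, hf a z hz m y hy u hu x hx hm, hf a z hz m _ hy' u hu x hx hm, h a m hm _
    (dsum_lt fun t _ => (fld_lt _ _ (by positivity)).trans (by omega)) x hx _ _
    (fun t => Nat.add_lt_add (fld_lt _ _ (by positivity)) (by omega))
    fun t => Nat.add_lt_add_right (fld_lt _ _ (by positivity)) 3]
  refine ⟨e5_lt ha hz (lex_bound hm hy') hu hx, congrArg _ (Prod.ext rfl (dsum_congr fun t ht => ?_))⟩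
  rw [← pow_mul, fld_xor, pow_mul, fld_dsum (fun t _ => c3 t) ht]

lemma xor_core {K : ℕ} {a : ℝ} (a0 : 0 < a) (a1 : a < 1) (h : ∀ (w : Wd γ)
    (s1 s2 Q t : γ → ℕ), In polyB s1 → In polyB s2 → In polyB Q → In polyB t → Dom polyB t →
    (∀ c, Q c ≤ 2 ^ t c) → (∀ c, Q c * s2 c ∣ s1 c) → (∀ c, Q c * s1 c ∣ w.N c) →
    (∀ c, 2 ^ (K * t c) ∣ s2 c) → Pm w (fun c => pw a (t c)) fun c => swp (s1 c) (s2 c) (Q c))
    {g σ r κ l A : γ → ℕ} (pg : In polyB g) (pσ : In polyB σ) (pr : In polyB r)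
    (pκ : In polyB κ) (pl : In polyB l) (dg : Dom polyB g) (dσ : Dom polyB σ) (dr : Dom polyB r)
    (dκ : Dom polyB κ) (dl : Dom polyB l) (pA : In polyB A)
    (hA : ∀ c, A c * (2 ^ κ c) ^ (r c + 1) * (2 ^ ((g c + r c) * σ c + 1) * (2 ^ σ c) ^ (r c + 1)) *
      (2 ^ κ c) ^ (r c + 1) * 2 ^ l c = w.N c)
    (H : ∀ c, r c + 1 ≤ 2 ^ κ c ∧ κ c < σ c ∧ K * ((r c + 1) * (κ c + 2)) ≤ l c) :
    Pm w (fun c => (κ c + 1) * pw a (r c + 1))
      fun c => xs (l c + κ c * (r c + 1)) (σ c) (r c + 1 + g c) (r c + 1) := by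
  have pM : In polyB fun c => 2 ^ ((g c + r c) * σ c + 1) := by fun_prop
  have ps : In polyB fun c => 2 ^ l c := by fun_prop
  have pr1 := pr.add (In.const 1)
  have dr1 := dr.add (Dom.const 1)
  have eZ := Emb.mx (q := fun c _ => 2 ^ κ c) (b := fun c => 2 ^ κ c + 3) (by fun_prop) (by fun_prop)
    pr1 dr1 fun c _ _ => by simp
  have eY := Emb.mx (q := fun c _ => 2 ^ σ c) (b := fun c => 2 ^ σ c + 3) (by fun_prop) (by fun_prop)
    pr1 dr1 fun c _ _ => by simp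
  simp only [prod_const, card_range] at eZ eY
  have pos : ∀ c, 0 < A c := fun c => by
    have := w.pos c; rw [← hA] at this; simpa using this
  have E := ((((Emb.refl pA).lex eZ).lex ((Emb.refl pM).lex eY)).lex eZ).lex (Emb.refl ps)
  have hp : ∀ c, 0 < A c * (2 ^ κ c + 3) ^ (r c + 1) * (2 ^ ((g c + r c) * σ c + 1) *
    (2 ^ σ c + 3) ^ (r c + 1)) * (2 ^ κ c + 3) ^ (r c + 1) * 2 ^ l c := fun c => by
    have := pos c; positivity
  have hN : ∀ c, (2 ^ κ c + 3) ^ (r c + 1) * (2 ^ ((g c + r c) * σ c + 1) *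
      (2 ^ σ c + 3) ^ (r c + 1) * ((2 ^ κ c + 3) ^ (r c + 1) * 2 ^ l c)) ∣ (w.rsz _ E.pN hp).N c :=
    fun c => ⟨A c, by simp only; ring⟩
  have sw := (h (w.rsz _ E.pN hp) _ _ _ (fun c => (r c + 1) * (κ c + 2))
    ((pM.mul eY.pN).mul (eZ.pN.mul ps)) ps eZ.pN (by fun_prop) (by fun_prop) (fun c => by
      rw [mul_comm, pow_mul]
      exact Nat.pow_le_pow_left (by rw [pow_add]; have := Nat.one_le_two_pow (n := κ c); omega) _)
    (fun c => dvd_mul_left _ _) hN fun c => pow_dvd_pow _ (H c).2.2).mono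
    (μ := fun c => (κ c + 1) * pw a (r c + 1)) ⟨3, fun c => by
      have := pw_mul a0.le a1.le (r c + 1) (κ c + 2)
      nlinarith [Nat.zero_le (κ c * pw a (r c + 1))]⟩
  have u1 := In.id.snd.unval (B := polyB) (α := (γ × ℕ × ℕ) × Un)
  have u2 := Dom.unval (In.id.snd (B := polyB) (α := (γ × ℕ × ℕ) × Un))
  have u3 := In.id.fst.fst (B := polyB) (α := (γ × ℕ × ℕ) × Un)
  have q0 := In.id.fst.snd.fst.fld ((((pg.comp u3).add u1).mul (pσ.comp u3)).pow2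
    (((dg.comp u3).add u2).mul (dσ.comp u3))) (In.const 2)
  obtain ⟨τ, h1, h2⟩ := xor_pt (B := fun c => 2 ^ κ c + 3) (B' := fun c => 2 ^ σ c + 3)
    (ct := fun c m t => fld m (2 ^ ((g c + t) * σ c)) 2) (by fun_prop) (by fun_prop) pr1 dr1 pM ps q0
    (fun _ _ _ => fld_lt _ _ two_pos) hN sw
  refine Pm.conj E hA (27 * 27 * 27) (fun c => ?_) hp h1 fun c =>
    xor_idx (by have := H c; omega) (h2 c) (fun a z hz m y hy u hu x hx hm => ?_) (hA c)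
  · obtain ⟨b1, b2, -⟩ := H c
    have b3 := pow_add3 b1
    have b4 := pow_add3 (b1.trans (Nat.pow_le_pow_right two_pos b2.le))
    rw [← hA]
    calc _ ≤ A c * (27 * (2 ^ κ c) ^ (r c + 1)) * (2 ^ ((g c + r c) * σ c + 1) *
        (27 * (2 ^ σ c) ^ (r c + 1))) * (27 * (2 ^ κ c) ^ (r c + 1)) * 2 ^ l c := by gcongr
      _ = _ := by ring
  · simp only [e6, e5, lex_div, lex_mod, hz, hu, hx, hy, lex_bound hm hy, mx, prod_const, card_range]

theorem xorP : ∃ (K : ℕ) (a : ℝ), 0 < a ∧ a < 1 ∧ ∀ (γ : Type) [Cd γ] (w : Wd γ)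
    (e σ k r κ : γ → ℕ), In polyB e → In polyB σ → In polyB k → In polyB r → In polyB κ →
    (∀ c, 0 < r c ∧ r c ≤ k c ∧ r c ≤ 2 ^ κ c ∧ κ c * r c < σ c ∧ K * (κ c + 1) * r c ≤ e c ∧
      2 ^ (e c + (k c + r c) * σ c) ∣ w.N c) →
    Pm w (fun c => (κ c + 1) * pw a (r c)) fun c => xs (e c) (σ c) (k c) (r c) := by
  obtain ⟨K, a, a0, a1, h⟩ := swapQ
  refine ⟨2 * K + 1, a, a0, a1, fun γ _ w e σ k r κ pe pσ pk pr pκ H => ?_⟩
  have d0 := w.domE fun c => (H c).2.2.2.2.2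
  have hσ : ∀ c, 1 ≤ σ c := fun c => by have := H c; omega
  have dσ : Dom polyB σ := d0.mono' fun c => by have := H c; nlinarith
  have dk : Dom polyB fun c => k c + r c := d0.mono' fun c => by have := hσ c; nlinarith
  have hκ : ∀ c, κ c < σ c := fun c => by have := H c; nlinarith
  have e1 : ∀ c, e c - κ c * (r c - 1 + 1) + κ c * (r c - 1 + 1) = e c ∧ r c - 1 + 1 = r c ∧
      r c - 1 + 1 + (k c - r c) = k c ∧
      K * (r c * (κ c + 2)) + κ c * r c ≤ e c := fun c => by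
    obtain ⟨a1, a2, a3, a4, a5, -⟩ := H c
    have : K * (r c * (κ c + 2)) + κ c * r c ≤ e c := by nlinarith [Nat.zero_le (K * κ c * r c)]
    rw [Nat.sub_add_cancel a1]; omega
  have pl : In polyB fun c => e c - κ c * (r c - 1 + 1) := by fun_prop
  have dl : Dom polyB fun c => e c - κ c * (r c - 1 + 1) := d0.mono' fun c => by omega
  have dg : Dom polyB fun c => k c - r c := dk.mono' fun c => by omega
  have dr : Dom polyB fun c => r c - 1 := dk.mono' fun c => by omega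
  have dκ := dσ.mono' fun c => (hκ c).le
  refine (xor_core (w := w) a0 a1 (h γ) (pk.sub pr) pσ (pr.sub (In.const 1)) pκ pl dg dσ dr dκ dl
    (A := fun c => w.N c / 2 ^ (κ c * (r c - 1 + 1) + ((k c - r c + (r c - 1)) * σ c + 1 +
      σ c * (r c - 1 + 1)) + e c)) (by have := w.poly; have := d0.mono' (s := e) (by simp); fun_prop)
    (fun c => ?_) fun c => ?_).mono ⟨1, fun c => by rw [(e1 c).2.1]; omega⟩ |>.congr
      fun c F z _ => by simp only [(e1 c).1, (e1 c).2.2.1]; rw [(e1 c).2.1]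
  · simp only [mul_assoc, ← pow_mul, ← pow_add, add_assoc]
    rw [add_comm (κ c * _) (e c - _), (e1 c).1]
    refine Nat.div_mul_cancel (Dvd.dvd.trans (pow_dvd_pow _ ?_) (H c).2.2.2.2.2)
    obtain ⟨a1, a2, a3, a4, a5, -⟩ := H c
    obtain ⟨r', hr⟩ : ∃ r', r c = r' + 1 := ⟨_, (e1 c).2.1.symm⟩
    obtain ⟨g, hg⟩ := Nat.exists_eq_add_of_le a2
    rw [hr] at a4
    rw [hg, hr]
    simp only [Nat.add_sub_cancel, Nat.add_sub_cancel_left]
    nlinarith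
  · have := e1 c; have := H c; have := hκ c
    rw [(e1 c).2.1]; omega

end Vale.Agent.P338
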