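import Vale.Agent.P338.Zg

/-! Fast simultaneous application of the gates `Zg`. -/

namespace Vale.Agent.P338

open Filter Cd Finset

set_option linter.unusedSectionVars false
set_option linter.unusedVariables false

variable {γ Ω Ω' : Type} [Cd γ] [Cd Ω] [Cd Ω'] {w : Wd γ} {μ k : γ → ℕ} {φ : Ω → Ω'}
  {S : (Ω → ℕ∞) → γ → ℕ∞}

def ps (e σ n : ℕ) : Xn := xn (2 ^ (e + n * σ))

def xsH (e : ℕ) {σ : ℕ} (hσ : 0 < σ) (k r : ℕ) : Xn →+ Xn :=
  AddMonoidHom.mk' (fun z => xn (xs e σ k r (nx z))) fun a b => xs_xor hσ a b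

lemma xsH_ne {e σ n0 k r n : ℕ} (hσ : 0 < σ) (h : n < n0 + k ∨ n0 + k + r ≤ n) :
    xsH (e + n0 * σ) hσ k r (ps e σ n) = ps e σ n :=
  xs_fix fun t ht => by
    refine (fld_two_pow _ _).trans (if_neg fun h' => ?_)
    rw [add_assoc, ← add_mul] at h'
    have := Nat.eq_of_mul_eq_mul_right hσ (Nat.add_left_cancel h'); omega

lemma xsH_eq {e σ n0 k r t : ℕ} (hσ : 0 < σ) (h : t < r) :
    xsH (e + n0 * σ) hσ k r (ps e σ (n0 + k + t)) = ps e σ (n0 + k + t) + ps e σ (n0 + t) := by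
  have := xs_eq (e := e + n0 * σ) (k := k) hσ h
  rw [add_assoc, add_assoc, ← add_mul, ← add_mul, ← add_assoc n0] at this
  exact this

def ZO (φ : Ω → Ω') (w : Wd γ) (k μ : γ → ℕ) (S : (Ω → ℕ∞) → γ → ℕ∞) (r : γ → ℕ)
    (u v : γ → ℕ → Xn) : Prop :=
  OA φ (w.zp k) μ S fun c F => rho (Zp (k c)) (∏ t ∈ range (r c), Zg (u c t) (v c t)) F

variable {r : γ → ℕ} {u v u' v' : γ → ℕ → Xn}

lemma ZO.congr (h : ZO φ w k μ S r u v) (e : ∀ c, ∀ t < r c, Zg (u c t) (v c t) = Zg (u' c t) (v' c t)) :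
    ZO φ w k μ S r u' v' := OA.congr h (fun _ _ => le_rfl) fun c F z _ => by
  rw [prod_congr rfl fun t ht => e c t (mem_range.1 ht)]

lemma ZO.conj (h : ZO φ w k μ S r u v) {L : γ → Xn →+ Xn}
    (hL : Pm (w.zp k) μ fun c z => nx (L c (xn z))) (hi : ∀ c z, L c (L c z) = z) :
    ZO φ w k μ S r (fun c t => L c (u c t)) fun c t => L c (v c t) :=
  ((OA.pre hL h).post hL).congr (fun _ _ => le_rfl) fun c F z _ => by
    rw [rho_comp (fun z => nx (L c (xn z))) _ (fun i _ z => congrArg nx (map_add (L c) (xn z) _))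
      (fun i _ z => congrArg nx (map_add (L c) (xn z) _))]
    exact congrArg _ (hi c z)

lemma ZO.side {m : ℕ} {e σ n : γ → ℕ} (hσ : ∀ c, 0 < σ c) {W : γ → ℕ → Xn} {i0 : Fin m}
    (sh : ∀ i < i0, Pm (w.zp k) μ fun c => xs (e c + (n c + i * r c) * σ c) (σ c) ((i0 - i) * r c) (r c))
    (hW : ∀ i < i0, ∀ c, ∀ t < r c,
      xsH (e c + (n c + i * r c) * σ c) (hσ c) ((i0 - i) * r c) (r c) (W c t) = W c t)
    (h : ZO φ w k μ S r (fun c t => ps (e c) (σ c) (n c + i0 * r c + t)) W) {x : Fin m → ZMod 2}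
    (h1 : x i0 ≠ 0) (h2 : ∀ i, x i ≠ 0 → i ≤ i0) :
    ZO φ w k μ S r (fun c t => ∑ i, x i • ps (e c) (σ c) (n c + i * r c + t)) W := by
  have key : ∀ T : Finset (Fin m), (∀ i ∈ T, i < i0) → ZO φ w k μ S r (fun c t =>
      ps (e c) (σ c) (n c + i0 * r c + t) + ∑ i ∈ T, ps (e c) (σ c) (n c + i * r c + t)) W := by
    intro T hT
    induction T using Finset.induction_on with
    | empty => simpa using h
    | insert a T ha ih =>
      have l := hT a (by simp)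
      have l' : (a : ℕ) < i0 := l
      refine ((ih fun i hi => hT i (by simp [hi])).conj (L := fun c => xsH _ (hσ c) _ _) (sh a l)
        fun c => xs_xs (hσ c) (Nat.le_mul_of_pos_left _ (by omega))).congr fun c t ht => ?_
      have e1 : n c + a * r c + (i0 - a) * r c = n c + i0 * r c := by
        rw [add_assoc, ← add_mul, Nat.add_sub_cancel' l'.le]
      rw [hW a l c t ht, map_add, map_sum, ← e1, xsH_eq _ ht, sum_insert ha, add_assoc,
        sum_congr rfl fun i hi => xsH_ne _ (Or.inl ?_)]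
      have : (i : ℕ) + 1 ≤ i0 := hT i (by simp [hi])
      rw [e1]; nlinarith
  refine (key (univ.filter fun i => i < i0 ∧ x i ≠ 0) (by simp +contextual)).congr fun c t _ => ?_
  congr 1
  rw [sum_filter, ← sum_ite_eq_of_mem univ i0 (fun i => ps (e c) (σ c) (n c + i * r c + t))
    (mem_univ _), ← sum_add_distrib]
  refine sum_congr rfl fun i _ => ?_
  rcases zmod2 (x i) with g | g
  · have : i0 ≠ i := fun e => h1 (e ▸ g)
    simp [g, this]
  · rcases (h2 i (by simp [g])).lt_or_eq with l | rfl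
    · simp [g, l, l.ne']
    · simp [g]

lemma ZO.rank1 {m : ℕ} {e σ Δ : γ → ℕ} (hσ : ∀ c, 0 < σ c) (hΔ : ∀ c, m * r c ≤ Δ c)
    (sh : ∀ (b : ℕ) (i j : Fin m), b ≤ 1 → i < j → Pm (w.zp k) μ
      fun c => xs (e c + (b * Δ c + i * r c) * σ c) (σ c) ((j - i) * r c) (r c))
    (hs : ∀ i j : Fin m, ZO φ w k μ S r (fun c t => ps (e c) (σ c) (Δ c + i * r c + t))
      fun c t => ps (e c) (σ c) (j * r c + t)) (x y : Fin m → ZMod 2) :
    ZO φ w k μ S r (fun c t => ∑ i, x i • ps (e c) (σ c) (Δ c + i * r c + t))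
      fun c t => ∑ j, y j • ps (e c) (σ c) (j * r c + t) := by
  by_cases h0 : x = 0 ∨ y = 0
  · refine Op.id.oa.congr (by simp) fun c F z _ => ?_
    rcases h0 with rfl | rfl <;> simp [Zg_zero, Zg_comm 0]
  obtain ⟨i0, hi, hi'⟩ := (univ.filter (x · ≠ 0)).exists_max_image (fun i => i)
    (by by_contra e; exact h0 (Or.inl (funext (by simpa using e))))
  obtain ⟨j0, hj, hj'⟩ := (univ.filter (y · ≠ 0)).exists_max_image (fun i => i)
    (by by_contra e; exact h0 (Or.inr (funext (by simpa using e))))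
  simp only [mem_filter, mem_univ, true_and] at hi hi' hj hj'
  have b : ∀ c (j : Fin m), j * r c + r c ≤ Δ c := fun c j => by
    have := hΔ c; have := j.2; nlinarith
  have h1 := ZO.side (n := fun _ => 0) hσ (W := fun c t => ps (e c) (σ c) (Δ c + i0 * r c + t))
    (fun i l => by simpa using sh 0 i j0 (by omega) l) (fun i l c t _ => xsH_ne _ (Or.inr (by
      have := b c j0
      rw [zero_add, ← add_mul, Nat.add_sub_cancel' (show (i : ℕ) ≤ j0 from l.le)]; omega)))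
    ((hs i0 j0).congr fun c t _ => by rw [Zg_comm, zero_add]) hj hj'
  refine ZO.side hσ (fun i l => by simpa using sh 1 i i0 le_rfl l) (fun i l c t ht => ?_)
    (h1.congr fun c t _ => by rw [Zg_comm]; simp only [zero_add]) hi hi'
  rw [map_sum]
  exact sum_congr rfl fun j _ => by
    rw [ZMod.map_smul, xsH_ne _ (Or.inl (by have := b c j; omega))]

structure C2 (K : ℕ) where
  N : ℕ
  k : ℕ
  e : ℕ
  σ : ℕ
  Δ : ℕ
  r : ℕ
  κ : ℕ
  pos : 0 < N
  h : 0 < r ∧ r ≤ Δ ∧ r ≤ 2 ^ κ ∧ κ * r < σ ∧ K * (κ + 1) * r ≤ e ∧ 2 ^ (e + (Δ + r) * σ) ∣ N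

instance (K : ℕ) : Cd (C2 K) := ⟨fun c => cd (c.N, c.e, c.σ, c.Δ, c.r, c.κ)⟩

lemma C2.tup {K : ℕ} : In polyB fun c : C2 K => (c.N, c.e, c.σ, c.Δ, c.r, c.κ) :=
  In.id.of_cd fun _ => rfl

section
variable {K : ℕ} {g : γ → C2 K} (hg : In polyB g)
include hg
lemma C2.pN : In polyB fun c => (g c).N := (C2.tup.comp hg).fst
lemma C2.pe : In polyB fun c => (g c).e := (C2.tup.comp hg).snd.fst
lemma C2.pσ : In polyB fun c => (g c).σ := (C2.tup.comp hg).snd.snd.fst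
lemma C2.pΔ : In polyB fun c => (g c).Δ := (C2.tup.comp hg).snd.snd.snd.fst
lemma C2.pr : In polyB fun c => (g c).r := (C2.tup.comp hg).snd.snd.snd.snd.fst
lemma C2.pκ : In polyB fun c => (g c).κ := (C2.tup.comp hg).snd.snd.snd.snd.snd
end

@[reducible] def Wd.base (N lg : γ → ℕ) (pos : ∀ c, 0 < N c) (poly : In polyB N) (lgd : Dom polyB lg)
    (szle : ∃ C k, ∀ c, sz c ≤ C * (lg c + 1) ^ k) : Wd γ :=
  ⟨N, fun _ => 0, fun _ => 0, lg, fun _ => Unit, fun _ _ => [], fun _ _ => rfl, pos, poly, lgd, szle⟩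

@[reducible] def w2 (K : ℕ) : Wd (C2 K) := Wd.base C2.N (fun c => c.N.size) C2.pos C2.tup.fst
  (Dom.size C2.tup.fst) ⟨40, 1, fun c => by
    obtain ⟨h1, h2, -, h3, -, h4⟩ := c.h
    have h5 := (Nat.lt_two_pow_self.le).trans (Nat.le_of_dvd c.pos h4)
    have h6 : 1 ≤ c.σ := by omega
    have a1 := sz_le_size (le_refl c.N)
    have a2 := sz_le_size (show c.e ≤ c.N by omega)
    have a3 := sz_le_size (show c.σ ≤ c.N by nlinarith)
    have a4 := sz_le_size (show c.Δ ≤ c.N by nlinarith)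
    have a5 := sz_le_size (show c.r ≤ c.N by nlinarith)
    have a6 := sz_le_size (show c.κ ≤ c.N by nlinarith)
    change sz (c.N, c.e, c.σ, c.Δ, c.r, c.κ) ≤ _
    simp only [sz_pair, pow_one]; omega⟩

noncomputable def ZA (k e σ Δ r : ℕ) : Module.End A2 (ℕ → Zp k) :=
  rho (Zp k) (∏ t ∈ range r, Zg (ps e σ (Δ + t)) (ps e σ t))

lemma prod_blocks {M : Type} [CommMonoid M] (g : ℕ → M) (m r : ℕ) :
    ∏ t ∈ range r, ∏ i : Fin m, g (i * r + t) = ∏ n ∈ range (m * r), g n := by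
  rw [Finset.prod_comm]
  induction m with
  | zero => simp
  | succ m ih => rw [Fin.prod_univ_castSucc, add_mul, one_mul, prod_range_add, ← ih]; rfl

section
variable {K K' m : ℕ} (P : C2 (K' + K) → Prop) (hP : ∀ c, P c → m ≤ c.r) (hm : 2 ≤ m)
include hP hm

lemma c2_facts (c : {c // P c}) : 0 < c.1.r / m ∧ m * (c.1.r / m) ≤ c.1.r ∧ c.1.r / m < c.1.r ∧
    (K' + K) * (c.1.κ + 1) * (c.1.r / m) + K ≤ c.1.e ∧ c.1.κ * (c.1.r / m) < c.1.σ ∧
    c.1.r / m ≤ 2 ^ c.1.κ ∧ 2 ^ (c.1.e - K + (c.1.Δ + c.1.r) * c.1.σ) ∣ c.1.N / 2 ^ K ∧ 2 ^ K ∣ c.1.N := by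
  obtain ⟨h1, h2, h3, h4, h5, h6⟩ := c.1.h
  have a := Nat.div_lt_self h1 hm
  have b : (K' + K) * (c.1.κ + 1) * (c.1.r / m) + K ≤ c.1.e := by
    nlinarith [Nat.mul_le_mul_left ((K' + K) * (c.1.κ + 1)) (show c.1.r / m + 1 ≤ c.1.r from a),
      Nat.zero_le (K' * c.1.κ), Nat.zero_le (K * c.1.κ)]
  refine ⟨Nat.div_pos (hP _ c.2) (by omega), Nat.mul_div_le _ _, a, b,
    (Nat.mul_le_mul_left _ a.le).trans_lt h4, by omega, Nat.dvd_div_of_mul_dvd ?_,
    (pow_dvd_pow _ (by omega)).trans h6⟩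
  rwa [← pow_add, ← add_assoc, Nat.add_sub_cancel' (by omega)]

lemma zall_call (n : ℕ) (μ) (i j : Fin m) :
    ZO (fun x : Ar ((w2 (K' + K)).zp C2.k) => (⟨x.1, ZA x.1.k x.1.e x.1.σ x.1.Δ x.1.r x.2⟩ :
      Ar ((w2 (K' + K)).zp C2.k))) (((w2 (K' + K)).res P).div _ fun c => (c2_facts P hP hm c).2.2.2.2.2.2.2)
      (fun c => c.1.k) μ (fun κ c => ⨆ (x : Ar ((w2 (K' + K)).zp C2.k)) (_ : ((w2 (K' + K)).zp C2.k).Sub
        C2.κ C2.r n (2 ^ K) m 0 n c.1 x.1), κ x) (fun c => c.1.r / m)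
      (fun c t => ps (c.1.e - K) c.1.σ (c.1.Δ + i * (c.1.r / m) + t))
      fun c t => ps (c.1.e - K) c.1.σ (j * (c.1.r / m) + t) := by
  have f := c2_facts P hP hm
  have t := In.id.val (B := polyB) (p := P)
  have b : ∀ c : {c // P c}, j * (c.1.r / m) + c.1.r / m ≤ c.1.Δ ∧ i * (c.1.r / m) + c.1.r / m ≤ c.1.r :=
    fun c => by have := f c; have := c.1.h; have := i.2; have := j.2; constructor <;> nlinarith
  have p1 := (C2.pr t).div (In.const m)
  have p2 := ((C2.pN t).div (In.const (2 ^ K))).pair ((((C2.pe t).sub (In.const K)).add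
    (((In.const (j : ℕ)).mul p1).mul (C2.pσ t))).pair ((C2.pσ t).pair ((((C2.pΔ t).add
      ((In.const (i : ℕ)).mul p1)).sub ((In.const (j : ℕ)).mul p1)).pair (p1.pair (C2.pκ t)))))
  let g : {c // P c} → C2 (K' + K) := fun c => ⟨c.1.N / 2 ^ K, c.1.k,
    c.1.e - K + j * (c.1.r / m) * c.1.σ, c.1.σ,
    c.1.Δ + i * (c.1.r / m) - j * (c.1.r / m), c.1.r / m, c.1.κ,
    (((w2 (K' + K)).res P).div _ fun c => (f c).2.2.2.2.2.2.2).pos c, (f c).1,
    by have := b c; omega, (f c).2.2.2.2.2.1, (f c).2.2.2.2.1, by have := f c; omega,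
    Dvd.dvd.trans (pow_dvd_pow _ (by
      rw [add_assoc, ← add_mul]
      exact Nat.add_le_add_left (Nat.mul_le_mul_right _ (by have := b c; omega)) _)) (f c).2.2.2.2.2.2.1⟩
  have pg : In polyB g := p2.of_cd fun _ => rfl
  refine OA.call (w := (w2 (K' + K)).zp C2.k) (f := fun c F => ZA c.k c.e c.σ c.Δ c.r F) pg
    (fun _ => rfl) (fun _ x => x) (fun _ _ => rfl) (fun c F z _ => ?_) fun κ c F =>
      le_iSup₂_of_le _ ⟨(f c).2.1, (f c).2.2.1, ?_, rfl, Nat.size_le_size (Nat.div_le_self _ _), le_rfl⟩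
        le_rfl
  · refine congrArg (fun a => enc c.1.k (rho _ a F z)) (prod_congr rfl fun t _ => ?_)
    have := b c
    simp only [g, ps, add_assoc, ← add_mul]
    rw [← add_assoc ((j : ℕ) * _), Nat.add_sub_cancel' (le_of_add_le_left (this.1.trans (Nat.le_add_right _ _))), add_assoc]
  · rw [mul_assoc]; exact Nat.mul_le_mul_left _ (Nat.mul_div_le _ _)
end

lemma zall_loop {K : ℕ} (Q : C2 K → Prop) {s l : C2 K → ℕ} (b : ℕ) (μ) (hs : In polyB s)
    (hl : In polyB l) (h : ∀ c, Q c → l c ≤ b ∧ s c + l c ≤ c.r) :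
    Op (((w2 K).res Q).zp fun c => c.1.k) μ fun c F =>
      rho (Zp c.1.k) (∏ t ∈ range (l c.1), Zg (ps c.1.e c.1.σ (c.1.Δ + (s c.1 + t)))
        (ps c.1.e c.1.σ (s c.1 + t))) F := by
  have u := In.id.fst.val (B := polyB) (α := {c // Q c} × ℕ)
  have u' := (hs.comp u).add In.id.snd
  have a1 := (C2.pe u).add (((C2.pΔ u).add u').mul (C2.pσ u))
  have a2 := (C2.pe u).add (u'.mul (C2.pσ u))
  refine Op.zloop (w := (w2 K).res Q) (p := fun c t => c.1.e + (c.1.Δ + (s c.1 + t)) * c.1.σ)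
    (q := fun c t => c.1.e + (s c.1 + t) * c.1.σ) (hl.comp In.id.val) b (fun c => (h _ c.2).1) a1 a2
    fun c t ht => ?_
  obtain ⟨b1, b2, -, b3, -, b4⟩ := c.1.h
  have := (h _ c.2).2
  have : (c.1.Δ + (s c.1 + t) + 1) * c.1.σ ≤ (c.1.Δ + c.1.r) * c.1.σ :=
    Nat.mul_le_mul_right _ (by omega)
  constructor <;> exact (pow_dvd_pow _ (by nlinarith)).trans b4

lemma za_wire {k e σ Δ r m K : ℕ} (h : K ≤ e) (F : ℕ → Zp k) :
    rho (Zp k) (∏ t ∈ range (r % m), Zg (ps e σ (Δ + (m * (r / m) + t))) (ps e σ (m * (r / m) + t)))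
      (fun z => rho (Zp k) (∏ t ∈ range (r / m), ∏ i : Fin m, Zg (ps (e - K) σ (Δ + i * (r / m) + t))
        (∑ j, ((1 : ZMod 2) • (1 : Matrix (Fin m) (Fin m) (ZMod 2))) i j •
          ps (e - K) σ (j * (r / m) + t))) (fun y => F (y * 2 ^ K + z % 2 ^ K)) (z / 2 ^ K)) =
      ZA k e σ Δ r F := by
  have w0 : ∀ (z y n : ℕ), (y ^^^ nx (ps (e - K) σ n)) * 2 ^ K + z % 2 ^ K =
      y * 2 ^ K + z % 2 ^ K ^^^ nx (ps e σ n) := fun z y n => by
    have : nx (ps e σ n) = nx (ps (e - K) σ n) * 2 ^ K + 0 := by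
      simp only [nx, ps, xn, ← pow_add, add_zero]; congr 1; omega
    rw [this, xor_lex (Nat.mod_lt _ (by positivity)) (by positivity), Nat.xor_zero]
  rw [ZA]
  conv_rhs => rw [← Nat.div_add_mod r m, prod_range_add, mul_comm (_ : GA), map_mul,
    Module.End.mul_apply]
  refine congrArg _ (funext fun z => ?_)
  simp only [one_smul, Matrix.one_apply, ite_smul, zero_smul, sum_ite_eq, mem_univ, if_true,
    add_assoc Δ]
  rw [prod_blocks fun n => Zg (ps (e - K) σ (Δ + n)) (ps (e - K) σ n),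
    rho_comp (fun y => y * 2 ^ K + z % 2 ^ K) _ (fun i _ y => w0 z y _) (fun i _ y => w0 z y _),
    Nat.div_add_mod']

lemma zall_sh {K K' m : ℕ} (P : C2 (K' + K) → Prop) (hP : ∀ c, P c → m ≤ c.r) (hm : 2 ≤ m) {a a' : ℝ}
    (h0 : 0 ≤ a) (h1 : a' ≤ a) (hx : ∀ (w : Wd {c // P c})
    (e σ k r κ : {c // P c} → ℕ), In polyB e → In polyB σ → In polyB k → In polyB r → In polyB κ →
    (∀ c, 0 < r c ∧ r c ≤ k c ∧ r c ≤ 2 ^ κ c ∧ κ c * r c < σ c ∧ K' * (κ c + 1) * r c ≤ e c ∧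
      2 ^ (e c + (k c + r c) * σ c) ∣ w.N c) →
    Pm w (fun c => (κ c + 1) * pw a' (r c)) fun c => xs (e c) (σ c) (k c) (r c))
    (b : ℕ) (i j : Fin m) (hb : b ≤ 1) (l : i < j) :
    Pm ((((w2 (K' + K)).res P).div _ fun c => (c2_facts P hP hm c).2.2.2.2.2.2.2).zp fun c => c.1.k)
      (fun c => (c.1.κ + 1) * pw a c.1.r) fun c => xs (c.1.e - K + (b * c.1.Δ + i * (c.1.r / m)) * c.1.σ)
        c.1.σ ((j - i) * (c.1.r / m)) (c.1.r / m) := by
  have f := c2_facts P hP hm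
  have u := In.id.val (B := polyB) (p := P)
  have p1 := (C2.pr u).div (In.const m)
  have p2 := ((C2.pe u).sub (In.const K)).add ((((In.const b).mul (C2.pΔ u)).add
    ((In.const (i : ℕ)).mul p1)).mul (C2.pσ u))
  refine (hx _ _ _ _ _ _ p2 (C2.pσ u) ((In.const ((j : ℕ) - i)).mul p1) p1 (C2.pκ u)
    fun c => ?_).mono ⟨1, fun c => ?_⟩
  · obtain ⟨b1, b2, b3, b4, b5, b6, b7, -⟩ := f c
    have l' : (i : ℕ) < j := l
    refine ⟨b1, Nat.le_mul_of_pos_left _ (by omega), b6, b5, ?_, Dvd.dvd.trans (pow_dvd_pow _ ?_) b7⟩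
    · rw [add_mul, add_mul] at b4; omega
    rw [add_assoc, ← add_mul]
    refine Nat.add_le_add_left (Nat.mul_le_mul_right _ ?_) _
    have := j.2
    zify [l'.le] at *
    nlinarith
  · have := pw_mono h0 h1 (f c).2.2.1.le
    nlinarith

theorem zallC : ∃ (K : ℕ) (a : ℝ), 0 < a ∧ a < 1 ∧ Op ((w2 K).zp C2.k)
    (fun c => (c.κ + 1) * pw a c.r) fun c F => ZA c.k c.e c.σ c.Δ c.r F := by
  obtain ⟨m, K, n, T, hm, hn, ex⟩ := exec (net2 A2 t2 two_t2)
  obtain ⟨K', a', a0', a1', hx⟩ := xorP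
  obtain ⟨a'', a0, a1, ha⟩ := exists_exp hm hn
  obtain ⟨a, h1, h2, h3⟩ : ∃ a : ℝ, a' ≤ a ∧ a'' ≤ a ∧ a < 1 := ⟨max a' a'', by simp [*]⟩
  have ha' : (n : ℝ) < (2 ^ K : ℕ) * m ^ a := ha.trans_le (mul_le_mul_of_nonneg_left
    (Real.rpow_le_rpow_of_exponent_le (by exact_mod_cast (by omega : 1 ≤ m)) h2) (by positivity))
  obtain ⟨b0, fx⟩ := Op.fix (a := a) (by linarith) 0 (by omega) ha'
  refine ⟨K' + K, a, by linarith, h3, fx _ ((w2 (K' + K)).zp C2.k) C2.κ C2.r n _ (fun _ => rfl) ?_⟩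
  have t := C2.pr (In.id (α := C2 (K' + K)))
  obtain ⟨P, hP⟩ : ∃ P : C2 (K' + K) → Prop, ∀ c, P c ↔ b0 ≤ c.r ∧ m ≤ c.r := ⟨_, fun _ => Iff.rfl⟩
  have hP' : ∀ c, P c → m ≤ c.r := fun c h => ((hP c).1 h).2
  classical
  refine (OA.dite (p := P) (f := fun c F => ZA c.1.k c.1.e c.1.σ c.1.Δ c.1.r F)
    (g := fun c F => ZA c.1.k c.1.e c.1.σ c.1.Δ c.1.r F)
    (S1 := fun κ c => n • ⨆ (x : Ar ((w2 (K' + K)).zp C2.k)) (_ : ((w2 (K' + K)).zp C2.k).Sub
      C2.κ C2.r n (2 ^ K) m 0 n c.1 x.1), κ x)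
    (Dec.of (In.dec ((Dec.le (In.const b0) t).and' (Dec.le (In.const m) t))) (by simp [hP])) ?_
    ((zall_loop _ (s := fun _ => 0) (b0 + m) _ (In.const _) t fun c h => by
      rw [hP] at h; omega).congr fun c F z _ => by simp [ZA])).congr (fun κ c => ?_)
      fun c F z _ => by split_ifs <;> rfl
  swap
  · by_cases h : P c
    · simp [h, ((hP c).1 h).1]
    · simp [h]
  have f := c2_facts P hP' hm
  have hσ : ∀ c : {c // P c}, 0 < c.1.σ := fun c => by have := c.1.h; omega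
  have h4 := ex _ _ _ _ (((w2 (K' + K)).res P).zp fun c => c.1.k) (fun c => (c.1.κ + 1) * pw a c.1.r) _
    (fun c => (f c).2.2.2.2.2.2.2) (fun c M => rho (Zp c.1.k) (∏ t ∈ range (c.1.r / m), ∏ i : Fin m,
      Zg (ps (c.1.e - K) c.1.σ (c.1.Δ + i * (c.1.r / m) + t))
        (∑ j, M i j • ps (c.1.e - K) c.1.σ (j * (c.1.r / m) + t))))
    (fun c => by simp [Zg_zero])
    (fun c M M' => by simp [add_smul, sum_add_distrib, Zg_add, prod_mul_distrib])
    (fun t => let ⟨G, h1, h2⟩ := a2_gate t; ⟨G, h1, fun c => h2 _⟩) fun q _ =>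
      OA.congr (ZO.rank1 hσ (fun c => (f c).2.1.trans c.1.h.2.1)
        (zall_sh P hP' hm (by linarith) h1 (hx _)) (zall_call P hP' hm n _) q.1 q.2)
        (fun _ _ => le_rfl) fun c F z _ => by
          simp only [Matrix.vecMulVec_apply, mul_smul, ← smul_sum, Zg_smul, Zg_sum]
  exact (h4.post (zall_loop P (s := fun c => m * (c.r / m)) (l := fun c => c.r % m) m _
      ((In.const _).mul (t.div (In.const _))) (t.mod (In.const _))
      fun c _ => ⟨(Nat.mod_lt _ (by omega)).le, (Nat.div_add_mod _ _).le⟩)).congr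
      (fun _ _ => le_rfl) fun c F z _ => congrFun (za_wire (by have := f c; omega) F) z

theorem zall : ∃ (K : ℕ) (a : ℝ), 0 < a ∧ a < 1 ∧ ∀ (γ : Type) [Cd γ] (w : Wd γ)
    (k e σ r κ : γ → ℕ), In polyB e → In polyB σ → In polyB r → In polyB κ →
    (∀ c, 0 < r c ∧ r c ≤ 2 ^ κ c ∧ κ c * r c < σ c ∧ K * (κ c + 1) * r c ≤ e c ∧
      2 ^ (e c + (r c + r c) * σ c) ∣ w.N c) →
    Op (w.zp k) (fun c => (κ c + 1) * pw a (r c)) fun c F => ZA (k c) (e c) (σ c) (r c) (r c) F := by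
  obtain ⟨K, a, a0, a1, h⟩ := zallC
  refine ⟨K, a, a0, a1, fun γ _ w k e σ r κ pe pσ pr pκ H => ?_⟩
  exact Op.transfer (w' := w.zp k) h (g := fun c => ⟨w.N c, k c, e c, σ c, r c, r c, κ c, w.pos c,
    (H c).1, le_rfl, (H c).2⟩)
    ((w.poly.pair (pe.pair (pσ.pair (pr.pair (pr.pair pκ))))).of_cd fun _ => rfl) 1
    (fun c => ⟨by simp, rfl, by simp, Nat.zero_le _, le_rfl⟩) (fun c x => x)
    (fun c x => rfl) fun c F z _ => rfl

end Vale.Agent.P338
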