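import Vale.Agent.P338.Xor

/-! The group algebra of bit flips. -/

namespace Vale.Agent.P338

open Filter Cd Finset

set_option linter.unusedSectionVars false
set_option linter.unusedVariables false

def Xn := ℕ

instance : Add Xn := ⟨Nat.xor⟩
instance : Zero Xn := ⟨(0 : ℕ)⟩
instance : Neg Xn := ⟨fun x => x⟩

instance : AddCommGroup Xn where
  add_assoc := Nat.xor_assoc
  zero_add := Nat.zero_xor
  add_zero := Nat.xor_zero
  neg_add_cancel := Nat.xor_self
  add_comm := Nat.xor_comm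
  nsmul := nsmulRec
  zsmul := zsmulRec

def xn (n : ℕ) : Xn := n
def nx (n : Xn) : ℕ := n

lemma nx_add (a b : Xn) : nx (a + b) = nx a ^^^ nx b := rfl
lemma xn_self (a : Xn) : a + a = 0 := Nat.xor_self a

instance : Module (ZMod 2) Xn := AddCommGroup.zmodModule fun x => by rw [two_nsmul, xn_self]

abbrev GA := AddMonoidAlgebra A2 Xn

noncomputable def t2 : A2 := IsLocalization.Away.invSelf (2 : ℤ)

lemma two_t2 : 2 * t2 = 1 := by simpa [t2] using IsLocalization.Away.mul_invSelf (S := A2) (2 : ℤ)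

lemma t2_smul (k : ℕ) (a : Zp k) : t2 • a = hf k * a := by
  have := congrArg (algebraMap A2 (Zp k)) two_t2
  rw [map_mul, map_ofNat, map_one] at this
  rw [Algebra.smul_def]
  linear_combination (hf k * a) * this - (algebraMap A2 (Zp k) t2 * a) * two_hf k

noncomputable def Xg (u : Xn) : GA := AddMonoidAlgebra.single u 1

lemma Xg_add (u v : Xn) : Xg (u + v) = Xg u * Xg v := by
  simp [Xg, AddMonoidAlgebra.single_mul_single]

lemma Xg_zero : Xg 0 = 1 := rfl

lemma Xg_sq (u : Xn) : Xg u * Xg u = 1 := by rw [← Xg_add, xn_self, Xg_zero]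

noncomputable def Zg (u v : Xn) : GA := algebraMap A2 GA t2 * (1 + Xg u + Xg v - Xg u * Xg v)

lemma two_tg : 2 * algebraMap A2 GA t2 = 1 := by
  have := congrArg (algebraMap A2 GA) two_t2
  rwa [map_mul, map_ofNat, map_one] at this

lemma Zg_comm (u v : Xn) : Zg u v = Zg v u := by unfold Zg; ring

lemma Zg_zero (u : Xn) : Zg u 0 = 1 := by rw [Zg, Xg_zero]; linear_combination two_tg

lemma Zg_add (u v v' : Xn) : Zg u (v + v') = Zg u v * Zg u v' := by
  unfold Zg; rw [Xg_add]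
  have h := two_tg
  generalize algebraMap A2 GA t2 = t at *
  linear_combination (-t * (1 + Xg u + Xg v * Xg v' - Xg u * Xg v * Xg v')) * h -
    (t ^ 2 * (1 - Xg v) * (1 - Xg v')) * Xg_sq u

lemma Zg_sum {ι : Type} (s : Finset ι) (u : ι → Xn) (v : Xn) :
    Zg (∑ i ∈ s, u i) v = ∏ i ∈ s, Zg (u i) v := by
  classical
  induction s using Finset.induction_on with
  | empty => simp [Zg_comm 0, Zg_zero]
  | insert a s ha ih => rw [sum_insert ha, prod_insert ha, Zg_comm, Zg_add, ← ih, Zg_comm v, Zg_comm v]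

lemma zmod2 (x : ZMod 2) : x = 0 ∨ x = 1 := by revert x; decide

lemma Zg_smul (x : ZMod 2) (u v : Xn) : Zg u (x • v) = Zg (x • u) v := by
  rcases zmod2 x with rfl | rfl <;> simp [Zg_zero, Zg_comm 0]

section
variable {V V' : Type} [AddCommGroup V] [Module A2 V] [AddCommGroup V'] [Module A2 V']

noncomputable def rho (V : Type) [AddCommGroup V] [Module A2 V] : GA →ₐ[A2] Module.End A2 (ℕ → V) :=
  AddMonoidAlgebra.lift A2 _ Xn
    { toFun := fun u => LinearMap.funLeft A2 V fun z => z ^^^ nx u.toAdd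
      map_one' := LinearMap.ext fun F => funext fun z => congrArg F (Nat.xor_zero z)
      map_mul' := fun u v => LinearMap.ext fun F => funext fun z => congrArg F
        (Nat.xor_assoc _ _ _).symm }

lemma rho_X (u : Xn) (F : ℕ → V) : rho V (Xg u) F = fun z => F (z ^^^ nx u) := by
  simp only [rho, Xg, AddMonoidAlgebra.lift_single, one_smul]; rfl

lemma rho_Z (u v : Xn) (F : ℕ → V) : rho V (Zg u v) F = t2 • (F + (fun z => F (z ^^^ nx u)) +
    (fun z => F (z ^^^ nx v)) - fun z => F (z ^^^ nx u ^^^ nx v)) := by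
  rw [Zg, map_mul, AlgHom.commutes, Module.End.mul_apply, Module.algebraMap_end_apply]
  simp only [map_mul, map_add, map_sub, map_one, Module.End.mul_apply,
    LinearMap.add_apply, LinearMap.sub_apply, rho_X, Module.End.one_apply]

lemma rho_int (T : (ℕ → V) →ₗ[A2] ℕ → V') {ι : Type} (s : Finset ι) {u v u' v' : ι → Xn}
    (hu : ∀ i ∈ s, ∀ F, T (fun z => F (z ^^^ nx (u i))) = fun z => T F (z ^^^ nx (u' i)))
    (hv : ∀ i ∈ s, ∀ F, T (fun z => F (z ^^^ nx (v i))) = fun z => T F (z ^^^ nx (v' i))) (F : ℕ → V) :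
    T (rho V (∏ i ∈ s, Zg (u i) (v i)) F) = rho V' (∏ i ∈ s, Zg (u' i) (v' i)) (T F) := by
  classical
  induction s using Finset.induction_on with
  | empty => simp
  | insert a s ha ih =>
    have h1 := hu a (by simp)
    have h2 := hv a (by simp)
    rw [prod_insert ha, prod_insert ha, map_mul, map_mul, Module.End.mul_apply, Module.End.mul_apply,
      ← ih (fun i hi => hu i (by simp [hi])) (fun i hi => hv i (by simp [hi])), rho_Z, rho_Z,
      map_smul, map_sub, map_add, map_add, h1, h2]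
    generalize rho V _ F = G
    rw [h1 fun z => G (z ^^^ nx (v a)), h2]

lemma rho_comp (h : ℕ → ℕ) {ι : Type} (s : Finset ι) {u v u' v' : ι → Xn}
    (hu : ∀ i ∈ s, ∀ z, h (z ^^^ nx (u' i)) = h z ^^^ nx (u i))
    (hv : ∀ i ∈ s, ∀ z, h (z ^^^ nx (v' i)) = h z ^^^ nx (v i)) (F : ℕ → V) (z : ℕ) :
    rho V (∏ i ∈ s, Zg (u' i) (v' i)) (fun z => F (h z)) z = rho V (∏ i ∈ s, Zg (u i) (v i)) F (h z) :=
  (congrFun (rho_int (LinearMap.funLeft A2 V h) s
    (fun i hi F => funext fun z => congrArg F (hu i hi z).symm)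
    (fun i hi F => funext fun z => congrArg F (hv i hi z).symm) F) z).symm
end

lemma xor_mul_pow (a b e : ℕ) : (a ^^^ b) * 2 ^ e = a * 2 ^ e ^^^ b * 2 ^ e := by
  simpa using (xor_lex (y := a) (y' := b) (Nat.two_pow_pos e) (Nat.two_pow_pos e)).symm.trans
    (by simp)

section
variable {e σ k r : ℕ} (hσ : 0 < σ)
include hσ

lemma fld2_lt (z s : ℕ) : fld z s 2 < 2 ^ σ := (fld_lt _ _ two_pos).trans_le (Nat.le_self_pow hσ.ne' 2)

lemma xs_xor (a b : ℕ) : xs e σ k r (a ^^^ b) = xs e σ k r a ^^^ xs e σ k r b := by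
  have : ∀ i, fld (a ^^^ b) (2 ^ i) 2 = fld a (2 ^ i) 2 ^^^ fld b (2 ^ i) 2 := fun i => fld_xor a b i 1
  unfold xs
  simp only [this]
  rw [← dsum_xor (fun _ _ => fld2_lt hσ _ _) (fun _ _ => fld2_lt hσ _ _),
    xor_mul_pow]
  ac_rfl

omit hσ in
lemma xs_fix {z : ℕ} (h : ∀ t < r, fld z (2 ^ (e + (k + t) * σ)) 2 = 0) : xs e σ k r z = z := by
  rw [xs, dsum_congr h]; simp [dsum]

lemma xs_xs (h : r ≤ k) (z : ℕ) : xs e σ k r (xs e σ k r z) = z := by
  conv_lhs => rw [xs.eq_1 e σ k r z, xs_xor hσ, xs_fix (z := _ * _) fun t _ => by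
    rw [fld, Nat.div_eq_of_lt]
    calc _ < (2 ^ σ) ^ r * 2 ^ e := Nat.mul_lt_mul_of_pos_right
          (dsum_lt fun _ _ => fld2_lt hσ _ _) (by positivity)
      _ ≤ _ := by rw [← pow_mul, ← pow_add]; exact Nat.pow_le_pow_right two_pos (by nlinarith)]
  rw [xs, Nat.xor_xor_cancel_right]

omit hσ in
lemma fld_two_pow (p q : ℕ) : fld (2 ^ p) (2 ^ q) 2 = if p = q then 1 else 0 := by
  have := Nat.testBit_two_pow (n := p) (m := q)
  rw [Nat.testBit_eq_decide_div_mod_eq, decide_eq_decide] at this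
  unfold fld; split_ifs with h
  · exact this.2 h
  · have := mt this.1 h; omega

lemma xs_ne {n : ℕ} (h : n < k ∨ k + r ≤ n) : xs e σ k r (2 ^ (e + n * σ)) = 2 ^ (e + n * σ) :=
  xs_fix fun t ht => by
    rw [fld_two_pow, if_neg]
    intro h'; have := Nat.eq_of_mul_eq_mul_right hσ (Nat.add_left_cancel h'); omega

lemma xs_eq {t : ℕ} (h : t < r) :
    xs e σ k r (2 ^ (e + (k + t) * σ)) = 2 ^ (e + (k + t) * σ) ^^^ 2 ^ (e + t * σ) := by
  rw [xs, dsum, sum_eq_single t (fun b _ hb => by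
    rw [fld_two_pow, if_neg, zero_mul]
    intro h'; have := Nat.eq_of_mul_eq_mul_right hσ (Nat.add_left_cancel h'); omega) (by simp [h]),
    fld_two_pow, if_pos rfl]
  congr 1; ring
end

/-! worlds of residues -/

variable {γ : Type} [Cd γ] {w : Wd γ} {μ k : γ → ℕ}

@[reducible] def Wd.zp (w : Wd γ) (k : γ → ℕ) : Wd γ :=
  { w with
    ℓ := fun c => k c + 2
    V := fun c => Zp (k c)
    enc := fun c => P338.enc (k c)
    len := fun _ => enc_length _ }

lemma Op.add {f g} (hf : Op (w.zp k) μ f) (hg : Op (w.zp k) μ g) :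
    Op (w.zp k) μ fun c F z => f c F z + g c F z := fun α _ B c E F hF =>
  In.zipA (w := w.zp k) (g := sadd) (by fun_prop) (fun _ => sadd_enc _) (hf α B c E F hF)
    (hg α B c E F hF)

lemma Op.neg {f} (hf : Op (w.zp k) μ f) : Op (w.zp k) μ fun c F z => -f c F z :=
  fun α _ B c E F hF =>
    In.mapA (w := w.zp k) (g := sneg) (by fun_prop) (fun _ => sneg_enc _) (hf α B c E F hF)

lemma Op.half {f} (hf : Op (w.zp k) μ f) : Op (w.zp k) μ fun c F z => P338.hf (k c) * f c F z :=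
  fun α _ B c E F hF =>
    In.mapA (w := w.zp k) (g := shalf) (by fun_prop) (fun _ => shalf_enc _) (hf α B c E F hF)

lemma Op.sel {f g} {p : γ → ℕ → Prop} [∀ c z, Decidable (p c z)]
    (hp : Dec polyB fun r : γ × ℕ => p r.1 r.2) (hf : Op w μ f) (hg : Op w μ g) :
    Op w μ fun c F z => if p c z then f c F z else g c F z := fun α _ B c E F hF =>
  E.sel hp (hf α B c E F hF) (hg α B c E F hF)

lemma Op.zone {p q : γ → ℕ} (hp : In polyB p) (hq : In polyB q) (h1 : ∀ c, 2 ^ (p c + 1) ∣ w.N c)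
    (h2 : ∀ c, 2 ^ (q c + 1) ∣ w.N c) :
    Op (w.zp k) μ fun c F => rho (Zp (k c)) (Zg (xn (2 ^ p c)) (xn (2 ^ q c))) F := by
  have a := Pm.flip (w := w.zp k) (μ := μ) hp ((w.domE h1).mono' (by simp)) h1
  have b := Pm.flip (w := w.zp k) (μ := μ) hq ((w.domE h2).mono' (by simp)) h2
  refine (((Op.id.add a).add b).add (Op.neg (b.comp a))).half.congr fun c F z _ => ?_
  rw [rho_Z, Pi.smul_apply, t2_smul, sub_eq_add_neg]; rfl

lemma Op.zloop {n : γ → ℕ} {p q : γ → ℕ → ℕ} (hn : In polyB n) (b : ℕ) (hb : ∀ c, n c ≤ b)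
    (hp : In polyB fun x : γ × ℕ => p x.1 x.2) (hq : In polyB fun x : γ × ℕ => q x.1 x.2)
    (h : ∀ c, ∀ t < n c, 2 ^ (p c t + 1) ∣ w.N c ∧ 2 ^ (q c t + 1) ∣ w.N c) :
    Op (w.zp k) μ fun c F =>
      rho (Zp (k c)) (∏ t ∈ range (n c), Zg (xn (2 ^ p c t)) (xn (2 ^ q c t))) F :=
  (Op.loop (μ' := fun _ => 0) hn ⟨b, fun c => by have := hb c; nlinarith⟩
    (g := fun c t F => rho (Zp (k c)) (Zg (xn (2 ^ p c t)) (xn (2 ^ q c t))) F)
    (Op.zone (w := w.ext n) (k := fun x => k x.1.1) (hp.comp In.id.val) (hq.comp In.id.val)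
      (fun x => (h _ _ x.2).1) fun x => (h _ _ x.2).2)).congr fun c F z _ => congrFun
    (foldl_range_ind _ (fun j G => G = rho (Zp (k c))
      (∏ t ∈ range j, Zg (xn (2 ^ p c t)) (xn (2 ^ q c t))) F) _ F (by simp)
      fun j _ G e => by rw [e, prod_range_succ, mul_comm (_ : GA), map_mul, Module.End.mul_apply]) z

end Vale.Agent.P338
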